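import Vale.Agent.P031.Defs
import Vale.Agent.P001.Mertens

/-!
# P031, module MERTENS

Mertens' second theorem with error `O(1/log x)` and its consequences for levels.
`P001/Mertens.lean` has `∑ Λ(n)/n = log N + O(1)`.
-/

namespace P031

open scoped BigOperators

/-- primes in `(x, y]` -/
noncomputable def prIoc (x y : ℝ) : Finset ℕ :=
  (Finset.Icc 1 ⌊y⌋₊).filter (fun r => r.Prime ∧ x < (r : ℝ))

/-- the coefficients `log p / p` on primes -/
noncomputable def cM (k : ℕ) : ℝ := if k.Prime then Real.log k / k else 0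

theorem sum_cM (n : ℕ) : ∑ k ∈ Finset.Icc 0 n, cM k = ∑ p ∈ Nat.primesLE n, Real.log p / p := by
  rw [Nat.primesLE_eq_filter_Icc_zero, Finset.sum_filter]
  rfl

theorem sum_cM_bound : ∃ C : ℝ, 0 ≤ C ∧ ∀ t : ℝ, 1 ≤ t →
    |∑ k ∈ Finset.Icc 0 ⌊t⌋₊, cM k - Real.log t| ≤ C := by
  obtain ⟨C, hC, hl⟩ := Vale.Agent.P001.mertens_lower
  refine ⟨C + Real.log 4, add_nonneg hC (Real.log_nonneg (by norm_num)), ?_⟩
  intro t ht
  have hn : 0 < ⌊t⌋₊ := Nat.floor_pos.mpr ht
  have h1 := hl _ hn
  have h2 := Vale.Agent.P001.mertens_upper _ hn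
  rw [← sum_cM] at h1 h2
  have hn' : (1 : ℝ) ≤ ⌊t⌋₊ := by exact_mod_cast hn
  have h3 : Real.log ⌊t⌋₊ ≤ Real.log t :=
    Real.log_le_log (by linarith) (Nat.floor_le (by linarith))
  have h4 : Real.log t ≤ Real.log ⌊t⌋₊ + Real.log 2 := by
    rw [← Real.log_mul (by positivity) (by norm_num)]
    apply Real.log_le_log (by linarith)
    have := Nat.lt_floor_add_one t
    linarith
  have h5 : Real.log 2 ≤ Real.log 4 := Real.log_le_log (by norm_num) (by norm_num)
  have h6 : 0 ≤ Real.log 2 := Real.log_nonneg (by norm_num)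
  rw [abs_le]
  constructor <;> linarith

theorem hasDerivAt_invlog {t : ℝ} (ht : 2 ≤ t) :
    HasDerivAt (fun t : ℝ => (Real.log t)⁻¹) (-(t⁻¹) / (Real.log t) ^ 2) t := by
  have hl : 0 < Real.log t := Real.log_pos (by linarith)
  exact (Real.hasDerivAt_log (by linarith)).fun_inv hl.ne'

theorem hasDerivAt_loglog {t : ℝ} (ht : 2 ≤ t) :
    HasDerivAt LL (t⁻¹ / Real.log t) t := by
  have hl : 0 < Real.log t := Real.log_pos (by linarith)
  exact (Real.hasDerivAt_log (by linarith)).log hl.ne'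

theorem mertens : ∃ C : ℝ, 0 < C ∧ ∀ x y : ℝ, 2 ≤ x → x ≤ y →
    |∑ r ∈ prIoc x y, 1 / (r : ℝ) - (LL y - LL x)| ≤ C / Real.log x := by
  obtain ⟨C, hC, hS⟩ := sum_cM_bound
  refine ⟨3 * C + 1, by positivity, ?_⟩
  intro x y hx hxy
  have hlx : 0 < Real.log x := Real.log_pos (by linarith)
  have hlxy : Real.log x ≤ Real.log y := Real.log_le_log (by linarith) hxy
  have hly : 0 < Real.log y := by linarith
  -- the derivative
  have hder : ∀ t ∈ Set.Icc x y, deriv (fun t : ℝ => (Real.log t)⁻¹) t =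
      -(t⁻¹) / (Real.log t) ^ 2 := fun t ht => (hasDerivAt_invlog (hx.trans ht.1)).deriv
  have hcont : ContinuousOn (fun t : ℝ => -(t⁻¹) / (Real.log t) ^ 2) (Set.Icc x y) := by
    apply ContinuousOn.div
    · exact (continuousOn_id.inv₀ (fun t ht => by
        have := ht.1; simp only [id]; linarith)).neg
    · exact (Real.continuousOn_log.mono (fun t ht => by
        have := ht.1; simp only [Set.mem_compl_iff, Set.mem_singleton_iff]; linarith)).pow 2
    · intro t ht
      have : 0 < Real.log t := Real.log_pos (by linarith [ht.1])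
      positivity
  have hint : MeasureTheory.IntegrableOn (deriv (fun t : ℝ => (Real.log t)⁻¹)) (Set.Icc x y) := by
    apply (hcont.integrableOn_compact isCompact_Icc).congr_fun _ measurableSet_Icc
    intro t ht
    exact (hder t ht).symm
  have hab := sum_mul_eq_sub_sub_integral_mul (f := fun t : ℝ => (Real.log t)⁻¹) cM
    (by linarith : (0 : ℝ) ≤ x) hxy
    (fun t ht => (hasDerivAt_invlog (hx.trans ht.1)).differentiableAt) hint
  -- the left side
  have hleft : ∑ k ∈ Finset.Ioc ⌊x⌋₊ ⌊y⌋₊, (Real.log (k : ℝ))⁻¹ * cM k =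
      ∑ r ∈ prIoc x y, 1 / (r : ℝ) := by
    unfold prIoc
    have e1 : (Finset.Icc 1 ⌊y⌋₊).filter (fun r : ℕ => r.Prime ∧ x < (r : ℝ)) =
        (Finset.Ioc ⌊x⌋₊ ⌊y⌋₊).filter Nat.Prime := by
      ext r
      simp only [Finset.mem_filter, Finset.mem_Icc, Finset.mem_Ioc]
      constructor
      · rintro ⟨⟨_, h2⟩, h3, h4⟩
        exact ⟨⟨(Nat.floor_lt (by linarith)).mpr h4, h2⟩, h3⟩
      · rintro ⟨⟨h1, h2⟩, h3⟩
        exact ⟨⟨h3.one_le, h2⟩, h3, (Nat.floor_lt (by linarith)).mp h1⟩
    rw [e1, Finset.sum_filter]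
    apply Finset.sum_congr rfl
    intro k _
    unfold cM
    split_ifs with hk
    · have h2 : (2 : ℝ) ≤ k := by exact_mod_cast hk.two_le
      have : 0 < Real.log k := Real.log_pos (by linarith)
      field_simp
    · simp
  rw [hleft] at hab
  rw [hab]
  -- integrals
  set S : ℝ → ℝ := fun t => ∑ k ∈ Finset.Icc 0 ⌊t⌋₊, cM k with hSdef
  set f' : ℝ → ℝ := deriv (fun t : ℝ => (Real.log t)⁻¹) with hf'
  have hI : MeasureTheory.IntegrableOn (fun t => f' t * S t) (Set.Ioc x y) :=
    (integrableOn_mul_sum_Icc cM (by linarith : (0 : ℝ) ≤ x) hint).mono_set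
      Set.Ioc_subset_Icc_self
  have hK : ∫ t in Set.Ioc x y, f' t = (Real.log y)⁻¹ - (Real.log x)⁻¹ := by
    rw [← intervalIntegral.integral_of_le hxy]
    apply intervalIntegral.integral_eq_sub_of_hasDerivAt
    · intro t ht
      rw [Set.uIcc_of_le hxy] at ht
      have := hasDerivAt_invlog (hx.trans ht.1)
      rw [← hder t ht] at this
      exact this
    · exact (intervalIntegrable_iff_integrableOn_Icc_of_le hxy).mpr hint
  have hJint : MeasureTheory.IntegrableOn (fun t => f' t * Real.log t) (Set.Icc x y) := by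
    have hc : ContinuousOn (fun t : ℝ => -(t⁻¹) / (Real.log t) ^ 2 * Real.log t) (Set.Icc x y) :=
      hcont.mul (Real.continuousOn_log.mono (fun t ht => by
        have := ht.1; simp only [Set.mem_compl_iff, Set.mem_singleton_iff]; linarith))
    apply (hc.integrableOn_compact isCompact_Icc).congr_fun _ measurableSet_Icc
    intro t ht
    simp only [hder t ht]
  have hJ : ∫ t in Set.Ioc x y, f' t * Real.log t = -(LL y - LL x) := by
    rw [← intervalIntegral.integral_of_le hxy, neg_sub]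
    have : ∫ t in x..y, f' t * Real.log t = (fun t => -LL t) y - (fun t => -LL t) x := by
      apply intervalIntegral.integral_eq_sub_of_hasDerivAt
      · intro t ht
        rw [Set.uIcc_of_le hxy] at ht
        have h1 := (hasDerivAt_loglog (hx.trans ht.1)).fun_neg
        have hl : 0 < Real.log t := Real.log_pos (by linarith [ht.1])
        have ht0 : 0 < t := by linarith [ht.1]
        have e : f' t * Real.log t = -(t⁻¹ / Real.log t) := by
          rw [hder t ht]
          field_simp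
        rw [e]
        exact h1
      · exact (intervalIntegrable_iff_integrableOn_Icc_of_le hxy).mpr hJint
    rw [this]
    ring
  have hneg : ∀ t ∈ Set.Ioc x y, f' t ≤ 0 := by
    intro t ht
    rw [hder t ⟨ht.1.le, ht.2⟩]
    have hl : 0 < Real.log t := Real.log_pos (by linarith [ht.1])
    have ht0 : 0 < t := by linarith [ht.1]
    rw [neg_div]
    have : 0 < t⁻¹ / Real.log t ^ 2 := by positivity
    linarith
  have hJint' := hJint.mono_set Set.Ioc_subset_Icc_self
  have hKint' := hint.mono_set (Set.Ioc_subset_Icc_self : Set.Ioc x y ⊆ Set.Icc x y)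
  have hup : ∫ t in Set.Ioc x y, f' t * S t ≤
      (∫ t in Set.Ioc x y, f' t * Real.log t) - C * ∫ t in Set.Ioc x y, f' t := by
    rw [← MeasureTheory.integral_const_mul, ← MeasureTheory.integral_sub hJint' (hKint'.const_mul C)]
    apply MeasureTheory.setIntegral_mono_on hI (hJint'.sub (hKint'.const_mul C)) measurableSet_Ioc
    intro t ht
    have h1 := (abs_le.mp (hS t (by linarith [ht.1]))).1
    have h2 := hneg t ht
    change f' t * (∑ k ∈ Finset.Icc 0 ⌊t⌋₊, cM k) ≤ f' t * Real.log t - C * f' t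
    nlinarith
  have hlo : (∫ t in Set.Ioc x y, f' t * Real.log t) + C * (∫ t in Set.Ioc x y, f' t) ≤
      ∫ t in Set.Ioc x y, f' t * S t := by
    rw [← MeasureTheory.integral_const_mul, ← MeasureTheory.integral_add hJint' (hKint'.const_mul C)]
    apply MeasureTheory.setIntegral_mono_on (hJint'.add (hKint'.const_mul C)) hI measurableSet_Ioc
    intro t ht
    have h1 := (abs_le.mp (hS t (by linarith [ht.1]))).2
    have h2 := hneg t ht
    change f' t * Real.log t + C * f' t ≤ f' t * (∑ k ∈ Finset.Icc 0 ⌊t⌋₊, cM k)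
    nlinarith
  rw [hJ, hK] at hup hlo
  have hy1 := hS y (by linarith)
  have hx1 := hS x (by linarith)
  rw [abs_le] at hy1 hx1
  have hix : 0 < (Real.log x)⁻¹ := inv_pos.mpr hlx
  have hiy : 0 < (Real.log y)⁻¹ := inv_pos.mpr hly
  have hixy : (Real.log y)⁻¹ ≤ (Real.log x)⁻¹ := inv_anti₀ hlx hlxy
  have ey : (Real.log y)⁻¹ * Real.log y = 1 := inv_mul_cancel₀ hly.ne'
  have ex : (Real.log x)⁻¹ * Real.log x = 1 := inv_mul_cancel₀ hlx.ne'
  have ay : |(Real.log y)⁻¹ * S y - 1| ≤ C * (Real.log x)⁻¹ := by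
    have : (Real.log y)⁻¹ * S y - 1 = (Real.log y)⁻¹ * (S y - Real.log y) := by
      rw [mul_sub, ey]
    rw [this, abs_mul, abs_of_pos hiy]
    have h3 := hS y (by linarith)
    calc (Real.log y)⁻¹ * |S y - Real.log y| ≤ (Real.log x)⁻¹ * C := by
          apply mul_le_mul hixy h3 (abs_nonneg _) hix.le
      _ = _ := by ring
  have ax : |(Real.log x)⁻¹ * S x - 1| ≤ C * (Real.log x)⁻¹ := by
    have : (Real.log x)⁻¹ * S x - 1 = (Real.log x)⁻¹ * (S x - Real.log x) := by
      rw [mul_sub, ex]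
    rw [this, abs_mul, abs_of_pos hix]
    have h3 := hS x (by linarith)
    calc (Real.log x)⁻¹ * |S x - Real.log x| ≤ (Real.log x)⁻¹ * C := by
          apply mul_le_mul le_rfl h3 (abs_nonneg _) hix.le
      _ = _ := by ring
  rw [abs_le] at ay ax
  have hfin : (3 * C + 1) / Real.log x = 3 * (C * (Real.log x)⁻¹) + (Real.log x)⁻¹ := by
    field_simp
  rw [hfin, abs_le]
  have hCy : 0 ≤ C * (Real.log y)⁻¹ := by positivity
  simp only [hSdef] at *
  constructor <;> nlinarith

/-- primes of level `s` -/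
noncomputable def prLev (s : ℕ) : Finset ℕ :=
  (Finset.Icc 1 ⌊Real.exp (Real.exp (s + 1))⌋₊).filter (fun r => r.Prime ∧ lev r = s)

theorem le_lev_iff {s r : ℕ} (hs : 1 ≤ s) : s ≤ lev r ↔ Real.exp (Real.exp s) ≤ r := by
  unfold lev
  rw [Nat.le_floor_iff' (by omega)]
  have hs' : (1 : ℝ) ≤ s := by exact_mod_cast hs
  rcases Nat.lt_or_ge r 2 with hr | hr
  · have hlog : Real.log (r : ℝ) = 0 := by
      interval_cases r <;> simp
    rw [hlog, Real.log_zero]
    constructor
    · intro h; linarith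
    · intro h
      have h1 : (r : ℝ) ≤ 1 := by exact_mod_cast (by omega : r ≤ 1)
      have h2 : 1 < Real.exp (Real.exp (s : ℝ)) := Real.one_lt_exp_iff.mpr (Real.exp_pos _)
      linarith
  · have hr' : (2 : ℝ) ≤ r := by exact_mod_cast hr
    have hl : 0 < Real.log (r : ℝ) := Real.log_pos (by linarith)
    rw [Real.le_log_iff_exp_le hl, Real.le_log_iff_exp_le (by linarith)]

theorem lev_lt_iff {s r : ℕ} (hs : 1 ≤ s) : lev r < s ↔ (r : ℝ) < Real.exp (Real.exp s) := by
  rw [← not_le, le_lev_iff hs, not_le]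

theorem lev_eq_iff {s r : ℕ} (hs : 1 ≤ s) :
    lev r = s ↔ Real.exp (Real.exp s) ≤ r ∧ (r : ℝ) < Real.exp (Real.exp (s + 1)) := by
  have h1 := le_lev_iff (s := s) (r := r) hs
  have h2 := lev_lt_iff (s := s + 1) (r := r) (by omega)
  push_cast at h2
  rw [← h1, ← h2]
  omega

theorem mem_prLev {s r : ℕ} : r ∈ prLev s ↔ r.Prime ∧ lev r = s := by
  unfold prLev
  simp only [Finset.mem_filter, Finset.mem_Icc, and_iff_right_iff_imp]
  rintro ⟨hp, hl⟩
  refine ⟨hp.one_le, ?_⟩
  apply Nat.le_floor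
  have h2 := (lev_lt_iff (s := s + 1) (r := r) (by omega)).mp (by omega)
  push_cast at h2
  exact h2.le

theorem lev_mono {r r' : ℕ} (h : r ≤ r') : lev r ≤ lev r' := by
  rcases Nat.eq_zero_or_pos (lev r) with h0 | h0
  · omega
  · rw [le_lev_iff h0]
    have := (le_lev_iff (s := lev r) (r := r) h0).mp le_rfl
    have h' : (r : ℝ) ≤ r' := by exact_mod_cast h
    linarith

theorem level_mass : ∃ C : ℝ, 0 < C ∧ ∀ s : ℕ,
    |∑ r ∈ prLev s, 1 / (r : ℝ) - 1| ≤ C * Real.exp (-(s : ℝ)) := by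
  obtain ⟨C, hC, hm⟩ := mertens
  refine ⟨C + 2 + |∑ r ∈ prLev 0, 1 / (r : ℝ) - 1|, by positivity, ?_⟩
  intro s
  rcases Nat.eq_zero_or_pos s with hs | hs
  · subst hs
    simp only [Nat.cast_zero, neg_zero, Real.exp_zero, mul_one]
    linarith [abs_nonneg (∑ r ∈ prLev 0, 1 / (r : ℝ) - 1)]
  · have hs' : (1 : ℝ) ≤ s := by exact_mod_cast hs
    set x := Real.exp (Real.exp (s : ℝ)) with hx
    set y := Real.exp (Real.exp ((s : ℝ) + 1)) with hy
    have hes : (s : ℝ) + 1 ≤ Real.exp (s : ℝ) := Real.add_one_le_exp _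
    have hx2 : 2 ≤ x := by
      have := Real.add_one_le_exp (Real.exp (s : ℝ))
      linarith
    have hxs : Real.exp (s : ℝ) ≤ x := by
      have := Real.add_one_le_exp (Real.exp (s : ℝ))
      linarith
    have hxy : x ≤ y := by
      apply Real.exp_le_exp.mpr
      apply Real.exp_le_exp.mpr
      linarith
    have h1 := hm x y hx2 hxy
    have e1 : LL y - LL x = 1 := by
      unfold LL
      rw [hx, hy, Real.log_exp, Real.log_exp, Real.log_exp, Real.log_exp]
      ring
    have e2 : Real.log x = Real.exp s := Real.log_exp _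
    rw [e1, e2] at h1
    -- compare the sets
    have key : |∑ r ∈ prLev s, 1 / (r : ℝ) - ∑ r ∈ prIoc x y, 1 / (r : ℝ)| ≤
        2 * Real.exp (-(s : ℝ)) := by
      have hex : Real.exp (-(s : ℝ)) = 1 / Real.exp s := by
        rw [Real.exp_neg]; simp
      have hix : 1 / x ≤ 1 / Real.exp s :=
        one_div_le_one_div_of_le (Real.exp_pos _) hxs
      have hA : ∑ r ∈ prLev s \ prIoc x y, 1 / (r : ℝ) ≤ 1 / x := by
        have hsub : prLev s \ prIoc x y ⊆ {⌊x⌋₊} := by
          intro r hr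
          rw [Finset.mem_sdiff, mem_prLev, lev_eq_iff hs] at hr
          obtain ⟨⟨hp, h3, h4⟩, h5⟩ := hr
          rw [Finset.mem_singleton]
          unfold prIoc at h5
          simp only [Finset.mem_filter, Finset.mem_Icc, not_and] at h5
          have h6 := h5 ⟨hp.one_le, Nat.le_floor h4.le⟩ hp
          have h7 : (r : ℝ) = x := le_antisymm (not_lt.mp h6) h3
          rw [← h7, Nat.floor_natCast]
        have hcase : ∀ r ∈ prLev s \ prIoc x y, 1 / (r : ℝ) ≤ 1 / x := by
          intro r hr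
          rw [Finset.mem_sdiff, mem_prLev, lev_eq_iff hs] at hr
          exact one_div_le_one_div_of_le (by linarith) hr.1.2.1
        calc ∑ r ∈ prLev s \ prIoc x y, 1 / (r : ℝ) ≤ ∑ r ∈ prLev s \ prIoc x y, 1 / x :=
              Finset.sum_le_sum hcase
          _ = (prLev s \ prIoc x y).card * (1 / x) := by
              rw [Finset.sum_const, nsmul_eq_mul]
          _ ≤ 1 * (1 / x) := by
              apply mul_le_mul_of_nonneg_right _ (by positivity)
              have := Finset.card_le_card hsub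
              rw [Finset.card_singleton] at this
              exact_mod_cast this
          _ = 1 / x := one_mul _
      have hB : ∑ r ∈ prIoc x y \ prLev s, 1 / (r : ℝ) ≤ 1 / x := by
        have hsub : prIoc x y \ prLev s ⊆ {⌊y⌋₊} := by
          intro r hr
          rw [Finset.mem_sdiff, mem_prLev, lev_eq_iff hs] at hr
          obtain ⟨h5, h6⟩ := hr
          rw [Finset.mem_singleton]
          unfold prIoc at h5
          simp only [Finset.mem_filter, Finset.mem_Icc] at h5
          obtain ⟨⟨_, h7⟩, hp, h8⟩ := h5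
          have h9 : (r : ℝ) ≤ y := (Nat.le_floor_iff (by positivity)).mp h7
          have h10 : ¬ (r : ℝ) < y := fun h => h6 ⟨hp, h8.le, h⟩
          have h11 : (r : ℝ) = y := le_antisymm h9 (not_lt.mp h10)
          rw [← h11, Nat.floor_natCast]
        have hcase : ∀ r ∈ prIoc x y \ prLev s, 1 / (r : ℝ) ≤ 1 / x := by
          intro r hr
          rw [Finset.mem_sdiff] at hr
          have h5 := hr.1
          unfold prIoc at h5
          simp only [Finset.mem_filter, Finset.mem_Icc] at h5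
          exact one_div_le_one_div_of_le (by linarith) h5.2.2.le
        calc ∑ r ∈ prIoc x y \ prLev s, 1 / (r : ℝ) ≤ ∑ r ∈ prIoc x y \ prLev s, 1 / x :=
              Finset.sum_le_sum hcase
          _ = (prIoc x y \ prLev s).card * (1 / x) := by
              rw [Finset.sum_const, nsmul_eq_mul]
          _ ≤ 1 * (1 / x) := by
              apply mul_le_mul_of_nonneg_right _ (by positivity)
              have := Finset.card_le_card hsub
              rw [Finset.card_singleton] at this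
              exact_mod_cast this
          _ = 1 / x := one_mul _
      have hA0 : 0 ≤ ∑ r ∈ prLev s \ prIoc x y, 1 / (r : ℝ) :=
        Finset.sum_nonneg (fun _ _ => by positivity)
      have hB0 : 0 ≤ ∑ r ∈ prIoc x y \ prLev s, 1 / (r : ℝ) :=
        Finset.sum_nonneg (fun _ _ => by positivity)
      have hAB : ∑ r ∈ prLev s, 1 / (r : ℝ) - ∑ r ∈ prIoc x y, 1 / (r : ℝ) =
          ∑ r ∈ prLev s \ prIoc x y, 1 / (r : ℝ) - ∑ r ∈ prIoc x y \ prLev s, 1 / (r : ℝ) := by
        have c1 := Finset.sum_inter_add_sum_sdiff (prLev s) (prIoc x y) (fun r : ℕ => 1 / (r : ℝ))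
        have c2 := Finset.sum_inter_add_sum_sdiff (prIoc x y) (prLev s) (fun r : ℕ => 1 / (r : ℝ))
        rw [Finset.inter_comm] at c2
        linarith
      rw [hAB, hex, abs_le]
      constructor <;> linarith
    have e3 : C / Real.exp s = C * Real.exp (-(s : ℝ)) := by
      rw [Real.exp_neg]; rfl
    rw [e3] at h1
    have h0 := abs_nonneg (∑ r ∈ prLev 0, 1 / (r : ℝ) - 1)
    have hep := Real.exp_pos (-(s : ℝ))
    have hm1 := mul_nonneg h0 hep.le
    calc |∑ r ∈ prLev s, 1 / (r : ℝ) - 1|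
        = |(∑ r ∈ prLev s, 1 / (r : ℝ) - ∑ r ∈ prIoc x y, 1 / (r : ℝ)) +
          (∑ r ∈ prIoc x y, 1 / (r : ℝ) - 1)| := by ring_nf
      _ ≤ |∑ r ∈ prLev s, 1 / (r : ℝ) - ∑ r ∈ prIoc x y, 1 / (r : ℝ)| +
          |∑ r ∈ prIoc x y, 1 / (r : ℝ) - 1| := abs_add_le _ _
      _ ≤ _ := by nlinarith

/-- `∑_{r ≤ x} 1/r = log log x + O(1)` -/
theorem prime_recip : ∃ C : ℝ, 0 < C ∧ ∀ x : ℝ, 3 ≤ x →
    |∑ r ∈ (Finset.Icc 1 ⌊x⌋₊).filter Nat.Prime, 1 / (r : ℝ) - LL x| ≤ C := by
  obtain ⟨C, hC, hm⟩ := mertens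
  refine ⟨C / Real.log 2 + |LL 2| + 1, ?_, ?_⟩
  · have : 0 < Real.log 2 := Real.log_pos (by norm_num)
    positivity
  intro x hx
  have h1 := hm 2 x le_rfl (by linarith)
  have e : (Finset.Icc 1 ⌊x⌋₊).filter Nat.Prime = insert 2 (prIoc 2 x) := by
    ext r
    unfold prIoc
    simp only [Finset.mem_filter, Finset.mem_Icc, Finset.mem_insert]
    constructor
    · rintro ⟨⟨a, b⟩, hp⟩
      rcases hp.two_le.lt_or_eq with h | h
      · right
        exact ⟨⟨a, b⟩, hp, by exact_mod_cast h⟩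
      · left; exact h.symm
    · rintro (h | ⟨⟨a, b⟩, hp, _⟩)
      · subst h
        refine ⟨⟨by norm_num, Nat.le_floor (by push_cast; linarith)⟩, Nat.prime_two⟩
      · exact ⟨⟨a, b⟩, hp⟩
  have hn : 2 ∉ prIoc 2 x := by
    unfold prIoc
    simp
  rw [e, Finset.sum_insert hn]
  rw [abs_le] at h1 ⊢
  have h3 := neg_abs_le (LL 2)
  have h4 := le_abs_self (LL 2)
  push_cast
  constructor <;> linarith [h1.1, h1.2]

end P031
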