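import Mathlib

/-!
# P031: Brun's pure sieve, abstract form
-/

namespace P031.Pure

open Finset

lemma count_one (N q a : ℕ) (hq : 0 < q) :
    |((((Ioc 0 N).filter (fun r => r ≡ a [MOD q])).card : ℕ) : ℝ) - (N : ℝ) / q| ≤ 1 := by
  have h := Nat.Ioc_filter_modEq_card 0 N hq a
  have hq' : (0 : ℚ) < q := by exact_mod_cast hq
  set A : ℤ := ⌊((N : ℚ) - a) / q⌋ with hA
  set B : ℤ := ⌊(((0 : ℕ) : ℚ) - a) / q⌋ with hB
  have h1 : (A : ℚ) ≤ ((N : ℚ) - a) / q := Int.floor_le _
  have h2 : ((N : ℚ) - a) / q < A + 1 := Int.lt_floor_add_one _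
  have h3 : (B : ℚ) ≤ (((0 : ℕ) : ℚ) - a) / q := Int.floor_le _
  have h4 : (((0 : ℕ) : ℚ) - a) / q < B + 1 := Int.lt_floor_add_one _
  have hN : (0 : ℚ) ≤ (N : ℚ) / q := by positivity
  have e1 : ((N : ℚ) - a) / q = (N : ℚ) / q - (a : ℚ) / q := by ring
  have e2 : (((0 : ℕ) : ℚ) - a) / q = - ((a : ℚ) / q) := by push_cast; ring
  rw [e1] at h1 h2
  rw [e2] at h3 h4
  have hc : ((((Ioc 0 N).filter (fun r => r ≡ a [MOD q])).card : ℕ) : ℚ)
      = max ((A : ℚ) - B) 0 := by
    have := congrArg (fun z : ℤ => (z : ℚ)) h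
    push_cast at this
    rw [← this]
  have key : |((((Ioc 0 N).filter (fun r => r ≡ a [MOD q])).card : ℕ) : ℚ) - (N : ℚ) / q| ≤ 1 := by
    rw [hc, abs_le]
    constructor
    · have : (A : ℚ) - B ≤ max ((A : ℚ) - B) 0 := le_max_left _ _
      linarith
    · have : max ((A : ℚ) - B) 0 ≤ (N : ℚ) / q + 1 := by
        apply max_le
        · linarith
        · linarith
      linarith
  have h5 := (Rat.cast_le (K := ℝ)).mpr key
  push_cast at h5
  exact h5

/-- count of `r ≤ N` in prescribed residue classes -/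
lemma count_crt (W : ℕ → Finset ℕ) (N : ℕ) (D : Finset ℕ) :
    (∀ p ∈ D, p.Prime) → (∀ p ∈ D, W p ⊆ range p) → ∀ q a : ℕ, 0 < q →
    (∀ p ∈ D, q.Coprime p) →
    |((((Ioc 0 N).filter (fun r => r ≡ a [MOD q] ∧ ∀ p ∈ D, r % p ∈ W p)).card : ℕ) : ℝ)
      - (N : ℝ) / q * ∏ p ∈ D, ((W p).card : ℝ) / p| ≤ ∏ p ∈ D, ((W p).card : ℝ) := by
  classical
  induction D using Finset.induction_on with
  | empty =>
    intro _ _ q a hq _
    simpa using count_one N q a hq
  | insert p D hp ih =>
    intro hD hW q a hq hco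
    have hD' : ∀ p ∈ D, p.Prime := fun p' h => hD p' (mem_insert_of_mem h)
    have hW' : ∀ p ∈ D, W p ⊆ range p := fun p' h => hW p' (mem_insert_of_mem h)
    have hpp : p.Prime := hD p (mem_insert_self _ _)
    have hWp : W p ⊆ range p := hW p (mem_insert_self _ _)
    have hqp : q.Coprime p := hco p (mem_insert_self _ _)
    have hqp0 : 0 < q * p := Nat.mul_pos hq hpp.pos
    have hcop : ∀ p' ∈ D, (q * p).Coprime p' := by
      intro p' h
      refine Nat.Coprime.mul_left (hco p' (mem_insert_of_mem h)) ?_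
      rw [Nat.coprime_primes hpp (hD' p' h)]
      rintro rfl
      exact hp h
    have IH := ih hD' hW'
    -- split over the residue class mod p
    have hcard : (((Ioc 0 N).filter
        (fun r => r ≡ a [MOD q] ∧ ∀ p' ∈ insert p D, r % p' ∈ W p')).card)
        = ∑ b ∈ W p, ((Ioc 0 N).filter (fun r => r ≡ (Nat.chineseRemainder hqp a b : ℕ) [MOD (q * p)]
            ∧ ∀ p' ∈ D, r % p' ∈ W p')).card := by
      rw [Finset.card_eq_sum_card_fiberwise (f := fun r => r % p) (t := W p)]
      · refine Finset.sum_congr rfl fun b hb => ?_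
        congr 1
        ext r
        simp only [mem_filter, mem_insert, forall_eq_or_imp]
        have hbp : b < p := by simpa using hWp hb
        have hiff : r ≡ (Nat.chineseRemainder hqp a b : ℕ) [MOD (q * p)] ↔
            r ≡ a [MOD q] ∧ r % p = b := by
          rw [← Nat.modEq_and_modEq_iff_modEq_mul hqp]
          have c1 := (Nat.chineseRemainder hqp a b).2.1
          have c2 := (Nat.chineseRemainder hqp a b).2.2
          constructor
          · rintro ⟨h1, h2⟩
            refine ⟨h1.trans c1, ?_⟩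
            have := h2.trans c2
            rw [Nat.ModEq, Nat.mod_eq_of_lt hbp] at this
            exact this
          · rintro ⟨h1, h2⟩
            refine ⟨h1.trans c1.symm, ?_⟩
            refine Nat.ModEq.trans ?_ c2.symm
            rw [Nat.ModEq, Nat.mod_eq_of_lt hbp]
            exact h2
        rw [hiff]
        constructor
        · rintro ⟨⟨h1, h2, h3, h4⟩, h5⟩
          exact ⟨h1, ⟨h2, h5⟩, h4⟩
        · rintro ⟨h1, ⟨h2, h5⟩, h4⟩
          exact ⟨⟨h1, h2, h5 ▸ hb, h4⟩, h5⟩
      · intro r hr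
        have hr' := (mem_filter.mp hr).2.2 p (mem_insert_self _ _)
        simpa using hr'
    rw [hcard, Finset.prod_insert hp, Finset.prod_insert hp]
    push_cast
    have hp0 : (p : ℝ) ≠ 0 := by exact_mod_cast hpp.ne_zero
    have hq0 : (q : ℝ) ≠ 0 := by exact_mod_cast hq.ne'
    have hsplit : (N : ℝ) / q * (((W p).card : ℝ) / p * ∏ p ∈ D, ((W p).card : ℝ) / p)
        = ∑ b ∈ W p, (N : ℝ) / ((q * p : ℕ) : ℝ) * ∏ p ∈ D, ((W p).card : ℝ) / p := by
      rw [Finset.sum_const, nsmul_eq_mul]
      push_cast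
      field_simp
    rw [hsplit, ← Finset.sum_sub_distrib]
    refine (Finset.abs_sum_le_sum_abs _ _).trans ?_
    calc ∑ b ∈ W p, |_| ≤ ∑ b ∈ W p, ∏ p ∈ D, ((W p).card : ℝ) := by
          refine Finset.sum_le_sum fun b _ => ?_
          exact IH (q * p) (Nat.chineseRemainder hqp a b : ℕ) hqp0 hcop
      _ = ((W p).card : ℝ) * ∏ p ∈ D, ((W p).card : ℝ) := by
          rw [Finset.sum_const, nsmul_eq_mul]

lemma count_all (W : ℕ → Finset ℕ) (N : ℕ) (D : Finset ℕ)
    (hD : ∀ p ∈ D, p.Prime) (hW : ∀ p ∈ D, W p ⊆ range p) :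
    |((((Ioc 0 N).filter (fun r => ∀ p ∈ D, r % p ∈ W p)).card : ℕ) : ℝ)
      - (N : ℝ) * ∏ p ∈ D, ((W p).card : ℝ) / p| ≤ ∏ p ∈ D, ((W p).card : ℝ) := by
  have := count_crt W N D hD hW 1 0 one_pos (fun p _ => Nat.coprime_one_left p)
  simpa [Nat.modEq_one] using this

/-- Bonferroni -/
lemma bonf (T : Finset ℕ) (m : ℕ) :
    (if T = ∅ then (1 : ℤ) else 0) ≤
      ∑ D ∈ T.powerset, if D.card ≤ 2 * m then (-1 : ℤ) ^ D.card else 0 := by
  rw [Finset.sum_powerset_apply_card (f := fun j => if j ≤ 2 * m then (-1 : ℤ) ^ j else 0)]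
  have h1 : ∑ j ∈ range (T.card + 1), T.card.choose j • (if j ≤ 2 * m then (-1 : ℤ) ^ j else 0)
      = ∑ j ∈ range (2 * m + 1), (-1 : ℤ) ^ j * (T.card.choose j : ℤ) := by
    have e1 : ∑ j ∈ range (T.card + 1), T.card.choose j • (if j ≤ 2 * m then (-1 : ℤ) ^ j else 0)
        = ∑ j ∈ range (T.card + 1 + (2 * m + 1)),
            T.card.choose j • (if j ≤ 2 * m then (-1 : ℤ) ^ j else 0) := by
      refine Finset.sum_subset (range_subset_range.mpr (by omega)) ?_
      intro j _ hj
      have : T.card < j := by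
        rw [mem_range] at hj; omega
      simp [Nat.choose_eq_zero_of_lt this]
    have e2 : ∑ j ∈ range (2 * m + 1), (-1 : ℤ) ^ j * (T.card.choose j : ℤ)
        = ∑ j ∈ range (T.card + 1 + (2 * m + 1)),
            T.card.choose j • (if j ≤ 2 * m then (-1 : ℤ) ^ j else 0) := by
      refine Eq.trans (b := ∑ j ∈ range (2 * m + 1),
            T.card.choose j • (if j ≤ 2 * m then (-1 : ℤ) ^ j else 0)) ?_ ?_
      · refine Finset.sum_congr rfl fun j hj => ?_
        have : j ≤ 2 * m := by rw [mem_range] at hj; omega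
        rw [if_pos this, nsmul_eq_mul, mul_comm]
      · refine Finset.sum_subset (range_subset_range.mpr (by omega)) ?_
        intro j _ hj
        have : ¬ j ≤ 2 * m := by rw [mem_range] at hj; omega
        simp [this]
    rw [e1, e2]
  rw [h1]
  by_cases hT : T = ∅
  · subst hT
    simp only [if_true, Finset.card_empty]
    rw [Finset.sum_range_succ']
    simp
  · rw [if_neg hT]
    obtain ⟨n, hn⟩ : ∃ n, T.card = n + 1 := by
      refine Nat.exists_eq_succ_of_ne_zero ?_
      simpa using hT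
    rw [hn, Int.alternating_sum_range_choose_eq_choose]
    have : (-1 : ℤ) ^ (2 * m) = 1 := by
      rw [pow_mul]; simp
    rw [this]
    positivity

lemma sum_small (κ : ℝ) (hκ : 0 ≤ κ) (P : Finset ℕ) (x : ℕ → ℝ) (hx0 : ∀ p ∈ P, 0 ≤ x p)
    (hx : ∀ p ∈ P, x p ≤ κ) (M : ℕ) :
    ∑ D ∈ P.powerset, (if D.card ≤ M then ∏ p ∈ D, x p else 0) ≤ (1 + κ * P.card) ^ M := by
  calc ∑ D ∈ P.powerset, (if D.card ≤ M then ∏ p ∈ D, x p else 0)
      ≤ ∑ D ∈ P.powerset, (if D.card ≤ M then κ ^ D.card else 0) := by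
        refine Finset.sum_le_sum fun D hD => ?_
        rw [mem_powerset] at hD
        split_ifs
        · rw [← Finset.prod_const]
          exact Finset.prod_le_prod (fun p hp => hx0 p (hD hp)) (fun p hp => hx p (hD hp))
        · exact le_rfl
    _ = ∑ j ∈ range (P.card + 1), P.card.choose j • (if j ≤ M then κ ^ j else 0) := by
        rw [Finset.sum_powerset_apply_card (f := fun j => if j ≤ M then κ ^ j else 0)]
    _ ≤ ∑ j ∈ range (P.card + 1 + (M + 1)), P.card.choose j • (if j ≤ M then κ ^ j else 0) := by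
        refine Finset.sum_le_sum_of_subset_of_nonneg (range_subset_range.mpr (by omega)) ?_
        intro j _ _
        split_ifs <;> positivity
    _ = ∑ j ∈ range (M + 1), (P.card.choose j : ℝ) * κ ^ j := by
        rw [← Finset.sum_subset (s₁ := range (M + 1)) (range_subset_range.mpr (by omega))]
        · refine Finset.sum_congr rfl fun j hj => ?_
          have : j ≤ M := by rw [mem_range] at hj; omega
          simp [this]
        · intro j _ hj
          have : ¬ j ≤ M := by rw [mem_range] at hj; omega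
          simp [this]
    _ ≤ ∑ j ∈ range (M + 1), (κ * P.card) ^ j * 1 ^ (M - j) * (M.choose j : ℝ) := by
        refine Finset.sum_le_sum fun j hj => ?_
        have hjM : j ≤ M := by rw [mem_range] at hj; omega
        have h1 : (P.card.choose j : ℝ) ≤ (P.card : ℝ) ^ j := by
          have := Nat.choose_le_pow P.card j
          exact_mod_cast this
        have h2 : (1 : ℝ) ≤ (M.choose j : ℝ) := by
          have := Nat.choose_pos hjM
          exact_mod_cast this
        rw [mul_pow]
        have h3 : 0 ≤ κ ^ j := by positivity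
        have h4 : 0 ≤ (P.card : ℝ) ^ j := by positivity
        calc (P.card.choose j : ℝ) * κ ^ j ≤ (P.card : ℝ) ^ j * κ ^ j := by gcongr
          _ = κ ^ j * (P.card : ℝ) ^ j * 1 := by ring
          _ ≤ κ ^ j * (P.card : ℝ) ^ j * (M.choose j : ℝ) := by gcongr
          _ = _ := by ring
    _ = (1 + κ * P.card) ^ M := by
        rw [add_comm 1, add_pow]

lemma tail (P : Finset ℕ) (g : ℕ → ℝ) (hg : ∀ p ∈ P, 0 ≤ g p) (M : ℕ) :
    ∑ D ∈ P.powerset, (if D.card ≤ M then 0 else ∏ p ∈ D, g p)
      ≤ Real.exp (3 * ∑ p ∈ P, g p - M) := by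
  have e3 : Real.exp 1 ≤ 3 := by
    have := Real.exp_one_lt_d9
    linarith
  calc ∑ D ∈ P.powerset, (if D.card ≤ M then 0 else ∏ p ∈ D, g p)
      ≤ ∑ D ∈ P.powerset, Real.exp (-(M : ℝ)) * ∏ p ∈ D, (3 * g p) := by
        refine Finset.sum_le_sum fun D hD => ?_
        rw [mem_powerset] at hD
        have h0 : 0 ≤ ∏ p ∈ D, g p := Finset.prod_nonneg fun p hp => hg p (hD hp)
        rw [Finset.prod_mul_distrib, Finset.prod_const]
        split_ifs with h
        · positivity
        · have hM : (M : ℝ) ≤ D.card := by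
            have : M ≤ D.card := by omega
            exact_mod_cast this
          have h1 : Real.exp (M : ℝ) ≤ (3 : ℝ) ^ D.card := by
            calc Real.exp (M : ℝ) ≤ Real.exp (D.card : ℝ) := Real.exp_le_exp.mpr hM
              _ = Real.exp 1 ^ D.card := by rw [← Real.exp_nat_mul]; simp
              _ ≤ 3 ^ D.card := by gcongr
          have h2 : 1 ≤ Real.exp (-(M : ℝ)) * (3 : ℝ) ^ D.card := by
            rw [Real.exp_neg, ← div_eq_inv_mul, le_div_iff₀ (Real.exp_pos _)]
            simpa using h1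
          calc ∏ p ∈ D, g p = 1 * ∏ p ∈ D, g p := by ring
            _ ≤ (Real.exp (-(M : ℝ)) * (3 : ℝ) ^ D.card) * ∏ p ∈ D, g p := by gcongr
            _ = _ := by ring
    _ = Real.exp (-(M : ℝ)) * ∏ p ∈ P, (1 + 3 * g p) := by
        rw [← Finset.mul_sum, Finset.prod_one_add]
    _ ≤ Real.exp (-(M : ℝ)) * Real.exp (∑ p ∈ P, 3 * g p) := by
        rw [Real.exp_sum]
        refine mul_le_mul_of_nonneg_left ?_ (Real.exp_pos _).le
        refine Finset.prod_le_prod (fun p hp => ?_) (fun p hp => ?_)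
        · have := hg p hp
          positivity
        · have := Real.add_one_le_exp (3 * g p)
          linarith
    _ = Real.exp (3 * ∑ p ∈ P, g p - M) := by
        rw [← Real.exp_add, ← Finset.mul_sum]
        congr 1
        ring

/-- Brun's pure sieve -/
theorem pure_sieve (W : ℕ → Finset ℕ) (N : ℕ) (P : Finset ℕ) (κ : ℕ) (m : ℕ)
    (hP : ∀ p ∈ P, p.Prime) (hW : ∀ p ∈ P, W p ⊆ range p) (hκ : ∀ p ∈ P, (W p).card ≤ κ) :
    ((((Ioc 0 N).filter (fun r => ∀ p ∈ P, r % p ∉ W p)).card : ℕ) : ℝ)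
      ≤ N * (Real.exp (-∑ p ∈ P, ((W p).card : ℝ) / p)
          + Real.exp (3 * ∑ p ∈ P, ((W p).card : ℝ) / p - (2 * m : ℕ)))
        + (1 + (κ : ℝ) * P.card) ^ (2 * m) := by
  classical
  set g : ℕ → ℝ := fun p => ((W p).card : ℝ) / p with hg
  have hg0 : ∀ p ∈ P, 0 ≤ g p := fun p _ => by positivity
  -- pass to sums
  have h1 : ((((Ioc 0 N).filter (fun r => ∀ p ∈ P, r % p ∉ W p)).card : ℕ) : ℤ)
      ≤ ∑ D ∈ P.powerset, (if D.card ≤ 2 * m then (-1 : ℤ) ^ D.card else 0) *
          ((((Ioc 0 N).filter (fun r => ∀ p ∈ D, r % p ∈ W p)).card : ℕ) : ℤ) := by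
    calc ((((Ioc 0 N).filter (fun r => ∀ p ∈ P, r % p ∉ W p)).card : ℕ) : ℤ)
        = ∑ r ∈ Ioc 0 N, (if (P.filter (fun p => r % p ∈ W p)) = ∅ then (1 : ℤ) else 0) := by
          rw [Finset.card_filter]
          push_cast
          refine Finset.sum_congr rfl fun r _ => ?_
          simp only [Finset.filter_eq_empty_iff]
      _ ≤ ∑ r ∈ Ioc 0 N, ∑ D ∈ (P.filter (fun p => r % p ∈ W p)).powerset,
            (if D.card ≤ 2 * m then (-1 : ℤ) ^ D.card else 0) :=
          Finset.sum_le_sum fun r _ => bonf _ m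
      _ = ∑ r ∈ Ioc 0 N, ∑ D ∈ P.powerset,
            (if ∀ p ∈ D, r % p ∈ W p then
              (if D.card ≤ 2 * m then (-1 : ℤ) ^ D.card else 0) else 0) := by
          refine Finset.sum_congr rfl fun r _ => ?_
          have hfil : (P.filter (fun p => r % p ∈ W p)).powerset
              = P.powerset.filter (fun D => ∀ p ∈ D, r % p ∈ W p) := by
            ext D
            simp only [mem_powerset, mem_filter, subset_iff]
            constructor
            · intro h
              exact ⟨fun x hx => (h hx).1, fun p hp => (h hp).2⟩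
            · rintro ⟨h1, h2⟩ x hx
              exact ⟨h1 hx, h2 x hx⟩
          rw [hfil, Finset.sum_filter]
      _ = _ := by
          rw [Finset.sum_comm]
          refine Finset.sum_congr rfl fun D _ => ?_
          rw [← Finset.sum_filter, Finset.sum_const, nsmul_eq_mul, mul_comm]
  have h1R : ((((Ioc 0 N).filter (fun r => ∀ p ∈ P, r % p ∉ W p)).card : ℕ) : ℝ)
      ≤ ∑ D ∈ P.powerset, (if D.card ≤ 2 * m then (-1 : ℝ) ^ D.card else 0) *
          ((((Ioc 0 N).filter (fun r => ∀ p ∈ D, r % p ∈ W p)).card : ℕ) : ℝ) := by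
    have h := (Int.cast_le (R := ℝ)).mpr h1
    push_cast at h
    exact h
  refine h1R.trans ?_
  have h2 : ∑ D ∈ P.powerset, (if D.card ≤ 2 * m then (-1 : ℝ) ^ D.card else 0) *
          ((((Ioc 0 N).filter (fun r => ∀ p ∈ D, r % p ∈ W p)).card : ℕ) : ℝ)
      ≤ ∑ D ∈ P.powerset, ((if D.card ≤ 2 * m then (-1 : ℝ) ^ D.card else 0) *
          (N * ∏ p ∈ D, g p) + (if D.card ≤ 2 * m then ∏ p ∈ D, ((W p).card : ℝ) else 0)) := by
    refine Finset.sum_le_sum fun D hD => ?_
    rw [mem_powerset] at hD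
    have hc := count_all W N D (fun p hp => hP p (hD hp)) (fun p hp => hW p (hD hp))
    rw [abs_le] at hc
    split_ifs with h
    · rcases neg_one_pow_eq_or ℝ D.card with h' | h' <;> rw [h'] <;> linarith [hc.1, hc.2]
    · simp
  refine h2.trans ?_
  rw [Finset.sum_add_distrib]
  refine add_le_add ?_ ?_
  · -- main term
    have h3 : ∀ D ∈ P.powerset, (if D.card ≤ 2 * m then (-1 : ℝ) ^ D.card else 0) *
          (N * ∏ p ∈ D, g p)
        ≤ N * (∏ p ∈ D, (-g p)) + N * (if D.card ≤ 2 * m then 0 else ∏ p ∈ D, g p) := by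
      intro D hD
      rw [mem_powerset] at hD
      have h0 : 0 ≤ ∏ p ∈ D, g p := Finset.prod_nonneg fun p hp => hg0 p (hD hp)
      have e : ∏ p ∈ D, (-g p) = (-1 : ℝ) ^ D.card * ∏ p ∈ D, g p := by
        rw [← Finset.prod_const, ← Finset.prod_mul_distrib]
        refine Finset.prod_congr rfl fun p _ => by ring
      rw [e]
      split_ifs with h
      · apply le_of_eq; ring
      · have hN : (0 : ℝ) ≤ N := by positivity
        rcases neg_one_pow_eq_or ℝ D.card with h' | h' <;> rw [h'] <;> nlinarith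
    refine (Finset.sum_le_sum h3).trans ?_
    rw [Finset.sum_add_distrib, ← Finset.mul_sum, ← Finset.mul_sum, ← Finset.prod_one_add, mul_add]
    refine add_le_add ?_ ?_
    · refine mul_le_mul_of_nonneg_left ?_ (by positivity)
      rw [← Finset.sum_neg_distrib, Real.exp_sum]
      refine Finset.prod_le_prod (fun p hp => ?_) (fun p hp => ?_)
      · have h5 : g p ≤ 1 := by
          have hp' := hP p hp
          have h6 : (W p).card ≤ p := by
            have := Finset.card_le_card (hW p hp)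
            simpa using this
          have h7 : (0 : ℝ) < p := by exact_mod_cast hp'.pos
          rw [hg]
          simp only
          rw [div_le_one h7]
          exact_mod_cast h6
        linarith
      · have := Real.add_one_le_exp (-g p)
        simp only [hg] at this ⊢
        linarith
    · refine mul_le_mul_of_nonneg_left ?_ (by positivity)
      exact tail P g hg0 (2 * m)
  · refine sum_small (κ : ℝ) (by positivity) P (fun p => ((W p).card : ℝ)) (fun p _ => by positivity)
      (fun p hp => ?_) (2 * m)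
    exact_mod_cast hκ p hp

end P031.Pure
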