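import Vale.Agent.P031.Bad0

/-!
# P031, module BAD6: representations whose second prime is nearly as large as possible

PROOF of `bad_top`.  `good_uncons`: `n = q n₂`, `t = lam U q = top U n ≥ U - 20 log U - S` (`beta_cons`).
`beta U n 0 = beta U n₂ 1 + a_1 t ≤ U + 4H`, so `β₁(n₂) ≤ U + 4H - 0.38 (U - 20 log U - S) ≤ 0.63 U`;
`β₁(n₂) ≤ 0.63 U`; `β₀ ≤ β₁`, `a_2 top(n₂) ≤ β₁(n₂)` (`top_le_beta`, `a_2 ≥ 0.90` by `aa_one`, `aa_one_two`), so
`Φ₀(n₂) ≤ 0.7 U` and `Φ₁(n₂) = FF U n₂ 0 (Φ₀) = max Φ₀ (β₁ + a_1 Φ₀) ≤ (0.63 + 0.39·0.7) U ≤ 0.904 U`.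
(To get below `0.9 U` use `β₁ ≤ (1 - 0.38) U + o(U) = 0.62 U + o(U) ≤ 0.621 U`, `Φ₀ ≤ 0.621/0.9 U = 0.69 U`,
`Φ₁ ≤ (0.621 + 0.39 · 0.69) U ≤ 0.8901 U`.)  So `m₂ = φ(n₂) ∈ Gset U 1 (9U/10)`.
`log m₂ ≤ U² e^{0.7U + S}` (`log_le_of_good`).  For given `m₂` and `q` the number of primes `p > q` with
`(p-1)(q-1) m₂ ≤ X` is `≤ C X/(m₂ q log X)` (Chebyshev or `prime_tuple_bound`-free:
`Nat.primeCounting` bound; `log (X/(m₂ (q-1))) ≥ (log X)/3` because `X/(m₂(q-1)) ≥ p - 1 ≥ q - 1`) and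
`∑_q 1/q ≤ C log U` over primes with levels in `[U - 20 log U - 1, U + 3]` (`level_mass`).
-/

namespace P031

open scoped BigOperators

/-- the inequalities between parameters used below -/
private theorem params : ∃ U₀ : ℕ, ∀ U : ℕ, U₀ ≤ U →
    (4 * HH U + 8 * Real.log U + SS U ≤ (1 : ℝ) / 1000 * U ∧ 1 ≤ Real.log U) := by
  have h1 : (fun x : ℝ => 4 * x ^ ((3 : ℝ) / 5) + 8 * Real.log x + x ^ ((1 : ℝ) / 2))
      =o[Filter.atTop] (fun x : ℝ => x) := by
    have aux : ∀ s : ℝ, s < 1 → (fun x : ℝ => x ^ s) =o[Filter.atTop] (fun x : ℝ => x) := by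
      intro s hs
      apply Asymptotics.isLittleO_of_tendsto'
      · filter_upwards [Filter.eventually_gt_atTop 0] with x hx h0
        exact absurd h0 hx.ne'
      · have h := tendsto_rpow_neg_atTop (y := 1 - s) (by linarith)
        refine h.congr' ?_
        filter_upwards [Filter.eventually_gt_atTop 0] with x hx
        rw [← Real.rpow_sub_one hx.ne']
        congr 1
        ring
    have e1 := aux ((3 : ℝ) / 5) (by norm_num)
    have e2 := aux ((1 : ℝ) / 2) (by norm_num)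
    have e3 : (fun x : ℝ => Real.log x) =o[Filter.atTop] (fun x : ℝ => x ^ (1 : ℝ)) :=
      isLittleO_log_rpow_atTop (by norm_num)
    simp only [Real.rpow_one] at e3
    exact ((e1.const_mul_left 4).add (e3.const_mul_left 8)).add e2
  have h2 := h1.bound (show (0 : ℝ) < 1 / 1000 by norm_num)
  have h3 := (tendsto_natCast_atTop_atTop (R := ℝ)).eventually h2
  obtain ⟨U₁, hU₁⟩ := Filter.eventually_atTop.mp h3
  refine ⟨max U₁ 3, ?_⟩
  intro U hU
  have hU1 := hU₁ U (le_trans (le_max_left _ _) hU)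
  have hU3 : 3 ≤ U := le_trans (le_max_right _ _) hU
  have hU3' : (3 : ℝ) ≤ U := by exact_mod_cast hU3
  have hlog : 1 ≤ Real.log U := by
    rw [Real.le_log_iff_exp_le (by linarith)]
    have := Real.exp_one_lt_d9
    linarith
  refine ⟨?_, hlog⟩
  have hS : (SS U : ℝ) ≤ (U : ℝ) ^ ((1 : ℝ) / 2) := by
    rw [← Real.sqrt_eq_rpow]
    apply Real.le_sqrt_of_sq_le
    have h1 : SS U ^ 2 ≤ U := by
      have := Nat.sqrt_le U
      unfold SS
      rw [pow_two]
      exact this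
    exact_mod_cast h1
  rw [Real.norm_eq_abs, Real.norm_eq_abs, abs_of_nonneg (by linarith : (0 : ℝ) ≤ U)] at hU1
  have h4 := (le_abs_self _).trans hU1
  unfold HH
  linarith

/-- the structure of the representations in `bad_top` -/
private theorem structure_top : ∃ U₀ : ℕ, ∀ U : ℕ, U₀ ≤ U → ∀ X : ℝ, (U : ℝ) ≤ LL X →
    LL X ≤ U + 2 → ∀ p n v : ℕ, RepT U p n v → beta U n 0 ≤ U + 4 * HH U →
    (U : ℝ) - 20 * Real.log U < top U n + SS U → (v : ℝ) ≤ X →
    ∃ q m : ℕ, q.Prime ∧ q < p ∧ (U : ℝ) - 20 * Real.log U - 1 < lev q ∧ lev q ≤ U + 2 ∧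
      m ∈ Gset U 1 (9 / 10 * U) ∧ 1 ≤ m ∧ m ≤ NN U ∧ Real.log m ≤ Real.log X / 3 ∧
      v = (p - 1) * ((q - 1) * m) := by
  obtain ⟨U₁, hpar⟩ := params
  obtain ⟨U₂, hGle⟩ := Gset_le
  refine ⟨max (max U₁ U₂) 100, ?_⟩
  intro U hU X hX1 hX2 p n v hR hb htop hv
  have hU1 : U₁ ≤ U := le_trans (le_trans (le_max_left _ _) (le_max_left _ _)) hU
  have hU2 : U₂ ≤ U := le_trans (le_trans (le_max_right _ _) (le_max_left _ _)) hU
  have hU100 : 100 ≤ U := le_trans (le_max_right _ _) hU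
  have hU100' : (100 : ℝ) ≤ U := by exact_mod_cast hU100
  obtain ⟨hp1, hlogU⟩ := hpar U hU1
  obtain ⟨⟨hp, hpN, hpS, hG, hlev, rfl⟩, hqp⟩ := hR
  have hHH : 0 ≤ HH U := by unfold HH; positivity
  have hSS0 : (0 : ℝ) ≤ SS U := Nat.cast_nonneg _
  have hbig : (bigs U n).Nonempty := by
    rw [Finset.nonempty_iff_ne_empty]
    intro h0
    have h1 : top U n = 0 := by unfold top; rw [h0]; simp
    rw [h1] at htop
    push_cast at htop
    linarith
  obtain ⟨q, n₂, hq, hqS, hqN, rfl, hqn, hG₂, hlt, htopq⟩ := good_uncons hG hbig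
  have hn₂ : n₂ ≠ 0 := by have := hG₂.pos; omega
  have hU0 : 1 ≤ U := by omega
  obtain ⟨hb1, hb2⟩ := beta_cons hU0 hq hqS hn₂ hqn htopq 0
  rw [hb1] at hb
  rw [hb2] at htop
  simp only [zero_add] at hb
  have hlam : (lam U q : ℝ) + SS U = lev q + 1 := by
    have : lam U q + SS U = lev q + 1 := by unfold lam; omega
    exact_mod_cast this
  obtain ⟨ha1, ha1'⟩ := aa_one
  obtain ⟨ha2, ha2'⟩ := aa_one_two
  have hlam0 : (0 : ℝ) ≤ lam U q := Nat.cast_nonneg _
  have hbeta1 : beta U n₂ 1 ≤ 621 / 1000 * U := by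
    have h1 : (38 : ℝ) / 100 * lam U q ≤ aa 1 * lam U q := mul_le_mul_of_nonneg_right ha1 hlam0
    linarith
  have hbeta0 : beta U n₂ 0 ≤ beta U n₂ 1 := beta_mono U n₂ (by norm_num)
  have htop2 : (top U n₂ : ℝ) ≤ 69 / 100 * U := by
    have h1 := top_le_beta U n₂ 1
    have h2 : (90 : ℝ) / 100 ≤ aa (1 + 1) := by norm_num; linarith
    have h3 : (90 : ℝ) / 100 * top U n₂ ≤ aa (1 + 1) * top U n₂ :=
      mul_le_mul_of_nonneg_right h2 (Nat.cast_nonneg _)
    linarith
  have hPhi0 : Phi U n₂ 0 ≤ 69 / 100 * U := by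
    rw [Phi_zero]
    apply max_le htop2
    linarith
  have hPhi1 : Phi U n₂ 1 ≤ 9 / 10 * U := by
    have h0 := Phi_succ U n₂ 0
    simp only [zero_add, Finset.range_one, Finset.sum_singleton, Nat.sub_zero] at h0
    rw [h0]
    apply max_le (by linarith)
    have h1 : aa 1 * Phi U n₂ 0 ≤ 39 / 100 * (69 / 100 * U) := by
      have h2 := Phi_nonneg U n₂ 0
      calc aa 1 * Phi U n₂ 0 ≤ 39 / 100 * Phi U n₂ 0 := mul_le_mul_of_nonneg_right ha1' h2
        _ ≤ _ := mul_le_mul_of_nonneg_left hPhi0 (by norm_num)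
    linarith
  have hmem : Nat.totient n₂ ∈ Gset U 1 (9 / 10 * U) := ⟨n₂, hG₂, rfl, hPhi1⟩
  obtain ⟨hm1, hm2⟩ := hGle U hU2 1 _ (9 / 10 * U) (by linarith) hmem
  have hqp' : q < p := hqp q (by
    rw [Nat.mem_primeFactors]
    exact ⟨hq, Dvd.intro _ rfl, Nat.mul_ne_zero hq.ne_zero hn₂⟩)
  have hX0 : 0 < Real.log X := by
    by_contra h
    push Not at h
    have hLL : LL X = Real.log (Real.log X) := rfl
    have hv1 : (1 : ℝ) ≤ (((p - 1) * Nat.totient (q * n₂) : ℕ) : ℝ) := by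
      have h1 : 0 < (p - 1) * Nat.totient (q * n₂) :=
        Nat.mul_pos (by have := hp.two_le; omega) (Nat.totient_pos.mpr hG.pos)
      exact_mod_cast h1
    have h2 : 0 ≤ Real.log X := Real.log_nonneg (hv1.trans hv)
    have h3 : Real.log X = 0 := le_antisymm h h2
    rw [hLL, h3, Real.log_zero] at hX1
    linarith
  have hlogX : Real.exp U ≤ Real.log X := by
    rw [← Real.le_log_iff_exp_le hX0]
    exact hX1
  have hlogX' : Real.log X ≤ Real.exp (U + 2) := by
    rw [← Real.log_le_iff_le_exp hX0]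
    exact hX2
  have hvq : (q - 1) * Nat.totient n₂ * (p - 1) = (p - 1) * Nat.totient (q * n₂) := by
    rw [Nat.totient_mul ((Nat.Prime.coprime_iff_not_dvd hq).mpr hqn), Nat.totient_prime hq]
    ring
  refine ⟨q, Nat.totient n₂, hq, hqp', by linarith, ?_, hmem, hm1, hm2, ?_, ?_⟩
  · -- lev q ≤ U + 2
    have h1 : q ≤ (p - 1) * Nat.totient (q * n₂) := by
      calc q ≤ p - 1 := by omega
        _ ≤ _ := Nat.le_mul_of_pos_right _ (Nat.totient_pos.mpr hG.pos)
    have h2 : (q : ℝ) ≤ X := by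
      have : (q : ℝ) ≤ (((p - 1) * Nat.totient (q * n₂) : ℕ) : ℝ) := by exact_mod_cast h1
      linarith
    have h3 : (q : ℝ) < Real.exp (Real.exp ((U + 3 : ℕ) : ℝ)) := by
      have hXpos : 0 < X := by
        have : (2 : ℝ) ≤ q := by exact_mod_cast hq.two_le
        linarith
      calc (q : ℝ) ≤ X := h2
        _ = Real.exp (Real.log X) := (Real.exp_log hXpos).symm
        _ < _ := by
            apply Real.exp_lt_exp.mpr
            apply lt_of_le_of_lt hlogX'
            apply Real.exp_lt_exp.mpr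
            push_cast
            linarith
    have h4 := (lev_lt_iff (s := U + 3) (r := q) (by omega)).mpr h3
    omega
  · -- log m
    have h1 := log_le_of_good hU0 hG₂
    have h2 : Real.log (Nat.totient n₂ : ℝ) ≤ Real.log n₂ := by
      apply Real.log_le_log (by exact_mod_cast hm1)
      exact_mod_cast Nat.totient_le n₂
    have h3 : (U : ℝ) ^ 2 * Real.exp (top U n₂ + SS U) ≤ Real.exp U / 3 := by
      have h4 : (U : ℝ) ^ 2 = Real.exp (2 * Real.log U) := by
        rw [show (2 : ℝ) * Real.log U = ((2 : ℕ) : ℝ) * Real.log U by norm_num, Real.exp_nat_mul,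
          Real.exp_log (by linarith)]
      have h5 : Real.exp U / 3 ≥ Real.exp (U - 2) := by
        rw [Real.exp_sub, ge_iff_le]
        apply div_le_div_of_nonneg_left (Real.exp_pos _).le (by norm_num)
        have := Real.add_one_le_exp (2 : ℝ)
        linarith
      rw [h4, ← Real.exp_add]
      refine le_trans (Real.exp_le_exp.mpr ?_) h5
      linarith
    linarith
  · rw [← hvq]
    ring

/-- the number of `p` for given `q`, `m` -/
private theorem count_p : ∃ U₀ : ℕ, ∀ U : ℕ, U₀ ≤ U → ∀ X : ℝ, (U : ℝ) ≤ LL X → 0 < Real.log X →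
    0 < X →
    ∀ q m : ℕ, q.Prime → 1 ≤ m → Real.log m ≤ Real.log X / 3 → 
    ∀ F : Finset ℕ, (∀ p ∈ F, p.Prime ∧ q < p ∧ (((p - 1) * ((q - 1) * m) : ℕ) : ℝ) ≤ X) →
    (F.card : ℝ) ≤ 24 * (X / Real.log X) * ((1 / (m : ℝ)) * (1 / (q : ℝ))) := by
  have h1 := Chebyshev.eventually_primeCounting_le (ε := 1 / 2) (by norm_num)
  obtain ⟨x₀, hx₀⟩ := Filter.eventually_atTop.mp h1
  refine ⟨⌈3 * |x₀|⌉₊ + 6, ?_⟩
  intro U hU X hX1 hX0 hXpos q m hq hm hlm F hF
  have hU' : 3 * |x₀| + 6 ≤ U := by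
    have h2 : ((⌈3 * |x₀|⌉₊ + 6 : ℕ) : ℝ) ≤ U := by exact_mod_cast hU
    push_cast at h2
    have := Nat.le_ceil (3 * |x₀|)
    linarith
  have hm0 : (0 : ℝ) < m := by exact_mod_cast hm
  have hq2 : (2 : ℝ) ≤ q := by exact_mod_cast hq.two_le
  rcases F.eq_empty_or_nonempty with rfl | ⟨p₁, hp₁⟩
  · simp only [Finset.card_empty, Nat.cast_zero]
    positivity
  have hlogX : Real.exp U ≤ Real.log X := by
    rw [← Real.le_log_iff_exp_le hX0]
    exact hX1
  set Y : ℝ := X / (((q : ℝ) - 1) * m) with hY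
  have hqm : 0 < ((q : ℝ) - 1) * m := by
    apply mul_pos (by linarith) hm0
  have hcast : ∀ p ∈ F, ((p : ℝ) - 1) * (((q : ℝ) - 1) * m) ≤ X := by
    intro p hp
    obtain ⟨h2, h3, h4⟩ := hF p hp
    have h5 := h2.one_le
    have h6 := hq.one_le
    push_cast [Nat.cast_sub h5, Nat.cast_sub h6] at h4
    exact h4
  have hpY : ∀ p ∈ F, (p : ℝ) ≤ Y + 1 := by
    intro p hp
    have h2 := hcast p hp
    have h3 : (p : ℝ) - 1 ≤ Y := by
      rw [hY, le_div_iff₀ hqm]
      exact h2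
    linarith
  have hqY : (q : ℝ) - 1 ≤ Y := by
    have h2 := hpY p₁ hp₁
    have h3 : (q : ℝ) + 1 ≤ p₁ := by exact_mod_cast (hF p₁ hp₁).2.1
    linarith
  have hY1 : 1 ≤ Y := by linarith
  have hXY : X = Y * (((q : ℝ) - 1) * m) := by
    rw [hY, div_mul_cancel₀ _ hqm.ne']
  have hlogY : Real.log X / 3 ≤ Real.log Y := by
    have h2 : X ≤ Y * Y * m := by
      calc X = Y * (((q : ℝ) - 1) * m) := hXY
        _ ≤ Y * (Y * m) := by
            apply mul_le_mul_of_nonneg_left _ (by linarith)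
            exact mul_le_mul_of_nonneg_right hqY hm0.le
        _ = _ := by ring
    have h3 := Real.log_le_log hXpos h2
    rw [Real.log_mul (by positivity) hm0.ne', Real.log_mul (by positivity) (by positivity)] at h3
    linarith
  have hYlarge : x₀ ≤ Y + 1 := by
    have h2 : Real.log Y ≤ Y - 1 := Real.log_le_sub_one_of_pos (by linarith)
    have h3 := Real.add_one_le_exp (U : ℝ)
    have h4 := le_abs_self x₀
    linarith
  have h5 := hx₀ (Y + 1) hYlarge
  have hcard : F.card ≤ Nat.primeCounting ⌊Y + 1⌋₊ := by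
    rw [← Nat.primesLE_card_eq_primeCounting]
    apply Finset.card_le_card
    intro p hp
    rw [Nat.mem_primesLE]
    exact ⟨Nat.le_floor (hpY p hp), (hF p hp).1⟩
  have hl1 : Real.log Y ≤ Real.log (Y + 1) := Real.log_le_log (by linarith) (by linarith)
  have hlY0 : 0 < Real.log X / 3 := by positivity
  have h6 : (Nat.primeCounting ⌊Y + 1⌋₊ : ℝ) ≤ 2 * (Y + 1) / (Real.log X / 3) := by
    have hlog4 : Real.log 4 + 1 / 2 ≤ 2 := by
      have h7 : Real.log 4 = 2 * Real.log 2 := by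
        rw [show (4 : ℝ) = 2 ^ 2 by norm_num, Real.log_pow]
        norm_num
      have := Real.log_two_lt_d9
      linarith
    refine h5.trans ?_
    calc (Real.log 4 + 1 / 2) * (Y + 1) / Real.log (Y + 1) ≤
          2 * (Y + 1) / Real.log (Y + 1) := by
          apply div_le_div_of_nonneg_right _ (by linarith)
          exact mul_le_mul_of_nonneg_right hlog4 (by linarith)
      _ ≤ _ := div_le_div_of_nonneg_left (by linarith) hlY0 (by linarith)
  calc (F.card : ℝ) ≤ Nat.primeCounting ⌊Y + 1⌋₊ := by exact_mod_cast hcard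
    _ ≤ _ := h6
    _ ≤ 2 * (2 * Y) / (Real.log X / 3) := by
        apply div_le_div_of_nonneg_right _ hlY0.le
        linarith
    _ = 12 * (X / Real.log X) * ((1 / (m : ℝ)) * (1 / ((q : ℝ) - 1))) := by
        rw [hY]
        have : (q : ℝ) - 1 ≠ 0 := by linarith
        field_simp
        ring
    _ ≤ 12 * (X / Real.log X) * ((1 / (m : ℝ)) * (2 / (q : ℝ))) := by
        apply mul_le_mul_of_nonneg_left _ (by positivity)
        apply mul_le_mul_of_nonneg_left _ (by positivity)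
        rw [div_le_div_iff₀ (by linarith) (by linarith)]
        linarith
    _ = _ := by ring

/-- the mass of the primes `q` -/
private theorem mass_q : ∃ C : ℝ, 0 < C ∧ ∀ U : ℕ, 1 ≤ Real.log U → 
    ∑ q ∈ ((Finset.range (U + 3)).filter
      (fun s : ℕ => (U : ℝ) - 20 * Real.log U - 1 < s)).biUnion prLev, 1 / (q : ℝ) ≤
      C * Real.log U := by
  obtain ⟨C, hC, hlm⟩ := level_mass
  refine ⟨24 * (1 + C), by positivity, ?_⟩
  intro U hlog
  have h1 : ∑ q ∈ ((Finset.range (U + 3)).filter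
      (fun s : ℕ => (U : ℝ) - 20 * Real.log U - 1 < s)).biUnion prLev, 1 / (q : ℝ) ≤
      ∑ s ∈ (Finset.range (U + 3)).filter
        (fun s : ℕ => (U : ℝ) - 20 * Real.log U - 1 < s), ∑ q ∈ prLev s, 1 / (q : ℝ) := by
    rw [Finset.sum_biUnion]
    intro s _ s' _ hss
    apply Finset.disjoint_left.mpr
    intro r hr hr'
    exact hss ((mem_prLev.mp hr).2.symm.trans (mem_prLev.mp hr').2)
  refine h1.trans ?_
  have h2 : ∀ s ∈ (Finset.range (U + 3)).filter
        (fun s : ℕ => (U : ℝ) - 20 * Real.log U - 1 < s), ∑ q ∈ prLev s, 1 / (q : ℝ) ≤ 1 + C := by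
    intro s _
    have h3 := (abs_le.mp (hlm s)).2
    have h4 : Real.exp (-(s : ℝ)) ≤ 1 := by
      apply Real.exp_le_one_iff.mpr
      have : (0 : ℝ) ≤ s := Nat.cast_nonneg _
      linarith
    have h5 : C * Real.exp (-(s : ℝ)) ≤ C * 1 := mul_le_mul_of_nonneg_left h4 hC.le
    linarith
  refine (Finset.sum_le_sum h2).trans ?_
  rw [Finset.sum_const, nsmul_eq_mul]
  have h6 : (((Finset.range (U + 3)).filter
        (fun s : ℕ => (U : ℝ) - 20 * Real.log U - 1 < s)).card : ℝ) ≤ 24 * Real.log U := by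
    have h7 : (Finset.range (U + 3)).filter
        (fun s : ℕ => (U : ℝ) - 20 * Real.log U - 1 < s) ⊆
        Finset.Ico (U - ⌊20 * Real.log U + 1⌋₊) (U + 3) := by
      intro s hs
      rw [Finset.mem_filter, Finset.mem_range] at hs
      rw [Finset.mem_Ico]
      refine ⟨?_, hs.1⟩
      have h8 : (U : ℝ) - s < 20 * Real.log U + 1 := by linarith
      have h9 : U - s ≤ ⌊20 * Real.log U + 1⌋₊ := by
        apply Nat.le_floor
        rcases Nat.le_total s U with h | h
        · rw [Nat.cast_sub h]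
          exact h8.le
        · rw [Nat.sub_eq_zero_of_le h]
          push_cast
          linarith
      omega
    have h10 := Finset.card_le_card h7
    rw [Nat.card_Ico] at h10
    have h11 : (⌊20 * Real.log U + 1⌋₊ : ℝ) ≤ 20 * Real.log U + 1 := Nat.floor_le (by linarith)
    have h12 : (((Finset.range (U + 3)).filter
        (fun s : ℕ => (U : ℝ) - 20 * Real.log U - 1 < s)).card : ℝ) ≤
        ((3 + ⌊20 * Real.log U + 1⌋₊ : ℕ) : ℝ) := by
      exact_mod_cast h10.trans (by omega)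
    push_cast at h12
    linarith
  calc _ ≤ 24 * Real.log U * (1 + C) := mul_le_mul_of_nonneg_right h6 (by positivity)
    _ = _ := by ring

theorem bad_top : ∃ (C : ℝ) (U₀ : ℕ), 0 < C ∧ ∀ U : ℕ, U₀ ≤ U → ∀ X : ℝ, 1 ≤ X → (U : ℝ) ≤ LL X →
    LL X ≤ U + 2 →
    (cnt X {v | ∃ p n : ℕ, RepT U p n v ∧ beta U n 0 ≤ U + 4 * HH U ∧
      (U : ℝ) - 20 * Real.log U < top U n + SS U} : ℝ) ≤
      C * (X / Real.log X) * (Real.log U * GG U 1 (9 / 10 * U)) := by
  classical
  obtain ⟨U₁, hst⟩ := structure_top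
  obtain ⟨U₂, hcp⟩ := count_p
  obtain ⟨U₃, hpar⟩ := params
  obtain ⟨C, hC, hmq⟩ := mass_q
  refine ⟨24 * C, max (max U₁ U₂) U₃, by positivity, ?_⟩
  intro U hU X hX hX1 hX2
  have hU1 : U₁ ≤ U := le_trans (le_trans (le_max_left _ _) (le_max_left _ _)) hU
  have hU2 : U₂ ≤ U := le_trans (le_trans (le_max_right _ _) (le_max_left _ _)) hU
  have hU3 : U₃ ≤ U := le_trans (le_max_right _ _) hU
  obtain ⟨-, hlogU⟩ := hpar U hU3
  set A : Set ℕ := {v | ∃ p n : ℕ, RepT U p n v ∧ beta U n 0 ≤ U + 4 * HH U ∧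
      (U : ℝ) - 20 * Real.log U < top U n + SS U} with hA
  set Ms := (Finset.Icc 1 (NN U)).filter (fun m => m ∈ Gset U 1 (9 / 10 * U) ∧
    Real.log m ≤ Real.log X / 3) with hMs
  set Qs := ((Finset.range (U + 3)).filter
      (fun s : ℕ => (U : ℝ) - 20 * Real.log U - 1 < s)).biUnion prLev with hQs
  set F : ℕ → ℕ → Finset ℕ := fun m q => (Finset.range (⌊X⌋₊ + 2)).filter
    (fun p => p.Prime ∧ q < p ∧ (((p - 1) * ((q - 1) * m) : ℕ) : ℝ) ≤ X) with hF
  -- trivial case
  by_cases hXX : 0 < Real.log X ∧ 0 < X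
  · obtain ⟨hX0, hXpos⟩ := hXX
    have hsub : {v : ℕ | v ∈ A ∧ (v : ℝ) ≤ X} ⊆
        ((Ms.biUnion (fun m => Qs.biUnion (fun q => (F m q).image
          (fun p => (p - 1) * ((q - 1) * m)))) : Finset ℕ) : Set ℕ) := by
      rintro v ⟨⟨p, n, hR, hb, ht⟩, hv⟩
      obtain ⟨q, m, hq, hqp, hl1, hl2, hmG, hm1, hm2, hm3, rfl⟩ :=
        hst U hU1 X hX1 hX2 p n v hR hb ht hv
      have hp : p.Prime := hR.1.1
      rw [Finset.mem_coe, Finset.mem_biUnion]
      refine ⟨m, ?_, ?_⟩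
      · rw [hMs, Finset.mem_filter, Finset.mem_Icc]
        exact ⟨⟨hm1, hm2⟩, hmG, hm3⟩
      rw [Finset.mem_biUnion]
      refine ⟨q, ?_, ?_⟩
      · rw [hQs, Finset.mem_biUnion]
        refine ⟨lev q, ?_, mem_prLev.mpr ⟨hq, rfl⟩⟩
        rw [Finset.mem_filter, Finset.mem_range]
        exact ⟨by omega, hl1⟩
      rw [Finset.mem_image]
      refine ⟨p, ?_, rfl⟩
      rw [hF, Finset.mem_filter, Finset.mem_range]
      refine ⟨?_, hp, hqp, hv⟩
      have h1 : p - 1 ≤ ⌊X⌋₊ := by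
        apply Nat.le_floor
        refine le_trans ?_ hv
        have h2 : 0 < (q - 1) * m := Nat.mul_pos (by have := hq.two_le; omega) hm1
        exact_mod_cast Nat.le_mul_of_pos_right (p - 1) h2
      omega
    have hcnt : (cnt X A : ℝ) ≤ ∑ m ∈ Ms, ∑ q ∈ Qs, ((F m q).card : ℝ) := by
      have h1 : cnt X A ≤ (Ms.biUnion (fun m => Qs.biUnion (fun q => (F m q).image
          (fun p => (p - 1) * ((q - 1) * m))))).card := by
        unfold cnt
        rw [← Set.ncard_coe_finset]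
        exact Set.ncard_le_ncard hsub (Finset.finite_toSet _)
      have h2 : (Ms.biUnion (fun m => Qs.biUnion (fun q => (F m q).image
          (fun p => (p - 1) * ((q - 1) * m))))).card ≤ ∑ m ∈ Ms, ∑ q ∈ Qs, (F m q).card := by
        refine Finset.card_biUnion_le.trans ?_
        apply Finset.sum_le_sum
        intro m _
        refine Finset.card_biUnion_le.trans ?_
        apply Finset.sum_le_sum
        intro q _
        exact Finset.card_image_le
      exact_mod_cast h1.trans h2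
    refine hcnt.trans ?_
    have h3 : ∀ m ∈ Ms, ∀ q ∈ Qs, ((F m q).card : ℝ) ≤
        24 * (X / Real.log X) * ((1 / (m : ℝ)) * (1 / (q : ℝ))) := by
      intro m hm q hq
      rw [hMs, Finset.mem_filter, Finset.mem_Icc] at hm
      rw [hQs, Finset.mem_biUnion] at hq
      obtain ⟨s, -, hq⟩ := hq
      apply hcp U hU2 X hX1 hX0 hXpos q m (mem_prLev.mp hq).1 hm.1.1 hm.2.2
      intro p hp
      rw [hF, Finset.mem_filter] at hp
      exact hp.2
    calc ∑ m ∈ Ms, ∑ q ∈ Qs, ((F m q).card : ℝ) ≤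
          ∑ m ∈ Ms, ∑ q ∈ Qs, 24 * (X / Real.log X) * ((1 / (m : ℝ)) * (1 / (q : ℝ))) :=
          Finset.sum_le_sum (fun m hm => Finset.sum_le_sum (fun q hq => h3 m hm q hq))
      _ = 24 * (X / Real.log X) * ((∑ m ∈ Ms, 1 / (m : ℝ)) * ∑ q ∈ Qs, 1 / (q : ℝ)) := by
          rw [Finset.sum_mul_sum, Finset.mul_sum]
          apply Finset.sum_congr rfl
          intro m _
          rw [Finset.mul_sum]
      _ ≤ 24 * (X / Real.log X) * (GG U 1 (9 / 10 * U) * (C * Real.log U)) := by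
          apply mul_le_mul_of_nonneg_left _ (by positivity)
          apply mul_le_mul _ (hmq U hlogU) (Finset.sum_nonneg (fun _ _ => by positivity)) 
            mass_nonneg
          unfold mass
          rw [hMs, Finset.sum_filter]
          apply Finset.sum_le_sum
          intro m _
          split_ifs with h
          · rw [Set.indicator_of_mem h.1]
          · exact Set.indicator_nonneg (fun _ _ => by positivity) _
      _ = _ := by ring
  · exfalso
    apply hXX
    refine ⟨?_, by linarith⟩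
    rcases hX.lt_or_eq with h | h
    · exact Real.log_pos h
    · exfalso
      have h1 : LL X = 0 := by unfold LL; rw [← h, Real.log_one, Real.log_zero]
      rw [h1] at hX1
      have h2 : (U : ℝ) = 0 := le_antisymm hX1 (Nat.cast_nonneg _)
      rw [h2, Real.log_zero] at hlogU
      linarith

end P031
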