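import Vale.Agent.P031.Bad5
import Vale.Agent.P031.Bad6

/-!
# P031, module BAD: collects `bad_rep`, `bad_top`
-/
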