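import Vale.Agent.P031.Normal1

/-!
# P031, module NORMAL2: mass of abnormal primes, mass of normal primes of a level

`abn_mass` follows from `abn_count` by dyadic summation (`mass_le_of_cnt`; small dyadic ranges are empty since
abnormal primes are `≥ exp exp S`; `∑_i 1/(i log 2) ≤ C U` over `i ≤ e^{3U+6}`).
`normal_level`: `level_mass` gives `∑_{prLev t} 1/q = 1 + O(e^{-t})`, and the abnormal ones have mass `≤ e^{-U^{1/20}}`.
-/

namespace P031

open scoped BigOperators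

/-- count of abnormal primes in a dyadic range -/
theorem abn_dyadic {U N : ℕ} (hU : 1 ≤ U)
    (hcount : ∀ Y : ℝ, 1 ≤ Y → (SS U : ℝ) ≤ LL Y → LL Y ≤ 3 * U + 6 →
      (cnt Y (Abn U) : ℝ) ≤ Y / Real.log Y * Real.exp (-2 * (U : ℝ) ^ ((1 : ℝ) / 20)))
    (hN : (N : ℝ) ≤ Real.exp (Real.exp (3 * U + 5))) (i : ℕ) (hi : 2 ^ i ≤ 2 * N) :
    (cnt (2 ^ (i + 1)) {v | v ∈ Abn U ∧ 2 ^ i ≤ v} : ℝ) ≤
      2 ^ i * (3 * Real.exp (-2 * (U : ℝ) ^ ((1 : ℝ) / 20)) * (1 / ((i : ℝ) + 1))) := by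
  have hSU : 1 ≤ SS U := Nat.le_sqrt.2 (by simpa using hU)
  have hlog2 : (2 : ℝ) / 3 ≤ Real.log 2 := by
    have := Real.log_two_gt_d9
    linarith
  have hlogY : Real.log ((2 : ℝ) ^ (i + 1)) = ((i : ℝ) + 1) * Real.log 2 := by
    rw [Real.log_pow]
    push_cast
    ring
  have hlogpos : 0 < Real.log ((2 : ℝ) ^ (i + 1)) := by
    rw [hlogY]
    have : 0 < Real.log 2 := by linarith
    positivity
  rcases lt_or_ge (LL ((2 : ℝ) ^ (i + 1))) (SS U) with h | h
  · have hempty : {v : ℕ | v ∈ {v | v ∈ Abn U ∧ 2 ^ i ≤ v} ∧ (v : ℝ) ≤ 2 ^ (i + 1)} = ∅ := by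
      refine Set.eq_empty_of_forall_notMem fun v hvv => ?_
      obtain ⟨⟨hv, -⟩, hv2⟩ := hvv
      have h1 := (le_lev_iff hSU).1 hv.2.1
      have h2 : Real.exp (Real.exp (SS U : ℝ)) ≤ 2 ^ (i + 1) := h1.trans hv2
      have h3 : Real.exp (SS U : ℝ) ≤ Real.log (2 ^ (i + 1)) := by
        rw [Real.le_log_iff_exp_le (by positivity)]
        exact h2
      have h4 : (SS U : ℝ) ≤ LL (2 ^ (i + 1)) := by
        unfold LL
        rw [Real.le_log_iff_exp_le hlogpos]
        exact h3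
      linarith
    unfold cnt
    rw [hempty, Set.ncard_empty, Nat.cast_zero]
    positivity
  · have h6 : LL ((2 : ℝ) ^ (i + 1)) ≤ 3 * U + 6 := by
      unfold LL
      rw [Real.log_le_iff_le_exp hlogpos, Real.log_le_iff_le_exp (by positivity)]
      have h1 : ((2 : ℝ) ^ i) ≤ 2 * N := by exact_mod_cast hi
      have h2 : (2 : ℝ) ^ (i + 1) ≤ 4 * Real.exp (Real.exp (3 * U + 5)) := by
        rw [pow_succ]
        linarith
      have h3 : (4 : ℝ) ≤ Real.exp (Real.exp (3 * U + 5)) ^ 1 := by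
        have a1 := Real.add_one_le_exp (3 * (U : ℝ) + 5)
        have a2 := Real.add_one_le_exp (Real.exp (3 * (U : ℝ) + 5))
        have a3 : (0 : ℝ) ≤ U := Nat.cast_nonneg _
        rw [pow_one]
        linarith
      have h4 : Real.exp (Real.exp (3 * U + 5)) ^ 2 ≤ Real.exp (Real.exp (3 * U + 6)) := by
        rw [← Real.exp_nat_mul, Real.exp_le_exp]
        have : (3 : ℝ) * U + 6 = 1 + (3 * U + 5) := by ring
        rw [this, Real.exp_add 1 (3 * (U : ℝ) + 5)]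
        have h5 := Real.exp_one_gt_d9
        have : (0 : ℝ) < Real.exp (3 * U + 5) := Real.exp_pos _
        push_cast
        nlinarith
      have h5 : 0 < Real.exp (Real.exp (3 * U + 5)) := Real.exp_pos _
      nlinarith
    have h7 := hcount _ (one_le_pow₀ (by norm_num)) h h6
    have h8 : (cnt (2 ^ (i + 1)) {v | v ∈ Abn U ∧ 2 ^ i ≤ v} : ℝ) ≤ cnt (2 ^ (i + 1)) (Abn U) := by
      have := cnt_mono (X := 2 ^ (i + 1)) (A := {v | v ∈ Abn U ∧ 2 ^ i ≤ v}) (B := Abn U)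
        (fun v hv => hv.1)
      exact_mod_cast this
    refine h8.trans (h7.trans ?_)
    rw [hlogY]
    have h9 : (2 : ℝ) ^ (i + 1) / (((i : ℝ) + 1) * Real.log 2) ≤
        2 ^ i * (3 * (1 / ((i : ℝ) + 1))) := by
      have hi0 : (0 : ℝ) < (i : ℝ) + 1 := by positivity
      rw [div_le_iff₀ (by positivity), pow_succ]
      have : (2 : ℝ) ^ i * (3 * (1 / ((i : ℝ) + 1))) * (((i : ℝ) + 1) * Real.log 2) =
          2 ^ i * (3 * Real.log 2) := by
        field_simp
      rw [this]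
      gcongr
      linarith
    calc (2 : ℝ) ^ (i + 1) / (((i : ℝ) + 1) * Real.log 2) *
          Real.exp (-2 * (U : ℝ) ^ ((1 : ℝ) / 20))
        ≤ 2 ^ i * (3 * (1 / ((i : ℝ) + 1))) * Real.exp (-2 * (U : ℝ) ^ ((1 : ℝ) / 20)) := by
          gcongr
      _ = _ := by ring

theorem abn_harmonic {U N : ℕ} (hN : (N : ℝ) ≤ Real.exp (Real.exp (3 * U + 5))) :
    ∑ i ∈ (Finset.range (N + 1)).filter (fun i => 2 ^ i ≤ N), (1 / ((i : ℝ) + 1)) ≤
      3 * U + 7 := by
  have hsub : (Finset.range (N + 1)).filter (fun i => 2 ^ i ≤ N) ⊆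
      Finset.range (Nat.log 2 N + 1) := by
    intro i hi
    rw [Finset.mem_filter] at hi
    have hN0 : N ≠ 0 := by
      have := hi.2
      have h2 : 0 < 2 ^ i := by positivity
      omega
    rw [Finset.mem_range]
    have := Nat.le_log_of_pow_le (by norm_num : 1 < 2) hi.2
    omega
  have h1 : ∑ i ∈ (Finset.range (N + 1)).filter (fun i => 2 ^ i ≤ N), (1 / ((i : ℝ) + 1)) ≤
      ∑ i ∈ Finset.range (Nat.log 2 N + 1), (1 / ((i : ℝ) + 1)) :=
    Finset.sum_le_sum_of_subset_of_nonneg hsub fun i _ _ => by positivity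
  have h2 : ∑ i ∈ Finset.range (Nat.log 2 N + 1), (1 / ((i : ℝ) + 1)) =
      ((harmonic (Nat.log 2 N + 1) : ℚ) : ℝ) := by
    unfold harmonic
    push_cast
    exact Finset.sum_congr rfl fun i _ => by rw [one_div]
  have h3 := harmonic_le_one_add_log (Nat.log 2 N + 1)
  have h4 : Real.log ((Nat.log 2 N + 1 : ℕ) : ℝ) ≤ 3 * U + 6 := by
    rw [Real.log_le_iff_le_exp (by positivity)]
    have hE : 1 ≤ Real.exp (3 * (U : ℝ) + 5) := Real.one_le_exp (by positivity)
    have h5 : (Nat.log 2 N : ℝ) * Real.log 2 ≤ Real.exp (3 * U + 5) := by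
      rcases Nat.eq_zero_or_pos N with h0 | h0
      · subst h0
        simp
        positivity
      · have h6 : (2 : ℝ) ^ (Nat.log 2 N) ≤ N := by exact_mod_cast Nat.pow_log_le_self 2 (by omega)
        have h7 := Real.log_le_log (by positivity) (h6.trans hN)
        rwa [Real.log_pow, Real.log_exp] at h7
    have hlog2 := Real.log_two_gt_d9
    have hn0 : (0 : ℝ) ≤ Nat.log 2 N := Nat.cast_nonneg _
    have h8 : Real.exp (3 * (U : ℝ) + 6) = Real.exp 1 * Real.exp (3 * U + 5) := by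
      rw [← Real.exp_add]
      ring_nf
    have h9 := Real.exp_one_gt_d9
    have h10 : (Nat.log 2 N : ℝ) ≤ 3 / 2 * Real.exp (3 * U + 5) := by nlinarith
    rw [h8]
    push_cast
    nlinarith
  linarith

theorem abn_eventually : ∃ U₀ : ℕ, ∀ U : ℕ, U₀ ≤ U →
    3 * (3 * (U : ℝ) + 7) ≤ Real.exp ((U : ℝ) ^ ((1 : ℝ) / 20)) := by
  -- `exp y ≥ y^40 / 40!`, `y = U^(1/20)`
  obtain ⟨U₀, hU₀⟩ := exists_nat_ge ((30 * (Nat.factorial 40 : ℝ)))
  refine ⟨max U₀ 1, fun U hU => ?_⟩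
  have hU1 : (1 : ℝ) ≤ U := by exact_mod_cast (le_max_right _ _).trans hU
  have hU2 : (30 * (Nat.factorial 40 : ℝ)) ≤ U :=
    hU₀.trans (by exact_mod_cast (le_max_left _ _).trans hU)
  set y : ℝ := (U : ℝ) ^ ((1 : ℝ) / 20) with hy
  have hy0 : 0 ≤ y := Real.rpow_nonneg (by linarith) _
  have h1 := Real.pow_div_factorial_le_exp y hy0 40
  have h2 : y ^ 40 = (U : ℝ) ^ 2 := by
    rw [hy, ← Real.rpow_natCast, ← Real.rpow_mul (by linarith), ← Real.rpow_natCast]
    norm_num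
  rw [h2] at h1
  refine le_trans ?_ h1
  rw [le_div_iff₀ (by positivity)]
  have h3 : 3 * (3 * (U : ℝ) + 7) ≤ 30 * U := by linarith
  calc 3 * (3 * (U : ℝ) + 7) * (Nat.factorial 40 : ℝ)
      ≤ 30 * U * (Nat.factorial 40 : ℝ) := by gcongr
    _ = (30 * (Nat.factorial 40 : ℝ)) * U := by ring
    _ ≤ U * U := by gcongr
    _ = (U : ℝ) ^ 2 := by ring

theorem abn_mass : ∃ U₀ : ℕ, ∀ U : ℕ, U₀ ≤ U → ∀ N : ℕ, (N : ℝ) ≤ Real.exp (Real.exp (3 * U + 5)) →
    mass N (Abn U) ≤ Real.exp (-(U : ℝ) ^ ((1 : ℝ) / 20)) := by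
  obtain ⟨U₁, hU₁⟩ := abn_count
  obtain ⟨U₂, hU₂⟩ := abn_eventually
  refine ⟨max (max U₁ U₂) 1, fun U hU N hN => ?_⟩
  have hU1 : U₁ ≤ U := (le_max_left _ _).trans ((le_max_left _ _).trans hU)
  have hU2 : U₂ ≤ U := (le_max_right _ _).trans ((le_max_left _ _).trans hU)
  have hU3 : 1 ≤ U := (le_max_right _ _).trans hU
  refine (mass_le_of_cnt _ (fun i hi => abn_dyadic hU3 (hU₁ U hU1) hN i hi)).trans ?_
  rw [← Finset.mul_sum]
  have h1 := abn_harmonic hN
  have h2 := hU₂ U hU2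
  set y : ℝ := (U : ℝ) ^ ((1 : ℝ) / 20) with hy
  have h3 : Real.exp (-2 * y) = Real.exp (-y) * Real.exp (-y) := by
    rw [← Real.exp_add]
    ring_nf
  have h4 : Real.exp (-y) * Real.exp y = 1 := by
    rw [← Real.exp_add]
    simp
  calc 3 * Real.exp (-2 * y) *
        ∑ i ∈ (Finset.range (N + 1)).filter (fun i => 2 ^ i ≤ N), (1 / ((i : ℝ) + 1))
      ≤ 3 * Real.exp (-2 * y) * (3 * U + 7) := by gcongr
    _ = (3 * (3 * (U : ℝ) + 7)) * (Real.exp (-y) * Real.exp (-y)) := by rw [h3]; ring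
    _ ≤ Real.exp y * (Real.exp (-y) * Real.exp (-y)) := by gcongr
    _ = (Real.exp (-y) * Real.exp y) * Real.exp (-y) := by ring
    _ = Real.exp (-y) := by rw [h4, one_mul]

/-- the normal primes of a level have mass between `1/2` and `2` -/
theorem normal_level : ∃ U₀ : ℕ, ∀ U : ℕ, U₀ ≤ U → ∀ t : ℕ, SS U ≤ t → t ≤ 3 * U →
    (1 / 2 : ℝ) ≤ ∑ q ∈ prLev t, Set.indicator {q | Normal U q} (fun q : ℕ => 1 / ((q : ℝ) - 1)) q ∧
    ∑ q ∈ prLev t, 1 / ((q : ℝ) - 1) ≤ 2 := by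
  obtain ⟨U₁, hU₁⟩ := abn_mass
  obtain ⟨U₂, hU₂⟩ := abn_eventually
  obtain ⟨C, hC, hlev⟩ := level_mass
  obtain ⟨T, hT⟩ := exists_nat_ge (8 * C)
  refine ⟨max (max U₁ U₂) ((T + 1) * (T + 1)), fun U hU t ht ht' => ?_⟩
  have hU1 : U₁ ≤ U := (le_max_left _ _).trans ((le_max_left _ _).trans hU)
  have hU2 : U₂ ≤ U := (le_max_right _ _).trans ((le_max_left _ _).trans hU)
  have hTt : T + 1 ≤ t := (Nat.le_sqrt.2 ((le_max_right _ _).trans hU)).trans ht
  have ht1 : 1 ≤ t := by omega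
  have hexp : C * Real.exp (-(t : ℝ)) ≤ 1 / 8 := by
    have h1 : (T : ℝ) + 1 ≤ t := by exact_mod_cast hTt
    have h2 := Real.add_one_le_exp (t : ℝ)
    have h3 : 8 * C ≤ Real.exp t := by linarith
    have h4 : Real.exp (-(t : ℝ)) * Real.exp t = 1 := by
      rw [← Real.exp_add]
      simp
    have h5 := Real.exp_pos (-(t : ℝ))
    nlinarith
  have hl := abs_le.1 ((hlev t).trans hexp)
  have hq : ∀ q ∈ prLev t, (3 : ℝ) ≤ q := by
    intro q hq
    have h1 := (lev_eq_iff ht1).1 (mem_prLev.1 hq).2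
    have h2 : (1 : ℝ) ≤ t := by exact_mod_cast ht1
    have h3 := Real.add_one_le_exp (t : ℝ)
    have h4 := Real.add_one_le_exp (Real.exp (t : ℝ))
    linarith [h1.1]
  constructor
  · have hNle : ((⌊Real.exp (Real.exp (3 * U + 5))⌋₊ : ℕ) : ℝ) ≤
        Real.exp (Real.exp (3 * U + 5)) := Nat.floor_le (Real.exp_pos _).le
    have hmass := hU₁ U hU1 _ hNle
    have hsmall : Real.exp (-(U : ℝ) ^ ((1 : ℝ) / 20)) ≤ 1 / 8 := by
      have h1 := hU₂ U hU2
      have h2 : (8 : ℝ) ≤ Real.exp ((U : ℝ) ^ ((1 : ℝ) / 20)) := by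
        have : (0 : ℝ) ≤ U := Nat.cast_nonneg _
        linarith
      rw [Real.exp_neg]
      rw [inv_le_comm₀ (Real.exp_pos _) (by norm_num)]
      norm_num
      exact h2
    have hab : ∑ q ∈ prLev t, Set.indicator (Abn U) (fun m : ℕ => 1 / (m : ℝ)) q ≤ 1 / 8 := by
      refine le_trans ?_ (hmass.trans hsmall)
      unfold mass
      refine Finset.sum_le_sum_of_subset_of_nonneg ?_
        (fun m _ _ => Set.indicator_nonneg (fun m _ => by positivity) m)
      intro q hq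
      have h1 := (lev_eq_iff ht1).1 (mem_prLev.1 hq).2
      rw [Finset.mem_Icc]
      refine ⟨(mem_prLev.1 hq).1.one_le, Nat.le_floor (h1.2.le.trans ?_)⟩
      rw [Real.exp_le_exp, Real.exp_le_exp]
      have : (t : ℝ) ≤ 3 * U := by exact_mod_cast ht'
      linarith
    have hle : ∀ q ∈ prLev t, 1 / (q : ℝ) - Set.indicator (Abn U) (fun m : ℕ => 1 / (m : ℝ)) q ≤
        Set.indicator {q | Normal U q} (fun q : ℕ => 1 / ((q : ℝ) - 1)) q := by
      intro q hqt
      have h3 := hq q hqt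
      by_cases hN : Normal U q
      · rw [Set.indicator_of_mem (show q ∈ {q | Normal U q} from hN)]
        have h4 : 0 ≤ Set.indicator (Abn U) (fun m : ℕ => 1 / (m : ℝ)) q :=
          Set.indicator_nonneg (fun m _ => by positivity) q
        have h5 : 1 / (q : ℝ) ≤ 1 / ((q : ℝ) - 1) :=
          one_div_le_one_div_of_le (by linarith) (by linarith)
        linarith
      · rw [Set.indicator_of_notMem (show q ∉ {q | Normal U q} from hN)]
        have hmem : q ∈ Abn U := by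
          refine ⟨(mem_prLev.1 hqt).1, ?_, hN⟩
          rw [(mem_prLev.1 hqt).2]
          exact ht
        rw [Set.indicator_of_mem hmem]
        simp
    have hsum := Finset.sum_le_sum hle
    rw [Finset.sum_sub_distrib] at hsum
    linarith [hl.1]
  · have hle : ∀ q ∈ prLev t, 1 / ((q : ℝ) - 1) ≤ 3 / 2 * (1 / (q : ℝ)) := by
      intro q hqt
      have h3 := hq q hqt
      rw [mul_one_div, div_le_div_iff₀ (by linarith) (by linarith)]
      linarith
    have hsum := Finset.sum_le_sum hle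
    rw [← Finset.mul_sum] at hsum
    linarith [hl.2]

end P031
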