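import Vale.Agent.P031.OB1

/-!
# P031, module OB2: mass version of `ob`

PROOF.  For each `t = lam U q ≤ 3U` sum `ob` (with `b = t + H`) over dyadic `X = 2^(i+1)`: `log m ≤ U² e^{t + S}`
(`log_le_of_good` for `q n'`, `beta_cons` gives `top U (q n') = lam U q`), so there are at most
`2 U² e^{t + S} + 3` nonempty dyadic ranges, `LL X ≤ 4U`, each of relative mass `≤ 2 e^{-(t + H) + H/8}`
(small `X`: `m ≥ q - 1` is large).  Total `≤ (3U+1) C U² e^{S - 7H/8} ≤ e^{-H/2}`.
-/

namespace P031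

open scoped BigOperators

/-- the exceptional values with a fixed level of the top prime -/
def obA (U t : ℕ) : Set ℕ :=
  {m | ∃ q n' : ℕ, Rep U q n' m ∧ Good U (q * n') ∧ ¬ q ∣ n' ∧ top U n' ≤ lam U q ∧
      lam U q = t ∧ (lam U q : ℝ) + HH U ≤ beta U n' 0}

theorem ob_mass_biUnion {ι : Type*} (N : ℕ) (T : Finset ι) (A : ι → Set ℕ) :
    mass N {m | ∃ t ∈ T, m ∈ A t} ≤ ∑ t ∈ T, mass N (A t) := by
  classical
  induction T using Finset.induction_on with
  | empty =>
    simp [mass]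
  | insert a T ha ih =>
    rw [Finset.sum_insert ha]
    have h1 : {m | ∃ t ∈ insert a T, m ∈ A t} = A a ∪ {m | ∃ t ∈ T, m ∈ A t} := by
      ext m
      simp only [Finset.mem_insert, Set.mem_ofPred_eq, Set.mem_union]
      constructor
      · rintro ⟨t, rfl | ht, hm⟩
        · exact Or.inl hm
        · exact Or.inr ⟨t, ht, hm⟩
      · rintro (hm | ⟨t, ht, hm⟩)
        · exact ⟨a, Or.inl rfl, hm⟩
        · exact ⟨t, Or.inr ht, hm⟩
    rw [h1]
    exact mass_union.trans (by linarith)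

theorem obA_log {U t m : ℕ} (hU : 1 ≤ U) (hm : m ∈ obA U t) :
    1 ≤ m ∧ Real.log m ≤ (U : ℝ) ^ 2 * Real.exp (t + SS U) := by
  obtain ⟨q, n', hR, hG, hqn, htop, hlam, -⟩ := hm
  obtain ⟨hq, hqN, hqS, hGn, -, rfl⟩ := hR
  have hn0 : n' ≠ 0 := by have := hGn.pos; omega
  have hq2 := hq.two_le
  have htot := Nat.totient_pos.mpr hGn.pos
  have h1 : 1 ≤ (q - 1) * Nat.totient n' := Nat.mul_pos (by omega) htot
  refine ⟨h1, ?_⟩
  have h2 := log_le_of_good hU hG
  rw [(beta_cons hU hq hqS hn0 hqn htop 0).2, hlam] at h2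
  refine le_trans ?_ h2
  apply Real.log_le_log (by exact_mod_cast h1)
  have h3 : (q - 1) * Nat.totient n' ≤ q * n' := Nat.mul_le_mul (by omega) (Nat.totient_le n')
  exact_mod_cast h3

theorem obA_large {U t m : ℕ} (hm : m ∈ obA U t) (hS : 2 ≤ SS U) : 16 ≤ m := by
  obtain ⟨q, n', hR, -⟩ := hm
  obtain ⟨hq, -, hqS, hGn, -, rfl⟩ := hR
  have htot := Nat.totient_pos.mpr hGn.pos
  have h1 := (le_lev_iff (s := SS U) (r := q) (by omega)).mp hqS
  have h2 : (17 : ℝ) ≤ Real.exp (Real.exp (SS U)) := by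
    have h3 : (2 : ℝ) ≤ SS U := by exact_mod_cast hS
    have h4 : (2.7 : ℝ) ≤ Real.exp 1 := by
      have := Real.exp_one_gt_d9
      linarith
    have h5 : (7 : ℝ) ≤ Real.exp (SS U) := by
      calc (7 : ℝ) ≤ Real.exp 1 * Real.exp 1 := by nlinarith
        _ = Real.exp 2 := by rw [← Real.exp_add]; norm_num
        _ ≤ _ := Real.exp_le_exp.mpr h3
    calc (17 : ℝ) ≤ 2.7 ^ 7 := by norm_num
      _ ≤ (Real.exp 1) ^ 7 := pow_le_pow_left₀ (by norm_num) h4 7
      _ = Real.exp 7 := by rw [← Real.exp_nat_mul]; norm_num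
      _ ≤ _ := Real.exp_le_exp.mpr h5
  have h6 : (17 : ℝ) ≤ q := h2.trans h1
  have h7 : 17 ≤ q := by exact_mod_cast h6
  calc 16 ≤ q - 1 := by omega
    _ ≤ (q - 1) * Nat.totient n' := Nat.le_mul_of_pos_right _ htot

theorem obA_mass {U₀ : ℕ} (hob : ∀ U : ℕ, U₀ ≤ U → ∀ X : ℝ, 16 ≤ X → LL X ≤ 4 * U → ∀ b : ℝ,
    (cnt X {v | ∃ p n : ℕ, Rep U p n v ∧ b ≤ beta U n 0} : ℝ) ≤ X * Real.exp (-b + HH U / 8))
    {U t N : ℕ} (hU : U₀ ≤ U) (hU1 : 1 ≤ U) (hS : 2 ≤ SS U) (ht : t ≤ 3 * U)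
    (hlog : Real.log 2 + 2 * Real.log U + SS U ≤ U) :
    mass N (obA U t) ≤ 6 * (U : ℝ) ^ 2 * Real.exp (SS U - 7 * HH U / 8) := by
  have hU1' : (1 : ℝ) ≤ U := by exact_mod_cast hU1
  set B : ℝ := 2 * ((U : ℝ) ^ 2 * Real.exp (t + SS U)) with hB
  set c : ℝ := 2 * Real.exp (-((t : ℝ) + HH U) + HH U / 8) with hc
  have hc0 : 0 < c := by positivity
  have hB2 : 2 ≤ B := by
    have h1 : 1 ≤ Real.exp ((t : ℝ) + SS U) := Real.one_le_exp (by positivity)
    have h2 : 1 ≤ (U : ℝ) ^ 2 := one_le_pow₀ hU1'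
    nlinarith
  have h1 := mass_le_of_cnt (N := N) (A := obA U t) (fun i => if (i : ℝ) ≤ B then c else 0) ?_
  · refine h1.trans ?_
    rw [← Finset.sum_filter]
    rw [Finset.sum_const, nsmul_eq_mul]
    have h2 : ((((Finset.range (N + 1)).filter (fun i => 2 ^ i ≤ N)).filter
        (fun i : ℕ => (i : ℝ) ≤ B)).card : ℝ) ≤ B + 1 := by
      have h3 : ((Finset.range (N + 1)).filter (fun i => 2 ^ i ≤ N)).filter
          (fun i : ℕ => (i : ℝ) ≤ B) ⊆ Finset.range (⌊B⌋₊ + 1) := by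
        intro i hi
        rw [Finset.mem_filter] at hi
        rw [Finset.mem_range]
        have := Nat.le_floor hi.2
        omega
      have h4 := Finset.card_le_card h3
      rw [Finset.card_range] at h4
      have h5 : (⌊B⌋₊ : ℝ) ≤ B := Nat.floor_le (by linarith)
      calc _ ≤ ((⌊B⌋₊ + 1 : ℕ) : ℝ) := by exact_mod_cast h4
        _ = (⌊B⌋₊ : ℝ) + 1 := by push_cast; ring
        _ ≤ _ := by linarith
    calc _ ≤ (B + 1) * c := mul_le_mul_of_nonneg_right h2 hc0.le
      _ ≤ (3 / 2 * B) * c := mul_le_mul_of_nonneg_right (by linarith) hc0.le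
      _ = 6 * (U : ℝ) ^ 2 * (Real.exp (t + SS U) * Real.exp (-((t : ℝ) + HH U) + HH U / 8)) := by
          rw [hB, hc]; ring
      _ = _ := by
          rw [← Real.exp_add]
          congr 2
          ring
  · intro i _
    by_cases hne : ∃ v, v ∈ {v | v ∈ obA U t ∧ 2 ^ i ≤ v} ∧ (v : ℝ) ≤ 2 ^ (i + 1)
    · obtain ⟨v, ⟨hvA, hiv⟩, hvX⟩ := hne
      have hl2 : (0.6 : ℝ) < Real.log 2 := by
        have := Real.log_two_gt_d9
        linarith
      have hl2' : Real.log 2 ≤ 1 := by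
        have := Real.log_two_lt_d9
        linarith
      obtain ⟨hv1, hvlog⟩ := obA_log hU1 hvA
      have hv16 := obA_large hvA hS
      have hilog : (i : ℝ) * Real.log 2 ≤ (U : ℝ) ^ 2 * Real.exp (t + SS U) := by
        refine le_trans ?_ hvlog
        rw [← Real.log_pow]
        apply Real.log_le_log (by positivity)
        exact_mod_cast hiv
      have hi0 : (0 : ℝ) ≤ i := Nat.cast_nonneg _
      have hiB : (i : ℝ) ≤ B := by nlinarith
      rw [if_pos hiB]
      have hX16 : (16 : ℝ) ≤ 2 ^ (i + 1) := by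
        have : (16 : ℝ) ≤ v := by exact_mod_cast hv16
        linarith
      have hLL : LL (2 ^ (i + 1)) ≤ 4 * U := by
        unfold LL
        have h2 : Real.log (2 ^ (i + 1)) ≤ 2 * ((U : ℝ) ^ 2 * Real.exp (t + SS U)) := by
          rw [Real.log_pow]
          push_cast
          nlinarith
        have h3 : 0 < Real.log ((2 : ℝ) ^ (i + 1)) := Real.log_pos (by linarith)
        calc Real.log (Real.log (2 ^ (i + 1))) ≤
              Real.log (2 * ((U : ℝ) ^ 2 * Real.exp (t + SS U))) := Real.log_le_log h3 h2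
          _ = Real.log 2 + (2 * Real.log U + (t + SS U)) := by
              rw [Real.log_mul (by norm_num) (by positivity), Real.log_mul (by positivity)
                (Real.exp_pos _).ne', Real.log_exp, Real.log_pow]
              push_cast
              ring
          _ ≤ 4 * U := by
              have : (t : ℝ) ≤ 3 * U := by exact_mod_cast ht
              linarith
      have h4 := hob U hU (2 ^ (i + 1)) hX16 hLL ((t : ℝ) + HH U)
      have h5 : cnt (2 ^ (i + 1)) {v | v ∈ obA U t ∧ 2 ^ i ≤ v} ≤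
          cnt (2 ^ (i + 1)) {v | ∃ p n : ℕ, Rep U p n v ∧ (t : ℝ) + HH U ≤ beta U n 0} := by
        apply cnt_mono
        rintro m ⟨⟨q, n', hR, -, -, -, hlam, hbeta⟩, -⟩
        rw [hlam] at hbeta
        exact ⟨q, n', hR, hbeta⟩
      calc (cnt (2 ^ (i + 1)) {v | v ∈ obA U t ∧ 2 ^ i ≤ v} : ℝ) ≤ _ := by exact_mod_cast h5
        _ ≤ _ := h4
        _ = 2 ^ i * c := by rw [hc]; ring
    · have h6 : cnt (2 ^ (i + 1)) {v | v ∈ obA U t ∧ 2 ^ i ≤ v} = 0 := by
        unfold cnt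
        have : {v : ℕ | v ∈ {v | v ∈ obA U t ∧ 2 ^ i ≤ v} ∧ (v : ℝ) ≤ 2 ^ (i + 1)} = ∅ := by
          rw [Set.eq_empty_iff_forall_notMem]
          intro v hv
          exact hne ⟨v, hv⟩
        rw [this, Set.ncard_empty]
      rw [h6]
      split_ifs
      · push_cast; positivity
      · simp

/-- mass version: `m = (q-1) φ(n')` good with top prime `q` but `β₀(n') > lam q + H` has tiny mass
(sum `ob` over dyadic `X`; `log m ≤ U² e^{lev q + 1}`, so for `lam q = t` there are at most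
`U² e^{t + S + 2}` dyadic ranges, each of relative mass `≤ e^{-(t + H) + H/8}`) -/
theorem ob_mass : ∃ U₀ : ℕ, ∀ U : ℕ, U₀ ≤ U →
    mass (NN U) {m | ∃ q n' : ℕ, Rep U q n' m ∧ Good U (q * n') ∧ ¬ q ∣ n' ∧ top U n' ≤ lam U q ∧
      lam U q ≤ 3 * U ∧ (lam U q : ℝ) + HH U ≤ beta U n' 0} ≤ Real.exp (-(HH U) / 2) := by
  obtain ⟨U₁, hob⟩ := ob
  have hev : ∀ᶠ U : ℕ in Filter.atTop,
      3 * Real.log U + 18 ≤ (U : ℝ) ^ ((1 : ℝ) / 100) := by
    have h1 : (fun x : ℝ => 3 * Real.log x + 18) =o[Filter.atTop]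
        (fun x : ℝ => x ^ ((1 : ℝ) / 100)) := by
      apply Asymptotics.IsLittleO.add
      · exact (isLittleO_log_rpow_atTop (by norm_num)).const_mul_left _
      · apply Asymptotics.isLittleO_const_left.mpr
        right
        apply Filter.tendsto_abs_atTop_atTop.comp
        exact tendsto_rpow_atTop (by norm_num)
    have h2 := h1.bound (zero_lt_one)
    have h3 := (tendsto_natCast_atTop_atTop (R := ℝ)).eventually h2
    filter_upwards [h3] with U hU
    rw [one_mul, Real.norm_of_nonneg (by positivity : (0 : ℝ) ≤ (U : ℝ) ^ ((1 : ℝ) / 100))] at hU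
    exact (le_abs_self _).trans hU
  obtain ⟨U₂, hU₂⟩ := Filter.eventually_atTop.mp hev
  refine ⟨max (max U₁ U₂) 4, ?_⟩
  intro U hU
  have hUU₁ : U₁ ≤ U := le_trans (le_trans (le_max_left _ _) (le_max_left _ _)) hU
  have hUU₂ : U₂ ≤ U := le_trans (le_trans (le_max_right _ _) (le_max_left _ _)) hU
  have hU4 : 4 ≤ U := le_trans (le_max_right _ _) hU
  have hU4' : (4 : ℝ) ≤ U := by exact_mod_cast hU4
  have hw := hU₂ U hUU₂
  set w : ℝ := (U : ℝ) ^ ((1 : ℝ) / 100) with hwdef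
  have hlogU : 0 ≤ Real.log U := Real.log_nonneg (by linarith)
  have hw18 : 18 ≤ w := by linarith
  have hHH : HH U = w ^ 60 := by
    unfold HH
    rw [hwdef, ← Real.rpow_natCast, ← Real.rpow_mul (by positivity)]
    norm_num
  have hw100 : (U : ℝ) = w ^ 100 := by
    rw [hwdef, ← Real.rpow_natCast, ← Real.rpow_mul (by positivity)]
    norm_num
  have hS2 : 2 ≤ SS U := by
    unfold SS
    rw [Nat.le_sqrt]
    omega
  have hSS : (SS U : ℝ) ≤ w ^ 50 := by
    have h1 : SS U ^ 2 ≤ U := by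
      have := Nat.sqrt_le U
      unfold SS
      rw [pow_two]
      exact this
    have h2 : (SS U : ℝ) ^ 2 ≤ U := by exact_mod_cast h1
    apply (pow_le_pow_iff_left₀ (by positivity) (by positivity) two_ne_zero).mp
    rw [← pow_mul]
    exact hw100 ▸ h2
  have hlog : Real.log 2 + 2 * Real.log U + SS U ≤ U := by
    have h1 := Real.log_two_lt_d9
    have h2 : w ≤ w ^ 50 := by
      calc w = w ^ 1 := (pow_one w).symm
        _ ≤ w ^ 50 := pow_le_pow_right₀ (by linarith) (by norm_num)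
    have h3 : 2 * w ^ 50 ≤ w ^ 100 := by
      have : 2 ≤ w ^ 50 := by linarith
      calc 2 * w ^ 50 ≤ w ^ 50 * w ^ 50 := mul_le_mul_of_nonneg_right this (by positivity)
        _ = w ^ 100 := by ring
    linarith
  have hsub : {m | ∃ q n' : ℕ, Rep U q n' m ∧ Good U (q * n') ∧ ¬ q ∣ n' ∧ top U n' ≤ lam U q ∧
      lam U q ≤ 3 * U ∧ (lam U q : ℝ) + HH U ≤ beta U n' 0} ⊆
      {m | ∃ t ∈ Finset.Icc 1 (3 * U), m ∈ obA U t} := by
    rintro m ⟨q, n', hR, hG, hqn, htop, hlam, hbeta⟩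
    refine ⟨lam U q, ?_, q, n', hR, hG, hqn, htop, rfl, hbeta⟩
    rw [Finset.mem_Icc]
    have := hR.2.2.1
    refine ⟨?_, hlam⟩
    unfold lam
    omega
  have h1 := (mass_mono (N := NN U) hsub).trans (ob_mass_biUnion (NN U) (Finset.Icc 1 (3 * U)) (obA U))
  refine h1.trans ?_
  have h2 : ∀ t ∈ Finset.Icc 1 (3 * U), mass (NN U) (obA U t) ≤
      6 * (U : ℝ) ^ 2 * Real.exp (SS U - 7 * HH U / 8) := by
    intro t ht
    rw [Finset.mem_Icc] at ht
    exact obA_mass hob hUU₁ (by omega) hS2 ht.2 hlog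
  refine (Finset.sum_le_sum h2).trans ?_
  rw [Finset.sum_const, Nat.card_Icc, nsmul_eq_mul]
  have h3 : (((3 * U + 1 - 1 : ℕ) : ℝ)) = 3 * U := by
    rw [Nat.add_sub_cancel]
    push_cast
    ring
  rw [h3]
  have h4 : 3 * (U : ℝ) * (6 * (U : ℝ) ^ 2 * Real.exp (SS U - 7 * HH U / 8)) =
      18 * Real.exp (3 * Real.log U) * Real.exp (SS U - 7 * HH U / 8) := by
    have : Real.exp (3 * Real.log U) = (U : ℝ) ^ 3 := by
      rw [show (3 : ℝ) * Real.log U = ((3 : ℕ) : ℝ) * Real.log U by norm_num, Real.exp_nat_mul,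
        Real.exp_log (by linarith)]
    rw [this]
    ring
  rw [h4]
  have h5 : (18 : ℝ) ≤ Real.exp 18 := by
    have := Real.add_one_le_exp (18 : ℝ)
    linarith
  calc 18 * Real.exp (3 * Real.log U) * Real.exp (SS U - 7 * HH U / 8) ≤
        Real.exp 18 * Real.exp (3 * Real.log U) * Real.exp (SS U - 7 * HH U / 8) := by
        apply mul_le_mul_of_nonneg_right _ (Real.exp_pos _).le
        exact mul_le_mul_of_nonneg_right h5 (Real.exp_pos _).le
    _ = Real.exp (18 + 3 * Real.log U + (SS U - 7 * HH U / 8)) := by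
        rw [← Real.exp_add, ← Real.exp_add]
    _ ≤ _ := by
        apply Real.exp_le_exp.mpr
        rw [hHH]
        have h6 : w ≤ w ^ 50 := by
          calc w = w ^ 1 := (pow_one w).symm
            _ ≤ w ^ 50 := pow_le_pow_right₀ (by linarith) (by norm_num)
        have h7 : 18 * w ^ 50 ≤ w ^ 60 := by
          have : 18 ≤ w ^ 10 := by
            calc (18 : ℝ) ≤ w := hw18
              _ = w ^ 1 := (pow_one w).symm
              _ ≤ w ^ 10 := pow_le_pow_right₀ (by linarith) (by norm_num)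
          calc 18 * w ^ 50 ≤ w ^ 10 * w ^ 50 := mul_le_mul_of_nonneg_right this (by positivity)
            _ = w ^ 60 := by ring
        have h8 : 0 < w ^ 50 := by positivity
        linarith

end P031
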