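import Vale.Agent.P031.VBound
import Vale.Agent.P031.Normal
import Vale.Agent.P031.OB

/-!
# P031, definitions for BAD
-/

namespace P031

open scoped BigOperators

/-- negligible counts -/
noncomputable def negl (U : ℕ) (X : ℝ) : ℝ :=
  X / Real.log X * Real.exp (-(U : ℝ) ^ ((1 : ℝ) / 30))

/-- a good representation with `p` larger than all primes of `n` -/
def RepT (U : ℕ) (p n v : ℕ) : Prop := Rep U p n v ∧ ∀ q ∈ n.primeFactors, q < p

end P031
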