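import Vale.Agent.P031.Bad0

/-!
# P031, module BAD1: smooth preimages, square factors

PROOF of `bad_small`.  `n ≤ C v log (v + 2) ≤ C' X log X` (`totient_lower`), `n` is `z`-smooth with
`log z = (log X)/(20 U)`; `rankin_sum` with `f = 1`, `Y = C' X log X`, `v = 20 U`:
`≤ C C' X log X e^{-20U} (log X)^5 ≤ X e^{-10 U}` (`log X ≤ e^{U+2}`).
PROOF of `bad_square`.  `q (q-1) ∣ v`: `∑_q X/(q(q-1)) ≤ 2 X / (exp (exp S) - 1)` and `exp S ≥ 3U + 10`.
-/

namespace P031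

open scoped BigOperators

/-- `X ≥ 1` and `LL X ≥ U ≥ 1` give the size of `log X` -/
theorem bad1_logX {U : ℕ} (hU : 1 ≤ U) {X : ℝ} (hX : 1 ≤ X) (h1 : (U : ℝ) ≤ LL X)
    (h2 : LL X ≤ U + 2) :
    Real.exp U ≤ Real.log X ∧ Real.log X ≤ Real.exp (U + 2) := by
  have hU1 : (1 : ℝ) ≤ U := by exact_mod_cast hU
  have h0 : 0 ≤ Real.log X := Real.log_nonneg hX
  have hpos : 0 < Real.log X := by
    rcases h0.lt_or_eq with h | h
    · exact h
    · exfalso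
      unfold LL at h1
      rw [← h, Real.log_zero] at h1
      linarith
  unfold LL at h1 h2
  exact ⟨(Real.le_log_iff_exp_le hpos).1 h1, (Real.log_le_iff_le_exp hpos).1 h2⟩

private theorem bad1_small_calc (K : ℝ) (hK : 0 < K) : ∃ U₀ : ℕ, ∀ U : ℕ, U₀ ≤ U →
    1 ≤ U ∧ 80 * (U : ℝ) ≤ Real.exp U ∧
    ∀ L : ℝ, 0 < L → L ≤ Real.exp (U + 2) →
      K * (L * Real.exp (-(20 * (U : ℝ))) * L ^ 5) ≤
        1 / L * Real.exp (-(U : ℝ) ^ ((1 : ℝ) / 30)) := by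
  obtain ⟨U₁, hU₁⟩ := exists_nat_gt (Real.log K + 14)
  refine ⟨max (max U₁ 64) 1, fun U hU => ?_⟩
  have hU1 : 1 ≤ U := le_trans (le_max_right _ _) hU
  have hU16 : 64 ≤ U := le_trans ((le_max_right _ _).trans (le_max_left _ _)) hU
  have hUK : U₁ ≤ U := le_trans ((le_max_left _ _).trans (le_max_left _ _)) hU
  have hUr : (1 : ℝ) ≤ U := by exact_mod_cast hU1
  have hUr16 : (64 : ℝ) ≤ U := by exact_mod_cast hU16
  have hKU : Real.log K + 14 ≤ U := by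
    have : (U₁ : ℝ) ≤ U := by exact_mod_cast hUK
    linarith
  refine ⟨hU1, ?_, ?_⟩
  · have h1 : (U : ℝ) / 4 + 1 ≤ Real.exp (U / 4) := Real.add_one_le_exp _
    have h2 : Real.exp (U : ℝ) = Real.exp (U / 4) ^ 4 := by
      rw [← Real.exp_nat_mul]; congr 1; push_cast; ring
    rw [h2]
    have h9 : ((U : ℝ) / 4 + 1) ^ 4 ≤ Real.exp ((U : ℝ) / 4) ^ 4 :=
      pow_le_pow_left₀ (by linarith) h1 4
    refine le_trans ?_ h9
    set w : ℝ := (U : ℝ) / 4 + 1 with hw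
    have h3 : (17 : ℝ) ≤ w := by linarith
    have h4 : (4913 : ℝ) ≤ w ^ 3 := by
      calc (4913 : ℝ) = 17 ^ 3 := by norm_num
        _ ≤ _ := pow_le_pow_left₀ (by norm_num) h3 3
    have h5 : w ^ 4 = w ^ 3 * w := by ring
    have h6 : (4913 : ℝ) * w ≤ w ^ 3 * w := mul_le_mul_of_nonneg_right h4 (by linarith)
    rw [h5]
    linarith
  · intro L hL0 hL
    have h1 : (U : ℝ) ^ ((1 : ℝ) / 30) ≤ U := by
      calc (U : ℝ) ^ ((1 : ℝ) / 30) ≤ (U : ℝ) ^ (1 : ℝ) :=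
            Real.rpow_le_rpow_of_exponent_le hUr (by norm_num)
        _ = U := Real.rpow_one _
    have h2 : L ^ 7 ≤ Real.exp (7 * (U + 2)) := by
      calc L ^ 7 ≤ Real.exp (U + 2) ^ 7 := pow_le_pow_left₀ hL0.le hL 7
        _ = Real.exp (7 * (U + 2)) := by rw [← Real.exp_nat_mul]; norm_num
    have h3 : K ≤ Real.exp (U - 14) := by
      rw [← Real.log_le_iff_le_exp hK]; linarith
    rw [div_mul_eq_mul_div, le_div_iff₀ hL0, one_mul]
    have h4 : K * (L * Real.exp (-(20 * (U : ℝ))) * L ^ 5) * L =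
        K * (L ^ 7) * Real.exp (-(20 * (U : ℝ))) := by ring
    rw [h4]
    calc K * (L ^ 7) * Real.exp (-(20 * (U : ℝ)))
        ≤ Real.exp (U - 14) * Real.exp (7 * (U + 2)) * Real.exp (-(20 * (U : ℝ))) := by
          gcongr
      _ = Real.exp (-(12 * (U : ℝ))) := by
          rw [← Real.exp_add, ← Real.exp_add]; congr 1; ring
      _ ≤ Real.exp (-(U : ℝ) ^ ((1 : ℝ) / 30)) := by
          apply Real.exp_le_exp.2
          linarith

theorem bad_small : ∃ U₀ : ℕ, ∀ U : ℕ, U₀ ≤ U → ∀ X : ℝ, 1 ≤ X → (U : ℝ) ≤ LL X →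
    LL X ≤ U + 2 →
    (cnt X {v | ∃ n : ℕ, 1 ≤ n ∧ Nat.totient n = v ∧
      ∀ q ∈ n.primeFactors, 20 * (U : ℝ) * Real.log q ≤ Real.log X} : ℝ) ≤ negl U X := by
  classical
  obtain ⟨C, hC, htot⟩ := totient_lower
  obtain ⟨C₁, hC₁, hrank⟩ := rankin_sum
  obtain ⟨U₀, hcalc⟩ := bad1_small_calc (C₁ * (2 * C + 1)) (by positivity)
  refine ⟨U₀, fun U hU X hX hL1 hL2 => ?_⟩
  obtain ⟨hU1, hU80, hfin⟩ := hcalc U hU
  obtain ⟨hl1, hl2⟩ := bad1_logX hU1 hX hL1 hL2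
  set L := Real.log X with hLdef
  have hUr : (1 : ℝ) ≤ U := by exact_mod_cast hU1
  have hL80 : 80 * (U : ℝ) ≤ L := hU80.trans hl1
  have hL0 : 0 < L := by linarith
  have hX0 : 0 < X := by linarith
  have hX2 : 2 ≤ X := by
    have h1 : Real.exp 1 ≤ X := by
      rw [← Real.le_log_iff_exp_le hX0]; linarith
    have := Real.add_one_le_exp (1 : ℝ)
    linarith
  set Y := (2 * C + 1) * X * L with hYdef
  have hYX : X ≤ Y := by
    have h1 : (1 : ℝ) ≤ (2 * C + 1) * L := by nlinarith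
    calc X = X * 1 := by ring
      _ ≤ X * ((2 * C + 1) * L) := mul_le_mul_of_nonneg_left h1 hX0.le
      _ = Y := by rw [hYdef]; ring
  set z := Real.exp (L / (20 * U)) with hzdef
  have hlz : Real.log z = L / (20 * U) := Real.log_exp _
  have hz4 : Real.exp 4 ≤ z := by
    apply Real.exp_le_exp.2
    rw [le_div_iff₀ (by positivity)]
    linarith
  have hr := hrank (fun _ => 1) z Y (20 * U) ⟨rfl, fun _ _ => by norm_num, fun _ => by norm_num⟩
    (fun _ _ => by norm_num) hz4 (by linarith) (hX2.trans hYX) (by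
      rw [hlz, mul_div_cancel₀ _ (by positivity)]
      exact Real.log_le_log hX0 hYX)
  -- the injection
  set A : Set ℕ := {v | ∃ n : ℕ, 1 ≤ n ∧ Nat.totient n = v ∧
      ∀ q ∈ n.primeFactors, 20 * (U : ℝ) * Real.log q ≤ L} with hA
  have hex : ∀ v ∈ A, ∃ n : ℕ, 1 ≤ n ∧ Nat.totient n = v ∧
      ∀ q ∈ n.primeFactors, 20 * (U : ℝ) * Real.log q ≤ L := fun v h => h
  choose! g hg1 hg2 hg3 using hex
  set B := (Finset.Icc 1 ⌊Y⌋₊).filter (fun n => IsSm z n) with hB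
  have hle : cnt X A ≤ B.card := by
    unfold cnt
    rw [← Set.ncard_coe_finset]
    refine Set.ncard_le_ncard_of_injOn g ?_ ?_ (Finset.finite_toSet _)
    · rintro v ⟨hv, hvX⟩
      have h1 := htot (g v) (hg1 v hv)
      rw [hg2 v hv] at h1
      have hv1 : 1 ≤ v := by
        rw [← hg2 v hv]
        exact Nat.totient_pos.2 (hg1 v hv)
      have hv1r : (1 : ℝ) ≤ v := by exact_mod_cast hv1
      have h2 : Real.log ((v : ℝ) + 2) ≤ 2 * L := by
        rw [hLdef, ← Real.log_rpow hX0]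
        apply Real.log_le_log (by linarith)
        rw [Real.rpow_two]
        nlinarith
      have h3 : (g v : ℝ) ≤ Y := by
        calc (g v : ℝ) ≤ C * v * Real.log (v + 2) := h1
          _ ≤ C * X * (2 * L) := by
              apply mul_le_mul (mul_le_mul_of_nonneg_left hvX hC.le) h2 _ (by positivity)
              exact Real.log_nonneg (by linarith)
          _ ≤ Y := by
              rw [hYdef]
              have : 0 ≤ X * L := by positivity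
              nlinarith
      rw [Finset.mem_coe, hB, Finset.mem_filter, Finset.mem_Icc]
      refine ⟨⟨hg1 v hv, Nat.le_floor h3⟩, hg1 v hv, fun r hr hd => ?_⟩
      have h4 := hg3 v hv r (Nat.mem_primeFactors.2 ⟨hr, hd, by have := hg1 v hv; omega⟩)
      have hr0 : (0 : ℝ) < r := by exact_mod_cast hr.pos
      rw [hzdef, ← Real.log_le_iff_le_exp hr0, le_div_iff₀ (by positivity)]
      linarith
    · rintro v ⟨hv, _⟩ w ⟨hw, _⟩ hvw
      rw [← hg2 v hv, ← hg2 w hw, hvw]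
  have hBsum : (B.card : ℝ) = ∑ n ∈ Finset.Icc 1 ⌊Y⌋₊, Set.indicator {n | IsSm z n}
      (fun _ => (1 : ℝ)) n := by
    rw [hB, Finset.card_filter]
    push_cast
    refine Finset.sum_congr rfl fun n _ => ?_
    rw [Set.indicator_apply]
    rfl
  have hlz5 : Real.log z ^ (5 : ℕ) ≤ L ^ 5 := by
    rw [hlz]
    apply pow_le_pow_left₀ (by positivity)
    rw [div_le_iff₀ (by positivity)]
    nlinarith
  calc (cnt X A : ℝ) ≤ B.card := by exact_mod_cast hle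
    _ ≤ C₁ * Y * Real.exp (-(20 * (U : ℝ))) * Real.log z ^ (5 : ℕ) := by rw [hBsum]; exact hr
    _ ≤ C₁ * Y * Real.exp (-(20 * (U : ℝ))) * L ^ 5 :=
        mul_le_mul_of_nonneg_left hlz5 (by positivity)
    _ = X * (C₁ * (2 * C + 1) * (L * Real.exp (-(20 * (U : ℝ))) * L ^ 5)) := by rw [hYdef]; ring
    _ ≤ X * (1 / L * Real.exp (-(U : ℝ) ^ ((1 : ℝ) / 30))) :=
        mul_le_mul_of_nonneg_left (hfin L hL0 hl2) hX0.le
    _ = negl U X := by unfold negl; rw [← hLdef]; ring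

private theorem bad1_tele (a : ℕ) (ha : 2 ≤ a) (b : ℕ) :
    ∑ q ∈ Finset.Icc a b, 1 / ((q : ℝ) * (q - 1)) ≤ 1 / ((a : ℝ) - 1) := by
  have ha' : (2 : ℝ) ≤ a := by exact_mod_cast ha
  rcases lt_or_ge b a with h | h
  · rw [Finset.Icc_eq_empty_of_lt h, Finset.sum_empty]
    have : (0 : ℝ) < a - 1 := by linarith
    positivity
  · have key : ∀ b : ℕ, a ≤ b → ∑ q ∈ Finset.Icc a b, 1 / ((q : ℝ) * (q - 1)) =
        1 / ((a : ℝ) - 1) - 1 / b := by
      intro b hb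
      induction b, hb using Nat.le_induction with
      | base =>
        rw [Finset.Icc_self, Finset.sum_singleton]
        have h1 : (a : ℝ) ≠ 0 := by positivity
        have h2 : (a : ℝ) - 1 ≠ 0 := by
          have : (0 : ℝ) < a - 1 := by linarith
          exact this.ne'
        field_simp
        ring
      | succ b hb ih =>
        rw [Finset.sum_Icc_succ_top (by omega), ih]
        have hb' : (2 : ℝ) ≤ b := by exact_mod_cast ha.trans hb
        push_cast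
        have h1 : (b : ℝ) ≠ 0 := by positivity
        have h2 : (b : ℝ) + 1 ≠ 0 := by positivity
        have h3 : (a : ℝ) - 1 ≠ 0 := by
          have : (0 : ℝ) < a - 1 := by linarith
          exact this.ne'
        rw [add_sub_cancel_right]
        field_simp
        ring
    rw [key b h]
    have : (0 : ℝ) ≤ 1 / (b : ℝ) := by positivity
    linarith

private theorem bad1_sq_calc : ∃ U₀ : ℕ, ∀ U : ℕ, U₀ ≤ U → 1 ≤ U ∧ 1 ≤ SS U ∧
    (U : ℝ) + 2 + (U : ℝ) ^ ((1 : ℝ) / 30) + 1 ≤ Real.exp (SS U) := by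
  refine ⟨10 ^ 4, fun U hU => ?_⟩
  have hU1 : 1 ≤ U := le_trans (by norm_num) hU
  have hUr : (10 : ℝ) ^ 4 ≤ U := by exact_mod_cast hU
  have hUr1 : (1 : ℝ) ≤ U := by exact_mod_cast hU1
  have h1 : (U : ℝ) ^ ((1 : ℝ) / 30) ≤ U := by
    calc (U : ℝ) ^ ((1 : ℝ) / 30) ≤ (U : ℝ) ^ (1 : ℝ) :=
          Real.rpow_le_rpow_of_exponent_le hUr1 (by norm_num)
      _ = U := Real.rpow_one _
  have h2 : U < (SS U + 1) * (SS U + 1) := Nat.lt_succ_sqrt U
  have hS : 99 ≤ SS U := by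
    by_contra hcon
    push Not at hcon
    have : (SS U + 1) * (SS U + 1) ≤ 99 * 99 := Nat.mul_le_mul (by omega) (by omega)
    omega
  have hSr : (99 : ℝ) ≤ SS U := by exact_mod_cast hS
  have h2r : (U : ℝ) < ((SS U : ℝ) + 1) * ((SS U : ℝ) + 1) := by exact_mod_cast h2
  refine ⟨hU1, by omega, ?_⟩
  -- exp S ≥ (S/3+1)^3
  have h3 : ((SS U : ℝ) / 3 + 1) ^ 3 ≤ Real.exp (SS U) := by
    have h4 := Real.add_one_le_exp ((SS U : ℝ) / 3)
    calc ((SS U : ℝ) / 3 + 1) ^ 3 ≤ Real.exp ((SS U : ℝ) / 3) ^ 3 :=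
          pow_le_pow_left₀ (by positivity) h4 3
      _ = Real.exp (SS U) := by rw [← Real.exp_nat_mul]; congr 1; push_cast; ring
  refine le_trans ?_ h3
  set s : ℝ := (SS U : ℝ) with hs
  have h5 : (34 : ℝ) ≤ s / 3 + 1 := by linarith
  have h6 : 34 * (s / 3 + 1) ^ 2 ≤ (s / 3 + 1) ^ 3 := by
    have : 0 ≤ (s / 3 + 1) ^ 2 := by positivity
    nlinarith
  have h7 : (U : ℝ) + 2 + U + 1 ≤ 34 * (s / 3 + 1) ^ 2 := by nlinarith
  linarith

theorem bad_square : ∃ U₀ : ℕ, ∀ U : ℕ, U₀ ≤ U → ∀ X : ℝ, 1 ≤ X → (U : ℝ) ≤ LL X →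
    LL X ≤ U + 2 →
    (cnt X {v | ∃ n q : ℕ, 1 ≤ n ∧ Nat.totient n = v ∧ q.Prime ∧ SS U ≤ lev q ∧ q ^ 2 ∣ n} : ℝ) ≤
      negl U X := by
  classical
  obtain ⟨U₀, hcalc⟩ := bad1_sq_calc
  refine ⟨U₀, fun U hU X hX hL1 hL2 => ?_⟩
  obtain ⟨hU1, hS1, hfin⟩ := hcalc U hU
  obtain ⟨hl1, hl2⟩ := bad1_logX hU1 hX hL1 hL2
  set L := Real.log X with hLdef
  have hL0 : 0 < L := lt_of_lt_of_le (Real.exp_pos _) hl1
  have hX0 : 0 < X := by linarith
  set Q := Real.exp (Real.exp (SS U)) with hQ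
  set a := ⌈Q⌉₊ with ha
  have hQa : Q ≤ a := Nat.le_ceil Q
  have hQ2 : (2 : ℝ) < Q := by
    have h1 : (1 : ℝ) ≤ Real.exp (SS U) := Real.one_le_exp (Nat.cast_nonneg _)
    have h2 : Real.exp 1 ≤ Q := Real.exp_le_exp.2 h1
    have := Real.exp_one_gt_d9
    linarith
  have ha2 : 2 ≤ a := by
    have : (2 : ℝ) < a := lt_of_lt_of_le hQ2 hQa
    exact_mod_cast this.le
  set A : Set ℕ := {v | ∃ n q : ℕ, 1 ≤ n ∧ Nat.totient n = v ∧ q.Prime ∧ SS U ≤ lev q ∧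
    q ^ 2 ∣ n} with hA
  set F := (Finset.Icc a (⌊X⌋₊ + 1)).biUnion
    (fun q => (Finset.Ioc 0 ⌊X⌋₊).filter (fun v => q * (q - 1) ∣ v)) with hF
  have hle : cnt X A ≤ F.card := by
    unfold cnt
    rw [← Set.ncard_coe_finset]
    refine Set.ncard_le_ncard ?_ (Finset.finite_toSet _)
    rintro v ⟨⟨n, q, hn, hv, hq, hlq, hd⟩, hvX⟩
    have hv1 : 1 ≤ v := by
      rw [← hv]; exact Nat.totient_pos.2 hn
    have hdv : q * (q - 1) ∣ v := by
      have h1 : Nat.totient (q ^ 2) ∣ Nat.totient n := Nat.totient_dvd_of_dvd hd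
      rw [Nat.totient_prime_pow hq (by norm_num), hv] at h1
      simpa using h1
    have hvf : v ≤ ⌊X⌋₊ := Nat.le_floor hvX
    have hqa : a ≤ q := by
      rw [ha, Nat.ceil_le]
      exact (le_lev_iff hS1).1 hlq
    have hqle : q ≤ ⌊X⌋₊ + 1 := by
      have h1 := Nat.le_of_dvd hv1 hdv
      have h2 : q - 1 ≤ q * (q - 1) := Nat.le_mul_of_pos_left _ hq.pos
      omega
    rw [Finset.mem_coe, hF, Finset.mem_biUnion]
    exact ⟨q, Finset.mem_Icc.2 ⟨hqa, hqle⟩, Finset.mem_filter.2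
      ⟨Finset.mem_Ioc.2 ⟨hv1, hvf⟩, hdv⟩⟩
  have hFc : (F.card : ℝ) ≤ X * (1 / ((a : ℝ) - 1)) := by
    have h1 : F.card ≤ ∑ q ∈ Finset.Icc a (⌊X⌋₊ + 1), ⌊X⌋₊ / (q * (q - 1)) := by
      refine Finset.card_biUnion_le.trans (le_of_eq (Finset.sum_congr rfl fun q _ => ?_))
      exact Nat.Ioc_filter_dvd_card_eq_div _ _
    have h2 : ((∑ q ∈ Finset.Icc a (⌊X⌋₊ + 1), ⌊X⌋₊ / (q * (q - 1)) : ℕ) : ℝ) ≤
        ∑ q ∈ Finset.Icc a (⌊X⌋₊ + 1), X * (1 / ((q : ℝ) * (q - 1))) := by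
      push_cast
      refine Finset.sum_le_sum fun q hq => ?_
      have hq2 : 2 ≤ q := ha2.trans (Finset.mem_Icc.1 hq).1
      have hq2r : (2 : ℝ) ≤ q := by exact_mod_cast hq2
      have h3 : ((⌊X⌋₊ / (q * (q - 1)) : ℕ) : ℝ) ≤ (⌊X⌋₊ : ℝ) / ((q * (q - 1) : ℕ) : ℝ) :=
        Nat.cast_div_le
      have h4 : ((q * (q - 1) : ℕ) : ℝ) = (q : ℝ) * (q - 1) := by
        rw [Nat.cast_mul, Nat.cast_sub (by omega)]; simp
      rw [h4] at h3
      refine h3.trans ?_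
      rw [mul_one_div]
      have h5 : (0 : ℝ) < (q : ℝ) * (q - 1) := mul_pos (by linarith) (by linarith)
      exact div_le_div_of_nonneg_right (Nat.floor_le hX0.le) h5.le
    calc (F.card : ℝ) ≤ ((∑ q ∈ Finset.Icc a (⌊X⌋₊ + 1), ⌊X⌋₊ / (q * (q - 1)) : ℕ) : ℝ) := by
          exact_mod_cast h1
      _ ≤ _ := h2
      _ = X * ∑ q ∈ Finset.Icc a (⌊X⌋₊ + 1), 1 / ((q : ℝ) * (q - 1)) := by rw [Finset.mul_sum]
      _ ≤ _ := mul_le_mul_of_nonneg_left (bad1_tele a ha2 _) hX0.le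
  have hkey : 1 / ((a : ℝ) - 1) ≤ 1 / L * Real.exp (-(U : ℝ) ^ ((1 : ℝ) / 30)) := by
    have h1 : L * Real.exp ((U : ℝ) ^ ((1 : ℝ) / 30)) ≤ (a : ℝ) - 1 := by
      have h2 : L * Real.exp ((U : ℝ) ^ ((1 : ℝ) / 30)) ≤
          Real.exp (U + 2 + (U : ℝ) ^ ((1 : ℝ) / 30)) := by
        rw [Real.exp_add (U + 2 : ℝ)]
        exact mul_le_mul_of_nonneg_right hl2 (Real.exp_pos _).le
      have h3 : Real.exp (U + 2 + (U : ℝ) ^ ((1 : ℝ) / 30)) * 2 ≤ Q := by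
        have h4 : (2 : ℝ) ≤ Real.exp 1 := by have := Real.exp_one_gt_d9; linarith
        calc Real.exp (U + 2 + (U : ℝ) ^ ((1 : ℝ) / 30)) * 2
            ≤ Real.exp (U + 2 + (U : ℝ) ^ ((1 : ℝ) / 30)) * Real.exp 1 :=
              mul_le_mul_of_nonneg_left h4 (Real.exp_pos _).le
          _ = Real.exp (U + 2 + (U : ℝ) ^ ((1 : ℝ) / 30) + 1) := by rw [← Real.exp_add]
          _ ≤ Q := Real.exp_le_exp.2 hfin
      have h5 : (1 : ℝ) ≤ Real.exp (U + 2 + (U : ℝ) ^ ((1 : ℝ) / 30)) :=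
        Real.one_le_exp (by positivity)
      linarith
    rw [Real.exp_neg, ← one_div, one_div_mul_one_div]
    exact one_div_le_one_div_of_le (by positivity) h1
  calc (cnt X A : ℝ) ≤ F.card := by exact_mod_cast hle
    _ ≤ X * (1 / ((a : ℝ) - 1)) := hFc
    _ ≤ X * (1 / L * Real.exp (-(U : ℝ) ^ ((1 : ℝ) / 30))) :=
        mul_le_mul_of_nonneg_left hkey hX0.le
    _ = negl U X := by unfold negl; rw [← hLdef]; ring

end P031
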