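import Vale.Agent.P031.Bad0

/-!
# P031, module BAD2: preimages with an abnormal prime

PROOF.  `v = (q-1) v'`, `v' = φ(n/q) ∈ Tot`.  If `q - 1 ≤ √X`: `gp` with `A = {q-1}`, mass `≤ 2 · abn_mass` (`1/(q-1) ≤ 2/q`,
`N = ⌊X⌋ + 1`).  If `q - 1 > √X`: then `v' ≤ √X` and for each `v' ∈ Tot`, `v' ≤ √X`, the number of `q` is
`≤ cnt (2X/v') (Abn U) ≤ (4X/(v' log X)) e^{-2U^{1/20}}` (`abn_count`), and `∑ 1/v' ≤ e^{C log² (U+5)}` (`tot_mass`).
-/

namespace P031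

open scoped BigOperators

theorem bad2_eventually (K : ℝ) (hK : 0 ≤ K) : ∃ U₀ : ℕ, ∀ U : ℕ, U₀ ≤ U →
    2 + K * Real.log ((U : ℝ) + 5) ^ 2 + (U : ℝ) ^ ((1 : ℝ) / 30) ≤ (U : ℝ) ^ ((1 : ℝ) / 20) := by
  have htend : Filter.Tendsto (fun U : ℕ => ((U : ℝ)) ^ ((1 : ℝ) / 300)) Filter.atTop Filter.atTop :=
    (tendsto_rpow_atTop (by norm_num)).comp tendsto_natCast_atTop_atTop
  obtain ⟨U₂, hU₂⟩ := Filter.eventually_atTop.1
    (htend.eventually_ge_atTop (K * 360000 + 3))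
  refine ⟨max U₂ 1, fun U hU => ?_⟩
  have hU2 : U₂ ≤ U := (le_max_left _ _).trans hU
  have hU1 : (1 : ℝ) ≤ U := by exact_mod_cast (le_max_right _ _).trans hU
  have hy := hU₂ U hU2
  set y : ℝ := (U : ℝ) ^ ((1 : ℝ) / 300) with hydef
  have hU0 : (0 : ℝ) < U := by linarith
  have hy3 : 3 ≤ y := by nlinarith
  have e1 : (U : ℝ) ^ ((1 : ℝ) / 30) = y ^ 10 := by
    rw [hydef, ← Real.rpow_natCast, ← Real.rpow_mul hU0.le]
    norm_num
  have e2 : (U : ℝ) ^ ((1 : ℝ) / 20) = y ^ 15 := by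
    rw [hydef, ← Real.rpow_natCast, ← Real.rpow_mul hU0.le]
    norm_num
  have e3 : (U : ℝ) ^ ((1 : ℝ) / 100) = y ^ 3 := by
    rw [hydef, ← Real.rpow_natCast, ← Real.rpow_mul hU0.le]
    norm_num
  have h1 : Real.log ((U : ℝ) + 5) ≤ 600 * y ^ 3 := by
    have h2 := Real.log_le_rpow_div (show (0 : ℝ) ≤ 6 * U by positivity)
      (show (0 : ℝ) < 1 / 100 by norm_num)
    have h3 : Real.log ((U : ℝ) + 5) ≤ Real.log (6 * U) :=
      Real.log_le_log (by positivity) (by linarith)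
    have h4 : (6 : ℝ) ^ ((1 : ℝ) / 100) ≤ 6 := by
      calc (6 : ℝ) ^ ((1 : ℝ) / 100) ≤ (6 : ℝ) ^ (1 : ℝ) :=
            Real.rpow_le_rpow_of_exponent_le (by norm_num) (by norm_num)
        _ = 6 := Real.rpow_one 6
    rw [Real.mul_rpow (by norm_num) hU0.le, e3] at h2
    have h5 : 0 ≤ y ^ 3 := by positivity
    have h6 : (6 : ℝ) ^ ((1 : ℝ) / 100) * y ^ 3 / (1 / 100) ≤ 600 * y ^ 3 := by
      rw [div_le_iff₀ (by norm_num)]
      nlinarith
    linarith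
  have h0 : 0 ≤ Real.log ((U : ℝ) + 5) := Real.log_nonneg (by linarith)
  have h2 : Real.log ((U : ℝ) + 5) ^ 2 ≤ 360000 * y ^ 6 := by
    calc Real.log ((U : ℝ) + 5) ^ 2 ≤ (600 * y ^ 3) ^ 2 := pow_le_pow_left₀ h0 h1 2
      _ = 360000 * y ^ 6 := by ring
  rw [e1, e2]
  have hy1 : 1 ≤ y := by linarith
  have i1 : y ^ 6 ≤ y ^ 10 := pow_le_pow_right₀ hy1 (by norm_num)
  have i2 : 1 ≤ y ^ 10 := one_le_pow₀ hy1
  have i3 : y ^ 11 ≤ y ^ 15 := pow_le_pow_right₀ hy1 (by norm_num)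
  calc 2 + K * Real.log ((U : ℝ) + 5) ^ 2 + y ^ 10
      ≤ 2 * y ^ 10 + K * (360000 * y ^ 10) + y ^ 10 := by
        have := mul_le_mul_of_nonneg_left (h2.trans (by linarith : 360000 * y ^ 6 ≤ 360000 * y ^ 10)) hK
        linarith
    _ = (K * 360000 + 3) * y ^ 10 := by ring
    _ ≤ y * y ^ 10 := mul_le_mul_of_nonneg_right hy (by positivity)
    _ = y ^ 11 := by ring
    _ ≤ y ^ 15 := i3

theorem bad2_mass_shift {U M : ℕ} {A : Set ℕ} (hA : ∀ a ∈ A, a + 1 ∈ Abn U) :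
    mass M A ≤ 2 * mass (M + 1) (Abn U) := by
  unfold mass
  have h1 : ∑ m ∈ Finset.Icc 1 M, Set.indicator A (fun m : ℕ => 1 / (m : ℝ)) m ≤
      ∑ m ∈ Finset.Icc 1 M, 2 * Set.indicator (Abn U) (fun m : ℕ => 1 / (m : ℝ)) (m + 1) := by
    refine Finset.sum_le_sum fun m hm => ?_
    rw [Finset.mem_Icc] at hm
    have hm1 : (1 : ℝ) ≤ m := by exact_mod_cast hm.1
    by_cases h : m ∈ A
    · rw [Set.indicator_of_mem h, Set.indicator_of_mem (hA m h), mul_one_div,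
        div_le_div_iff₀ (by linarith) (by positivity)]
      push_cast
      linarith
    · rw [Set.indicator_of_notMem h]
      exact mul_nonneg (by norm_num) (Set.indicator_nonneg (fun m _ => by positivity) _)
  refine h1.trans ?_
  rw [← Finset.mul_sum]
  refine mul_le_mul_of_nonneg_left ?_ (by norm_num)
  rw [← Finset.sum_image (s := Finset.Icc 1 M) (g := fun m => m + 1)
    (f := fun m => Set.indicator (Abn U) (fun m : ℕ => 1 / (m : ℝ)) m)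
    (fun a _ b _ hab => by simpa using hab)]
  refine Finset.sum_le_sum_of_subset_of_nonneg ?_
    (fun m _ _ => Set.indicator_nonneg (fun m _ => by positivity) m)
  intro m hm
  obtain ⟨a, ha, rfl⟩ := Finset.mem_image.1 hm
  rw [Finset.mem_Icc] at ha ⊢
  omega

theorem bad2_cnt_biUnion {ι : Type*} (X : ℝ) (T : Finset ι) (A : ι → Set ℕ) :
    cnt X {m | ∃ t ∈ T, m ∈ A t} ≤ ∑ t ∈ T, cnt X (A t) := by
  classical
  induction T using Finset.induction_on with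
  | empty => simp [cnt]
  | insert a T ha ih =>
    rw [Finset.sum_insert ha]
    have h1 : {m | ∃ t ∈ insert a T, m ∈ A t} ⊆ A a ∪ {m | ∃ t ∈ T, m ∈ A t} := by
      rintro m ⟨t, ht, hm⟩
      rcases Finset.mem_insert.1 ht with rfl | ht
      · exact Or.inl hm
      · exact Or.inr ⟨t, ht, hm⟩
    exact (cnt_mono h1).trans (cnt_union.trans (by omega))

theorem bad2_cnt_image {X Y : ℝ} {A : Set ℕ} (g : ℕ → ℕ) {B : Set ℕ}
    (h : ∀ v ∈ B, (v : ℝ) ≤ X → ∃ q ∈ A, (q : ℝ) ≤ Y ∧ g q = v) : cnt X B ≤ cnt Y A := by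
  have hfin : {v : ℕ | v ∈ A ∧ (v : ℝ) ≤ Y}.Finite := by
    refine (Set.finite_Iic ⌊Y⌋₊).subset fun v hv => ?_
    exact Nat.le_floor hv.2
  unfold cnt
  refine (Set.ncard_le_ncard (t := g '' {v : ℕ | v ∈ A ∧ (v : ℝ) ≤ Y}) ?_ (hfin.image g)).trans
    (Set.ncard_image_le hfin)
  rintro v ⟨hv, hvX⟩
  obtain ⟨q, hq, hqY, rfl⟩ := h v hv hvX
  exact ⟨q, ⟨hq, hqY⟩, rfl⟩

theorem bad2_logs {U : ℕ} {X : ℝ} (hX1 : (U : ℝ) ≤ LL X) (hX2 : LL X ≤ U + 2)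
    (hX : 16 ≤ X) : Real.exp U ≤ Real.log X ∧ Real.log X ≤ Real.exp (U + 2) := by
  have hlogX : 0 < Real.log X := Real.log_pos (by linarith)
  rw [LL, Real.le_log_iff_exp_le hlogX] at hX1
  rw [LL, Real.log_le_iff_le_exp hlogX] at hX2
  exact ⟨hX1, hX2⟩

/-- ranges -/
theorem bad2_range {U : ℕ} {X Y : ℝ} (hU4 : 4 ≤ U) (hX1 : (U : ℝ) ≤ LL X) (hX2 : LL X ≤ U + 2)
    (hX : 16 ≤ X) (h1 : √X ≤ Y) (h2 : Y ≤ X ^ 2) :
    Real.log X / 2 ≤ Real.log Y ∧ (SS U : ℝ) ≤ LL Y ∧ LL Y ≤ 3 * U + 6 := by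
  have hX0 : 0 < X := by linarith
  obtain ⟨hlog1, hlog2⟩ := bad2_logs hX1 hX2 hX
  have hlogX : 0 < Real.log X := Real.log_pos (by linarith)
  have hsq1 : 4 ≤ √X := Real.le_sqrt_of_sq_le (by linarith)
  have hlogY : Real.log X / 2 ≤ Real.log Y := by
    have := Real.log_le_log (by positivity) h1
    rwa [Real.log_sqrt hX0.le] at this
  have hlogY2 : Real.log Y ≤ 2 * Real.log X := by
    have := Real.log_le_log (by linarith) h2
    rwa [Real.log_pow] at this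
  have hU4' : (4 : ℝ) ≤ U := by exact_mod_cast hU4
  have hSU : (SS U : ℝ) ≤ U - 1 := by
    have h5 : SS U * SS U ≤ U := Nat.sqrt_le U
    have h6 : SS U + 1 ≤ U := by
      by_contra hc
      have h7 : U ≤ SS U := by omega
      nlinarith
    have : ((SS U + 1 : ℕ) : ℝ) ≤ U := by exact_mod_cast h6
    push_cast at this
    linarith
  have hlogYpos : 0 < Real.log Y := by linarith
  refine ⟨hlogY, ?_, ?_⟩
  · unfold LL
    rw [Real.le_log_iff_exp_le hlogYpos]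
    have h5 : Real.exp (SS U : ℝ) ≤ Real.exp (U - 1) := Real.exp_le_exp.2 hSU
    have h6 : Real.exp ((U : ℝ) - 1) * 2 ≤ Real.exp U := by
      have h7 : Real.exp (U : ℝ) = Real.exp (U - 1) * Real.exp 1 := by
        rw [← Real.exp_add]
        ring_nf
      have h8 := Real.exp_one_gt_d9
      rw [h7]
      have := Real.exp_pos ((U : ℝ) - 1)
      nlinarith
    linarith
  · unfold LL
    rw [Real.log_le_iff_le_exp hlogYpos]
    have h5 : Real.exp (3 * (U : ℝ) + 6) ≥ Real.exp (U + 2) * 2 := by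
      have h7 : Real.exp (3 * (U : ℝ) + 6) = Real.exp (U + 2) * Real.exp (2 * U + 4) := by
        rw [← Real.exp_add]
        ring_nf
      have h8 := Real.add_one_le_exp (2 * (U : ℝ) + 4)
      rw [h7]
      have := Real.exp_pos ((U : ℝ) + 2)
      nlinarith
    linarith

theorem bad2_one {U v' : ℕ} {X : ℝ} (hU4 : 4 ≤ U) (hX1 : (U : ℝ) ≤ LL X) (hX2 : LL X ≤ U + 2)
    (hX : 16 ≤ X)
    (hcount : ∀ Y : ℝ, 1 ≤ Y → (SS U : ℝ) ≤ LL Y → LL Y ≤ 3 * U + 6 →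
      (cnt Y (Abn U) : ℝ) ≤ Y / Real.log Y * Real.exp (-2 * (U : ℝ) ^ ((1 : ℝ) / 20)))
    (hv1 : 1 ≤ v') (hv4 : (v' : ℝ) ≤ √X) :
    (cnt X {v | ∃ q ∈ Abn U, v = (q - 1) * v'} : ℝ) ≤
      4 * (X / Real.log X) * Real.exp (-2 * (U : ℝ) ^ ((1 : ℝ) / 20)) * (1 / (v' : ℝ)) := by
  have hX0 : 0 < X := by linarith
  have hsq : √X * √X = X := Real.mul_self_sqrt hX0.le
  have hsq1 : 4 ≤ √X := Real.le_sqrt_of_sq_le (by linarith)
  have hlogX : 0 < Real.log X := Real.log_pos (by linarith)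
  have hv0 : (0 : ℝ) < v' := by exact_mod_cast hv1
  have hv1' : (1 : ℝ) ≤ v' := by exact_mod_cast hv1
  have hle : √X ≤ X / v' := by
    rw [le_div_iff₀ hv0]
    nlinarith
  have hv'X : (v' : ℝ) ≤ X := by nlinarith
  have h4 : cnt X {v | ∃ q ∈ Abn U, v = (q - 1) * v'} ≤ cnt (2 * X / v') (Abn U) := by
    refine bad2_cnt_image (fun q => (q - 1) * v') ?_
    rintro v ⟨q, hq, rfl⟩ hvX
    refine ⟨q, hq, ?_, rfl⟩
    have hq1 : 1 ≤ q := hq.1.one_le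
    rw [Nat.cast_mul, Nat.cast_sub hq1, Nat.cast_one] at hvX
    rw [le_div_iff₀ hv0]
    linarith
  have e : 2 * X / v' = 2 * (X / v') := by ring
  have hY : √X ≤ 2 * X / v' := by
    rw [e]
    linarith
  have hYX : 2 * X / v' ≤ X ^ 2 := by
    rw [div_le_iff₀ hv0]
    have h5 : 2 * X ≤ X ^ 2 := by nlinarith
    have h6 : 0 ≤ X ^ 2 := by positivity
    nlinarith
  obtain ⟨b1, b2, b3⟩ := bad2_range hU4 hX1 hX2 hX hY hYX
  have h5 := hcount _ (by linarith) b2 b3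
  have h6 : (cnt X {v | ∃ q ∈ Abn U, v = (q - 1) * v'} : ℝ) ≤ cnt (2 * X / v') (Abn U) := by
    exact_mod_cast h4
  refine h6.trans (h5.trans ?_)
  have h7 : 2 * X / v' / Real.log (2 * X / v') ≤ 4 * (X / Real.log X) * (1 / (v' : ℝ)) := by
    calc 2 * X / v' / Real.log (2 * X / v') ≤ 2 * X / v' / (Real.log X / 2) := by gcongr
      _ = 4 * (X / Real.log X) * (1 / (v' : ℝ)) := by
        field_simp
        norm_num
  calc 2 * X / v' / Real.log (2 * X / v') * Real.exp (-2 * (U : ℝ) ^ ((1 : ℝ) / 20))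
      ≤ 4 * (X / Real.log X) * (1 / (v' : ℝ)) * Real.exp (-2 * (U : ℝ) ^ ((1 : ℝ) / 20)) := by
        gcongr
    _ = _ := by ring

/-- part 2: large abnormal primes -/
theorem bad2_large {U : ℕ} {X : ℝ} (hU4 : 4 ≤ U) (hX1 : (U : ℝ) ≤ LL X) (hX2 : LL X ≤ U + 2)
    (hX : 16 ≤ X)
    (hcount : ∀ Y : ℝ, 1 ≤ Y → (SS U : ℝ) ≤ LL Y → LL Y ≤ 3 * U + 6 →
      (cnt Y (Abn U) : ℝ) ≤ Y / Real.log Y * Real.exp (-2 * (U : ℝ) ^ ((1 : ℝ) / 20))) :
    (cnt X {v | ∃ v' ∈ Tot, (v' : ℝ) ≤ √X ∧ ∃ q ∈ Abn U, v = (q - 1) * v'} : ℝ) ≤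
      4 * (X / Real.log X) * Real.exp (-2 * (U : ℝ) ^ ((1 : ℝ) / 20)) * mass ⌊X⌋₊ Tot := by
  classical
  have hX0 : 0 < X := by linarith
  have hsq : √X * √X = X := Real.mul_self_sqrt hX0.le
  have hsq1 : 4 ≤ √X := Real.le_sqrt_of_sq_le (by linarith)
  have hlogX : 0 < Real.log X := Real.log_pos (by linarith)
  let T : Finset ℕ := (Finset.Icc 1 ⌊X⌋₊).filter (fun v' => v' ∈ Tot ∧ (v' : ℝ) ≤ √X)
  have h1 : cnt X {v | ∃ v' ∈ Tot, (v' : ℝ) ≤ √X ∧ ∃ q ∈ Abn U, v = (q - 1) * v'} ≤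
      cnt X {v | ∃ v' ∈ T, v ∈ {v | ∃ q ∈ Abn U, v = (q - 1) * v'}} := by
    refine cnt_mono ?_
    rintro v ⟨v', hv', hle, q, hq, rfl⟩
    refine ⟨v', ?_, q, hq, rfl⟩
    simp only [T, Finset.mem_filter, Finset.mem_Icc]
    refine ⟨⟨?_, Nat.le_floor (hle.trans ?_)⟩, hv', hle⟩
    · obtain ⟨n, hn, rfl⟩ := hv'
      exact Nat.totient_pos.2 hn
    · nlinarith
  have h2 := h1.trans (bad2_cnt_biUnion X T _)
  have h3 : ∀ v' ∈ T, (cnt X {v | ∃ q ∈ Abn U, v = (q - 1) * v'} : ℝ) ≤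
      4 * (X / Real.log X) * Real.exp (-2 * (U : ℝ) ^ ((1 : ℝ) / 20)) * (1 / (v' : ℝ)) := by
    intro v' hv'
    simp only [T, Finset.mem_filter, Finset.mem_Icc] at hv'
    obtain ⟨⟨hv1, hv2⟩, hv3, hv4⟩ := hv'
    exact bad2_one hU4 hX1 hX2 hX hcount hv1 hv4
  have h4 : (cnt X {v | ∃ v' ∈ Tot, (v' : ℝ) ≤ √X ∧ ∃ q ∈ Abn U, v = (q - 1) * v'} : ℝ) ≤
      ∑ v' ∈ T, (cnt X {v | ∃ q ∈ Abn U, v = (q - 1) * v'} : ℝ) := by exact_mod_cast h2
  refine h4.trans ((Finset.sum_le_sum h3).trans ?_)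
  rw [← Finset.mul_sum]
  refine mul_le_mul_of_nonneg_left ?_ (by positivity)
  unfold mass
  have h5 : ∑ v' ∈ T, 1 / (v' : ℝ) = ∑ v' ∈ T, Set.indicator Tot (fun m : ℕ => 1 / (m : ℝ)) v' := by
    refine Finset.sum_congr rfl fun v' hv' => ?_
    simp only [T, Finset.mem_filter] at hv'
    rw [Set.indicator_of_mem hv'.2.1]
  rw [h5]
  exact Finset.sum_le_sum_of_subset_of_nonneg (Finset.filter_subset _ _)
    (fun m _ _ => Set.indicator_nonneg (fun m _ => by positivity) m)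

/-- part 1: the values `q - 1 ≤ √X` -/
def bad2A (U : ℕ) (X : ℝ) : Set ℕ := {a | a + 1 ∈ Abn U ∧ (a : ℝ) ≤ √X}

theorem bad2_split {U : ℕ} {X : ℝ} (hX : 16 ≤ X) :
    cnt X {v | ∃ n q : ℕ, 1 ≤ n ∧ Nat.totient n = v ∧ q ∈ Abn U ∧ q ∣ n ∧ ¬ q ^ 2 ∣ n} ≤
      cnt X {v | ∃ a ∈ bad2A U X, ∃ v' ∈ Tot, v = a * v'} +
      cnt X {v | ∃ v' ∈ Tot, (v' : ℝ) ≤ √X ∧ ∃ q ∈ Abn U, v = (q - 1) * v'} := by
  have hX0 : 0 < X := by linarith
  have hsq : √X * √X = X := Real.mul_self_sqrt hX0.le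
  have hsq1 : 4 ≤ √X := Real.le_sqrt_of_sq_le (by linarith)
  refine le_trans ?_ cnt_union
  have hfin : ∀ B : Set ℕ, {v : ℕ | v ∈ B ∧ (v : ℝ) ≤ X}.Finite := by
    intro B
    refine (Set.finite_Iic ⌊X⌋₊).subset fun v hv => ?_
    exact Nat.le_floor hv.2
  unfold cnt
  refine Set.ncard_le_ncard ?_ (hfin _)
  rintro v ⟨⟨n, q, hn, rfl, hq, hqn, hq2⟩, hvX⟩
  refine ⟨?_, hvX⟩
  obtain ⟨m, rfl⟩ := hqn
  have hm0 : 1 ≤ m := by
    rcases Nat.eq_zero_or_pos m with h | h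
    · subst h
      simp at hn
    · exact h
  have hqm : ¬ q ∣ m := by
    intro h
    apply hq2
    rw [sq]
    exact Nat.mul_dvd_mul_left q h
  have hcop : Nat.Coprime q m := (Nat.Prime.coprime_iff_not_dvd hq.1).2 hqm
  have hphi : Nat.totient (q * m) = (q - 1) * Nat.totient m := by
    rw [Nat.totient_mul hcop, Nat.totient_prime hq.1]
  rw [hphi] at hvX ⊢
  have hq1 : q - 1 + 1 = q := Nat.sub_add_cancel hq.1.one_le
  rcases le_or_gt ((q - 1 : ℕ) : ℝ) (√X) with h | h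
  · left
    refine ⟨q - 1, ⟨?_, h⟩, Nat.totient m, ⟨m, hm0, rfl⟩, rfl⟩
    rw [hq1]
    exact hq
  · right
    refine ⟨Nat.totient m, ⟨m, hm0, rfl⟩, ?_, q, hq, rfl⟩
    by_contra hc
    push Not at hc
    rw [Nat.cast_mul] at hvX
    nlinarith

theorem bad_abn : ∃ U₀ : ℕ, ∀ U : ℕ, U₀ ≤ U → ∀ X : ℝ, 1 ≤ X → (U : ℝ) ≤ LL X → LL X ≤ U + 2 →
    (cnt X {v | ∃ n q : ℕ, 1 ≤ n ∧ Nat.totient n = v ∧ q ∈ Abn U ∧ q ∣ n ∧ ¬ q ^ 2 ∣ n} : ℝ) ≤
      negl U X := by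
  obtain ⟨U₁, hU₁⟩ := abn_count
  obtain ⟨U₂, hU₂⟩ := abn_mass
  obtain ⟨C, hC, hgp⟩ := gp
  obtain ⟨C', hC', htot⟩ := tot_mass
  obtain ⟨U₃, hU₃⟩ := bad2_eventually (C + C') (by positivity)
  refine ⟨max (max U₁ U₂) (max U₃ 4), fun U hU X hXone hX1 hX2 => ?_⟩
  have hU1 : U₁ ≤ U := (le_max_left _ _).trans ((le_max_left _ _).trans hU)
  have hU2 : U₂ ≤ U := (le_max_right _ _).trans ((le_max_left _ _).trans hU)
  have hU3 : U₃ ≤ U := (le_max_left _ _).trans ((le_max_right _ _).trans hU)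
  have hU4 : 4 ≤ U := (le_max_right _ _).trans ((le_max_right _ _).trans hU)
  have hU4' : (4 : ℝ) ≤ U := by exact_mod_cast hU4
  -- `X` is large
  have hX : 1000 ≤ X := by
    have h0 : 0 < Real.log X := by
      rcases (Real.log_nonneg hXone).lt_or_eq with h | h
      · exact h
      · exfalso
        rw [LL, ← h, Real.log_zero] at hX1
        linarith
    have h1 : Real.exp U ≤ Real.log X := by
      rwa [LL, Real.le_log_iff_exp_le h0] at hX1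
    have h2 : Real.exp (Real.exp U) ≤ X := by
      rwa [Real.le_log_iff_exp_le (by linarith)] at h1
    have h3 : (2.7 : ℝ) ≤ Real.exp 1 := by
      have := Real.exp_one_gt_d9
      linarith
    have h4 : (8 : ℝ) ≤ Real.exp U := by
      calc (8 : ℝ) ≤ 2.7 ^ 4 := by norm_num
        _ ≤ (Real.exp 1) ^ 4 := pow_le_pow_left₀ (by norm_num) h3 4
        _ = Real.exp 4 := by rw [← Real.exp_nat_mul]; norm_num
        _ ≤ _ := Real.exp_le_exp.mpr hU4'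
    calc (1000 : ℝ) ≤ 2.7 ^ 8 := by norm_num
      _ ≤ (Real.exp 1) ^ 8 := pow_le_pow_left₀ (by norm_num) h3 8
      _ = Real.exp 8 := by rw [← Real.exp_nat_mul]; norm_num
      _ ≤ Real.exp (Real.exp U) := Real.exp_le_exp.mpr h4
      _ ≤ X := h2
  obtain ⟨hlog1, hlog2⟩ := bad2_logs hX1 hX2 (by linarith)
  have hlogX : 0 < Real.log X := Real.log_pos (by linarith)
  have hX0 : 0 < X := by linarith
  have hXe : X ≤ Real.exp (Real.exp (U + 2)) := by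
    rwa [← Real.log_le_iff_le_exp hX0]
  have hfl : ((⌊X⌋₊ : ℕ) : ℝ) ≤ X := Nat.floor_le hX0.le
  have hfl1 : 16 ≤ ⌊X⌋₊ := Nat.le_floor (by push_cast; linarith)
  set y : ℝ := (U : ℝ) ^ ((1 : ℝ) / 20) with hy
  have hy0 : 0 ≤ y := Real.rpow_nonneg (by linarith) _
  -- logarithms
  have hLL3 : Real.log (LL X + 3) ^ 2 ≤ Real.log ((U : ℝ) + 5) ^ 2 := by
    have h1 : 0 ≤ Real.log (LL X + 3) := Real.log_nonneg (by linarith)
    exact pow_le_pow_left₀ h1 (Real.log_le_log (by linarith) (by linarith)) 2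
  have hLL4 : Real.log (LL ((⌊X⌋₊ : ℕ) : ℝ) + 3) ^ 2 ≤ Real.log ((U : ℝ) + 5) ^ 2 := by
    have h16 : (16 : ℝ) ≤ ((⌊X⌋₊ : ℕ) : ℝ) := by exact_mod_cast hfl1
    have h2 : LL ((⌊X⌋₊ : ℕ) : ℝ) ≤ LL X := by
      unfold LL
      exact Real.log_le_log (Real.log_pos (by linarith)) (Real.log_le_log (by linarith) hfl)
    have h3 : 0 ≤ LL ((⌊X⌋₊ : ℕ) : ℝ) := by
      unfold LL
      refine Real.log_nonneg ?_
      rw [Real.le_log_iff_exp_le (by linarith)]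
      have := Real.exp_one_lt_d9
      linarith
    have h1 : 0 ≤ Real.log (LL ((⌊X⌋₊ : ℕ) : ℝ) + 3) := Real.log_nonneg (by linarith)
    exact pow_le_pow_left₀ h1 (Real.log_le_log (by linarith) (by linarith)) 2
  set Λ : ℝ := Real.log ((U : ℝ) + 5) ^ 2 with hΛ
  have hΛ0 : 0 ≤ Λ := by positivity
  -- part 1
  have hmassA : mass ⌊X⌋₊ (bad2A U X) ≤ 2 * Real.exp (-y) := by
    refine (bad2_mass_shift (U := U) (fun a ha => ha.1)).trans ?_
    refine mul_le_mul_of_nonneg_left (hU₂ U hU2 _ ?_) (by norm_num)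
    push_cast
    have h1 : X + 1 ≤ Real.exp (Real.exp (U + 2)) * 2 := by
      have : 1 ≤ Real.exp (Real.exp ((U : ℝ) + 2)) := Real.one_le_exp (Real.exp_pos _).le
      linarith
    have h2 : Real.exp (Real.exp ((U : ℝ) + 2)) * 2 ≤ Real.exp (Real.exp (3 * U + 5)) := by
      have h3 : Real.exp ((U : ℝ) + 2) + 1 ≤ Real.exp (3 * U + 5) := by
        have h4 : Real.exp (3 * (U : ℝ) + 5) = Real.exp (U + 2) * Real.exp (2 * U + 3) := by
          rw [← Real.exp_add]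
          ring_nf
        have h5 := Real.add_one_le_exp (2 * (U : ℝ) + 3)
        have h6 := Real.add_one_le_exp ((U : ℝ) + 2)
        rw [h4]
        nlinarith
      have h7 : Real.exp (Real.exp ((U : ℝ) + 2) + 1) ≤ Real.exp (Real.exp (3 * U + 5)) :=
        Real.exp_le_exp.2 h3
      rw [Real.exp_add] at h7
      have h8 := Real.exp_one_gt_d9
      have h9 := Real.exp_pos (Real.exp ((U : ℝ) + 2))
      nlinarith
    linarith
  have hm0 : 0 ≤ mass ⌊X⌋₊ (bad2A U X) := mass_nonneg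
  have hm1 : 0 ≤ mass ⌊X⌋₊ Tot := mass_nonneg
  have hp1 := hgp X (bad2A U X) hX (fun a ha => ⟨by
    have h2 := ha.1.1.two_le
    have h3 : 1 ≤ a := by omega
    exact_mod_cast h3, ha.2⟩)
  have hp2 := bad2_large hU4 hX1 hX2 (by linarith) (hU₁ U hU1)
  rw [← hy] at hp2
  have htm := htot ⌊X⌋₊ hfl1
  have hsplit : (cnt X {v | ∃ n q : ℕ, 1 ≤ n ∧ Nat.totient n = v ∧ q ∈ Abn U ∧ q ∣ n ∧
      ¬ q ^ 2 ∣ n} : ℝ) ≤
      (cnt X {v | ∃ a ∈ bad2A U X, ∃ v' ∈ Tot, v = a * v'} : ℝ) +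
      cnt X {v | ∃ v' ∈ Tot, (v' : ℝ) ≤ √X ∧ ∃ q ∈ Abn U, v = (q - 1) * v'} := by
    exact_mod_cast bad2_split (U := U) (X := X) (by linarith)
  have hXl : 0 < X / Real.log X := by positivity
  have hE : Real.exp (C * Λ) ≤ Real.exp ((C + C') * Λ) := by
    rw [Real.exp_le_exp]
    nlinarith
  have hE' : Real.exp (C' * Λ) ≤ Real.exp ((C + C') * Λ) := by
    rw [Real.exp_le_exp]
    nlinarith
  have q1 : (cnt X {v | ∃ a ∈ bad2A U X, ∃ v' ∈ Tot, v = a * v'} : ℝ) ≤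
      X / Real.log X * (2 * Real.exp ((C + C') * Λ) * Real.exp (-y)) := by
    calc _ ≤ X / Real.log X * Real.exp (C * Real.log (LL X + 3) ^ 2) * mass ⌊X⌋₊ (bad2A U X) := hp1
      _ ≤ X / Real.log X * Real.exp (C * Λ) * (2 * Real.exp (-y)) := by
          have : Real.exp (C * Real.log (LL X + 3) ^ 2) ≤ Real.exp (C * Λ) :=
            Real.exp_le_exp.2 (mul_le_mul_of_nonneg_left hLL3 hC.le)
          gcongr
      _ ≤ X / Real.log X * Real.exp ((C + C') * Λ) * (2 * Real.exp (-y)) := by gcongr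
      _ = _ := by ring
  have q2 : (cnt X {v | ∃ v' ∈ Tot, (v' : ℝ) ≤ √X ∧ ∃ q ∈ Abn U, v = (q - 1) * v'} : ℝ) ≤
      X / Real.log X * (4 * Real.exp ((C + C') * Λ) * Real.exp (-y)) := by
    calc _ ≤ 4 * (X / Real.log X) * Real.exp (-2 * y) * mass ⌊X⌋₊ Tot := hp2
      _ ≤ 4 * (X / Real.log X) * Real.exp (-y) * Real.exp ((C + C') * Λ) := by
          have h1 : Real.exp (-2 * y) ≤ Real.exp (-y) := Real.exp_le_exp.2 (by linarith)
          have h2 : mass ⌊X⌋₊ Tot ≤ Real.exp ((C + C') * Λ) := by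
            refine htm.trans (le_trans ?_ hE')
            exact Real.exp_le_exp.2 (mul_le_mul_of_nonneg_left hLL4 hC'.le)
          gcongr
      _ = _ := by ring
  have hfin := hU₃ U hU3
  rw [← hy, ← hΛ] at hfin
  have q3 : 6 * Real.exp ((C + C') * Λ) * Real.exp (-y) ≤
      Real.exp (-(U : ℝ) ^ ((1 : ℝ) / 30)) := by
    have h1 : (6 : ℝ) ≤ Real.exp 2 := by
      have h2 : Real.exp 2 = Real.exp 1 * Real.exp 1 := by
        rw [← Real.exp_add]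
        norm_num
      have := Real.exp_one_gt_d9
      rw [h2]
      nlinarith
    calc 6 * Real.exp ((C + C') * Λ) * Real.exp (-y)
        ≤ Real.exp 2 * Real.exp ((C + C') * Λ) * Real.exp (-y) := by gcongr
      _ = Real.exp (2 + (C + C') * Λ - y) := by
          rw [← Real.exp_add, ← Real.exp_add]
          ring_nf
      _ ≤ _ := Real.exp_le_exp.2 (by linarith)
  unfold negl
  calc _ ≤ X / Real.log X * (2 * Real.exp ((C + C') * Λ) * Real.exp (-y)) +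
        X / Real.log X * (4 * Real.exp ((C + C') * Λ) * Real.exp (-y)) :=
        hsplit.trans (add_le_add q1 q2)
    _ = X / Real.log X * (6 * Real.exp ((C + C') * Λ) * Real.exp (-y)) := by ring
    _ ≤ _ := by gcongr

end P031
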