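import Vale.Agent.P031.Bad0

/-!
# P031, module BAD3: large or rich small parts

PROOF of `bad_siz`.  `n ≤ C X log X =: N` (`totient_lower`).  `t ≥ U + 4` is impossible (`log n ≤ 2 log X ≤ 2 e^{U+2}`).  For
`S ≤ t < U + 4` count the `n ≤ N` divisible by `d = lowPart t n`, an `exp (exp t)`-smooth number `> exp (U² e^t)`:
`∑_d N/d ≤ C N e^{-U²} e^{5t}` (`rankin_tail`, `f = 1`, `v = U²`).
PROOF of `bad_sml`.  `a = φ(lowPart S n)` has only prime factors of level `< S` (`lev_of_dvd_totient_lowPart`), more than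
`100 S` of them, `a ≤ lowPart S n ≤ exp (U² e^S) ≤ √X`; `n = lowPart · rest` coprime, `v = a v'`, `v' ∈ Tot`; `gp`
with the mass of such `a`: `≤ (3/2)^{-100 S} ∑ (3/2)^{Ω(a)}/a ≤ (3/2)^{-100S} e^{2 S + C}` (`euler_bound`, `z = exp (exp S)`).
-/

namespace P031

open scoped BigOperators

theorem bad3_range {U : ℕ} {X : ℝ} (hU : 1 ≤ U) (hX : 1 ≤ X) (h1 : (U : ℝ) ≤ LL X)
    (h2 : LL X ≤ U + 2) :
    1 < X ∧ 0 < Real.log X ∧ Real.exp U ≤ Real.log X ∧ Real.log X ≤ Real.exp (U + 2) := by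
  have hX1 : 1 < X := by
    rcases hX.lt_or_eq with h | h
    · exact h
    · exfalso
      have h3 : LL X = 0 := by
        unfold LL
        rw [← h, Real.log_one, Real.log_zero]
      have h4 : (1 : ℝ) ≤ U := by exact_mod_cast hU
      linarith
  have hpos : 0 < Real.log X := Real.log_pos hX1
  refine ⟨hX1, hpos, ?_, ?_⟩
  · rw [← Real.le_log_iff_exp_le hpos]
    exact h1
  · rw [← Real.log_le_iff_le_exp hpos]
    exact h2

theorem bad3_sqrt (U : ℕ) : (SS U : ℝ) ≤ √(U : ℝ) ∧ √(U : ℝ) ≤ SS U + 1 := by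
  constructor
  · exact Real.nat_sqrt_le_real_sqrt
  · exact Real.real_sqrt_le_nat_sqrt_succ

theorem bad3_multiples (M d : ℕ) :
    (((Finset.Icc 1 M).filter (fun n => d ∣ n)).card : ℝ) ≤ M * (1 / (d : ℝ)) := by
  have h : (Finset.Icc 1 M).filter (fun n => d ∣ n) = (Finset.Ioc 0 M).filter (fun n => d ∣ n) :=
    rfl
  rw [h, Nat.Ioc_filter_dvd_card_eq_div, mul_one_div]
  exact Nat.cast_div_le

/-- the number of `n ≤ M` whose part below level `t` is large -/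
theorem bad3_count : ∃ C : ℝ, 0 < C ∧ ∀ (U M t : ℕ), 4 ≤ U → 2 ≤ t → t < U + 4 →
    (((Finset.Icc 1 M).filter (fun n : ℕ =>
      (U : ℝ) ^ 2 * Real.exp t < Real.log (lowPart t n))).card : ℝ) ≤
      M * (C * Real.exp (-(U : ℝ) ^ 2) * Real.exp (5 * (U + 4))) := by
  classical
  obtain ⟨C, hC, h⟩ := rankin_tail
  refine ⟨C, hC, ?_⟩
  intro U M t hU ht htU
  have hU' : (4 : ℝ) ≤ U := by exact_mod_cast hU
  have ht' : (2 : ℝ) ≤ t := by exact_mod_cast ht
  have htU' : (t : ℝ) ≤ U + 4 := by exact_mod_cast htU.le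
  have hexp : (4 : ℝ) ≤ Real.exp t := by
    have h1 := Real.quadratic_le_exp_of_nonneg (x := (t : ℝ)) (by linarith)
    nlinarith
  set z : ℝ := Real.exp (Real.exp t) with hz
  set Y : ℝ := Real.exp ((U : ℝ) ^ 2 * Real.exp t) with hY
  have hlogz : Real.log z = Real.exp t := Real.log_exp _
  have hlogY : Real.log Y = (U : ℝ) ^ 2 * Real.exp t := Real.log_exp _
  have hU2 : (1 : ℝ) ≤ (U : ℝ) ^ 2 := by nlinarith
  have hb := h (fun _ => 1) z Y ((U : ℝ) ^ 2) M ⟨rfl, fun _ _ => by norm_num, fun _ => by norm_num⟩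
    (fun _ _ => by norm_num) (Real.exp_le_exp.2 hexp) hU2
    (by
      have h1 := Real.add_one_le_exp ((U : ℝ) ^ 2 * Real.exp t)
      nlinarith) (by rw [hlogz, hlogY])
  rw [hlogz, ← Real.exp_nat_mul] at hb
  set D : Finset ℕ := (Finset.Icc 1 M).filter (fun d => IsSm z d ∧ Y < (d : ℝ)) with hD
  have hsub : (Finset.Icc 1 M).filter (fun n : ℕ =>
      (U : ℝ) ^ 2 * Real.exp t < Real.log (lowPart t n)) ⊆
      D.biUnion (fun d => (Finset.Icc 1 M).filter (fun n => d ∣ n)) := by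
    intro n hn
    rw [Finset.mem_filter, Finset.mem_Icc] at hn
    obtain ⟨⟨hn1, hnM⟩, hn2⟩ := hn
    have hdn : lowPart t n ∣ n := lowPart_dvd t n (by omega)
    have hd0 : 0 < lowPart t n := lowPart_pos t n
    rw [Finset.mem_biUnion]
    refine ⟨lowPart t n, ?_, ?_⟩
    · rw [hD, Finset.mem_filter, Finset.mem_Icc]
      refine ⟨⟨hd0, (Nat.le_of_dvd (by omega) hdn).trans hnM⟩, ⟨hd0, fun r hr hrd => ?_⟩, ?_⟩
      · have h1 := lev_of_dvd_lowPart hr hrd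
        exact ((lev_lt_iff (by omega)).1 h1).le
      · rw [hY]
        exact (Real.lt_log_iff_exp_lt (by exact_mod_cast hd0)).1 hn2
    · rw [Finset.mem_filter, Finset.mem_Icc]
      exact ⟨⟨hn1, hnM⟩, hdn⟩
  have hcard : (((Finset.Icc 1 M).filter (fun n : ℕ =>
      (U : ℝ) ^ 2 * Real.exp t < Real.log (lowPart t n))).card : ℝ) ≤
      ∑ d ∈ D, (M : ℝ) * (1 / (d : ℝ)) := by
    have h1 := (Finset.card_le_card hsub).trans Finset.card_biUnion_le
    have h2 : (((Finset.Icc 1 M).filter (fun n : ℕ =>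
      (U : ℝ) ^ 2 * Real.exp t < Real.log (lowPart t n))).card : ℝ) ≤
      ∑ d ∈ D, (((Finset.Icc 1 M).filter (fun n => d ∣ n)).card : ℝ) := by exact_mod_cast h1
    exact h2.trans (Finset.sum_le_sum fun d _ => bad3_multiples M d)
  refine hcard.trans ?_
  rw [← Finset.mul_sum]
  refine mul_le_mul_of_nonneg_left ?_ (Nat.cast_nonneg M)
  have h3 : ∑ d ∈ D, 1 / (d : ℝ) = ∑ n ∈ Finset.Icc 1 M,
      Set.indicator {n | IsSm z n ∧ Y < (n : ℝ)} (fun n => (1 : ℝ) / (n : ℝ)) n := by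
    rw [hD, Finset.sum_filter]
    refine Finset.sum_congr rfl fun n _ => ?_
    by_cases hm : IsSm z n ∧ Y < (n : ℝ)
    · rw [if_pos hm, Set.indicator_of_mem (show n ∈ {n | IsSm z n ∧ Y < (n : ℝ)} from hm)]
    · rw [if_neg hm, Set.indicator_of_notMem (show n ∉ {n | IsSm z n ∧ Y < (n : ℝ)} from hm)]
  rw [h3]
  refine hb.trans ?_
  refine mul_le_mul_of_nonneg_left (Real.exp_le_exp.2 ?_) (by positivity)
  push_cast
  linarith

/-- the elementary final inequality of `bad_siz` -/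
theorem bad3_final (K : ℝ) (hK : 0 < K) {U : ℕ} (hU : 13 ≤ U) (hKU : K ≤ U) :
    ((U : ℝ) + 4) * K * Real.exp (-(U : ℝ) ^ 2 + 7 * U + 24) ≤
      Real.exp (-(U : ℝ) ^ ((1 : ℝ) / 30)) := by
  have hU' : (13 : ℝ) ≤ U := by exact_mod_cast hU
  have h1 : (U : ℝ) + 4 ≤ Real.exp (U + 4) := by
    have := Real.add_one_le_exp ((U : ℝ) + 4)
    linarith
  have h2 : K ≤ Real.exp U := by
    have := Real.add_one_le_exp (U : ℝ)
    linarith
  have h3 : (U : ℝ) ^ ((1 : ℝ) / 30) ≤ U := by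
    calc (U : ℝ) ^ ((1 : ℝ) / 30) ≤ (U : ℝ) ^ (1 : ℝ) :=
          Real.rpow_le_rpow_of_exponent_le (by linarith) (by norm_num)
      _ = U := Real.rpow_one _
  calc ((U : ℝ) + 4) * K * Real.exp (-(U : ℝ) ^ 2 + 7 * U + 24)
      ≤ Real.exp (U + 4) * Real.exp U * Real.exp (-(U : ℝ) ^ 2 + 7 * U + 24) := by
        gcongr
    _ = Real.exp (-(U : ℝ) ^ 2 + 9 * U + 28) := by
        rw [← Real.exp_add, ← Real.exp_add]
        congr 1
        ring
    _ ≤ Real.exp (-(U : ℝ)) := by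
        apply Real.exp_le_exp.2
        nlinarith
    _ ≤ _ := Real.exp_le_exp.2 (by linarith)

theorem bad_siz : ∃ U₀ : ℕ, ∀ U : ℕ, U₀ ≤ U → ∀ X : ℝ, 1 ≤ X → (U : ℝ) ≤ LL X → LL X ≤ U + 2 →
    (cnt X {v | ∃ n t : ℕ, 1 ≤ n ∧ Nat.totient n = v ∧ SS U ≤ t ∧
      (U : ℝ) ^ 2 * Real.exp t < Real.log (lowPart t n)} : ℝ) ≤ negl U X := by
  classical
  obtain ⟨C₁, hC₁, htot⟩ := totient_lower
  obtain ⟨C₂, hC₂, hcount⟩ := bad3_count
  refine ⟨⌈2 * C₁⌉₊ + ⌈2 * C₁ * C₂⌉₊ + 13, ?_⟩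
  intro U hU X hX h1 h2
  have hU13 : 13 ≤ U := by omega
  have hU' : (13 : ℝ) ≤ U := by exact_mod_cast hU13
  obtain ⟨hX1, hl0, hl1, hl2⟩ := bad3_range (by omega) hX h1 h2
  have hCU : 2 * C₁ ≤ U := (Nat.le_ceil _).trans (by exact_mod_cast (by omega : ⌈2 * C₁⌉₊ ≤ U))
  have hKU : 2 * C₁ * C₂ ≤ U :=
    (Nat.le_ceil _).trans (by exact_mod_cast (by omega : ⌈2 * C₁ * C₂⌉₊ ≤ U))
  have hX0 : 0 < X := by linarith
  have hS2 : 2 ≤ SS U := by
    unfold SS
    rw [Nat.le_sqrt]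
    omega
  have hexpU : (2 : ℝ) * U + 2 ≤ Real.exp U := by
    have := Real.quadratic_le_exp_of_nonneg (x := (U : ℝ)) (by linarith)
    nlinarith
  -- bound for `X`
  have hXbig : (2 : ℝ) ≤ X := by
    have h3 : (2 : ℝ) ≤ Real.log X := by linarith
    have h4 := Real.add_one_le_exp (Real.log X)
    rw [Real.exp_log hX0] at h4
    linarith
  set N : ℝ := 2 * C₁ * X * Real.log X with hN
  have hN0 : 0 < N := by positivity
  set M : ℕ := ⌊N⌋₊ with hM
  have hnM : ∀ n : ℕ, 1 ≤ n → (Nat.totient n : ℝ) ≤ X → n ≤ M := by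
    intro n hn hnX
    apply Nat.le_floor
    refine (htot n hn).trans ?_
    have h3 : Real.log ((Nat.totient n : ℝ) + 2) ≤ 2 * Real.log X := by
      have h4 : (Nat.totient n : ℝ) + 2 ≤ X ^ 2 := by nlinarith
      have h5 : (0 : ℝ) ≤ (Nat.totient n : ℝ) := Nat.cast_nonneg _
      have h6 := Real.log_le_log (by linarith) h4
      rw [Real.log_pow] at h6
      push_cast at h6
      exact h6
    calc C₁ * Nat.totient n * Real.log ((Nat.totient n : ℝ) + 2)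
        ≤ C₁ * X * (2 * Real.log X) := by
          have h5 : (0 : ℝ) ≤ (Nat.totient n : ℝ) := Nat.cast_nonneg _
          have h6 : 0 ≤ Real.log ((Nat.totient n : ℝ) + 2) := Real.log_nonneg (by linarith)
          gcongr
      _ = N := by rw [hN]; ring
  have hlogN : Real.log N ≤ 2 * Real.log X := by
    rw [hN, Real.log_mul (by positivity) hl0.ne', Real.log_mul (by positivity) hX0.ne']
    have h3 : Real.log (2 * C₁) ≤ 2 * C₁ := Real.log_le_self (by positivity)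
    have h4 : Real.log (Real.log X) = LL X := rfl
    linarith
  -- the set of `n`
  set T : Finset ℕ := (Finset.range (U + 4)).filter (fun t => SS U ≤ t) with hT
  set G : Finset ℕ := T.biUnion (fun t => (Finset.Icc 1 M).filter (fun n : ℕ =>
      (U : ℝ) ^ 2 * Real.exp t < Real.log (lowPart t n))) with hG
  have hsub : {v : ℕ | v ∈ {v | ∃ n t : ℕ, 1 ≤ n ∧ Nat.totient n = v ∧ SS U ≤ t ∧
      (U : ℝ) ^ 2 * Real.exp t < Real.log (lowPart t n)} ∧ (v : ℝ) ≤ X} ⊆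
      Nat.totient '' (G : Set ℕ) := by
    rintro v ⟨⟨n, t, hn, hv, ht, hlt⟩, hvX⟩
    have hnM' : n ≤ M := hnM n hn (by rw [hv]; exact hvX)
    have htU : t < U + 4 := by
      by_contra hc
      push Not at hc
      have hc' : (U : ℝ) + 4 ≤ t := by exact_mod_cast hc
      have hd0 := lowPart_pos t n
      have h3 : (lowPart t n : ℝ) ≤ N := by
        have h4 : lowPart t n ≤ n := Nat.le_of_dvd hn (lowPart_dvd t n (by omega))
        have h5 : (lowPart t n : ℝ) ≤ (M : ℝ) := by exact_mod_cast h4.trans hnM'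
        exact h5.trans (Nat.floor_le hN0.le)
      have h4 : Real.log (lowPart t n) ≤ Real.log N :=
        Real.log_le_log (by exact_mod_cast hd0) h3
      have h5 : Real.exp (U + 4) ≤ (U : ℝ) ^ 2 * Real.exp t := by
        have h6 : Real.exp ((U : ℝ) + 4) ≤ Real.exp t := Real.exp_le_exp.2 hc'
        have h7 : (1 : ℝ) ≤ (U : ℝ) ^ 2 := by nlinarith
        exact h6.trans (le_mul_of_one_le_left (Real.exp_pos _).le h7)
      have h6 : Real.exp ((U : ℝ) + 4) = Real.exp (U + 2) * Real.exp 2 := by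
        rw [← Real.exp_add]
        congr 1
        ring
      have h7 : (3 : ℝ) ≤ Real.exp 2 := by
        have := Real.add_one_le_exp (2 : ℝ)
        linarith
      have h8 := Real.exp_pos ((U : ℝ) + 2)
      nlinarith
    refine ⟨n, ?_, hv⟩
    rw [Finset.mem_coe, hG, Finset.mem_biUnion]
    refine ⟨t, ?_, ?_⟩
    · rw [hT, Finset.mem_filter, Finset.mem_range]
      exact ⟨htU, ht⟩
    · rw [Finset.mem_filter, Finset.mem_Icc]
      exact ⟨⟨hn, hnM'⟩, hlt⟩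
  have hcard : (cnt X {v | ∃ n t : ℕ, 1 ≤ n ∧ Nat.totient n = v ∧ SS U ≤ t ∧
      (U : ℝ) ^ 2 * Real.exp t < Real.log (lowPart t n)} : ℝ) ≤ G.card := by
    unfold cnt
    have h3 := Set.ncard_le_ncard hsub ((Finset.finite_toSet G).image _)
    have h4 := Set.ncard_image_le (f := Nat.totient) (Finset.finite_toSet G)
    rw [Set.ncard_coe_finset] at h4
    exact_mod_cast h3.trans h4
  have hGcard : (G.card : ℝ) ≤ ((U : ℝ) + 4) *
      (M * (C₂ * Real.exp (-(U : ℝ) ^ 2) * Real.exp (5 * (U + 4)))) := by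
    have h3 : (G.card : ℝ) ≤ ∑ t ∈ T, (((Finset.Icc 1 M).filter (fun n : ℕ =>
      (U : ℝ) ^ 2 * Real.exp t < Real.log (lowPart t n))).card : ℝ) := by
      have h3n : G.card ≤ ∑ t ∈ T, ((Finset.Icc 1 M).filter (fun n : ℕ =>
        (U : ℝ) ^ 2 * Real.exp t < Real.log (lowPart t n))).card := Finset.card_biUnion_le
      rw [← Nat.cast_sum]
      exact Nat.cast_le.2 h3n
    refine h3.trans ?_
    have h4 : ∀ t ∈ T, (((Finset.Icc 1 M).filter (fun n : ℕ =>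
      (U : ℝ) ^ 2 * Real.exp t < Real.log (lowPart t n))).card : ℝ) ≤
      (M * (C₂ * Real.exp (-(U : ℝ) ^ 2) * Real.exp (5 * (U + 4)))) := by
      intro t ht
      rw [hT, Finset.mem_filter, Finset.mem_range] at ht
      exact hcount U M t (by omega) (by omega) ht.1
    refine (Finset.sum_le_card_nsmul _ _ _ h4).trans ?_
    rw [nsmul_eq_mul]
    refine mul_le_mul_of_nonneg_right ?_ (by positivity)
    have h5 : T.card ≤ U + 4 := by
      have := Finset.card_filter_le (Finset.range (U + 4)) (fun t => SS U ≤ t)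
      rwa [Finset.card_range] at this
    exact_mod_cast h5
  refine hcard.trans (hGcard.trans ?_)
  have hMN : (M : ℝ) ≤ N := Nat.floor_le hN0.le
  have hfin := bad3_final (2 * C₁ * C₂) (by positivity) hU13 hKU
  have hlog2 : Real.log X ^ 2 ≤ Real.exp (2 * U + 4) := by
    calc Real.log X ^ 2 ≤ Real.exp (U + 2) ^ 2 := pow_le_pow_left₀ hl0.le hl2 2
      _ = Real.exp (2 * U + 4) := by
        rw [← Real.exp_nat_mul]
        congr 1
        push_cast
        ring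
  unfold negl
  calc ((U : ℝ) + 4) * (M * (C₂ * Real.exp (-(U : ℝ) ^ 2) * Real.exp (5 * (U + 4))))
      ≤ ((U : ℝ) + 4) * (N * (C₂ * Real.exp (-(U : ℝ) ^ 2) * Real.exp (5 * (U + 4)))) := by
        gcongr
    _ = X / Real.log X * (((U : ℝ) + 4) * (2 * C₁ * C₂) *
          (Real.log X ^ 2 * (Real.exp (-(U : ℝ) ^ 2) * Real.exp (5 * (U + 4))))) := by
        rw [hN]
        field_simp
    _ ≤ X / Real.log X * (((U : ℝ) + 4) * (2 * C₁ * C₂) *
          (Real.exp (2 * U + 4) * (Real.exp (-(U : ℝ) ^ 2) * Real.exp (5 * (U + 4))))) := by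
        gcongr
    _ = X / Real.log X * (((U : ℝ) + 4) * (2 * C₁ * C₂) *
          Real.exp (-(U : ℝ) ^ 2 + 7 * U + 24)) := by
        rw [← Real.exp_add, ← Real.exp_add]
        congr 3
        ring
    _ ≤ _ := by gcongr

/-! ## rich small parts -/

theorem bad3_eq_mul {t n : ℕ} (hn : n ≠ 0) : ∃ k : ℕ, k ≠ 0 ∧ n = lowPart t n * k ∧
    Nat.Coprime (lowPart t n) k := by
  classical
  refine ⟨∏ q ∈ n.primeFactors.filter (fun q => ¬ lev q < t), q ^ n.factorization q, ?_, ?_, ?_⟩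
  · refine Finset.prod_ne_zero_iff.2 fun q hq => pow_ne_zero _ ?_
    exact (Nat.prime_of_mem_primeFactors (Finset.mem_filter.1 hq).1).ne_zero
  · conv_lhs => rw [← prod_factorization hn]
    unfold lowPart
    rw [Finset.prod_filter_mul_prod_filter_not]
  · refine Nat.Coprime.prod_right fun q hq => Nat.Coprime.pow_right _ ?_
    rw [Finset.mem_filter] at hq
    have hqp := Nat.prime_of_mem_primeFactors hq.1
    exact ((Nat.Prime.coprime_iff_not_dvd hqp).2 fun hd => hq.2 (lev_of_dvd_lowPart hqp hd)).symm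

/-- numbers with small primes only, but many of them -/
def richA (S : ℕ) (Y : ℝ) : Set ℕ :=
  {a | 1 ≤ a ∧ (a : ℝ) ≤ Y ∧ (∀ r : ℕ, r.Prime → r ∣ a → lev r < S) ∧
    100 * S < a.primeFactorsList.length}

theorem bad3_lwt {m : ℕ} (hm : m ≠ 0) :
    lwt (fun _ => (3 / 2 : ℝ)) m = (3 / 2 : ℝ) ^ m.primeFactorsList.length := by
  unfold lwt
  rw [if_neg hm]
  simp

theorem rich_mass : ∃ C : ℝ, 0 < C ∧ ∀ (S N : ℕ) (Y : ℝ), 2 ≤ S →
    mass N (richA S Y) ≤ C * Real.exp (-(30 * (S : ℝ))) := by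
  classical
  obtain ⟨C, hC, h⟩ := euler_bound (9 / 4)
  obtain ⟨C', hC', h'⟩ := prime_recip
  refine ⟨C * Real.exp (3 / 2 * C'), by positivity, ?_⟩
  intro S N Y hS
  have hS' : (2 : ℝ) ≤ S := by exact_mod_cast hS
  set f : ℕ → ℝ := lwt (fun _ => (3 / 2 : ℝ)) with hf
  set z : ℝ := Real.exp (Real.exp S) with hz
  have hfp : ∀ r : ℕ, r.Prime → f r = 3 / 2 := fun r hr => lwt_prime _ hr
  have hz3 : 3 ≤ z := by
    have h1 := Real.add_one_le_exp (S : ℝ)
    have h2 := Real.add_one_le_exp (Real.exp S)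
    linarith
  have hLLz : LL z = S := by
    unfold LL
    rw [hz, Real.log_exp, Real.log_exp]
  have hB : ∑ r ∈ (Finset.Icc 1 ⌊z⌋₊).filter Nat.Prime, (f r / (r : ℝ)) ^ 2 ≤ 9 / 4 := by
    have h1 := tot_sum_sq ⌊z⌋₊
    have h2 : ∀ r ∈ (Finset.Icc 1 ⌊z⌋₊).filter Nat.Prime, (f r / (r : ℝ)) ^ 2 ≤
        9 / 4 * (1 / ((r : ℝ) * (r - 1))) := by
      intro r hr
      have hrp := (Finset.mem_filter.1 hr).2
      have hr2 : (2 : ℝ) ≤ r := by exact_mod_cast hrp.two_le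
      rw [hfp r hrp, div_pow, show ((3 : ℝ) / 2) ^ 2 = 9 / 4 by norm_num, ← mul_one_div]
      refine mul_le_mul_of_nonneg_left ?_ (by norm_num)
      refine one_div_le_one_div_of_le (by nlinarith) (by nlinarith)
    refine (Finset.sum_le_sum h2).trans ?_
    rw [← Finset.mul_sum]
    linarith
  have hb := h f z N (lwt_cmul fun _ => by norm_num) (by linarith) (fun r hr => by
    have hr2 : (2 : ℝ) ≤ r := by exact_mod_cast hr.two_le
    rw [hfp r hr, div_le_div_iff₀ (by linarith) (by norm_num)]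
    linarith) hB
  have hsum : ∑ r ∈ (Finset.Icc 1 ⌊z⌋₊).filter Nat.Prime, f r / (r : ℝ) ≤
      3 / 2 * S + 3 / 2 * C' := by
    have h1 : ∀ r ∈ (Finset.Icc 1 ⌊z⌋₊).filter Nat.Prime, f r / (r : ℝ) =
        3 / 2 * (1 / (r : ℝ)) := by
      intro r hr
      rw [hfp r (Finset.mem_filter.1 hr).2, mul_one_div]
    rw [Finset.sum_congr rfl h1, ← Finset.mul_sum]
    have h2 := (abs_le.1 (h' z hz3)).2
    rw [hLLz] at h2
    linarith
  have hterm : ∀ m ∈ Finset.Icc 1 N, Set.indicator (richA S Y) (fun m : ℕ => 1 / (m : ℝ)) m ≤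
      Real.exp (-(100 / 3 * (S : ℝ))) *
        Set.indicator {n | IsSm z n} (fun n => f n / (n : ℝ)) m := by
    intro m hm
    rw [Finset.mem_Icc] at hm
    have hm0 : (0 : ℝ) < m := by exact_mod_cast hm.1
    by_cases hA : m ∈ richA S Y
    · have hsm : m ∈ {n | IsSm z n} := by
        refine ⟨hm.1, fun r hr hrd => ?_⟩
        exact ((lev_lt_iff (by omega)).1 (hA.2.2.1 r hr hrd)).le
      rw [Set.indicator_of_mem hA, Set.indicator_of_mem hsm, hf, bad3_lwt (by omega),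
        ← mul_div_assoc]
      refine div_le_div_of_nonneg_right ?_ hm0.le
      have h1 : (3 / 2 : ℝ) ^ (100 * S) ≤ (3 / 2 : ℝ) ^ m.primeFactorsList.length :=
        pow_le_pow_right₀ (by norm_num) hA.2.2.2.le
      have h2 : Real.exp (100 / 3 * (S : ℝ)) ≤ (3 / 2 : ℝ) ^ (100 * S) := by
        have h3 : Real.exp (1 / 3 : ℝ) ≤ 3 / 2 := by
          have h4 := Real.one_sub_inv_le_log_of_pos (x := (3 / 2 : ℝ)) (by norm_num)
          rw [← Real.le_log_iff_exp_le (by norm_num)]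
          norm_num at h4 ⊢
          linarith
        calc Real.exp (100 / 3 * (S : ℝ)) = Real.exp (1 / 3) ^ (100 * S) := by
              rw [← Real.exp_nat_mul]
              congr 1
              push_cast
              ring
          _ ≤ _ := pow_le_pow_left₀ (Real.exp_pos _).le h3 _
      rw [Real.exp_neg]
      have h5 := Real.exp_pos (100 / 3 * (S : ℝ))
      rw [inv_mul_eq_div, le_div_iff₀ h5, one_mul]
      exact h2.trans h1
    · rw [Set.indicator_of_notMem hA]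
      refine mul_nonneg (Real.exp_pos _).le (Set.indicator_nonneg (fun n _ => ?_) _)
      exact div_nonneg ((lwt_cmul fun _ => by norm_num).2.2 n) (Nat.cast_nonneg n)
  unfold mass
  refine (Finset.sum_le_sum hterm).trans ?_
  rw [← Finset.mul_sum]
  calc Real.exp (-(100 / 3 * (S : ℝ))) *
        ∑ n ∈ Finset.Icc 1 N, Set.indicator {n | IsSm z n} (fun n => f n / (n : ℝ)) n
      ≤ Real.exp (-(100 / 3 * (S : ℝ))) * (C * Real.exp (3 / 2 * S + 3 / 2 * C')) := by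
        refine mul_le_mul_of_nonneg_left (hb.trans ?_) (Real.exp_pos _).le
        exact mul_le_mul_of_nonneg_left (Real.exp_le_exp.2 hsum) hC.le
    _ = C * Real.exp (3 / 2 * C') * Real.exp (-(191 / 6 * (S : ℝ))) := by
        rw [Real.exp_add]
        have h6 : Real.exp (-(191 / 6 * (S : ℝ))) =
            Real.exp (-(100 / 3 * (S : ℝ))) * Real.exp (3 / 2 * (S : ℝ)) := by
          rw [← Real.exp_add]
          congr 1
          ring
        rw [h6]
        ring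
    _ ≤ _ := by
        refine mul_le_mul_of_nonneg_left (Real.exp_le_exp.2 ?_) (by positivity)
        linarith

theorem bad3_final2 (C K : ℝ) (hC : 0 < C) (hK : 0 < K) : ∃ U₀ : ℕ, ∀ U : ℕ, U₀ ≤ U →
    Real.exp (C * Real.log (U + 5) ^ 2) * (K * Real.exp (-(30 * ((SS U : ℕ) : ℝ)))) ≤
      Real.exp (-(U : ℝ) ^ ((1 : ℝ) / 30)) ∧
    2 * (U : ℝ) ^ 2 * Real.exp ((SS U : ℕ) : ℝ) ≤ Real.exp U ∧ 100 ≤ U := by
  have e1 : ∀ᶠ x : ℝ in Filter.atTop, Real.log x ≤ x ^ ((1 : ℝ) / 8) := by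
    have := (isLittleO_log_rpow_atTop (r := (1 : ℝ) / 8) (by norm_num)).bound
      (show (0 : ℝ) < 1 by norm_num)
    filter_upwards [this, Filter.eventually_ge_atTop (1 : ℝ)] with x hx hx1
    rw [one_mul, Real.norm_of_nonneg (Real.log_nonneg hx1),
      Real.norm_of_nonneg (Real.rpow_nonneg (by linarith) _)] at hx
    exact hx
  have e2 : ∀ᶠ x : ℝ in Filter.atTop, 4 * C ≤ x ^ ((1 : ℝ) / 4) :=
    (tendsto_rpow_atTop (by norm_num : (0 : ℝ) < 1 / 4)).eventually_ge_atTop _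
  have e3 : ∀ᶠ x : ℝ in Filter.atTop, K + 30 ≤ x ^ ((1 : ℝ) / 2) :=
    (tendsto_rpow_atTop (by norm_num : (0 : ℝ) < 1 / 2)).eventually_ge_atTop _
  have e4 : ∀ᶠ x : ℝ in Filter.atTop, (100 : ℝ) ≤ x := Filter.eventually_ge_atTop 100
  obtain ⟨U₀, hU₀⟩ := Filter.eventually_atTop.mp
    (tendsto_natCast_atTop_atTop.eventually (e1.and (e2.and (e3.and e4))))
  refine ⟨U₀, fun U hU => ?_⟩
  obtain ⟨f1, f2, f3, f4⟩ := hU₀ U hU
  have hU0 : (0 : ℝ) < U := by linarith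
  have hU1 : (1 : ℝ) ≤ U := by linarith
  obtain ⟨g1, g2⟩ := bad3_sqrt U
  rw [Real.sqrt_eq_rpow] at g1 g2
  have hs4 : (U : ℝ) ^ ((1 : ℝ) / 4) * (U : ℝ) ^ ((1 : ℝ) / 4) = (U : ℝ) ^ ((1 : ℝ) / 2) := by
    rw [← Real.rpow_add hU0]
    norm_num
  have hs8 : (U : ℝ) ^ ((1 : ℝ) / 8) * (U : ℝ) ^ ((1 : ℝ) / 8) = (U : ℝ) ^ ((1 : ℝ) / 4) := by
    rw [← Real.rpow_add hU0]
    norm_num
  have h4pos : 0 < (U : ℝ) ^ ((1 : ℝ) / 4) := Real.rpow_pos_of_pos hU0 _
  have h8pos : 0 < (U : ℝ) ^ ((1 : ℝ) / 8) := Real.rpow_pos_of_pos hU0 _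
  have hlog : Real.log ((U : ℝ) + 5) ≤ 2 * (U : ℝ) ^ ((1 : ℝ) / 8) := by
    have h1 : (U : ℝ) + 5 ≤ (U : ℝ) ^ 2 := by nlinarith
    have h2 := Real.log_le_log (by linarith) h1
    rw [Real.log_pow] at h2
    push_cast at h2
    linarith
  have hlog0 : 0 ≤ Real.log ((U : ℝ) + 5) := Real.log_nonneg (by linarith)
  have hlog2 : Real.log ((U : ℝ) + 5) ^ 2 ≤ 4 * (U : ℝ) ^ ((1 : ℝ) / 4) := by
    calc Real.log ((U : ℝ) + 5) ^ 2 ≤ (2 * (U : ℝ) ^ ((1 : ℝ) / 8)) ^ 2 :=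
          pow_le_pow_left₀ hlog0 hlog 2
      _ = 4 * ((U : ℝ) ^ ((1 : ℝ) / 8) * (U : ℝ) ^ ((1 : ℝ) / 8)) := by ring
      _ = _ := by rw [hs8]
  have hC2 : C * Real.log ((U : ℝ) + 5) ^ 2 ≤ (U : ℝ) ^ ((1 : ℝ) / 2) := by
    calc C * Real.log ((U : ℝ) + 5) ^ 2 ≤ C * (4 * (U : ℝ) ^ ((1 : ℝ) / 4)) :=
          mul_le_mul_of_nonneg_left hlog2 hC.le
      _ = (4 * C) * (U : ℝ) ^ ((1 : ℝ) / 4) := by ring
      _ ≤ (U : ℝ) ^ ((1 : ℝ) / 4) * (U : ℝ) ^ ((1 : ℝ) / 4) :=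
          mul_le_mul_of_nonneg_right f2 h4pos.le
      _ = _ := hs4
  have h30 : (U : ℝ) ^ ((1 : ℝ) / 30) ≤ (U : ℝ) ^ ((1 : ℝ) / 2) :=
    Real.rpow_le_rpow_of_exponent_le hU1 (by norm_num)
  have hKexp : K ≤ Real.exp ((U : ℝ) ^ ((1 : ℝ) / 2)) := by
    have := Real.add_one_le_exp ((U : ℝ) ^ ((1 : ℝ) / 2))
    linarith
  have hsU : (U : ℝ) ^ ((1 : ℝ) / 2) * (U : ℝ) ^ ((1 : ℝ) / 2) = U := by
    rw [← Real.rpow_add hU0]
    norm_num
  have hs10 : (U : ℝ) ^ ((1 : ℝ) / 2) ≤ U / 2 := by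
    nlinarith
  refine ⟨?_, ?_, by exact_mod_cast f4⟩
  · calc Real.exp (C * Real.log (U + 5) ^ 2) * (K * Real.exp (-(30 * ((SS U : ℕ) : ℝ))))
        ≤ Real.exp ((U : ℝ) ^ ((1 : ℝ) / 2)) * (Real.exp ((U : ℝ) ^ ((1 : ℝ) / 2)) *
            Real.exp (-(30 * ((U : ℝ) ^ ((1 : ℝ) / 2) - 1)))) := by
          gcongr
          linarith
      _ = Real.exp (-(28 * (U : ℝ) ^ ((1 : ℝ) / 2)) + 30) := by
          rw [← Real.exp_add, ← Real.exp_add]
          congr 1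
          ring
      _ ≤ _ := Real.exp_le_exp.2 (by linarith)
  · have h1 : Real.exp ((SS U : ℕ) : ℝ) ≤ Real.exp ((U : ℝ) / 2) :=
      Real.exp_le_exp.2 (by linarith)
    have h2 : 2 * (U : ℝ) ^ 2 ≤ Real.exp ((U : ℝ) / 2) := by
      have h3 := Real.pow_div_factorial_le_exp ((U : ℝ) / 2) (by linarith) 3
      have h4 : (Nat.factorial 3 : ℝ) = 6 := by norm_num [Nat.factorial]
      rw [h4] at h3
      have h5 : ((U : ℝ) / 2) ^ 3 / 6 = (U : ℝ) ^ 2 * (U / 48) := by ring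
      rw [h5] at h3
      have h6 : (2 : ℝ) ≤ U / 48 := by linarith
      have h7 : (0 : ℝ) ≤ (U : ℝ) ^ 2 := by positivity
      nlinarith
    calc 2 * (U : ℝ) ^ 2 * Real.exp ((SS U : ℕ) : ℝ)
        ≤ Real.exp ((U : ℝ) / 2) * Real.exp ((U : ℝ) / 2) := by gcongr
      _ = Real.exp U := by
        rw [← Real.exp_add]
        congr 1
        ring

theorem bad_sml : ∃ U₀ : ℕ, ∀ U : ℕ, U₀ ≤ U → ∀ X : ℝ, 1 ≤ X → (U : ℝ) ≤ LL X → LL X ≤ U + 2 →
    (cnt X {v | ∃ n : ℕ, 1 ≤ n ∧ Nat.totient n = v ∧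
      (∀ t : ℕ, SS U ≤ t → Real.log (lowPart t n) ≤ (U : ℝ) ^ 2 * Real.exp t) ∧
      100 * SS U < (Nat.totient (lowPart (SS U) n)).primeFactorsList.length} : ℝ) ≤ negl U X := by
  obtain ⟨C, hC, hgp⟩ := gp
  obtain ⟨K, hK, hrich⟩ := rich_mass
  obtain ⟨U₀, hU₀⟩ := bad3_final2 C K hC hK
  refine ⟨U₀, fun U hU X hX h1 h2 => ?_⟩
  obtain ⟨hf1, hf2, hU100⟩ := hU₀ U hU
  have hU' : (100 : ℝ) ≤ U := by exact_mod_cast hU100
  obtain ⟨hX1, hl0, hl1, hl2⟩ := bad3_range (by omega) hX h1 h2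
  have hX0 : 0 < X := by linarith
  have hX1000 : 1000 ≤ X := by
    have h3 := Real.add_one_le_exp (U : ℝ)
    have h4 : (100 : ℝ) ≤ Real.log X := by linarith
    have h5 := Real.quadratic_le_exp_of_nonneg (x := Real.log X) (by linarith)
    rw [Real.exp_log hX0] at h5
    nlinarith
  have hS2 : 2 ≤ SS U := by
    unfold SS
    rw [Nat.le_sqrt]
    omega
  have hsub : {v | ∃ n : ℕ, 1 ≤ n ∧ Nat.totient n = v ∧
      (∀ t : ℕ, SS U ≤ t → Real.log (lowPart t n) ≤ (U : ℝ) ^ 2 * Real.exp t) ∧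
      100 * SS U < (Nat.totient (lowPart (SS U) n)).primeFactorsList.length} ⊆
      {v | ∃ a ∈ richA (SS U) (√X), ∃ v' ∈ Tot, v = a * v'} := by
    rintro v ⟨n, hn, hv, hlow, hrich⟩
    obtain ⟨k, hk0, hnk, hcop⟩ := bad3_eq_mul (t := SS U) (n := n) (by omega)
    refine ⟨Nat.totient (lowPart (SS U) n), ⟨Nat.totient_pos.2 (lowPart_pos _ _), ?_,
      fun r hr hrd => lev_of_dvd_totient_lowPart hr hrd, hrich⟩, Nat.totient k,
      ⟨k, by omega, rfl⟩, ?_⟩
    · have h3 : (Nat.totient (lowPart (SS U) n) : ℝ) ≤ lowPart (SS U) n := by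
        exact_mod_cast Nat.totient_le _
      have hp : (0 : ℝ) < lowPart (SS U) n := by exact_mod_cast lowPart_pos _ _
      have h4 := hlow (SS U) le_rfl
      have h5 : Real.log (lowPart (SS U) n) ≤ Real.log √X := by
        rw [Real.log_sqrt hX0.le]
        linarith
      exact h3.trans ((Real.log_le_log_iff hp (Real.sqrt_pos.2 hX0)).1 h5)
    · rw [← hv]
      conv_lhs => rw [hnk]
      exact Nat.totient_mul hcop
  have h3 : (cnt X {v | ∃ n : ℕ, 1 ≤ n ∧ Nat.totient n = v ∧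
      (∀ t : ℕ, SS U ≤ t → Real.log (lowPart t n) ≤ (U : ℝ) ^ 2 * Real.exp t) ∧
      100 * SS U < (Nat.totient (lowPart (SS U) n)).primeFactorsList.length} : ℝ) ≤
      cnt X {v | ∃ a ∈ richA (SS U) (√X), ∃ v' ∈ Tot, v = a * v'} := by
    exact_mod_cast cnt_mono hsub
  refine h3.trans ((hgp X (richA (SS U) (√X)) hX1000 fun a ha => ⟨by exact_mod_cast ha.1, ha.2.1⟩).trans ?_)
  unfold negl
  have hlogLL : Real.log (LL X + 3) ^ 2 ≤ Real.log ((U : ℝ) + 5) ^ 2 := by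
    refine pow_le_pow_left₀ (Real.log_nonneg (by linarith)) ?_ 2
    exact Real.log_le_log (by linarith) (by linarith)
  have hm : mass ⌊X⌋₊ (richA (SS U) (√X)) ≤ K * Real.exp (-(30 * ((SS U : ℕ) : ℝ))) :=
    hrich _ _ _ hS2
  have hXl : 0 ≤ X / Real.log X := by positivity
  calc X / Real.log X * Real.exp (C * Real.log (LL X + 3) ^ 2) *
        mass ⌊X⌋₊ (richA (SS U) (√X))
      ≤ X / Real.log X * Real.exp (C * Real.log ((U : ℝ) + 5) ^ 2) *
        (K * Real.exp (-(30 * ((SS U : ℕ) : ℝ)))) := by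
        gcongr
        exact mass_nonneg
    _ = X / Real.log X * (Real.exp (C * Real.log ((U : ℝ) + 5) ^ 2) *
        (K * Real.exp (-(30 * ((SS U : ℕ) : ℝ))))) := by ring
    _ ≤ _ := mul_le_mul_of_nonneg_left hf1 hXl

end P031
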