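import Vale.Agent.P031.Bad0

/-!
# P031, module BAD4: failure of the decay condition

PROOF.  `t = lev q`, `S ≤ t ≤ U + 3`.  `n_1 = ∏_{q' ≤ q} q'^{v(q')}` (part of `n` composed of primes `≤ q`).
If `2t ≤ U + 2`: `φ(n_1) ∈ badDec t` (`lev_mono`), `v = φ(n_1) v'`, `v' ∈ Tot`, `n_1 ∣ lowPart (t+1) n` so
`log φ(n_1) ≤ U² e^{t+1} ≤ (log X)/2`; use `gp` with `A = ⋃_{S ≤ t ≤ U/2+1} badDec t ∩ [1, √X]` and `badDec_mass`
(`∑_{t ≥ S} e^{-t/400} ≤ 500 e^{-S/400}`).
If `2t > U + 2`: put `a = t/20, b = t/10, w = b - a`, `a ≥ S`; all `61` primes `q'` in question are normal with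
`b ≤ lev q'`, so `Lv a b (q'-1) = Lv S b (q'-1) - Lv S a (q'-1) ≥ w - 2E`, hence
`Lv a b v ≥ 61 (w - 2E) ≥ 30 w` (`∏ (q'-1) ∣ φ(n)`); by `win_many_cnt` the number of integers `v ≤ X` with this
property is `≤ C X e^{-73 w} ≤ C X e^{-1.8 U + 146}`, and there are `≤ U + 4` values of `t`.
-/

namespace P031

open scoped BigOperators

theorem bd4_cnt_biUnion {ι : Type*} (X : ℝ) (T : Finset ι) (A : ι → Set ℕ) :
    (cnt X {m | ∃ t ∈ T, m ∈ A t} : ℝ) ≤ ∑ t ∈ T, (cnt X (A t) : ℝ) := by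
  classical
  induction T using Finset.induction_on with
  | empty =>
    simp [cnt]
  | insert a T ha ih =>
    rw [Finset.sum_insert ha]
    have h1 : {m | ∃ t ∈ insert a T, m ∈ A t} = A a ∪ {m | ∃ t ∈ T, m ∈ A t} := by
      ext m
      simp only [Finset.mem_insert, Set.mem_ofPred_eq, Set.mem_union]
      constructor
      · rintro ⟨t, rfl | ht, hm⟩
        · exact Or.inl hm
        · exact Or.inr ⟨t, ht, hm⟩
      · rintro (hm | ⟨t, ht, hm⟩)
        · exact ⟨a, Or.inl rfl, hm⟩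
        · exact ⟨t, Or.inr ht, hm⟩
    rw [h1]
    have h2 : (cnt X (A a ∪ {m | ∃ t ∈ T, m ∈ A t}) : ℝ) ≤
        (cnt X (A a) : ℝ) + (cnt X {m | ∃ t ∈ T, m ∈ A t} : ℝ) := by
      exact_mod_cast cnt_union (X := X) (A := A a) (B := {m | ∃ t ∈ T, m ∈ A t})
    linarith

theorem bd4_primes {t n p : ℕ} (hn : 1 ≤ n) :
    p ∈ (lowPart t n).primeFactors ↔ p ∈ n.primeFactors ∧ lev p < t := by
  rw [Nat.mem_primeFactors]
  constructor
  · rintro ⟨hp, hd, -⟩
    unfold lowPart at hd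
    rw [hp.prime.dvd_finsetProd_iff] at hd
    obtain ⟨q, hq, hpq⟩ := hd
    rw [Finset.mem_filter] at hq
    have h1 := hp.dvd_of_dvd_pow hpq
    rw [Nat.prime_dvd_prime_iff_eq hp (Nat.prime_of_mem_primeFactors hq.1)] at h1
    subst h1
    exact hq
  · rintro ⟨hp, hl⟩
    have hp' := Nat.prime_of_mem_primeFactors hp
    refine ⟨hp', ?_, (lowPart_pos t n).ne'⟩
    unfold lowPart
    have h1 : p ^ n.factorization p ∣ ∏ q ∈ n.primeFactors.filter (fun q => lev q < t),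
        q ^ n.factorization q :=
      Finset.dvd_prod_of_mem (fun q => q ^ n.factorization q) (Finset.mem_filter.mpr ⟨hp, hl⟩)
    refine dvd_trans (dvd_pow_self p ?_) h1
    have := hp'.factorization_pos_of_dvd (by omega) (Nat.dvd_of_mem_primeFactors hp)
    omega

theorem bd4_split (t : ℕ) {n : ℕ} (hn : 1 ≤ n) :
    ∃ r, 1 ≤ r ∧ Nat.totient n = Nat.totient (lowPart t n) * Nat.totient r := by
  set r := ∏ q ∈ n.primeFactors.filter (fun q => ¬ lev q < t), q ^ n.factorization q with hr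
  have h1 : n = lowPart t n * r := by
    unfold lowPart
    rw [hr, Finset.prod_filter_mul_prod_filter_not]
    exact (Nat.prod_factorization_pow_eq_self (by omega)).symm
  have hcop : Nat.Coprime (lowPart t n) r := by
    unfold lowPart
    rw [hr]
    apply Nat.Coprime.prod_left
    intro p hp
    apply Nat.Coprime.prod_right
    intro q hq
    rw [Finset.mem_filter] at hp hq
    apply Nat.coprime_pow_primes _ _ (Nat.prime_of_mem_primeFactors hp.1)
      (Nat.prime_of_mem_primeFactors hq.1)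
    rintro rfl
    exact hq.2 hp.2
  have hr1 : 1 ≤ r := by
    rcases Nat.eq_zero_or_pos r with h0 | h0
    · rw [h0, mul_zero] at h1
      omega
    · exact h0
  refine ⟨r, hr1, ?_⟩
  conv_lhs => rw [h1]
  exact Nat.totient_mul hcop

/-- part A: the value has a factor in `badDec t`, of size at most `√X` -/
theorem bd4_partA {U n q : ℕ} {X : ℝ} (hn : 1 ≤ n)
    (hsiz : ∀ t : ℕ, SS U ≤ t → Real.log (lowPart t n) ≤ (U : ℝ) ^ 2 * Real.exp t)
    (hq : q ∈ bigs U n)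
    (h61 : 61 ≤ ((bigs U n).filter (fun q' => q' ≤ q ∧ lev q ≤ 10 * lev q')).card)
    (hX : 0 < X) (hlog : (U : ℝ) ^ 2 * Real.exp (lev q + 1) ≤ Real.log X / 2) :
    ∃ a, a ∈ badDec (lev q) ∧ (1 : ℝ) ≤ a ∧ (a : ℝ) ≤ √X ∧ ∃ v' ∈ Tot, Nat.totient n = a * v' := by
  obtain ⟨r, hr1, hr⟩ := bd4_split (lev q + 1) hn
  have hlp := lowPart_pos (lev q + 1) n
  refine ⟨Nat.totient (lowPart (lev q + 1) n), ?_, ?_, ?_, Nat.totient r, ⟨r, hr1, rfl⟩, hr⟩
  · refine ⟨lowPart (lev q + 1) n, hlp, rfl, ?_, ?_⟩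
    · intro p hp
      have := ((bd4_primes hn).mp hp).2
      omega
    · refine h61.trans (Finset.card_le_card ?_)
      intro p hp
      rw [Finset.mem_filter] at hp ⊢
      obtain ⟨hpb, hpq, hpl⟩ := hp
      have hpb' := mem_bigs.mp hpb
      refine ⟨(bd4_primes hn).mpr ⟨?_, ?_⟩, hpl⟩
      · rw [Nat.mem_primeFactors]
        exact ⟨hpb'.1, hpb'.2.1, hpb'.2.2.1⟩
      · have := lev_mono hpq
        omega
  · exact_mod_cast Nat.totient_pos.mpr hlp
  · have h1 : (Nat.totient (lowPart (lev q + 1) n) : ℝ) ≤ (lowPart (lev q + 1) n : ℝ) := by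
      exact_mod_cast Nat.totient_le _
    have h2 := hsiz (lev q + 1) (by have := (mem_bigs.mp hq).2.2.2; omega)
    push_cast at h2
    refine h1.trans ?_
    apply Real.le_sqrt_of_sq_le
    have h3 : (0 : ℝ) < (lowPart (lev q + 1) n : ℝ) := by exact_mod_cast hlp
    rw [← Real.log_le_log_iff (by positivity) hX, Real.log_pow]
    push_cast
    linarith

/-- part B: the value has many prime factors in the window -/
theorem bd4_partB {U n q : ℕ} (hn : 1 ≤ n)
    (hnrm : ∀ q' ∈ bigs U n, Normal U q')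
    (h61 : 61 ≤ ((bigs U n).filter (fun q' => q' ≤ q ∧ lev q ≤ 10 * lev q')).card)
    (hS : SS U ≤ lev q / 20)
    (hE : 122 * EE U ≤ 31 * (((lev q / 10 : ℕ) : ℝ) - ((lev q / 20 : ℕ) : ℝ))) :
    1 ≤ Nat.totient n ∧
      30 * (lev q / 10 - lev q / 20) ≤ Lv (lev q / 20) (lev q / 10) (Nat.totient n) := by
  have htot : 1 ≤ Nat.totient n := Nat.totient_pos.mpr hn
  refine ⟨htot, ?_⟩
  set t := lev q with ht
  set T := (bigs U n).filter (fun q' => q' ≤ q ∧ t ≤ 10 * lev q') with hT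
  have hab : t / 20 ≤ t / 10 := by omega
  have hTsub : T ⊆ n.primeFactors := by
    intro p hp
    have := mem_bigs.mp (Finset.mem_filter.mp hp).1
    rw [Nat.mem_primeFactors]
    exact ⟨this.1, this.2.1, this.2.2.1⟩
  have hdvd : ∏ p ∈ T, (p - 1) ∣ Nat.totient n := by
    refine dvd_trans (Finset.prod_dvd_prod_of_subset _ _ (fun p => p - 1) hTsub) ?_
    rw [Nat.totient_eq_div_primeFactors_mul n]
    exact Dvd.intro_left _ rfl
  have h1 := Lv_mono_dvd (t / 20) (t / 10) (by omega) hdvd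
  rw [Lv_prod _ _ T (fun p => p - 1)] at h1
  swap
  · intro p hp
    have := (mem_bigs.mp (Finset.mem_filter.mp hp).1).1.two_le
    omega
  have h2 : ∀ p ∈ T, (((t / 10 : ℕ) : ℝ) - ((t / 20 : ℕ) : ℝ)) - 2 * EE U ≤
      (Lv (t / 20) (t / 10) (p - 1) : ℝ) := by
    intro p hp
    rw [hT, Finset.mem_filter] at hp
    have hN := (hnrm p hp.1).1
    have h3 := (abs_le.mp (hN (t / 10) (by omega) (by omega))).1
    have h4 := (abs_le.mp (hN (t / 20) hS (by omega))).2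
    have h5 : (Lv (SS U) (t / 10) (p - 1) : ℝ) =
        (Lv (SS U) (t / 20) (p - 1) : ℝ) + (Lv (t / 20) (t / 10) (p - 1) : ℝ) := by
      exact_mod_cast Lv_add hS hab (p - 1)
    linarith
  have hE0 : 0 ≤ EE U := by unfold EE; positivity
  have h6 : (61 : ℝ) * ((((t / 10 : ℕ) : ℝ) - ((t / 20 : ℕ) : ℝ)) - 2 * EE U) ≤
      (Lv (t / 20) (t / 10) (Nat.totient n) : ℝ) := by
    calc (61 : ℝ) * ((((t / 10 : ℕ) : ℝ) - ((t / 20 : ℕ) : ℝ)) - 2 * EE U) ≤
          (T.card : ℝ) * ((((t / 10 : ℕ) : ℝ) - ((t / 20 : ℕ) : ℝ)) - 2 * EE U) := by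
          apply mul_le_mul_of_nonneg_right
          · exact_mod_cast h61
          · linarith
      _ = ∑ _p ∈ T, ((((t / 10 : ℕ) : ℝ) - ((t / 20 : ℕ) : ℝ)) - 2 * EE U) := by
          rw [Finset.sum_const, nsmul_eq_mul]
      _ ≤ ∑ p ∈ T, (Lv (t / 20) (t / 10) (p - 1) : ℝ) := Finset.sum_le_sum h2
      _ ≤ _ := by exact_mod_cast h1
  have h7 : ((30 * (t / 10 - t / 20) : ℕ) : ℝ) ≤ (Lv (t / 20) (t / 10) (Nat.totient n) : ℝ) := by
    rw [Nat.cast_mul, Nat.cast_sub hab]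
    push_cast
    linarith
  exact_mod_cast h7

theorem bd4_lev {n q : ℕ} {X : ℝ} {U : ℕ} (hn : 1 ≤ n) (hq : q.Prime) (hqn : q ∣ n) (hX : 16 ≤ X)
    (hv : (Nat.totient n : ℝ) ≤ X) (hLL : LL X ≤ U + 2) : lev q ≤ U + 3 := by
  rcases Nat.eq_zero_or_pos (lev q) with h0 | h0
  · omega
  · have h1 := (le_lev_iff (s := lev q) (r := q) h0).mp le_rfl
    have h2 : (q : ℝ) ≤ X + 1 := by
      have h4 := Nat.totient_dvd_of_dvd hqn
      rw [Nat.totient_prime hq] at h4
      have h5 := Nat.le_of_dvd (Nat.totient_pos.mpr hn) h4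
      have h6 : q ≤ Nat.totient n + 1 := by omega
      have h7 : (q : ℝ) ≤ Nat.totient n + 1 := by exact_mod_cast h6
      linarith
    have h3 : Real.exp (Real.exp (lev q)) ≤ X ^ 2 := by nlinarith
    have h4 : Real.exp (lev q) ≤ 2 * Real.log X := by
      rw [← Real.le_log_iff_exp_le (by positivity)] at h3
      rw [Real.log_pow] at h3
      exact_mod_cast h3
    have hlX : 0 < Real.log X := Real.log_pos (by linarith)
    have h5 : (lev q : ℝ) ≤ Real.log 2 + LL X := by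
      rw [← Real.le_log_iff_exp_le (by positivity), Real.log_mul (by norm_num) hlX.ne'] at h4
      exact h4
    have h6 := Real.log_two_lt_d9
    have h7 : (lev q : ℝ) < (U + 3 + 1 : ℕ) := by push_cast; linarith
    have h8 : lev q < U + 3 + 1 := by exact_mod_cast h7
    omega

theorem bd4_cnt_mono {X : ℝ} (A B : Set ℕ) (h : ∀ v ∈ A, (v : ℝ) ≤ X → v ∈ B) :
    cnt X A ≤ cnt X B := by
  unfold cnt
  apply Set.ncard_le_ncard
  · rintro v ⟨hv, hvX⟩
    exact ⟨h v hv hvX, hvX⟩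
  · apply (Set.finite_Iic ⌊X⌋₊).subset
    rintro v ⟨-, hvX⟩
    exact Nat.le_floor hvX

theorem bd4_large {U : ℕ} {X : ℝ} (hX1 : 1 ≤ X) (h : (U : ℝ) ≤ LL X) (hU : 1 ≤ U) :
    Real.exp U ≤ Real.log X := by
  unfold LL at h
  have h1 : 0 ≤ Real.log X := Real.log_nonneg hX1
  have h2 : Real.log X ≠ 0 := by
    intro h0
    rw [h0, Real.log_zero] at h
    have : (1 : ℝ) ≤ U := by exact_mod_cast hU
    linarith
  have h3 : 0 < Real.log X := lt_of_le_of_ne h1 (Ne.symm h2)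
  rwa [Real.le_log_iff_exp_le h3] at h

theorem bd4_SA {C₁ w X : ℝ} {U t₀ : ℕ}
    (hgp : ∀ (X : ℝ) (A : Set ℕ), 1000 ≤ X → (∀ a ∈ A, (1 : ℝ) ≤ a ∧ (a : ℝ) ≤ √X) →
      (cnt X {v | ∃ a ∈ A, ∃ v' ∈ Tot, v = a * v'} : ℝ) ≤
        X / Real.log X * Real.exp (C₁ * Real.log (LL X + 3) ^ 2) * mass ⌊X⌋₊ A)
    (hbad : ∀ t : ℕ, t₀ ≤ t → ∀ N : ℕ, mass N (badDec t) ≤ Real.exp (-(t : ℝ) / 400))
    (hSt₀ : t₀ ≤ SS U) (hX1000 : 1000 ≤ X) (hlX0 : 0 < Real.log X) (hU4w : (U : ℝ) + 4 ≤ Real.exp w)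
    (hLL1 : 0 ≤ LL X) (hXU2 : LL X ≤ U + 2) (hlog5 : Real.log (U + 5) ≤ w) (hwC₁ : C₁ ≤ w)
    (hw0 : 0 ≤ w)
    (hfin : w ^ 3 + (w + -(SS U : ℝ) / 400) ≤ -w ^ 2 - 1) :
    (cnt X {v | ∃ a ∈ {a : ℕ | (a ∈ {a | ∃ t ∈ Finset.Icc (SS U) (U + 3), a ∈ badDec t}) ∧
      (1 : ℝ) ≤ a ∧ (a : ℝ) ≤ √X}, ∃ v' ∈ Tot, v = a * v'} : ℝ) ≤
      X / Real.log X * Real.exp (-w ^ 2 - 1) := by
  set A : Set ℕ := {a | (a ∈ {a | ∃ t ∈ Finset.Icc (SS U) (U + 3), a ∈ badDec t}) ∧
    (1 : ℝ) ≤ a ∧ (a : ℝ) ≤ √X} with hA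
  have h1 := hgp X A hX1000 (fun a ha => ha.2)
  have h2 : mass ⌊X⌋₊ A ≤ (U + 4) * Real.exp (-(SS U : ℝ) / 400) := by
    have h3 : mass ⌊X⌋₊ A ≤ mass ⌊X⌋₊ {a | ∃ t ∈ Finset.Icc (SS U) (U + 3), a ∈ badDec t} :=
      mass_mono fun a ha => ha.1
    refine h3.trans ((ob_mass_biUnion _ _ _).trans ?_)
    have h4 : ∀ t ∈ Finset.Icc (SS U) (U + 3), mass ⌊X⌋₊ (badDec t) ≤
        Real.exp (-(SS U : ℝ) / 400) := by
      intro t ht
      rw [Finset.mem_Icc] at ht
      refine (hbad t (by omega) _).trans ?_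
      apply Real.exp_le_exp.mpr
      have : (SS U : ℝ) ≤ t := by exact_mod_cast ht.1
      linarith
    refine (Finset.sum_le_sum h4).trans ?_
    rw [Finset.sum_const, Nat.card_Icc, nsmul_eq_mul]
    apply mul_le_mul_of_nonneg_right _ (Real.exp_pos _).le
    have : U + 3 + 1 - SS U ≤ U + 4 := by omega
    exact_mod_cast this
  have h5 : Real.log (LL X + 3) ≤ w := by
    refine le_trans (Real.log_le_log (by linarith) ?_) hlog5
    linarith
  have h6 : 0 ≤ Real.log (LL X + 3) := Real.log_nonneg (by linarith)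
  have h7 : C₁ * Real.log (LL X + 3) ^ 2 ≤ w ^ 3 := by
    calc C₁ * Real.log (LL X + 3) ^ 2 ≤ w * w ^ 2 := by
          apply mul_le_mul hwC₁ (pow_le_pow_left₀ h6 h5 2) (by positivity) (by linarith)
      _ = w ^ 3 := by ring
  have h8 : 0 < X / Real.log X := by positivity
  calc _ ≤ _ := h1
    _ ≤ X / Real.log X * Real.exp (w ^ 3) * (Real.exp w * Real.exp (-(SS U : ℝ) / 400)) := by
        apply mul_le_mul _ (h2.trans (mul_le_mul_of_nonneg_right hU4w (Real.exp_pos _).le))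
          mass_nonneg (by positivity)
        exact mul_le_mul_of_nonneg_left (Real.exp_le_exp.mpr h7) h8.le
    _ = X / Real.log X * Real.exp (w ^ 3 + (w + -(SS U : ℝ) / 400)) := by
        rw [← Real.exp_add, mul_assoc, ← Real.exp_add]
    _ ≤ _ := by
        apply mul_le_mul_of_nonneg_left _ h8.le
        apply Real.exp_le_exp.mpr
        exact hfin

theorem bd4_SB {C₂ w X : ℝ} {U : ℕ} (hC₂ : 0 < C₂)
    (hwin : ∀ (a b : ℕ) (Y : ℝ), 3 ≤ a → a ≤ b → 2 ≤ Y →
      (cnt Y {m | 1 ≤ m ∧ 30 * (b - a) ≤ Lv a b m} : ℝ) ≤ C₂ * Y * Real.exp (-73 * ((b : ℝ) - a)))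
    (hU16 : 1600 ≤ U) (hX1000 : 1000 ≤ X) (hlX0 : 0 < Real.log X) (hU4w : (U : ℝ) + 4 ≤ Real.exp w)
    (hlXub : Real.log X ≤ Real.exp (U + 2)) (hwC₂ : C₂ ≤ w)
    (hfin : w + w + (U + 2) + (73 - 1.825 * U) ≤ -w ^ 2 - 1) :
    (cnt X {v | ∃ t ∈ (Finset.range (U + 4)).filter (fun t => U + 3 ≤ 2 * t),
      v ∈ {m | 1 ≤ m ∧ 30 * (t / 10 - t / 20) ≤ Lv (t / 20) (t / 10) m}} : ℝ) ≤
      X / Real.log X * Real.exp (-w ^ 2 - 1) := by
  set T := (Finset.range (U + 4)).filter (fun t => U + 3 ≤ 2 * t) with hT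
  refine (bd4_cnt_biUnion X T _).trans ?_
  have h1 : ∀ t ∈ T, (cnt X {m | 1 ≤ m ∧ 30 * (t / 10 - t / 20) ≤ Lv (t / 20) (t / 10) m} : ℝ) ≤
      C₂ * X * Real.exp (73 - 1.825 * U) := by
    intro t ht
    rw [hT, Finset.mem_filter, Finset.mem_range] at ht
    refine (hwin (t / 20) (t / 10) X (by omega) (by omega) (by linarith)).trans ?_
    apply mul_le_mul_of_nonneg_left _ (by positivity)
    apply Real.exp_le_exp.mpr
    have h1 : ((t : ℝ) - 9) / 10 ≤ ((t / 10 : ℕ) : ℝ) := by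
      have : t ≤ 10 * (t / 10) + 9 := by omega
      have : (t : ℝ) ≤ 10 * ((t / 10 : ℕ) : ℝ) + 9 := by exact_mod_cast this
      linarith
    have h2 : ((t / 20 : ℕ) : ℝ) ≤ (t : ℝ) / 20 := by
      have : 20 * (t / 20) ≤ t := by omega
      have : 20 * ((t / 20 : ℕ) : ℝ) ≤ (t : ℝ) := by exact_mod_cast this
      linarith
    have h3 : (U : ℝ) + 3 ≤ 2 * t := by exact_mod_cast ht.2
    linarith
  refine (Finset.sum_le_sum h1).trans ?_
  rw [Finset.sum_const, nsmul_eq_mul]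
  have h2 : (T.card : ℝ) ≤ Real.exp w := by
    refine le_trans ?_ hU4w
    have := Finset.card_filter_le (Finset.range (U + 4)) (fun t => U + 3 ≤ 2 * t)
    rw [Finset.card_range] at this
    exact_mod_cast this
  have h3 : C₂ ≤ Real.exp w := by
    have := Real.add_one_le_exp w
    linarith
  have h4 : X = X / Real.log X * Real.log X := by field_simp
  have h8 : 0 < X / Real.log X := by positivity
  calc (T.card : ℝ) * (C₂ * X * Real.exp (73 - 1.825 * U)) ≤
        Real.exp w * (Real.exp w * (X / Real.log X * Real.exp (U + 2)) *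
          Real.exp (73 - 1.825 * U)) := by
        apply mul_le_mul h2 _ (by positivity) (Real.exp_pos _).le
        apply mul_le_mul_of_nonneg_right _ (Real.exp_pos _).le
        apply mul_le_mul h3 _ (by positivity) (Real.exp_pos _).le
        conv_lhs => rw [h4]
        exact mul_le_mul_of_nonneg_left hlXub h8.le
    _ = X / Real.log X * Real.exp (w + w + (U + 2) + (73 - 1.825 * U)) := by
        rw [Real.exp_add (w + w + ((U : ℝ) + 2)), Real.exp_add (w + w), Real.exp_add w w]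
        ring
    _ ≤ _ := by
        apply mul_le_mul_of_nonneg_left _ h8.le
        apply Real.exp_le_exp.mpr
        exact hfin

theorem bad_dec : ∃ U₀ : ℕ, ∀ U : ℕ, U₀ ≤ U → ∀ X : ℝ, 1 ≤ X → (U : ℝ) ≤ LL X → LL X ≤ U + 2 →
    (cnt X {v | ∃ n q : ℕ, 1 ≤ n ∧ Nat.totient n = v ∧
      (∀ t : ℕ, SS U ≤ t → Real.log (lowPart t n) ≤ (U : ℝ) ^ 2 * Real.exp t) ∧
      (∀ q' ∈ bigs U n, Normal U q') ∧ q ∈ bigs U n ∧
      61 ≤ ((bigs U n).filter (fun q' => q' ≤ q ∧ lev q ≤ 10 * lev q')).card} : ℝ) ≤ negl U X := by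
  obtain ⟨C₁, hC₁, hgp⟩ := gp
  obtain ⟨C₂, hC₂, hwin⟩ := win_many_cnt
  obtain ⟨t₀, hbad⟩ := badDec_mass
  have hev : ∀ᶠ U : ℕ in Filter.atTop,
      Real.log U + (C₁ + C₂ + 100) ≤ (U : ℝ) ^ ((1 : ℝ) / 60) := by
    have h1 : (fun x : ℝ => Real.log x + (C₁ + C₂ + 100)) =o[Filter.atTop]
        (fun x : ℝ => x ^ ((1 : ℝ) / 60)) := by
      apply Asymptotics.IsLittleO.add
      · exact isLittleO_log_rpow_atTop (by norm_num)
      · apply Asymptotics.isLittleO_const_left.mpr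
        right
        apply Filter.tendsto_abs_atTop_atTop.comp
        exact tendsto_rpow_atTop (by norm_num)
    have h2 := h1.bound (zero_lt_one)
    have h3 := (tendsto_natCast_atTop_atTop (R := ℝ)).eventually h2
    filter_upwards [h3] with U hU
    rw [one_mul, Real.norm_of_nonneg (by positivity : (0 : ℝ) ≤ (U : ℝ) ^ ((1 : ℝ) / 60))] at hU
    exact (le_abs_self _).trans hU
  obtain ⟨U₂, hU₂⟩ := Filter.eventually_atTop.mp hev
  refine ⟨max (max U₂ (t₀ ^ 2)) 1600, ?_⟩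
  intro U hU X hX1 hXU hXU2
  have hUU₂ : U₂ ≤ U := le_trans (le_trans (le_max_left _ _) (le_max_left _ _)) hU
  have hUt : t₀ ^ 2 ≤ U := le_trans (le_trans (le_max_right _ _) (le_max_left _ _)) hU
  have hU16 : 1600 ≤ U := le_trans (le_max_right _ _) hU
  have hU16' : (1600 : ℝ) ≤ U := by exact_mod_cast hU16
  have hw := hU₂ U hUU₂
  set w : ℝ := (U : ℝ) ^ ((1 : ℝ) / 60) with hwdef
  have hlogU : 0 ≤ Real.log U := Real.log_nonneg (by linarith)
  have hw100 : 100 ≤ w := by linarith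
  have hwC₁ : C₁ ≤ w := by linarith
  have hwC₂ : C₂ ≤ w := by linarith
  have hUw : (U : ℝ) = w ^ 60 := by
    rw [hwdef, ← Real.rpow_natCast, ← Real.rpow_mul (by positivity)]
    norm_num
  have hneglw : (U : ℝ) ^ ((1 : ℝ) / 30) = w ^ 2 := by
    rw [hwdef, ← Real.rpow_natCast, ← Real.rpow_mul (by positivity)]
    norm_num
  have hEE : EE U = w ^ 33 := by
    unfold EE
    rw [hwdef, ← Real.rpow_natCast, ← Real.rpow_mul (by positivity)]
    norm_num
  have hlog5 : Real.log (U + 5) ≤ w := by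
    have h1 : Real.log (U + 5) ≤ Real.log (Real.exp 1 * U) := by
      apply Real.log_le_log (by positivity)
      have := Real.exp_one_gt_d9
      nlinarith
    rw [Real.log_mul (Real.exp_pos _).ne' (by positivity), Real.log_exp] at h1
    linarith
  have hU4w : (U : ℝ) + 4 ≤ Real.exp w := by
    calc (U : ℝ) + 4 ≤ U + 5 := by linarith
      _ = Real.exp (Real.log (U + 5)) := (Real.exp_log (by positivity)).symm
      _ ≤ _ := Real.exp_le_exp.mpr hlog5
  -- powers of w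
  have hw3 : w ^ 2 ≤ w ^ 3 := pow_le_pow_right₀ (by linarith) (by norm_num)
  have hw3' : w ≤ w ^ 3 := by
    calc w = w ^ 1 := (pow_one w).symm
      _ ≤ w ^ 3 := pow_le_pow_right₀ (by linarith) (by norm_num)
  have hw3'' : 1000000 ≤ w ^ 3 := by
    calc (1000000 : ℝ) = 100 ^ 3 := by norm_num
      _ ≤ w ^ 3 := pow_le_pow_left₀ (by norm_num) hw100 3
  have hw30 : 1000000 * w ^ 3 ≤ w ^ 30 := by
    calc 1000000 * w ^ 3 ≤ w ^ 3 * w ^ 3 := mul_le_mul_of_nonneg_right hw3'' (by positivity)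
      _ = w ^ 6 := by ring
      _ ≤ w ^ 30 := pow_le_pow_right₀ (by linarith) (by norm_num)
  have hw60 : 1000000 * w ^ 33 ≤ w ^ 60 := by
    calc 1000000 * w ^ 33 ≤ w ^ 3 * w ^ 33 := mul_le_mul_of_nonneg_right hw3'' (by positivity)
      _ = w ^ 36 := by ring
      _ ≤ w ^ 60 := pow_le_pow_right₀ (by linarith) (by norm_num)
  have hw33 : w ^ 3 ≤ w ^ 33 := pow_le_pow_right₀ (by linarith) (by norm_num)
  -- S
  have hSsq : SS U * SS U ≤ U := Nat.sqrt_le U
  have hSlt : U < (SS U + 1) * (SS U + 1) := Nat.lt_succ_sqrt U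
  have hSt₀ : t₀ ≤ SS U := by
    unfold SS
    rw [Nat.le_sqrt, ← pow_two]
    exact hUt
  have hSw : w ^ 30 < (SS U : ℝ) + 1 := by
    have h2 : (U : ℝ) < ((SS U : ℝ) + 1) ^ 2 := by
      rw [pow_two]
      exact_mod_cast hSlt
    apply lt_of_pow_lt_pow_left₀ 2 (by positivity)
    rw [← pow_mul]
    exact hUw ▸ h2
  -- X
  have hlX : Real.exp U ≤ Real.log X := bd4_large hX1 hXU (by omega)
  have hlX1 : 1601 ≤ Real.log X := by
    have := Real.add_one_le_exp (U : ℝ)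
    linarith
  have hlX0 : 0 < Real.log X := by linarith
  have hX1000 : 1000 ≤ X := by
    have h1 : X = Real.exp (Real.log X) := (Real.exp_log (by linarith)).symm
    have h2 := Real.add_one_le_exp (Real.log X)
    rw [← h1] at h2
    linarith
  have hlXub : Real.log X ≤ Real.exp (U + 2) := by
    unfold LL at hXU2
    rwa [Real.log_le_iff_le_exp hlX0] at hXU2
  have hA2 : 2 * w + 3 + U / 2 ≤ U := by
    rw [hUw]
    linarith
  -- the two sets
  set A : Set ℕ := {a | (a ∈ {a | ∃ t ∈ Finset.Icc (SS U) (U + 3), a ∈ badDec t}) ∧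
    (1 : ℝ) ≤ a ∧ (a : ℝ) ≤ √X} with hA
  set SA : Set ℕ := {v | ∃ a ∈ A, ∃ v' ∈ Tot, v = a * v'} with hSA
  set T := (Finset.range (U + 4)).filter (fun t => U + 3 ≤ 2 * t) with hT
  set SB : Set ℕ := {v | ∃ t ∈ T, v ∈ {m | 1 ≤ m ∧ 30 * (t / 10 - t / 20) ≤ Lv (t / 20) (t / 10) m}}
    with hSB
  have hmain := bd4_cnt_mono (X := X) {v | ∃ n q : ℕ, 1 ≤ n ∧ Nat.totient n = v ∧
      (∀ t : ℕ, SS U ≤ t → Real.log (lowPart t n) ≤ (U : ℝ) ^ 2 * Real.exp t) ∧
      (∀ q' ∈ bigs U n, Normal U q') ∧ q ∈ bigs U n ∧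
      61 ≤ ((bigs U n).filter (fun q' => q' ≤ q ∧ lev q ≤ 10 * lev q')).card} (SA ∪ SB) ?_
  rotate_left
  · rintro v ⟨n, q, hn, rfl, hsiz, hnrm, hq, h61⟩ hvX
    have hq' := mem_bigs.mp hq
    have hlevU := bd4_lev hn hq'.1 hq'.2.1 (by linarith) hvX hXU2
    rcases Nat.lt_or_ge (2 * lev q) (U + 3) with hcase | hcase
    · left
      have hlog : (U : ℝ) ^ 2 * Real.exp (lev q + 1) ≤ Real.log X / 2 := by
        have h1 : 2 * (lev q : ℝ) ≤ U + 2 := by
          have : 2 * lev q ≤ U + 2 := by omega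
          exact_mod_cast this
        have h2 : (U : ℝ) ^ 2 ≤ Real.exp (2 * w) := by
          rw [show 2 * w = w + w by ring, Real.exp_add, pow_two]
          apply mul_le_mul (by linarith) (by linarith) (by linarith) (Real.exp_pos _).le
        have h3 : (2 : ℝ) ≤ Real.exp 1 := by
          have := Real.add_one_le_exp (1 : ℝ)
          linarith
        have h4 : (U : ℝ) ^ 2 * Real.exp (lev q + 1) * Real.exp 1 ≤ Real.exp U := by
          calc (U : ℝ) ^ 2 * Real.exp (lev q + 1) * Real.exp 1 ≤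
                Real.exp (2 * w) * Real.exp (lev q + 1) * Real.exp 1 := by
                apply mul_le_mul_of_nonneg_right _ (Real.exp_pos _).le
                exact mul_le_mul_of_nonneg_right h2 (Real.exp_pos _).le
            _ = Real.exp (2 * w + (lev q + 1) + 1) := by rw [← Real.exp_add, ← Real.exp_add]
            _ ≤ _ := by
                apply Real.exp_le_exp.mpr
                linarith
        have h5 : 0 ≤ (U : ℝ) ^ 2 * Real.exp (lev q + 1) := by positivity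
        nlinarith
      obtain ⟨a, ha, ha1, haX, v', hv', hav⟩ := bd4_partA hn hsiz hq h61 (by linarith) hlog
      refine ⟨a, ⟨⟨lev q, ?_, ha⟩, ha1, haX⟩, v', hv', hav⟩
      rw [Finset.mem_Icc]
      exact ⟨hq'.2.2.2, hlevU⟩
    · right
      refine ⟨lev q, ?_, ?_⟩
      · rw [hT, Finset.mem_filter, Finset.mem_range]
        exact ⟨by omega, hcase⟩
      · apply bd4_partB hn hnrm h61
        · have h1 : 40 * SS U ≤ U + 3 := by
            rcases Nat.lt_or_ge (SS U) 40 with h | h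
            · omega
            · have : 40 * SS U ≤ SS U * SS U := Nat.mul_le_mul_right _ h
              omega
          omega
        · rw [hEE]
          have h1 : ((lev q : ℝ) - 9) / 10 ≤ ((lev q / 10 : ℕ) : ℝ) := by
            have : lev q ≤ 10 * (lev q / 10) + 9 := by omega
            have : (lev q : ℝ) ≤ 10 * ((lev q / 10 : ℕ) : ℝ) + 9 := by exact_mod_cast this
            linarith
          have h2 : ((lev q / 20 : ℕ) : ℝ) ≤ (lev q : ℝ) / 20 := by
            have : 20 * (lev q / 20) ≤ lev q := by omega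
            have : 20 * ((lev q / 20 : ℕ) : ℝ) ≤ (lev q : ℝ) := by exact_mod_cast this
            linarith
          have h3 : (U : ℝ) + 3 ≤ 2 * lev q := by exact_mod_cast hcase
          rw [hUw] at h3
          linarith
  refine le_trans (show (_ : ℝ) ≤ ((cnt X (SA ∪ SB) : ℕ) : ℝ) by exact_mod_cast hmain) ?_
  have hun : ((cnt X (SA ∪ SB) : ℕ) : ℝ) ≤ (cnt X SA : ℝ) + (cnt X SB : ℝ) := by
    exact_mod_cast cnt_union (X := X) (A := SA) (B := SB)
  have hexp1 : 2 * Real.exp (-1) ≤ 1 := by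
    rw [Real.exp_neg]
    have := Real.add_one_le_exp (1 : ℝ)
    rw [← div_eq_mul_inv, div_le_one (Real.exp_pos _)]
    linarith
  have hpA : (cnt X SA : ℝ) ≤ X / Real.log X * Real.exp (-w ^ 2 - 1) :=
    bd4_SA hgp hbad hSt₀ hX1000 hlX0 hU4w (by linarith) hXU2 hlog5 hwC₁ (by linarith) (by linarith)
  have hpB : (cnt X SB : ℝ) ≤ X / Real.log X * Real.exp (-w ^ 2 - 1) :=
    bd4_SB hC₂ hwin hU16 hX1000 hlX0 hU4w hlXub hwC₂ (by rw [hUw]; linarith)
  unfold negl
  rw [hneglw]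
  have h8 : 0 < X / Real.log X * Real.exp (-w ^ 2) := by positivity
  calc _ ≤ _ := hun
    _ ≤ X / Real.log X * Real.exp (-w ^ 2 - 1) + X / Real.log X * Real.exp (-w ^ 2 - 1) :=
        add_le_add hpA hpB
    _ = X / Real.log X * Real.exp (-w ^ 2) * (2 * Real.exp (-1)) := by
        rw [sub_eq_add_neg, Real.exp_add]
        ring
    _ ≤ X / Real.log X * Real.exp (-w ^ 2) * 1 := mul_le_mul_of_nonneg_left hexp1 h8.le
    _ = _ := by ring

end P031
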