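import Vale.Agent.P031.Bad1
import Vale.Agent.P031.Bad2
import Vale.Agent.P031.Bad3
import Vale.Agent.P031.Bad4

/-!
# P031, module BAD5: almost all totients have a good representation

PROOF.  `v ∈ Tot`, `v ≤ X`.  Fix `n₀` with `φ(n₀) = v` and suppose `v` is in none
of the sets of `bad_small`, `bad_square`, `bad_abn`, `bad_siz`, `bad_sml`, `bad_dec` (an abnormal big prime `q ∣ n₀`
satisfies `¬ q² ∣ n₀` outside the set of `bad_square`).  Then `n₀` is good and has a prime `q` with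
`20 U log q > log X`, so `lev q ≥ SS U` and `n₀` has a big prime; `good_uncons`.
`6 negl U X ≤ (X/log X) e^{-U^{1/40}}`.
-/

namespace P031

open scoped BigOperators

/-- the set-theoretic part of `bad_rep` -/
theorem bad5_cover {U : ℕ} {X : ℝ}
    (hlev : ∀ q : ℕ, q.Prime → Real.log X < 20 * (U : ℝ) * Real.log q → SS U ≤ lev q) :
    {v | v ∈ Tot ∧ ¬ ∃ p n : ℕ, RepT U p n v} ⊆
    {v | ∃ n : ℕ, 1 ≤ n ∧ Nat.totient n = v ∧
      ∀ q ∈ n.primeFactors, 20 * (U : ℝ) * Real.log q ≤ Real.log X} ∪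
    ({v | ∃ n q : ℕ, 1 ≤ n ∧ Nat.totient n = v ∧ q.Prime ∧ SS U ≤ lev q ∧ q ^ 2 ∣ n} ∪
    ({v | ∃ n q : ℕ, 1 ≤ n ∧ Nat.totient n = v ∧ q ∈ Abn U ∧ q ∣ n ∧ ¬ q ^ 2 ∣ n} ∪
    ({v | ∃ n t : ℕ, 1 ≤ n ∧ Nat.totient n = v ∧ SS U ≤ t ∧
      (U : ℝ) ^ 2 * Real.exp t < Real.log (lowPart t n)} ∪
    ({v | ∃ n : ℕ, 1 ≤ n ∧ Nat.totient n = v ∧
      (∀ t : ℕ, SS U ≤ t → Real.log (lowPart t n) ≤ (U : ℝ) ^ 2 * Real.exp t) ∧
      100 * SS U < (Nat.totient (lowPart (SS U) n)).primeFactorsList.length} ∪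
    {v | ∃ n q : ℕ, 1 ≤ n ∧ Nat.totient n = v ∧
      (∀ t : ℕ, SS U ≤ t → Real.log (lowPart t n) ≤ (U : ℝ) ^ 2 * Real.exp t) ∧
      (∀ q' ∈ bigs U n, Normal U q') ∧ q ∈ bigs U n ∧
      61 ≤ ((bigs U n).filter (fun q' => q' ≤ q ∧ lev q ≤ 10 * lev q')).card})))) := by
  rintro v ⟨⟨n₀, hn₀, hv⟩, hrep⟩
  by_contra hnot
  simp only [Set.mem_union, Set.mem_ofPred_eq, not_or] at hnot
  obtain ⟨h1, h2, h3, h4, h5, h6⟩ := hnot
  have hn0 : n₀ ≠ 0 := by omega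
  have hsiz : ∀ t : ℕ, SS U ≤ t → Real.log (lowPart t n₀) ≤ (U : ℝ) ^ 2 * Real.exp t := by
    intro t ht
    by_contra hcon
    exact h4 ⟨n₀, t, hn₀, hv, ht, not_le.1 hcon⟩
  have hsqf : ∀ q : ℕ, q.Prime → SS U ≤ lev q → ¬ q ^ 2 ∣ n₀ := by
    intro q hq hS hd
    exact h2 ⟨n₀, q, hn₀, hv, hq, hS, hd⟩
  have hnrm : ∀ q ∈ bigs U n₀, Normal U q := by
    intro q hq
    obtain ⟨hp, hd, _, hS⟩ := mem_bigs.1 hq
    by_contra hcon
    exact h3 ⟨n₀, q, hn₀, hv, ⟨hp, hS, hcon⟩, hd, hsqf q hp hS⟩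
  have hgood : Good U n₀ := by
    refine ⟨hn₀, hsqf, hnrm, ?_, ?_, hsiz⟩
    · intro q hq
      by_contra hcon
      exact h6 ⟨n₀, q, hn₀, hv, hsiz, hnrm, hq, by omega⟩
    · by_contra hcon
      exact h5 ⟨n₀, hn₀, hv, hsiz, not_le.1 hcon⟩
  have hbig : (bigs U n₀).Nonempty := by
    by_contra hcon
    rw [Finset.not_nonempty_iff_eq_empty] at hcon
    apply h1
    refine ⟨n₀, hn₀, hv, ?_⟩
    intro q hq
    by_contra hq2
    have hS := hlev q (Nat.prime_of_mem_primeFactors hq) (not_le.1 hq2)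
    have : q ∈ bigs U n₀ :=
      mem_bigs.2 ⟨Nat.prime_of_mem_primeFactors hq, Nat.dvd_of_mem_primeFactors hq, hn0, hS⟩
    rw [hcon] at this
    exact absurd this (Finset.notMem_empty q)
  obtain ⟨p, n, hp, hpS, hpN, hpn, hpd, hgn, hlt, _⟩ := good_uncons hgood hbig
  apply hrep
  refine ⟨p, n, ⟨hp, hpN, hpS, hgn, fun q hq => lev_mono (hlt q hq).le, ?_⟩, ?_⟩
  · rw [← hv, hpn, Nat.totient_mul ((Nat.Prime.coprime_iff_not_dvd hp).2 hpd),
      Nat.totient_prime hp]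
  · intro q hq
    rcases Nat.lt_or_ge (lev q) (SS U) with hl | hl
    · by_contra hcon
      have := lev_mono (not_lt.1 hcon)
      omega
    · apply hlt
      exact mem_bigs.2 ⟨Nat.prime_of_mem_primeFactors hq, Nat.dvd_of_mem_primeFactors hq,
        by have := hgn.pos; omega, hl⟩

theorem bad5_pow {U : ℕ} (hU : 3 ^ 120 ≤ U) :
    (U : ℝ) ^ ((1 : ℝ) / 40) + 2 ≤ (U : ℝ) ^ ((1 : ℝ) / 30) ∧
      (U : ℝ) ^ ((1 : ℝ) / 2) + Real.log (20 * U) ≤ U := by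
  have hUr : (3 : ℝ) ^ (120 : ℕ) ≤ U := by exact_mod_cast hU
  have hU0 : (0 : ℝ) < U := lt_of_lt_of_le (by positivity) hUr
  have h1 : (3 : ℝ) ≤ (U : ℝ) ^ ((1 : ℝ) / 120) := by
    have h2 : ((3 : ℝ) ^ (120 : ℕ)) ^ ((1 : ℝ) / 120) = 3 := by
      rw [← Real.rpow_natCast, ← Real.rpow_mul (by norm_num)]
      norm_num
    calc (3 : ℝ) = ((3 : ℝ) ^ (120 : ℕ)) ^ ((1 : ℝ) / 120) := h2.symm
      _ ≤ (U : ℝ) ^ ((1 : ℝ) / 120) := Real.rpow_le_rpow (by positivity) hUr (by norm_num)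
  set y : ℝ := (U : ℝ) ^ ((1 : ℝ) / 120) with hy
  have e40 : (U : ℝ) ^ ((1 : ℝ) / 40) = y ^ 3 := by
    rw [hy, ← Real.rpow_natCast, ← Real.rpow_mul hU0.le]
    norm_num
  have e30 : (U : ℝ) ^ ((1 : ℝ) / 30) = y ^ 4 := by
    rw [hy, ← Real.rpow_natCast, ← Real.rpow_mul hU0.le]
    norm_num
  have e2 : (U : ℝ) ^ ((1 : ℝ) / 2) = y ^ 60 := by
    rw [hy, ← Real.rpow_natCast, ← Real.rpow_mul hU0.le]
    norm_num
  have e1 : (U : ℝ) = y ^ 60 * y ^ 60 := by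
    rw [← e2, ← Real.rpow_add hU0]
    norm_num
  have hy3 : (27 : ℝ) ≤ y ^ 3 := by
    calc (27 : ℝ) = 3 ^ 3 := by norm_num
      _ ≤ y ^ 3 := pow_le_pow_left₀ (by norm_num) h1 3
  constructor
  · rw [e40, e30]
    have : y ^ 4 = y ^ 3 * y := by ring
    nlinarith
  · rw [e2]
    have h60 : (27 : ℝ) * 27 ≤ y ^ 60 := by
      calc (27 : ℝ) * 27 = 3 ^ 6 := by norm_num
        _ ≤ y ^ 6 := pow_le_pow_left₀ (by norm_num) h1 6
        _ ≤ y ^ 60 := pow_le_pow_right₀ (by linarith) (by norm_num)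
    have hlog : Real.log (20 * U) ≤ 20 + 2 * y ^ 60 := by
      rw [Real.log_mul (by norm_num) hU0.ne']
      have h3 : Real.log (20 : ℝ) ≤ 20 := (Real.log_le_sub_one_of_pos (by norm_num)).trans (by norm_num)
      have h4 : Real.log (U : ℝ) ≤ 2 * y ^ 60 := by
        have hz : (0 : ℝ) < y ^ 60 := by positivity
        conv_lhs => rw [e1]
        rw [Real.log_mul hz.ne' hz.ne']
        have := Real.log_le_sub_one_of_pos hz
        linarith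
      linarith
    nlinarith

theorem bad_rep : ∃ U₀ : ℕ, ∀ U : ℕ, U₀ ≤ U → ∀ X : ℝ, 1 ≤ X → (U : ℝ) ≤ LL X → LL X ≤ U + 2 →
    (cnt X {v | v ∈ Tot ∧ ¬ ∃ p n : ℕ, RepT U p n v} : ℝ) ≤
      X / Real.log X * Real.exp (-(U : ℝ) ^ ((1 : ℝ) / 40)) := by
  obtain ⟨U₁, H₁⟩ := bad_small
  obtain ⟨U₂, H₂⟩ := bad_square
  obtain ⟨U₃, H₃⟩ := bad_abn
  obtain ⟨U₄, H₄⟩ := bad_siz
  obtain ⟨U₅, H₅⟩ := bad_sml
  obtain ⟨U₆, H₆⟩ := bad_dec
  refine ⟨3 ^ 120 + U₁ + U₂ + U₃ + U₄ + U₅ + U₆, ?_⟩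
  intro U hU X hX hXa hXb
  have hU' : 3 ^ 120 ≤ U := by omega
  have hU1 : 1 ≤ U := le_trans (Nat.one_le_pow _ _ (by norm_num)) hU'
  have hUr : (1 : ℝ) ≤ U := by exact_mod_cast hU1
  have hlX : 0 < Real.log X := by
    rcases (Real.log_nonneg hX).lt_or_eq with h | h
    · exact h
    · exfalso
      unfold LL at hXa
      rw [← h, Real.log_zero] at hXa
      linarith
  obtain ⟨hp1, hp2⟩ := bad5_pow hU'
  have hcov := bad5_cover (U := U) (X := X) (by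
    intro q hq hlt
    have hq2 : (2 : ℝ) ≤ q := by exact_mod_cast hq.two_le
    have hlq : 0 < Real.log (q : ℝ) := Real.log_pos (by linarith)
    have h1 : LL X < Real.log (20 * U) + Real.log (Real.log q) := by
      rw [← Real.log_mul (by positivity) hlq.ne']
      exact Real.log_lt_log hlX hlt
    have h2 : (SS U : ℝ) ≤ (U : ℝ) ^ ((1 : ℝ) / 2) := by
      rw [← Real.sqrt_eq_rpow]
      apply Real.le_sqrt_of_sq_le
      have := Nat.sqrt_le' U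
      unfold SS
      exact_mod_cast this
    unfold lev
    apply Nat.le_floor
    linarith)
  have hneg : (0 : ℝ) ≤ X / Real.log X := by positivity
  have hb1 := H₁ U (by omega) X hX hXa hXb
  have hb2 := H₂ U (by omega) X hX hXa hXb
  have hb3 := H₃ U (by omega) X hX hXa hXb
  have hb4 := H₄ U (by omega) X hX hXa hXb
  have hb5 := H₅ U (by omega) X hX hXa hXb
  have hb6 := H₆ U (by omega) X hX hXa hXb
  have hc := cnt_mono (X := X) hcov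
  have hu : ∀ A B : Set ℕ, (cnt X (A ∪ B) : ℝ) ≤ cnt X A + cnt X B := by
    intro A B
    exact_mod_cast cnt_union (X := X) (A := A) (B := B)
  have hc' : (cnt X {v | v ∈ Tot ∧ ¬ ∃ p n : ℕ, RepT U p n v} : ℝ) ≤ 6 * negl U X := by
    refine le_trans (Nat.cast_le.2 hc) ?_
    refine (hu _ _).trans ?_
    refine (add_le_add hb1 ((hu _ _).trans (add_le_add hb2 ((hu _ _).trans (add_le_add hb3
      ((hu _ _).trans (add_le_add hb4 ((hu _ _).trans (add_le_add hb5 hb6))))))))).trans ?_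
    linarith
  refine hc'.trans ?_
  unfold negl
  have h6 : 6 * Real.exp (-(U : ℝ) ^ ((1 : ℝ) / 30)) ≤ Real.exp (-(U : ℝ) ^ ((1 : ℝ) / 40)) := by
    have h7 : -(U : ℝ) ^ ((1 : ℝ) / 30) ≤ -(U : ℝ) ^ ((1 : ℝ) / 40) + (-2) := by linarith
    have h8 := Real.exp_le_exp.2 h7
    rw [Real.exp_add] at h8
    have h9 : Real.exp (-2 : ℝ) ≤ 1 / 6 := by
      rw [Real.exp_neg, ← one_div]
      apply one_div_le_one_div_of_le (by norm_num)
      have h10 : Real.exp 2 = Real.exp 1 * Real.exp 1 := by rw [← Real.exp_add]; norm_num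
      have h11 := Real.exp_one_gt_d9
      nlinarith
    have h12 := Real.exp_pos (-(U : ℝ) ^ ((1 : ℝ) / 40))
    nlinarith
  calc 6 * (X / Real.log X * Real.exp (-(U : ℝ) ^ ((1 : ℝ) / 30)))
      = X / Real.log X * (6 * Real.exp (-(U : ℝ) ^ ((1 : ℝ) / 30))) := by ring
    _ ≤ X / Real.log X * Real.exp (-(U : ℝ) ^ ((1 : ℝ) / 40)) := by gcongr

end P031
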