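import Vale.Agent.P031.Mertens

/-!
# P031, module BASIC2: bookkeeping for `Lv`, `lwt`, `lowPart`, `bigs`
-/

namespace P031

open scoped BigOperators

theorem Lv_mul (a b : ℕ) {m n : ℕ} (hm : m ≠ 0) (hn : n ≠ 0) :
    Lv a b (m * n) = Lv a b m + Lv a b n := by
  unfold Lv
  rw [(Nat.perm_primeFactorsList_mul hm hn).countP_eq, List.countP_append]

theorem Lv_one (a b : ℕ) : Lv a b 1 = 0 := by
  simp [Lv]

theorem Lv_prod (a b : ℕ) {ι : Type*} (s : Finset ι) (f : ι → ℕ) (hf : ∀ i ∈ s, f i ≠ 0) :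
    Lv a b (∏ i ∈ s, f i) = ∑ i ∈ s, Lv a b (f i) := by
  classical
  induction s using Finset.induction_on with
  | empty => simp [Lv_one]
  | insert i s hi ih =>
    rw [Finset.prod_insert hi, Finset.sum_insert hi,
      Lv_mul a b (hf i (Finset.mem_insert_self i s))
        (Finset.prod_ne_zero_iff.2 fun j hj => hf j (Finset.mem_insert_of_mem hj)),
      ih fun j hj => hf j (Finset.mem_insert_of_mem hj)]

theorem Lv_add {a b c : ℕ} (hab : a ≤ b) (hbc : b ≤ c) (m : ℕ) :
    Lv a c m = Lv a b m + Lv b c m := by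
  unfold Lv
  induction m.primeFactorsList with
  | nil => simp
  | cons r l ih =>
    rw [List.countP_cons, List.countP_cons, List.countP_cons, ih]
    by_cases h1 : a ≤ lev r <;> by_cases h2 : lev r < b <;> by_cases h3 : lev r < c <;>
      by_cases h4 : b ≤ lev r <;> simp [h1, h2, h3, h4] <;> omega

theorem Lv_mono_dvd (a b : ℕ) {m n : ℕ} (hn : n ≠ 0) (h : m ∣ n) : Lv a b m ≤ Lv a b n := by
  obtain ⟨k, rfl⟩ := h
  rw [Lv_mul a b (left_ne_zero_of_mul hn) (right_ne_zero_of_mul hn)]
  exact Nat.le_add_right _ _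

/-- prime factors of `m` have level at most `lev m`, so cutting above is harmless -/
theorem Lv_top {a b m : ℕ} (hb : lev m + 1 ≤ b) : Lv a b m = Lv a (lev m + 1) m := by
  unfold Lv
  refine List.countP_congr fun r hr => ?_
  have h1 : lev r ≤ lev m := lev_mono (Nat.le_of_mem_primeFactorsList hr)
  simp only [decide_eq_true_eq]
  omega

theorem Lv_eq_zero {a b m : ℕ} (h : ∀ r : ℕ, r.Prime → r ∣ m → lev r < a) : Lv a b m = 0 := by
  unfold Lv
  rw [List.countP_eq_zero]
  intro r hr
  have := h r (Nat.prime_of_mem_primeFactorsList hr) (Nat.dvd_of_mem_primeFactorsList hr)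
  simp only [decide_eq_true_eq, not_and, not_lt]
  omega

/-- `∏` over prime factors of a weight depending on the level (completely multiplicative) -/
noncomputable def lwt (z : ℕ → ℝ) (m : ℕ) : ℝ :=
  if m = 0 then 0 else (m.primeFactorsList.map (fun r => z (lev r))).prod

theorem lwt_mul (z : ℕ → ℝ) (m n : ℕ) : lwt z (m * n) = lwt z m * lwt z n := by
  unfold lwt
  by_cases hm : m = 0
  · simp [hm]
  by_cases hn : n = 0
  · simp [hn]
  rw [if_neg hm, if_neg hn, if_neg (mul_ne_zero hm hn),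
    ((Nat.perm_primeFactorsList_mul hm hn).map _).prod_eq, List.map_append, List.prod_append]

theorem lwt_one (z : ℕ → ℝ) : lwt z 1 = 1 := by
  simp [lwt]

theorem lwt_prime (z : ℕ → ℝ) {r : ℕ} (hr : r.Prime) : lwt z r = z (lev r) := by
  simp [lwt, hr.ne_zero, Nat.primeFactorsList_prime hr]

theorem lowPart_mul_coprime {t m n : ℕ} (h : Nat.Coprime m n) :
    lowPart t (m * n) = lowPart t m * lowPart t n := by
  unfold lowPart
  rw [h.primeFactors_mul, Finset.filter_union, Finset.prod_union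
    (Finset.disjoint_filter_filter h.disjoint_primeFactors)]
  congr 1
  · refine Finset.prod_congr rfl fun q hq => ?_
    have hq' := (Finset.mem_filter.1 hq).1
    rw [Nat.factorization_mul_apply_of_coprime h, 
      Nat.factorization_eq_zero_of_not_dvd (n := n) (p := q), add_zero]
    intro hqn
    exact (Nat.prime_of_mem_primeFactors hq').one_lt.ne'
      (Nat.dvd_one.1 (h ▸ Nat.dvd_gcd (Nat.dvd_of_mem_primeFactors hq') hqn))
  · refine Finset.prod_congr rfl fun q hq => ?_
    have hq' := (Finset.mem_filter.1 hq).1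
    rw [Nat.factorization_mul_apply_of_coprime h,
      Nat.factorization_eq_zero_of_not_dvd (n := m) (p := q), zero_add]
    intro hqm
    exact (Nat.prime_of_mem_primeFactors hq').one_lt.ne'
      (Nat.dvd_one.1 (h ▸ Nat.dvd_gcd hqm (Nat.dvd_of_mem_primeFactors hq')))

theorem prod_factorization {n : ℕ} (hn : n ≠ 0) :
    ∏ q ∈ n.primeFactors, q ^ n.factorization q = n :=
  Nat.prod_factorization_pow_eq_self hn

theorem lowPart_dvd (t n : ℕ) (hn : n ≠ 0) : lowPart t n ∣ n := by
  conv_rhs => rw [← prod_factorization hn]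
  exact Finset.prod_dvd_prod_of_subset _ _ _ (Finset.filter_subset _ _)

theorem lowPart_pos (t n : ℕ) : 0 < lowPart t n :=
  Finset.prod_pos fun _ hq =>
    pow_pos (Nat.prime_of_mem_primeFactors (Finset.mem_filter.1 hq).1).pos _

theorem lowPart_eq {t n : ℕ} (hn : n ≠ 0) (h : ∀ q ∈ n.primeFactors, lev q < t) :
    lowPart t n = n := by
  unfold lowPart
  rw [Finset.filter_true_of_mem h]
  exact prod_factorization hn

theorem mem_bigs {U n q : ℕ} : q ∈ bigs U n ↔ q.Prime ∧ q ∣ n ∧ n ≠ 0 ∧ SS U ≤ lev q := by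
  unfold bigs
  rw [Finset.mem_filter, Nat.mem_primeFactors]
  tauto

/-- factorization of a big-squarefree integer and of its totient -/
theorem eq_lowPart_mul {U n : ℕ} (hn : n ≠ 0)
    (h : ∀ q : ℕ, q.Prime → SS U ≤ lev q → ¬ q ^ 2 ∣ n) :
    n = lowPart (SS U) n * ∏ q ∈ bigs U n, q := by
  conv_lhs => rw [← prod_factorization hn]
  unfold lowPart
  have hb : bigs U n = n.primeFactors.filter (fun q => ¬ lev q < SS U) := by
    unfold bigs
    exact Finset.filter_congr fun q _ => not_lt.symm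
  have h1 : ∏ q ∈ bigs U n, q = ∏ q ∈ bigs U n, q ^ n.factorization q := by
    refine Finset.prod_congr rfl fun q hq => ?_
    rw [mem_bigs] at hq
    have h2 : n.factorization q < 2 := by
      by_contra h3
      exact h q hq.1 hq.2.2.2 ((hq.1.pow_dvd_iff_le_factorization hn).2 (not_lt.1 h3))
    have h4 : 1 ≤ n.factorization q :=
      (hq.1.pow_dvd_iff_le_factorization hn).1 (by simpa using hq.2.1)
    rw [show n.factorization q = 1 by omega, pow_one]
  rw [h1, hb, Finset.prod_filter_mul_prod_filter_not]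

/-- a prime dividing the low part has small level -/
theorem lev_of_dvd_lowPart {t n r : ℕ} (hr : r.Prime) (h : r ∣ lowPart t n) : lev r < t := by
  unfold lowPart at h
  obtain ⟨q, hq, h1⟩ := (hr.prime.dvd_finsetProd_iff _).1 h
  rw [Finset.mem_filter] at hq
  have h2 := (Nat.prime_dvd_prime_iff_eq hr (Nat.prime_of_mem_primeFactors hq.1)).1
    (hr.dvd_of_dvd_pow h1)
  rw [h2]
  exact hq.2

theorem coprime_lowPart_bigs (U n : ℕ) :
    Nat.Coprime (lowPart (SS U) n) (∏ q ∈ bigs U n, q) := by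
  refine Nat.Coprime.prod_right fun q hq => ?_
  rw [mem_bigs] at hq
  refine Nat.Coprime.symm ((Nat.Prime.coprime_iff_not_dvd hq.1).2 fun hd => ?_)
  exact absurd (lev_of_dvd_lowPart hq.1 hd) (not_lt.2 hq.2.2.2)

theorem totient_prod_primes (s : Finset ℕ) (hs : ∀ q ∈ s, q.Prime) :
    Nat.totient (∏ q ∈ s, q) = ∏ q ∈ s, (q - 1) := by
  classical
  induction s using Finset.induction_on with
  | empty => simp
  | insert q s hq ih =>
    have hqp := hs q (Finset.mem_insert_self q s)
    have hsp : ∀ q ∈ s, q.Prime := fun q' hq' => hs q' (Finset.mem_insert_of_mem hq')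
    rw [Finset.prod_insert hq, Finset.prod_insert hq, Nat.totient_mul, ih hsp,
      Nat.totient_prime hqp]
    refine Nat.Coprime.prod_right fun q' hq' => ?_
    refine (Nat.coprime_primes hqp (hsp q' hq')).2 ?_
    rintro rfl
    exact hq hq'

theorem totient_eq {U n : ℕ} (hn : n ≠ 0)
    (h : ∀ q : ℕ, q.Prime → SS U ≤ lev q → ¬ q ^ 2 ∣ n) :
    Nat.totient n = Nat.totient (lowPart (SS U) n) * ∏ q ∈ bigs U n, (q - 1) := by
  conv_lhs => rw [eq_lowPart_mul hn h]
  rw [Nat.totient_mul (coprime_lowPart_bigs U n),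
    totient_prod_primes _ fun q hq => (mem_bigs.1 hq).1]

/-- the primes dividing `φ(lowPart)` are small -/
theorem lev_of_dvd_totient_lowPart {t n r : ℕ} (hr : r.Prime)
    (h : r ∣ Nat.totient (lowPart t n)) : lev r < t := by
  have h1 : r ∣ lowPart t n * ∏ p ∈ (lowPart t n).primeFactors, (p - 1) := by
    have := Nat.totient_mul_prod_primeFactors (lowPart t n)
    rw [← this]
    exact Dvd.dvd.mul_right h _
  rcases (Nat.Prime.dvd_mul hr).1 h1 with h2 | h2
  · exact lev_of_dvd_lowPart hr h2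
  · obtain ⟨p, hp, h3⟩ := (hr.prime.dvd_finsetProd_iff _).1 h2
    have hpp := Nat.prime_of_mem_primeFactors hp
    have h4 : r ≤ p := by
      have := Nat.le_of_dvd (by have := hpp.two_le; omega) h3
      omega
    exact (lev_mono h4).trans_lt (lev_of_dvd_lowPart hpp (Nat.dvd_of_mem_primeFactors hp))

theorem Lv_totient {U n a b : ℕ} (hn : n ≠ 0) (ha : SS U ≤ a)
    (h : ∀ q : ℕ, q.Prime → SS U ≤ lev q → ¬ q ^ 2 ∣ n) :
    Lv a b (Nat.totient n) = ∑ q ∈ bigs U n, Lv a b (q - 1) := by
  have h0 : ∀ q ∈ bigs U n, q - 1 ≠ 0 := fun q hq => by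
    have := (mem_bigs.1 hq).1.two_le
    omega
  rw [totient_eq hn h, Lv_mul a b (Nat.totient_pos.2 (lowPart_pos _ _)).ne'
    (Finset.prod_ne_zero_iff.2 h0), Lv_prod a b _ _ h0,
    Lv_eq_zero fun r hr hd => (lev_of_dvd_totient_lowPart hr hd).trans_le ha, zero_add]

end P031
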