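import Vale.Agent.P031.Mertens

/-!
# P031, module BASIC1: bookkeeping for `mass`, `cnt`
-/

namespace P031

open scoped BigOperators

/-- number of elements of `A` up to `X` -/
noncomputable def cnt (X : ℝ) (A : Set ℕ) : ℕ := Set.ncard {v : ℕ | v ∈ A ∧ (v : ℝ) ≤ X}

theorem V_eq_cnt (X : ℝ) : V X = cnt X Tot := rfl

private theorem cnt_finite (X : ℝ) (A : Set ℕ) : {v : ℕ | v ∈ A ∧ (v : ℝ) ≤ X}.Finite := by
  apply (Set.finite_Iic ⌊X⌋₊).subset
  rintro v ⟨_, hv⟩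
  exact Nat.le_floor hv

theorem cnt_mono {X : ℝ} {A B : Set ℕ} (h : A ⊆ B) : cnt X A ≤ cnt X B := by
  apply Set.ncard_le_ncard _ (cnt_finite X B)
  rintro v ⟨h1, h2⟩
  exact ⟨h h1, h2⟩

theorem cnt_mono_left {X Y : ℝ} {A : Set ℕ} (h : X ≤ Y) : cnt X A ≤ cnt Y A := by
  apply Set.ncard_le_ncard _ (cnt_finite Y A)
  rintro v ⟨h1, h2⟩
  exact ⟨h1, h2.trans h⟩

theorem cnt_union {X : ℝ} {A B : Set ℕ} : cnt X (A ∪ B) ≤ cnt X A + cnt X B := by
  refine (Set.ncard_le_ncard ?_ ((cnt_finite X A).union (cnt_finite X B))).trans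
    (Set.ncard_union_le _ _)
  rintro v ⟨h1 | h1, h2⟩
  · exact Or.inl ⟨h1, h2⟩
  · exact Or.inr ⟨h1, h2⟩

theorem cnt_le {X : ℝ} (hX : 0 ≤ X) (A : Set ℕ) : (cnt X A : ℝ) ≤ X + 1 := by
  have h1 : cnt X A ≤ ((Finset.range (⌊X⌋₊ + 1) : Finset ℕ) : Set ℕ).ncard := by
    apply Set.ncard_le_ncard _ (Finset.finite_toSet _)
    rintro v ⟨_, hv⟩
    rw [Finset.mem_coe, Finset.mem_range]
    exact Nat.lt_succ_of_le (Nat.le_floor hv)
  rw [Set.ncard_coe_finset, Finset.card_range] at h1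
  have h2 : (cnt X A : ℝ) ≤ (⌊X⌋₊ : ℝ) + 1 := by exact_mod_cast h1
  have h3 := Nat.floor_le hX
  linarith

private theorem ind_nonneg (A : Set ℕ) (m : ℕ) :
    0 ≤ Set.indicator A (fun m : ℕ => 1 / (m : ℝ)) m :=
  Set.indicator_nonneg (fun m _ => by positivity) m

theorem mass_mono {N : ℕ} {A B : Set ℕ} (h : A ⊆ B) : mass N A ≤ mass N B := by
  apply Finset.sum_le_sum
  intro m _
  exact Set.indicator_le_indicator_of_subset h (fun m => by positivity) m

theorem mass_mono_left {N N' : ℕ} {A : Set ℕ} (h : N ≤ N') : mass N A ≤ mass N' A := by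
  apply Finset.sum_le_sum_of_subset_of_nonneg
  · exact Finset.Icc_subset_Icc le_rfl h
  · intro m _ _
    exact ind_nonneg A m

theorem mass_union {N : ℕ} {A B : Set ℕ} : mass N (A ∪ B) ≤ mass N A + mass N B := by
  unfold mass
  rw [← Finset.sum_add_distrib]
  apply Finset.sum_le_sum
  intro m _
  have hA := ind_nonneg A m
  have hB := ind_nonneg B m
  by_cases h1 : m ∈ A
  · rw [Set.indicator_of_mem (Set.mem_union_left B h1), Set.indicator_of_mem h1]
    linarith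
  · by_cases h2 : m ∈ B
    · rw [Set.indicator_of_mem (Set.mem_union_right A h2), Set.indicator_of_mem h2]
      linarith
    · rw [Set.indicator_of_notMem (fun h => h.elim h1 h2)]
      linarith

theorem mass_nonneg {N : ℕ} {A : Set ℕ} : 0 ≤ mass N A :=
  Finset.sum_nonneg fun m _ => ind_nonneg A m

open Classical in
private theorem mass_eq_filter (N : ℕ) (A : Set ℕ) :
    mass N A = ∑ m ∈ (Finset.Icc 1 N).filter (fun m => m ∈ A), 1 / (m : ℝ) := by
  unfold mass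
  rw [Finset.sum_filter]
  apply Finset.sum_congr rfl
  intro m _
  rw [Set.indicator_apply]

/-- products: every element of `D` is `a * b` with `a ∈ A`, `b ∈ B`, `a, b ≥ 1` -/
theorem mass_mul_le {N : ℕ} {A B D : Set ℕ}
    (h : ∀ d ∈ D, 1 ≤ d → ∃ a ∈ A, ∃ b ∈ B, d = a * b) : mass N D ≤ mass N A * mass N B := by
  classical
  choose! f hf g hg hfg using h
  rw [mass_eq_filter N D]
  have h1 : mass N A * mass N B = ∑ x ∈ Finset.Icc 1 N ×ˢ Finset.Icc 1 N,
      Set.indicator A (fun m : ℕ => 1 / (m : ℝ)) x.1 *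
        Set.indicator B (fun m : ℕ => 1 / (m : ℝ)) x.2 := by
    unfold mass
    rw [Finset.sum_mul_sum, ← Finset.sum_product']
  rw [h1]
  set Dn := (Finset.Icc 1 N).filter (fun m => m ∈ D) with hDn
  have hmem : ∀ d ∈ Dn, 1 ≤ d ∧ d ≤ N ∧ d ∈ D := by
    intro d hd
    rw [hDn, Finset.mem_filter, Finset.mem_Icc] at hd
    exact ⟨hd.1.1, hd.1.2, hd.2⟩
  have h2 : ∑ d ∈ Dn, 1 / (d : ℝ) = ∑ x ∈ Dn.image (fun d => (f d, g d)),
      Set.indicator A (fun m : ℕ => 1 / (m : ℝ)) x.1 *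
        Set.indicator B (fun m : ℕ => 1 / (m : ℝ)) x.2 := by
    rw [Finset.sum_image]
    · apply Finset.sum_congr rfl
      intro d hd
      obtain ⟨hd1, _, hd3⟩ := hmem d hd
      rw [Set.indicator_of_mem (hf d hd3 hd1), Set.indicator_of_mem (hg d hd3 hd1)]
      conv_lhs => rw [hfg d hd3 hd1]
      push_cast
      rw [one_div_mul_one_div]
    · intro d hd d' hd' hdd
      obtain ⟨hd1, _, hd3⟩ := hmem d hd
      obtain ⟨hd1', _, hd3'⟩ := hmem d' hd'
      have h3 := congrArg Prod.fst hdd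
      have h4 := congrArg Prod.snd hdd
      simp only at h3 h4
      rw [hfg d hd3 hd1, hfg d' hd3' hd1', h3, h4]
  rw [h2]
  apply Finset.sum_le_sum_of_subset_of_nonneg
  · intro x hx
    rw [Finset.mem_image] at hx
    obtain ⟨d, hd, rfl⟩ := hx
    obtain ⟨hd1, hd2, hd3⟩ := hmem d hd
    have h5 := hfg d hd3 hd1
    have h6 : 0 < f d := Nat.pos_of_ne_zero fun h0 => by rw [h0, zero_mul] at h5; omega
    have h7 : 0 < g d := Nat.pos_of_ne_zero fun h0 => by rw [h0, mul_zero] at h5; omega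
    have h8 : f d ≤ d := by
      conv_rhs => rw [h5]
      exact Nat.le_mul_of_pos_right _ h7
    have h9 : g d ≤ d := by
      conv_rhs => rw [h5]
      exact Nat.le_mul_of_pos_left _ h6
    rw [Finset.mem_product, Finset.mem_Icc, Finset.mem_Icc]
    exact ⟨⟨h6, h8.trans hd2⟩, ⟨h7, h9.trans hd2⟩⟩
  · intro x _ _
    exact mul_nonneg (ind_nonneg A _) (ind_nonneg B _)

/-- dyadic summation -/
theorem mass_le_of_cnt {N : ℕ} {A : Set ℕ} (g : ℕ → ℝ)
    (h : ∀ i : ℕ, 2 ^ i ≤ 2 * N → (cnt (2 ^ (i + 1)) {v | v ∈ A ∧ 2 ^ i ≤ v} : ℝ) ≤ 2 ^ i * g i) :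
    mass N A ≤ ∑ i ∈ (Finset.range (N + 1)).filter (fun i => 2 ^ i ≤ N), g i := by
  classical
  rw [mass_eq_filter N A]
  have hmaps : ∀ m ∈ (Finset.Icc 1 N).filter (fun m => m ∈ A),
      Nat.log 2 m ∈ (Finset.range (N + 1)).filter (fun i => 2 ^ i ≤ N) := by
    intro m hm
    rw [Finset.mem_filter, Finset.mem_Icc] at hm
    have h1 : 2 ^ Nat.log 2 m ≤ m := Nat.pow_log_le_self 2 (by omega)
    have h2 : Nat.log 2 m < 2 ^ Nat.log 2 m := Nat.lt_two_pow_self
    rw [Finset.mem_filter, Finset.mem_range]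
    exact ⟨by omega, by omega⟩
  rw [← Finset.sum_fiberwise_of_maps_to hmaps]
  apply Finset.sum_le_sum
  intro i hi
  rw [Finset.mem_filter, Finset.mem_range] at hi
  have h3 := h i (by omega)
  have h4 : (0 : ℝ) < 2 ^ i := by positivity
  set B := ((Finset.Icc 1 N).filter (fun m => m ∈ A)).filter (fun m => Nat.log 2 m = i) with hB
  have hBm : ∀ m ∈ B, m ∈ A ∧ 2 ^ i ≤ m ∧ m < 2 ^ (i + 1) := by
    intro m hm
    rw [hB, Finset.mem_filter, Finset.mem_filter, Finset.mem_Icc] at hm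
    refine ⟨hm.1.2, ?_, ?_⟩
    · rw [← hm.2]
      exact Nat.pow_log_le_self 2 (by omega)
    · rw [← hm.2]
      exact Nat.lt_pow_succ_log_self (by norm_num) m
  have h5 : ∑ m ∈ B, 1 / (m : ℝ) ≤ ∑ _m ∈ B, 1 / (2 : ℝ) ^ i := by
    apply Finset.sum_le_sum
    intro m hm
    apply one_div_le_one_div_of_le h4
    exact_mod_cast (hBm m hm).2.1
  have h6 : (B.card : ℝ) ≤ cnt (2 ^ (i + 1)) {v | v ∈ A ∧ 2 ^ i ≤ v} := by
    have h7 : B.card ≤ cnt (2 ^ (i + 1)) {v | v ∈ A ∧ 2 ^ i ≤ v} := by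
      rw [← Set.ncard_coe_finset B]
      apply Set.ncard_le_ncard _ (cnt_finite _ _)
      intro m hm
      obtain ⟨h8, h9, h10⟩ := hBm m (Finset.mem_coe.1 hm)
      refine ⟨⟨h8, h9⟩, ?_⟩
      have : (m : ℝ) ≤ ((2 ^ (i + 1) : ℕ) : ℝ) := by exact_mod_cast h10.le
      push_cast at this
      exact this
    exact_mod_cast h7
  rw [Finset.sum_const, nsmul_eq_mul] at h5
  refine h5.trans ?_
  rw [mul_one_div, div_le_iff₀ h4, mul_comm (g i)]
  exact h6.trans h3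

end P031
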