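import Vale.Agent.P031.CO2

/-!
# P031, module CO: few coincidences `(p-1) m = (p'-1) m'`

PROOF.  To the quadruple `x = (p, m, p', m')` attach `A = bigs n \ bigs n'`, `A' = bigs n' \ bigs n`,
`C = bigs n ∩ bigs n'` (`n = g m`, `n' = g m'`) and the tuple of `co_tup`.  The quadruple is determined by `C` and the
tuple (`m = φ(n) = a ∏_C (q-1) ∏ (q_i - 1)`, `totient_eq`).  `C` is a set of at most `K = ⌊log² U⌋` primes
`≥ 3` of level `≤ 3U+6`.  The level vectors: `k, l ≤ log² U`, `u, w` with values `≤ 4U`: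
at most `(log² U + 1)² (4U+1)^{2 log² U} ≤ e^{U^{1/10}}` of them.  For given `C`, `k`, `l`, `u`, `w` the number of tuples is
`≤ (X/c) exp (-2 LL X + (LL X - H/2) + H/16)` by `co_main` and `pcost_le` (with `Y = X/c`, `c = ∏_C (q-1)`; `Y ≥ 1`
if there is a tuple at all).  Sum over `C` with `sum_C`:
total `≤ e^{U^{1/10}} (C U)^K (K+1) X exp (- LL X - 7H/16) ≤ (X/log X) e^{-H/4}`.
-/

namespace P031

open scoped BigOperators

/-- pairs of different representations of the same value -/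
noncomputable def coinc (U : ℕ) (X : ℝ) (M : Finset ℕ) : Finset (ℕ × ℕ × ℕ × ℕ) :=
  ((Finset.range (⌊X⌋₊ + 2)) ×ˢ M ×ˢ (Finset.range (⌊X⌋₊ + 2)) ×ˢ M).filter
    (fun x : ℕ × ℕ × ℕ × ℕ =>
    x.1.Prime ∧ x.2.2.1.Prime ∧ x.1 ≠ x.2.2.1 ∧ (x.1 - 1) * x.2.1 = (x.2.2.1 - 1) * x.2.2.2 ∧
      (((x.1 - 1) * x.2.1 : ℕ) : ℝ) ≤ X ∧ X < (((x.1 - 1) * x.2.1 : ℕ) : ℝ) ^ 2)

/-- enumeration with values indexed by `Fin k` -/
noncomputable def enumD (A : Finset ℕ) (k : ℕ) (i : Fin k) : ℕ :=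
  if h : (i : ℕ) < A.card then enum A ⟨i, h⟩ else 0

theorem enumD_self (A : Finset ℕ) : enumD A A.card = enum A := by
  funext i
  unfold enumD
  rw [dif_pos i.2]

theorem enumD_inj {A B : Finset ℕ} {k : ℕ} (hA : A.card = k) (hB : B.card = k)
    (h : enumD A k = enumD B k) : A = B := by
  apply enum_inj (hA.trans hB.symm)
  intro i
  have h1 := congrFun h (Fin.cast hA i)
  have h2 : ((Fin.cast hA i : Fin k) : ℕ) < A.card := i.2
  have h3 : ((Fin.cast hA i : Fin k) : ℕ) < B.card := i.2.trans_eq (hA.trans hB.symm)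
  unfold enumD at h1
  rw [dif_pos h2, dif_pos h3] at h1
  exact h1

/-- the facts about a quadruple -/
def QOK (U : ℕ) (X : ℝ) (g : ℕ → ℕ) (x : ℕ × ℕ × ℕ × ℕ) : Prop :=
  x.1.Prime ∧ x.2.2.1.Prime ∧ x.1 ≠ x.2.2.1 ∧ (x.1 - 1) * x.2.1 = (x.2.2.1 - 1) * x.2.2.2 ∧
  (((x.1 - 1) * x.2.1 : ℕ) : ℝ) ≤ X ∧ X < (((x.1 - 1) * x.2.1 : ℕ) : ℝ) ^ 2 ∧
  Normal U x.1 ∧ Normal U x.2.2.1 ∧
  (Good U (g x.2.1) ∧ Nat.totient (g x.2.1) = x.2.1 ∧
      (top U (g x.2.1) : ℝ) + SS U + 5 * Real.log U ≤ LL X ∧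
      beta U (g x.2.1) 0 ≤ LL X - HH U / 2) ∧
  (Good U (g x.2.2.2) ∧ Nat.totient (g x.2.2.2) = x.2.2.2 ∧
      (top U (g x.2.2.2) : ℝ) + SS U + 5 * Real.log U ≤ LL X ∧
      beta U (g x.2.2.2) 0 ≤ LL X - HH U / 2)

noncomputable def dA (U : ℕ) (g : ℕ → ℕ) (x : ℕ × ℕ × ℕ × ℕ) : Finset ℕ :=
  bigs U (g x.2.1) \ bigs U (g x.2.2.2)

noncomputable def dA' (U : ℕ) (g : ℕ → ℕ) (x : ℕ × ℕ × ℕ × ℕ) : Finset ℕ :=
  bigs U (g x.2.2.2) \ bigs U (g x.2.1)

noncomputable def dC (U : ℕ) (g : ℕ → ℕ) (x : ℕ × ℕ × ℕ × ℕ) : Finset ℕ :=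
  bigs U (g x.2.1) ∩ bigs U (g x.2.2.2)

/-- the tuple attached to a quadruple -/
noncomputable def dT (U : ℕ) (g : ℕ → ℕ) (k l : ℕ) (x : ℕ × ℕ × ℕ × ℕ) :
    ℕ × (Fin k → ℕ) × ℕ × ℕ × (Fin l → ℕ) × ℕ :=
  (x.1, enumD (dA U g x) k, Nat.totient (lowPart (SS U) (g x.2.1)), x.2.2.1,
    enumD (dA' U g x) l, Nat.totient (lowPart (SS U) (g x.2.2.2)))

theorem lev_bound {U n q : ℕ} {T : ℝ} (h : (top U n : ℝ) + SS U + 5 * Real.log U ≤ T)
    (hU : 1 ≤ U) (hq : q ∈ bigs U n) : SS U ≤ lev q ∧ (lev q : ℝ) + 4 * Real.log U ≤ T ∧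
      (lev q : ℝ) ≤ T := by
  have h1 : SS U ≤ lev q := (mem_bigs.1 hq).2.2.2
  have h2 : lam U q ≤ top U n := lam_le_top hq
  have hl : 0 ≤ Real.log U := Real.log_natCast_nonneg U
  unfold lam at h2
  have h3 : lev q ≤ top U n + SS U := by omega
  have h4 : (lev q : ℝ) ≤ top U n + SS U := by exact_mod_cast h3
  exact ⟨h1, by linarith, by linarith⟩

theorem dT_inj {U : ℕ} {X : ℝ} {g : ℕ → ℕ} {k l : ℕ} {C : Finset ℕ} {x y : ℕ × ℕ × ℕ × ℕ}
    (hx : QOK U X g x) (hy : QOK U X g y) (hkx : (dA U g x).card = k) (hky : (dA U g y).card = k)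
    (hlx : (dA' U g x).card = l) (hly : (dA' U g y).card = l) (hCx : dC U g x = C)
    (hCy : dC U g y = C) (h : dT U g k l x = dT U g k l y) : x = y := by
  obtain ⟨p, m, p', m'⟩ := x
  obtain ⟨q, r, q', r'⟩ := y
  simp only [dT, Prod.mk.injEq] at h
  obtain ⟨h1, h2, h3, h4, h5, h6⟩ := h
  have hA : dA U g (p, m, p', m') = dA U g (q, r, q', r') := enumD_inj hkx hky h2
  have hA' : dA' U g (p, m, p', m') = dA' U g (q, r, q', r') := enumD_inj hlx hly h5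
  have hC : dC U g (p, m, p', m') = dC U g (q, r, q', r') := hCx.trans hCy.symm
  have hb : bigs U (g m) = bigs U (g r) := by
    have e1 : bigs U (g m) = dA U g (p, m, p', m') ∪ dC U g (p, m, p', m') :=
      (Finset.sdiff_union_inter _ _).symm
    have e2 : bigs U (g r) = dA U g (q, r, q', r') ∪ dC U g (q, r, q', r') :=
      (Finset.sdiff_union_inter _ _).symm
    rw [e1, e2, hA, hC]
  have hb' : bigs U (g m') = bigs U (g r') := by
    have e1 : bigs U (g m') = dA' U g (p, m, p', m') ∪ dC U g (p, m, p', m') := by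
      unfold dA' dC
      rw [Finset.inter_comm]
      exact (Finset.sdiff_union_inter _ _).symm
    have e2 : bigs U (g r') = dA' U g (q, r, q', r') ∪ dC U g (q, r, q', r') := by
      unfold dA' dC
      rw [Finset.inter_comm]
      exact (Finset.sdiff_union_inter _ _).symm
    rw [e1, e2, hA', hC]
  have hgx := hx.2.2.2.2.2.2.2.2.1
  have hgy := hy.2.2.2.2.2.2.2.2.1
  have hgx' := hx.2.2.2.2.2.2.2.2.2
  have hgy' := hy.2.2.2.2.2.2.2.2.2
  simp only at hgx hgy hgx' hgy' h3 h6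
  have key : ∀ n n' : ℕ, Good U n → Good U n' → bigs U n = bigs U n' →
      Nat.totient (lowPart (SS U) n) = Nat.totient (lowPart (SS U) n') →
      Nat.totient n = Nat.totient n' := by
    intro n n' hn hn' e1 e2
    rw [totient_eq (by have := hn.pos; omega) hn.sqf, totient_eq (by have := hn'.pos; omega) hn'.sqf,
      e1, e2]
  have hm : m = r := by
    rw [← hgx.2.1, ← hgy.2.1]
    exact key _ _ hgx.1 hgy.1 hb h3
  have hm' : m' = r' := by
    rw [← hgx'.2.1, ← hgy'.2.1]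
    exact key _ _ hgx'.1 hgy'.1 hb' h6
  rw [h1, hm, h4, hm']

theorem tup_transport {U : ℕ} {X Y B : ℝ} {k l : ℕ} {A A' : Finset ℕ} (hk : A.card = k)
    (hl : A'.card = l) {u : Fin k → ℕ} {w : Fin l → ℕ} (hu : (fun i => lev (enumD A k i)) = u)
    (hw : (fun j => lev (enumD A' l j)) = w) {p a p' a' : ℕ}
    (h : TupOK U X Y B (fun i => lev (enum A i)) (fun j => lev (enum A' j))
      (p, enum A, a, p', enum A', a')) :
    TupOK U X Y B u w (p, enumD A k, a, p', enumD A' l, a') := by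
  subst hk
  subst hl
  rw [enumD_self] at hu hw ⊢
  rw [enumD_self]
  subst hu
  subst hw
  exact h

theorem co_fiber : ∃ U₀ : ℕ, 1 ≤ U₀ ∧ ∀ U : ℕ, U₀ ≤ U → ∀ (X : ℝ) (g : ℕ → ℕ) (k l : ℕ)
    (u : Fin k → ℕ) (w : Fin l → ℕ) (C : Finset ℕ) (ℱ : Finset (ℕ × ℕ × ℕ × ℕ)), 1 ≤ X →
    (U : ℝ) ^ ((9 : ℝ) / 10) ≤ LL X → LL X ≤ 3 * U + 4 →
    (∀ x ∈ ℱ, QOK U X g x ∧ (dA U g x).card = k ∧ (dA' U g x).card = l ∧
      (fun i => lev (enumD (dA U g x) k i)) = u ∧ (fun j => lev (enumD (dA' U g x) l j)) = w ∧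
      dC U g x = C) →
    (ℱ.card : ℝ) ≤ X * Real.exp (-LL X - 7 * HH U / 16) * (1 / ((∏ q ∈ C, (q - 1) : ℕ) : ℝ)) := by
  obtain ⟨U₁, h₁⟩ := co_main
  obtain ⟨U₂, h₂⟩ := co_tup
  refine ⟨max (max U₁ U₂) 4, le_trans (by norm_num) (le_max_right _ _), ?_⟩
  intro U hU X g k l u w C ℱ hX hlo hhi hℱ
  have hU1 : U₁ ≤ U := le_trans (le_trans (le_max_left _ _) (le_max_left _ _)) hU
  have hU2 : U₂ ≤ U := le_trans (le_trans (le_max_right _ _) (le_max_left _ _)) hU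
  have hU4 : 4 ≤ U := le_trans (le_max_right _ _) hU
  rcases ℱ.eq_empty_or_nonempty with h0 | ⟨x₀, hx₀⟩
  · subst h0
    simp only [Finset.card_empty, Nat.cast_zero]
    positivity
  -- the data of all members
  have tup : ∀ x ∈ ℱ, (k : ℝ) ≤ Real.log U ^ 2 ∧ (l : ℝ) ≤ Real.log U ^ 2 ∧
      TupOK U X (X / ((∏ q ∈ C, (q - 1) : ℕ) : ℝ)) ((U : ℝ) ^ ((57 : ℝ) / 100)) u w
        (dT U g k l x) := by
    intro x hx
    obtain ⟨hq, hk, hl, hu, hw, hC⟩ := hℱ x hx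
    obtain ⟨q1, q2, q3, q4, q5, q6, q7, q8, q9, q10⟩ := hq
    have := h₂ U hU2 X x.1 (g x.2.1) x.2.2.1 (g x.2.2.2) hlo hhi q1 q2 q7 q8 q3 q9.1 q10.1
      q9.2.2.1 q10.2.2.1 (by rw [q9.2.1, q10.2.1]; exact q4) (by rw [q9.2.1]; exact q5)
      (by rw [q9.2.1]; exact q6)
    obtain ⟨t1, t2, t3⟩ := this
    refine ⟨?_, ?_, ?_⟩
    · refine le_trans ?_ t1
      rw [← hk]
      exact_mod_cast Finset.card_le_card Finset.sdiff_subset
    · refine le_trans ?_ t2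
      rw [← hl]
      exact_mod_cast Finset.card_le_card Finset.sdiff_subset
    · have hC' : bigs U (g x.2.1) ∩ bigs U (g x.2.2.2) = C := hC
      rw [hC'] at t3
      exact tup_transport hk hl hu hw t3
  obtain ⟨hq0, hk0, hl0, hu0, hw0, hC0⟩ := hℱ x₀ hx₀
  obtain ⟨hkU, hlU, hT0⟩ := tup x₀ hx₀
  have hg1 := hq0.2.2.2.2.2.2.2.2.1
  have hg2 := hq0.2.2.2.2.2.2.2.2.2
  have hU1' : 1 ≤ U := by omega
  have hui : ∀ i, SS U ≤ u i ∧ (u i : ℝ) + 4 * Real.log U ≤ LL X := by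
    intro i
    rw [← hu0]
    have hi : (i : ℕ) < (dA U g x₀).card := by rw [hk0]; exact i.2
    have : enumD (dA U g x₀) k i ∈ bigs U (g x₀.2.1) := by
      unfold enumD
      rw [dif_pos hi]
      exact (Finset.mem_sdiff.1 (enum_mem (dA U g x₀) ⟨i, hi⟩)).1
    have h5 := lev_bound hg1.2.2.1 hU1' this
    exact ⟨h5.1, h5.2.1⟩
  have hwj : ∀ j, SS U ≤ w j ∧ (w j : ℝ) + 4 * Real.log U ≤ LL X := by
    intro j
    rw [← hw0]
    have hj : (j : ℕ) < (dA' U g x₀).card := by rw [hl0]; exact j.2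
    have : enumD (dA' U g x₀) l j ∈ bigs U (g x₀.2.2.2) := by
      unfold enumD
      rw [dif_pos hj]
      exact (Finset.mem_sdiff.1 (enum_mem (dA' U g x₀) ⟨j, hj⟩)).1
    have h5 := lev_bound hg2.2.2.1 hU1' this
    exact ⟨h5.1, h5.2.1⟩
  -- the product over the common part
  set c : ℝ := ((∏ q ∈ C, (q - 1) : ℕ) : ℝ) with hc
  have hc1 : 1 ≤ c := by
    rw [hc]
    have : 0 < ∏ q ∈ C, (q - 1) := by
      apply Finset.prod_pos
      intro q hq
      rw [← hC0] at hq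
      have := (mem_bigs.1 (Finset.mem_inter.1 hq).1).1.two_le
      omega
    exact_mod_cast this
  have hY : X / c ≤ X := div_le_self (by linarith) hc1
  have hY1 : 1 ≤ X / c := by
    have h6 := hT0
    unfold TupOK at h6
    obtain ⟨r1, r2, r3, r4, r5, r6, r7, r8, r9, r10, r11, r12, r13, r14, r15, r16, r17, r18, r19,
      r20, r21⟩ := h6
    refine le_trans ?_ r20
    have : 1 ≤ ((dT U g k l x₀).1 - 1) * (∏ i, ((dT U g k l x₀).2.1 i - 1)) *
        (dT U g k l x₀).2.2.1 := by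
      have a1 : 1 ≤ (dT U g k l x₀).1 - 1 := by
        have := r1.two_le
        omega
      have a2 : 1 ≤ ∏ i, ((dT U g k l x₀).2.1 i - 1) := by
        apply Nat.one_le_iff_ne_zero.2
        rw [Finset.prod_ne_zero_iff]
        intro i _
        have := (r3 i).1.two_le
        omega
      exact Nat.one_le_iff_ne_zero.2 (by positivity)
    exact_mod_cast this
  obtain ⟨hfin, hcard⟩ := h₁ U hU1 X (X / c) ((U : ℝ) ^ ((57 : ℝ) / 100)) k l u w hlo
    (by linarith) hY1 hY hkU hlU le_rfl hui hwj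
  -- cost
  have hcost : pcost U u ≤ LL X - HH U / 2 := by
    refine le_trans ?_ hg1.2.2.2
    have htop : top U (g x₀.2.1) ≤ 4 * U := by
      have hl : 0 ≤ Real.log U := Real.log_natCast_nonneg U
      have h7 := hg1.2.2.1
      have h8 : (top U (g x₀.2.1) : ℝ) ≤ 4 * U := by
        have : (4 : ℝ) ≤ U := by exact_mod_cast hU4
        have hs : (0 : ℝ) ≤ SS U := Nat.cast_nonneg _
        linarith
      exact_mod_cast h8
    have h9 := pcost_le hU1' htop (dA U g x₀) Finset.sdiff_subset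
    refine le_trans (le_of_eq ?_) h9
    subst hk0
    rw [← hu0, enumD_self]
  -- injection
  have hinj : (ℱ.card : ℝ) ≤ (({x | TupOK U X (X / c) ((U : ℝ) ^ ((57 : ℝ) / 100)) u w x}.ncard : ℕ) : ℝ) := by
    have h10 : ((dT U g k l) '' (ℱ : Set (ℕ × ℕ × ℕ × ℕ))) ⊆
        {x | TupOK U X (X / c) ((U : ℝ) ^ ((57 : ℝ) / 100)) u w x} := by
      rintro _ ⟨x, hx, rfl⟩
      exact (tup x hx).2.2
    have h11 : Set.InjOn (dT U g k l) (ℱ : Set (ℕ × ℕ × ℕ × ℕ)) := by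
      intro x hx y hy hxy
      obtain ⟨a1, a2, a3, a4, a5, a6⟩ := hℱ x hx
      obtain ⟨b1, b2, b3, b4, b5, b6⟩ := hℱ y hy
      exact dT_inj a1 b1 a2 b2 a3 b3 a6 b6 hxy
    have h12 := Set.ncard_le_ncard h10 hfin
    rw [Set.ncard_image_of_injOn h11, Set.ncard_coe_finset] at h12
    exact_mod_cast h12
  refine hinj.trans (hcard.trans ?_)
  have hexp : Real.exp (-2 * LL X + pcost U u + HH U / 16) ≤
      Real.exp (-LL X - 7 * HH U / 16) := by
    apply Real.exp_le_exp.2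
    linarith
  calc X / c * Real.exp (-2 * LL X + pcost U u + HH U / 16)
      ≤ X / c * Real.exp (-LL X - 7 * HH U / 16) :=
        mul_le_mul_of_nonneg_left hexp (by positivity)
    _ = _ := by ring

/-- the final numerical inequality -/
theorem co_num (C : ℝ) (hC : 0 < C) : ∃ U₀ : ℕ, 4 ≤ U₀ ∧ ∀ U : ℕ, U₀ ≤ U → ∀ K : ℕ,
    (K : ℝ) ≤ Real.log U ^ 2 →
    ((K : ℝ) + 1) ^ 2 * ((4 * U + 1 : ℝ) ^ K * (4 * U + 1 : ℝ) ^ K) * ((C * U) ^ K * (K + 1)) ≤
      Real.exp (3 * HH U / 16) := by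
  have hlog : ∀ᶠ U : ℕ in Filter.atTop, 9 * Real.log U ^ 3 ≤ 3 * HH U / 16 := by
    have h1 := isLittleO_log_rpow_rpow_atTop (3 : ℝ) (show (0 : ℝ) < 3 / 5 by norm_num)
    have h2 := (h1.comp_tendsto tendsto_natCast_atTop_atTop).bound (show (0 : ℝ) < 1 / 48 by norm_num)
    filter_upwards [h2, Filter.eventually_ge_atTop 1] with U hU hU1
    simp only [Function.comp_apply, Real.norm_eq_abs] at hU
    have h3 : 0 ≤ Real.log (U : ℝ) := Real.log_natCast_nonneg U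
    rw [abs_of_nonneg (Real.rpow_nonneg h3 _), abs_of_nonneg (by positivity)] at hU
    have h4 : Real.log (U : ℝ) ^ (3 : ℝ) = Real.log U ^ 3 := by
      rw [← Real.rpow_natCast]; norm_num
    rw [h4] at hU
    unfold HH
    linarith
  have hlog2 : ∀ᶠ U : ℕ in Filter.atTop, Real.log U ^ 2 + 1 ≤ U := by
    have h1 := isLittleO_log_rpow_rpow_atTop (2 : ℝ) (show (0 : ℝ) < 1 by norm_num)
    have h2 := (h1.comp_tendsto tendsto_natCast_atTop_atTop).bound (show (0 : ℝ) < 1 / 2 by norm_num)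
    filter_upwards [h2, Filter.eventually_ge_atTop 2] with U hU hU1
    simp only [Function.comp_apply, Real.norm_eq_abs, Real.rpow_one] at hU
    have h3 : 0 ≤ Real.log (U : ℝ) := Real.log_natCast_nonneg U
    rw [abs_of_nonneg (Real.rpow_nonneg h3 _), abs_of_nonneg (by positivity)] at hU
    have h4 : Real.log (U : ℝ) ^ (2 : ℝ) = Real.log U ^ 2 := by
      rw [← Real.rpow_natCast]; norm_num
    rw [h4] at hU
    have : (2 : ℝ) ≤ U := by exact_mod_cast hU1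
    linarith
  obtain ⟨V₀, hV⟩ := Filter.eventually_atTop.1
    (hlog.and (hlog2.and (Filter.eventually_ge_atTop (max 5 ⌈C⌉₊))))
  refine ⟨max V₀ 4, le_max_right _ _, ?_⟩
  intro U hU K hK
  obtain ⟨h1, h2, h3⟩ := hV U (le_trans (le_max_left _ _) hU)
  have hU5 : (5 : ℝ) ≤ U := by exact_mod_cast le_trans (le_max_left _ _) h3
  have hUC : C ≤ U := (Nat.le_ceil C).trans (by exact_mod_cast le_trans (le_max_right _ _) h3)
  have hUpos : (0 : ℝ) < U := by linarith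
  have hK1 : (K : ℝ) + 1 ≤ U := by linarith
  have hK0 : (0 : ℝ) ≤ K := Nat.cast_nonneg _
  have e1 : ((K : ℝ) + 1) ^ 2 ≤ U ^ 2 := pow_le_pow_left₀ (by positivity) hK1 2
  have e2 : (4 * U + 1 : ℝ) ^ K ≤ (U ^ 2 : ℝ) ^ K := pow_le_pow_left₀ (by positivity) (by nlinarith) K
  have e3 : (C * U : ℝ) ^ K ≤ (U ^ 2 : ℝ) ^ K := pow_le_pow_left₀ (by positivity) (by nlinarith) K
  have e4 : ((K : ℝ) + 1) ^ 2 * ((4 * U + 1 : ℝ) ^ K * (4 * U + 1 : ℝ) ^ K) *
      ((C * U) ^ K * (K + 1)) ≤ (U : ℝ) ^ 2 * (((U : ℝ) ^ 2) ^ K * ((U : ℝ) ^ 2) ^ K) *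
        (((U : ℝ) ^ 2) ^ K * U) := by
    gcongr
  refine e4.trans ?_
  have e5 : (U : ℝ) ^ 2 * (((U : ℝ) ^ 2) ^ K * ((U : ℝ) ^ 2) ^ K) * (((U : ℝ) ^ 2) ^ K * U) =
      (U : ℝ) ^ (6 * K + 3) := by
    rw [← pow_mul]
    ring
  rw [e5]
  have hl1 : 1 ≤ Real.log U := by
    rw [Real.le_log_iff_exp_le hUpos]
    have := Real.exp_one_lt_d9
    linarith
  have e6 : (U : ℝ) ^ (6 * K + 3) = Real.exp ((6 * K + 3) * Real.log U) := by
    rw [← Real.rpow_natCast, Real.rpow_def_of_pos hUpos]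
    push_cast
    ring_nf
  rw [e6]
  apply Real.exp_le_exp.2
  refine le_trans ?_ h1
  have e7 : (6 * (K : ℝ) + 3) ≤ 9 * Real.log U ^ 2 := by nlinarith
  nlinarith

open Classical in
theorem co : ∃ U₀ : ℕ, ∀ U : ℕ, U₀ ≤ U → ∀ (X : ℝ) (M : Finset ℕ) (g : ℕ → ℕ), 1 ≤ X →
    (U : ℝ) ^ ((9 : ℝ) / 10) ≤ LL X → LL X ≤ 3 * U + 4 →
    (∀ m ∈ M, Good U (g m) ∧ Nat.totient (g m) = m ∧
      (top U (g m) : ℝ) + SS U + 5 * Real.log U ≤ LL X ∧ beta U (g m) 0 ≤ LL X - HH U / 2) →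
    (((coinc U X M).filter (fun x : ℕ × ℕ × ℕ × ℕ => Normal U x.1 ∧ Normal U x.2.2.1)).card : ℝ) ≤
      X / Real.log X * Real.exp (-(HH U) / 4) := by
  obtain ⟨U₁, hU₁, hfib⟩ := co_fiber
  obtain ⟨U₂, h₂⟩ := co_tup
  obtain ⟨Cs, hCs, hsum⟩ := sum_C
  obtain ⟨U₃, hU₃, hnum⟩ := co_num Cs hCs
  refine ⟨max (max U₁ U₂) U₃, ?_⟩
  intro U hU X M g hX hlo hhi hM
  have hU1 : U₁ ≤ U := le_trans (le_trans (le_max_left _ _) (le_max_left _ _)) hU
  have hU2 : U₂ ≤ U := le_trans (le_trans (le_max_right _ _) (le_max_left _ _)) hU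
  have hU3 : U₃ ≤ U := le_trans (le_max_right _ _) hU
  have hU4 : 4 ≤ U := hU₃.trans hU3
  set 𝒬 := (coinc U X M).filter (fun x : ℕ × ℕ × ℕ × ℕ => Normal U x.1 ∧ Normal U x.2.2.1) with h𝒬
  have hQ : ∀ x ∈ 𝒬, QOK U X g x := by
    intro x hx
    rw [h𝒬, Finset.mem_filter] at hx
    obtain ⟨hx1, hn1, hn2⟩ := hx
    unfold coinc at hx1
    rw [Finset.mem_filter] at hx1
    obtain ⟨hx2, p1, p2, p3, p4, p5, p6⟩ := hx1
    simp only [Finset.mem_product] at hx2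
    exact ⟨p1, p2, p3, p4, p5, p6, hn1, hn2, hM _ hx2.2.1, hM _ hx2.2.2.2⟩
  set K : ℕ := ⌊Real.log U ^ 2⌋₊ with hK
  have hKle : (K : ℝ) ≤ Real.log U ^ 2 := Nat.floor_le (by positivity)
  have hcards : ∀ x ∈ 𝒬, (bigs U (g x.2.1)).card ≤ K ∧ (bigs U (g x.2.2.2)).card ≤ K := by
    intro x hx
    obtain ⟨q1, q2, q3, q4, q5, q6, q7, q8, q9, q10⟩ := hQ x hx
    have := h₂ U hU2 X x.1 (g x.2.1) x.2.2.1 (g x.2.2.2) hlo hhi q1 q2 q7 q8 q3 q9.1 q10.1
      q9.2.2.1 q10.2.2.1 (by rw [q9.2.1, q10.2.1]; exact q4) (by rw [q9.2.1]; exact q5)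
      (by rw [q9.2.1]; exact q6)
    exact ⟨Nat.le_floor this.1, Nat.le_floor this.2.1⟩
  have hlev : ∀ x ∈ 𝒬, (∀ q ∈ bigs U (g x.2.1), lev q < 4 * U + 1) ∧
      (∀ q ∈ bigs U (g x.2.2.2), lev q < 4 * U + 1) := by
    intro x hx
    obtain ⟨q1, q2, q3, q4, q5, q6, q7, q8, q9, q10⟩ := hQ x hx
    have hU4' : (4 : ℝ) ≤ U := by exact_mod_cast hU4
    constructor
    · intro q hq
      have := (lev_bound q9.2.2.1 (by omega) hq).2.2
      have h5 : (lev q : ℝ) < 4 * U + 1 := by linarith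
      exact_mod_cast h5
    · intro q hq
      have := (lev_bound q10.2.2.1 (by omega) hq).2.2
      have h5 : (lev q : ℝ) < 4 * U + 1 := by linarith
      exact_mod_cast h5
  -- the sum over common parts
  set 𝒞 : Finset (Finset ℕ) := 𝒬.image (dC U g) with h𝒞
  set S𝒞 : ℝ := ∑ A ∈ 𝒞, 1 / ((∏ q ∈ A, (q - 1) : ℕ) : ℝ) with hS𝒞
  have hS : S𝒞 ≤ (Cs * U) ^ K * (K + 1) := by
    apply hsum U K 𝒞 (by omega)
    intro A hA
    rw [h𝒞, Finset.mem_image] at hA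
    obtain ⟨x, hx, rfl⟩ := hA
    refine ⟨(Finset.card_le_card Finset.inter_subset_left).trans (hcards x hx).1, ?_⟩
    intro q hq
    have hq1 : q ∈ bigs U (g x.2.1) := (Finset.mem_inter.1 hq).1
    have hq2 := mem_bigs.1 hq1
    have hSS : 1 ≤ SS U := by
      unfold SS
      rw [Nat.le_sqrt]
      omega
    refine ⟨hq2.1, ?_, ?_⟩
    · by_contra hcon
      have hq3 : q = 2 := by
        have := hq2.1.two_le
        omega
      have h5 := (le_lev_iff (s := 1) le_rfl).1 (hSS.trans hq2.2.2.2)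
      rw [hq3] at h5
      have h6 : (2 : ℝ) < Real.exp (Real.exp ((1 : ℕ) : ℝ)) := by
        have h7 : Real.exp ((1 : ℕ) : ℝ) + 1 ≤ Real.exp (Real.exp ((1 : ℕ) : ℝ)) := Real.add_one_le_exp _
        have h8 : ((1 : ℕ) : ℝ) + 1 < Real.exp ((1 : ℕ) : ℝ) := Real.add_one_lt_exp (by norm_num)
        push_cast at h7 h8 ⊢
        linarith
      push_cast at h5 h6
      linarith
    · obtain ⟨q1, q2, q3, q4, q5, q6, q7, q8, q9, q10⟩ := hQ x hx
      have := (lev_bound q9.2.2.1 (by omega) hq1).2.2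
      have h5 : (lev q : ℝ) ≤ 3 * U + 6 := by linarith
      exact_mod_cast h5
  have hS0 : 0 ≤ S𝒞 := by
    rw [hS𝒞]
    exact Finset.sum_nonneg fun A _ => by positivity
  set E : ℝ := X * Real.exp (-LL X - 7 * HH U / 16) with hE
  have hE0 : 0 ≤ E := by positivity
  -- for fixed `k`, `l`, `u`, `w`
  have step1 : ∀ (k l : ℕ) (u : Fin k → ℕ) (w : Fin l → ℕ) (ℱ : Finset (ℕ × ℕ × ℕ × ℕ)), ℱ ⊆ 𝒬 →
      (∀ x ∈ ℱ, (dA U g x).card = k ∧ (dA' U g x).card = l ∧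
      (fun i => lev (enumD (dA U g x) k i)) = u ∧ (fun j => lev (enumD (dA' U g x) l j)) = w) →
      (ℱ.card : ℝ) ≤ E * S𝒞 := by
    intro k l u w ℱ hsub hℱ
    have hmap : ∀ x ∈ ℱ, dC U g x ∈ 𝒞 := fun x hx => Finset.mem_image_of_mem _ (hsub hx)
    rw [Finset.card_eq_sum_card_fiberwise hmap, hS𝒞, Finset.mul_sum, Nat.cast_sum]
    apply Finset.sum_le_sum
    intro C hC
    apply hfib U hU1 X g k l u w C _ hX hlo hhi
    intro x hx
    rw [Finset.mem_filter] at hx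
    obtain ⟨a1, a2, a3, a4⟩ := hℱ x hx.1
    exact ⟨hQ x (hsub hx.1), a1, a2, a3, a4, hx.2⟩
  -- for fixed `k`, `l`
  have step2 : ∀ (k l : ℕ), k ≤ K → l ≤ K → ∀ (ℱ : Finset (ℕ × ℕ × ℕ × ℕ)), ℱ ⊆ 𝒬 →
      (∀ x ∈ ℱ, (dA U g x).card = k ∧ (dA' U g x).card = l) →
      (ℱ.card : ℝ) ≤ ((4 * U + 1 : ℝ) ^ K * (4 * U + 1 : ℝ) ^ K) * (E * S𝒞) := by
    intro k l hk hl ℱ hsub hℱ
    set κ : ℕ × ℕ × ℕ × ℕ → (Fin k → ℕ) × (Fin l → ℕ) := fun x =>
      (fun i => lev (enumD (dA U g x) k i), fun j => lev (enumD (dA' U g x) l j)) with hκ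
    set 𝒦 : Finset ((Fin k → ℕ) × (Fin l → ℕ)) :=
      (Fintype.piFinset fun _ : Fin k => Finset.range (4 * U + 1)) ×ˢ
        (Fintype.piFinset fun _ : Fin l => Finset.range (4 * U + 1)) with h𝒦
    have hmap : ∀ x ∈ ℱ, κ x ∈ 𝒦 := by
      intro x hx
      obtain ⟨b1, b2⟩ := hℱ x hx
      rw [h𝒦, Finset.mem_product, Fintype.mem_piFinset, Fintype.mem_piFinset]
      constructor
      · intro i
        rw [Finset.mem_range]
        have hi : (i : ℕ) < (dA U g x).card := by rw [b1]; exact i.2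
        have : enumD (dA U g x) k i ∈ bigs U (g x.2.1) := by
          unfold enumD
          rw [dif_pos hi]
          exact (Finset.mem_sdiff.1 (enum_mem (dA U g x) ⟨i, hi⟩)).1
        exact (hlev x (hsub hx)).1 _ this
      · intro j
        rw [Finset.mem_range]
        have hj : (j : ℕ) < (dA' U g x).card := by rw [b2]; exact j.2
        have : enumD (dA' U g x) l j ∈ bigs U (g x.2.2.2) := by
          unfold enumD
          rw [dif_pos hj]
          exact (Finset.mem_sdiff.1 (enum_mem (dA' U g x) ⟨j, hj⟩)).1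
        exact (hlev x (hsub hx)).2 _ this
    rw [Finset.card_eq_sum_card_fiberwise hmap, Nat.cast_sum]
    have h5 : ∑ b ∈ 𝒦, (((ℱ.filter (fun x => κ x = b)).card : ℕ) : ℝ) ≤ ∑ b ∈ 𝒦, E * S𝒞 := by
      apply Finset.sum_le_sum
      intro b hb
      apply step1 k l b.1 b.2 _ ((Finset.filter_subset _ _).trans hsub)
      intro x hx
      rw [Finset.mem_filter] at hx
      obtain ⟨b1, b2⟩ := hℱ x hx.1
      refine ⟨b1, b2, ?_, ?_⟩
      · rw [← hx.2]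
      · rw [← hx.2]
    refine h5.trans ?_
    rw [Finset.sum_const, nsmul_eq_mul]
    apply mul_le_mul_of_nonneg_right _ (mul_nonneg hE0 hS0)
    rw [h𝒦, Finset.card_product, Fintype.card_piFinset, Fintype.card_piFinset]
    simp only [Finset.card_range, Finset.prod_const, Finset.card_univ, Fintype.card_fin]
    push_cast
    have h1 : (1 : ℝ) ≤ 4 * U + 1 := by
      have : (0 : ℝ) ≤ U := Nat.cast_nonneg _
      linarith
    gcongr
  -- all together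
  have step3 : (𝒬.card : ℝ) ≤ ((K : ℝ) + 1) ^ 2 * (((4 * U + 1 : ℝ) ^ K * (4 * U + 1 : ℝ) ^ K) *
      (E * S𝒞)) := by
    set κ : ℕ × ℕ × ℕ × ℕ → ℕ × ℕ := fun x => ((dA U g x).card, (dA' U g x).card) with hκ
    have hmap : ∀ x ∈ 𝒬, κ x ∈ Finset.range (K + 1) ×ˢ Finset.range (K + 1) := by
      intro x hx
      rw [Finset.mem_product, Finset.mem_range, Finset.mem_range, Nat.lt_succ_iff, Nat.lt_succ_iff]
      have e1 : (dA U g x).card ≤ K :=
        (Finset.card_le_card Finset.sdiff_subset).trans (hcards x hx).1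
      have e2 : (dA' U g x).card ≤ K :=
        (Finset.card_le_card Finset.sdiff_subset).trans (hcards x hx).2
      exact ⟨e1, e2⟩
    rw [Finset.card_eq_sum_card_fiberwise hmap, Nat.cast_sum]
    have h5 : ∑ b ∈ Finset.range (K + 1) ×ˢ Finset.range (K + 1),
        (((𝒬.filter (fun x => κ x = b)).card : ℕ) : ℝ) ≤
        ∑ b ∈ Finset.range (K + 1) ×ˢ Finset.range (K + 1),
          ((4 * U + 1 : ℝ) ^ K * (4 * U + 1 : ℝ) ^ K) * (E * S𝒞) := by
      apply Finset.sum_le_sum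
      intro b hb
      rw [Finset.mem_product, Finset.mem_range, Finset.mem_range, Nat.lt_succ_iff,
        Nat.lt_succ_iff] at hb
      apply step2 b.1 b.2 hb.1 hb.2 _ (Finset.filter_subset _ _)
      intro x hx
      rw [Finset.mem_filter] at hx
      exact ⟨by rw [← hx.2], by rw [← hx.2]⟩
    refine h5.trans (le_of_eq ?_)
    rw [Finset.sum_const, nsmul_eq_mul, Finset.card_product, Finset.card_range]
    push_cast
    ring
  refine step3.trans ?_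
  have hn := hnum U hU3 K hKle
  have hX0 : 0 < X := by linarith
  have hlogX : 0 < Real.log X := by
    rcases (Real.log_nonneg hX).lt_or_eq with h | h
    · exact h
    · exfalso
      have h5 : LL X = 0 := by
        unfold LL
        rw [← h, Real.log_zero]
      rw [h5] at hlo
      have h6 : (0 : ℝ) < (U : ℝ) ^ ((9 : ℝ) / 10) := by
        apply Real.rpow_pos_of_pos
        have : 0 < U := by omega
        exact_mod_cast this
      linarith
  have hexpLL : Real.exp (-LL X) = 1 / Real.log X := by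
    unfold LL
    rw [Real.exp_neg, Real.exp_log hlogX, one_div]
  have hEe : E = X / Real.log X * Real.exp (-(7 * HH U / 16)) := by
    rw [hE, sub_eq_add_neg, Real.exp_add, hexpLL]
    ring
  calc ((K : ℝ) + 1) ^ 2 * (((4 * U + 1 : ℝ) ^ K * (4 * U + 1 : ℝ) ^ K) * (E * S𝒞))
      ≤ ((K : ℝ) + 1) ^ 2 * (((4 * U + 1 : ℝ) ^ K * (4 * U + 1 : ℝ) ^ K) *
        (E * ((Cs * U) ^ K * (K + 1)))) := by gcongr
    _ = (((K : ℝ) + 1) ^ 2 * ((4 * U + 1 : ℝ) ^ K * (4 * U + 1 : ℝ) ^ K) *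
        ((Cs * U) ^ K * (K + 1))) * E := by ring
    _ ≤ Real.exp (3 * HH U / 16) * E := mul_le_mul_of_nonneg_right hn hE0
    _ = X / Real.log X * Real.exp (-(HH U) / 4) := by
        rw [hEe]
        rw [show -(HH U) / 4 = 3 * HH U / 16 + -(7 * HH U / 16) from by ring, Real.exp_add]
        ring

end P031
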