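import Vale.Agent.P031.CoB

/-!
# P031, module CO1: enumerations of sets of big primes, cost of a subset, sum over common parts

PROOF of `pcost_le`: `#{i : S + s ≤ lev q_i} ≤ prof U n (s+1)`, so `pcost ≤ ∑_{s ≥ 1} QQ (prof U n s + 1) = beta U n 0`
(`QQ 1 = 0`, `prof = 0` above `top`).
PROOF of `sum_C`: `∑_{j ≤ K} (∑_q 1/(q-1))^j ≤ (K+1) (C U)^K` (`level_mass`, `prime_recip`).
-/

namespace P031

open scoped BigOperators

/-- increasing enumeration of a finite set of integers -/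
noncomputable def enum (A : Finset ℕ) : Fin A.card → ℕ := A.orderEmbOfFin rfl

theorem prod_enum {M : Type*} [CommMonoid M] (A : Finset ℕ) (f : ℕ → M) :
    ∏ i, f (enum A i) = ∏ q ∈ A, f q := by
  have h : A = Finset.univ.map (A.orderEmbOfFin rfl).toEmbedding := by
    ext x
    simp only [Finset.mem_map, Finset.mem_univ, true_and]
    constructor
    · intro hx
      have := Finset.range_orderEmbOfFin A rfl
      have h2 : x ∈ Set.range (A.orderEmbOfFin rfl) := by
        rw [this]; exact hx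
      obtain ⟨i, hi⟩ := h2
      exact ⟨i, hi⟩
    · rintro ⟨i, hi⟩
      rw [← hi]
      exact Finset.orderEmbOfFin_mem A rfl i
  conv_rhs => rw [h]
  rw [Finset.prod_map]
  rfl

theorem enum_mem (A : Finset ℕ) (i : Fin A.card) : enum A i ∈ A :=
  Finset.orderEmbOfFin_mem A rfl i

theorem exists_enum {A : Finset ℕ} {q : ℕ} (h : q ∈ A) : ∃ i, enum A i = q := by
  have h2 : q ∈ Set.range (A.orderEmbOfFin rfl) := by
    rw [Finset.range_orderEmbOfFin A rfl]; exact h
  exact h2

theorem enum_inj {A B : Finset ℕ} (h : A.card = B.card)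
    (h' : ∀ i, enum A i = enum B (Fin.cast h i)) : A = B := by
  apply Finset.eq_of_subset_of_card_le _ h.ge
  intro q hq
  obtain ⟨i, hi⟩ := exists_enum hq
  rw [← hi, h' i]
  exact enum_mem B _

theorem enum_injective (A : Finset ℕ) : Function.Injective (enum A) :=
  (A.orderEmbOfFin rfl).injective

theorem pcost_le {U n : ℕ} (hU : 1 ≤ U) (htop : top U n ≤ 4 * U) (A : Finset ℕ)
    (hA : A ⊆ bigs U n) : pcost U (fun i => lev (enum A i)) ≤ beta U n 0 := by
  have h1 : ∀ s : ℕ, (Finset.univ.filter (fun i => SS U + s ≤ lev (enum A i))).card ≤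
      prof U n (s + 1) := by
    intro s
    unfold prof
    refine Finset.card_le_card_of_injOn (enum A) ?_ ((enum_injective A).injOn)
    intro i hi
    rw [Finset.mem_coe, Finset.mem_filter] at hi
    rw [Finset.mem_coe, Finset.mem_filter]
    refine ⟨hA (enum_mem A i), ?_⟩
    unfold lam
    omega
  have h2 : beta U n 0 = ∑ s ∈ Finset.range (4 * U), QQ (prof U n (s + 1) + 1) := by
    unfold beta
    have e1 : Finset.Icc 1 (top U n) ⊆ Finset.Icc 1 (4 * U) :=
      Finset.Icc_subset_Icc le_rfl htop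
    rw [Finset.sum_subset e1 ?_]
    · rw [Finset.range_eq_Ico, Finset.sum_Ico_add' (fun s => QQ (prof U n s + 1)) 0 (4 * U) 1]
      apply Finset.sum_congr
      · ext s
        simp only [Finset.mem_Icc, Finset.mem_Ico]
        omega
      · intro s _
        rw [zero_add, QQ_one, sub_zero, add_zero]
    · intro s hs hs'
      rw [Finset.mem_Icc] at hs hs'
      rw [prof_zero (by omega)]
      simp
  rw [h2]
  unfold pcost
  apply Finset.sum_le_sum
  intro s _
  exact QQ_mono (by omega) (Nat.add_le_add_right (h1 s) 1)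

/-- sum over sets of given size -/
theorem sum_card_le (P : Finset ℕ) (w : ℕ → ℝ) (hw : ∀ q, 0 ≤ w q) (j : ℕ)
    (𝒟 : Finset (Finset ℕ)) (h𝒟 : ∀ A ∈ 𝒟, A ⊆ P ∧ A.card = j) :
    ∑ A ∈ 𝒟, ∏ q ∈ A, w q ≤ (∑ q ∈ P, w q) ^ j := by
  induction j generalizing 𝒟 with
  | zero =>
    have h1 : 𝒟 ⊆ {∅} := by
      intro A hA
      rw [Finset.mem_singleton]
      exact Finset.card_eq_zero.mp (h𝒟 A hA).2
    calc ∑ A ∈ 𝒟, ∏ q ∈ A, w q ≤ ∑ A ∈ {∅}, ∏ q ∈ A, w q :=
          Finset.sum_le_sum_of_subset_of_nonneg h1 (fun A _ _ => Finset.prod_nonneg fun q _ => hw q)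
      _ = 1 := by simp
      _ = _ := by simp
  | succ j ih =>
    -- choose an element of each set
    have hne : ∀ A ∈ 𝒟, ∃ q, q ∈ A := by
      intro A hA
      have := (h𝒟 A hA).2
      have h2 : A.Nonempty := by rw [← Finset.card_pos]; omega
      exact h2
    have hstep : ∀ q ∈ P, ∑ A ∈ 𝒟.filter (fun A => q ∈ A), ∏ r ∈ A, w r ≤
        w q * (∑ q ∈ P, w q) ^ j := by
      intro q _
      have h3 : ∑ A ∈ 𝒟.filter (fun A => q ∈ A), ∏ r ∈ A, w r =
          w q * ∑ B ∈ (𝒟.filter (fun A => q ∈ A)).image (fun A => A.erase q), ∏ r ∈ B, w r := by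
        rw [Finset.sum_image, Finset.mul_sum]
        · apply Finset.sum_congr rfl
          intro A hA
          rw [Finset.mem_filter] at hA
          exact (Finset.mul_prod_erase A w hA.2).symm
        · intro A hA B hB hAB
          rw [Finset.mem_coe, Finset.mem_filter] at hA hB
          simp only at hAB
          rw [← Finset.insert_erase hA.2, hAB, Finset.insert_erase hB.2]
      rw [h3]
      apply mul_le_mul_of_nonneg_left _ (hw q)
      apply ih
      intro B hB
      rw [Finset.mem_image] at hB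
      obtain ⟨A, hA, rfl⟩ := hB
      rw [Finset.mem_filter] at hA
      have h4 := h𝒟 A hA.1
      refine ⟨(Finset.erase_subset _ _).trans h4.1, ?_⟩
      rw [Finset.card_erase_of_mem hA.2, h4.2]
      rfl
    calc ∑ A ∈ 𝒟, ∏ q ∈ A, w q
        ≤ ∑ A ∈ 𝒟, ∑ q ∈ P.filter (fun q => q ∈ A), ∏ r ∈ A, w r := by
          apply Finset.sum_le_sum
          intro A hA
          obtain ⟨q, hq⟩ := hne A hA
          have hqP : q ∈ P.filter (fun q => q ∈ A) :=
            Finset.mem_filter.mpr ⟨(h𝒟 A hA).1 hq, hq⟩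
          exact Finset.single_le_sum (f := fun _ => ∏ r ∈ A, w r)
            (fun _ _ => Finset.prod_nonneg fun q _ => hw q) hqP
      _ = ∑ q ∈ P, ∑ A ∈ 𝒟.filter (fun A => q ∈ A), ∏ r ∈ A, w r := by
          rw [Finset.sum_comm' (t' := P) (s' := fun q => 𝒟.filter (fun A => q ∈ A))]
          intro A q
          simp only [Finset.mem_filter]
          tauto
      _ ≤ ∑ q ∈ P, w q * (∑ q ∈ P, w q) ^ j := Finset.sum_le_sum hstep
      _ = (∑ q ∈ P, w q) ^ (j + 1) := by
          rw [← Finset.sum_mul, pow_succ, mul_comm]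

/-- primes from `3` with small level -/
noncomputable def smallLev (L : ℕ) : Finset ℕ :=
  ((Finset.range (L + 1)).biUnion prLev).filter (fun q => 3 ≤ q)

theorem mem_smallLev {L q : ℕ} : q ∈ smallLev L ↔ q.Prime ∧ lev q ≤ L ∧ 3 ≤ q := by
  unfold smallLev
  rw [Finset.mem_filter, Finset.mem_biUnion]
  constructor
  · rintro ⟨⟨s, hs, hq⟩, h3⟩
    rw [mem_prLev] at hq
    rw [Finset.mem_range] at hs
    exact ⟨hq.1, by omega, h3⟩
  · rintro ⟨hq, hl, h3⟩
    exact ⟨⟨lev q, Finset.mem_range.mpr (by omega), mem_prLev.mpr ⟨hq, rfl⟩⟩, h3⟩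

theorem sum_smallLev : ∃ C : ℝ, 0 < C ∧ ∀ U : ℕ, 1 ≤ U →
    1 ≤ C * U ∧ ∑ q ∈ smallLev (3 * U + 6), 1 / ((q : ℝ) - 1) ≤ C * U := by
  obtain ⟨C, hC, hm⟩ := level_mass
  refine ⟨20 * (1 + C), by positivity, ?_⟩
  intro U hU
  have hU' : (1 : ℝ) ≤ U := by exact_mod_cast hU
  have h0 : 0 ≤ C * ((U : ℝ) - 1) := mul_nonneg hC.le (by linarith)
  refine ⟨by nlinarith, ?_⟩
  calc ∑ q ∈ smallLev (3 * U + 6), 1 / ((q : ℝ) - 1)
      ≤ ∑ q ∈ smallLev (3 * U + 6), 2 * (1 / (q : ℝ)) := by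
        apply Finset.sum_le_sum
        intro q hq
        rw [mem_smallLev] at hq
        have h3 : (3 : ℝ) ≤ q := by exact_mod_cast hq.2.2
        rw [mul_one_div, div_le_div_iff₀ (by linarith) (by linarith)]
        linarith
    _ = 2 * ∑ q ∈ smallLev (3 * U + 6), 1 / (q : ℝ) := by rw [Finset.mul_sum]
    _ ≤ 2 * ∑ q ∈ (Finset.range (3 * U + 6 + 1)).biUnion prLev, 1 / (q : ℝ) := by
        apply mul_le_mul_of_nonneg_left _ (by norm_num)
        exact Finset.sum_le_sum_of_subset_of_nonneg (Finset.filter_subset _ _)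
          (fun q _ _ => by positivity)
    _ ≤ 2 * ∑ s ∈ Finset.range (3 * U + 6 + 1), ∑ q ∈ prLev s, 1 / (q : ℝ) := by
        apply mul_le_mul_of_nonneg_left _ (by norm_num)
        rw [Finset.sum_biUnion]
        intro s _ t _ hst
        rw [Function.onFun, Finset.disjoint_left]
        intro q hq hq'
        rw [mem_prLev] at hq hq'
        exact hst (hq.2.symm.trans hq'.2)
    _ ≤ 2 * ∑ s ∈ Finset.range (3 * U + 6 + 1), (1 + C) := by
        apply mul_le_mul_of_nonneg_left _ (by norm_num)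
        apply Finset.sum_le_sum
        intro s _
        have h1 := (abs_le.mp (hm s)).2
        have h2 : Real.exp (-(s : ℝ)) ≤ 1 := by
          rw [Real.exp_le_one_iff]
          have : (0 : ℝ) ≤ s := Nat.cast_nonneg s
          linarith
        nlinarith
    _ = 2 * ((3 * U + 7) * (1 + C)) := by
        rw [Finset.sum_const, Finset.card_range, nsmul_eq_mul]
        push_cast
        ring
    _ ≤ 20 * (1 + C) * U := by nlinarith

theorem sum_C : ∃ C : ℝ, 0 < C ∧ ∀ (U K : ℕ) (𝒞 : Finset (Finset ℕ)), 1 ≤ U →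
    (∀ A ∈ 𝒞, A.card ≤ K ∧ ∀ q ∈ A, q.Prime ∧ 3 ≤ q ∧ lev q ≤ 3 * U + 6) →
    ∑ A ∈ 𝒞, 1 / ((∏ q ∈ A, (q - 1) : ℕ) : ℝ) ≤ (C * U) ^ K * (K + 1) := by
  obtain ⟨C, hC, hm⟩ := sum_smallLev
  refine ⟨C, hC, ?_⟩
  intro U K 𝒞 hU h𝒞
  obtain ⟨h1, h2⟩ := hm U hU
  set w : ℕ → ℝ := fun q => if 3 ≤ q then 1 / ((q : ℝ) - 1) else 0 with hw
  have hw0 : ∀ q, 0 ≤ w q := by
    intro q
    simp only [hw]
    split_ifs with h
    · have h3 : (3 : ℝ) ≤ q := by exact_mod_cast h
      have : (0 : ℝ) < (q : ℝ) - 1 := by linarith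
      positivity
    · exact le_rfl
  have hsumw : ∑ q ∈ smallLev (3 * U + 6), w q ≤ C * U := by
    refine le_trans (le_of_eq ?_) h2
    apply Finset.sum_congr rfl
    intro q hq
    rw [mem_smallLev] at hq
    simp only [hw]
    rw [if_pos hq.2.2]
  have hsum0 : 0 ≤ ∑ q ∈ smallLev (3 * U + 6), w q := Finset.sum_nonneg fun q _ => hw0 q
  have hterm : ∀ A ∈ 𝒞, 1 / ((∏ q ∈ A, (q - 1) : ℕ) : ℝ) = ∏ q ∈ A, w q := by
    intro A hA
    rw [Nat.cast_prod, one_div, ← Finset.prod_inv_distrib]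
    apply Finset.prod_congr rfl
    intro q hq
    have h3 := ((h𝒞 A hA).2 q hq).2.1
    simp only [hw]
    rw [if_pos h3, Nat.cast_sub (by omega), one_div, Nat.cast_one]
  rw [Finset.sum_congr rfl hterm]
  have hfib : ∑ A ∈ 𝒞, ∏ q ∈ A, w q =
      ∑ j ∈ Finset.range (K + 1), ∑ A ∈ 𝒞.filter (fun A => A.card = j), ∏ q ∈ A, w q := by
    rw [Finset.sum_fiberwise_of_maps_to]
    intro A hA
    rw [Finset.mem_range]
    have := (h𝒞 A hA).1
    omega
  rw [hfib]
  calc ∑ j ∈ Finset.range (K + 1), ∑ A ∈ 𝒞.filter (fun A => A.card = j), ∏ q ∈ A, w q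
      ≤ ∑ j ∈ Finset.range (K + 1), (C * U) ^ K := by
        apply Finset.sum_le_sum
        intro j hj
        rw [Finset.mem_range] at hj
        refine le_trans (sum_card_le (smallLev (3 * U + 6)) w hw0 j _ ?_) ?_
        · intro A hA
          rw [Finset.mem_filter] at hA
          refine ⟨?_, hA.2⟩
          intro q hq
          have := (h𝒞 A hA.1).2 q hq
          exact mem_smallLev.mpr ⟨this.1, this.2.2, this.2.1⟩
        · calc (∑ q ∈ smallLev (3 * U + 6), w q) ^ j ≤ (C * U) ^ j :=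
                pow_le_pow_left₀ hsum0 hsumw j
            _ ≤ (C * U) ^ K := pow_le_pow_right₀ h1 (by omega)
    _ = (C * U) ^ K * (K + 1) := by
        rw [Finset.sum_const, Finset.card_range, nsmul_eq_mul]
        push_cast
        ring

end P031
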