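import Vale.Agent.P031.COMain
import Vale.Agent.P031.CO1

/-!
# P031, module CO2: the tuple attached to a coincidence

PROOF of `co_tup`.  `C = bigs n ∩ bigs n'`, `c = ∏_{q ∈ C} (q - 1)`.  `card_bigs_le` bounds the number of big primes
(`top ≤ LL X ≤ 3U + 4 ≤ 8U`).  `totient_eq`, cancel `c`.  `log φ(n) ≤ log n ≤ U² e^{top + S} ≤
U² e^{LL X - 5 log U} = (log X)/U³` (`log_le_of_good`) and the value is `≥ √X`, so `log p ≥ (log X)/4`.
The last condition of `TupOK` with `B = U^{57/100}`: the value divided by `c` is `(p-1) ∏_{q ∈ bigs n \ C} (q-1) · a`,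
`Lv S s` of it is `Lv S s (p-1) + ∑_{q ∈ bigs n \ C} Lv S s (q-1) + 0` and normality of each `q` gives
`Lv S s (q-1) = Lv S (min s (lev q + 1)) (q-1) ≤ min s (lev q + 1) - S + E` (`Lv_top`), also for `p`
(`SS U ≤ lev p`); `(k+1) E ≤ U^{0.57}`.
-/

namespace P031

open scoped BigOperators

theorem co2_Lv_le {U q s : ℕ} (hq : Normal U q) (hS : SS U ≤ lev q + 1) (hs : SS U ≤ s) :
    (Lv (SS U) s (q - 1) : ℝ) ≤ ((min s (lev q + 1) : ℕ) : ℝ) - (SS U : ℝ) + EE U := by
  by_cases h : s ≤ lev q + 1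
  · rw [min_eq_left h]
    have := (abs_le.mp (hq.1 s hs h)).2
    linarith
  · rw [not_le] at h
    rw [min_eq_right h.le]
    have hm : lev (q - 1) ≤ lev q := lev_mono (Nat.sub_le q 1)
    have e1 : Lv (SS U) s (q - 1) = Lv (SS U) (lev (q - 1) + 1) (q - 1) := Lv_top (by omega)
    have e2 : Lv (SS U) (lev q + 1) (q - 1) = Lv (SS U) (lev (q - 1) + 1) (q - 1) :=
      Lv_top (by omega)
    rw [e1, ← e2]
    have := (abs_le.mp (hq.1 (lev q + 1) hS le_rfl)).2
    linarith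

theorem co2_logp {U : ℕ} (hU : 2 ≤ U) {X : ℝ} {p n : ℕ} (hX : 1 < X) (hn : Good U n)
    (htop : (top U n : ℝ) + SS U + 5 * Real.log U ≤ LL X)
    (hlt : X < (((p - 1) * Nat.totient n : ℕ) : ℝ) ^ 2) : Real.log X / 4 ≤ Real.log p := by
  have hL : 0 < Real.log X := Real.log_pos hX
  have hU0 : (0 : ℝ) < U := by exact_mod_cast (by omega : 0 < U)
  have hU2 : (2 : ℝ) ≤ U := by exact_mod_cast hU
  set v : ℕ := (p - 1) * Nat.totient n with hv
  have hv0 : v ≠ 0 := by
    intro h0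
    rw [h0] at hlt
    norm_num at hlt
    linarith
  have hp1 : p - 1 ≠ 0 := fun h => hv0 (by rw [hv, h, zero_mul])
  have hph : Nat.totient n ≠ 0 := fun h => hv0 (by rw [hv, h, mul_zero])
  have h1 : Real.log X < 2 * Real.log v := by
    have h2 : Real.log X < Real.log ((v : ℝ) ^ 2) := Real.log_lt_log (by linarith) hlt
    rw [Real.log_pow] at h2
    exact_mod_cast h2
  have h2 : Real.log v = Real.log ((p - 1 : ℕ) : ℝ) + Real.log (Nat.totient n) := by
    rw [hv, Nat.cast_mul, Real.log_mul (by exact_mod_cast hp1) (by exact_mod_cast hph)]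
  have h3 : Real.log ((p - 1 : ℕ) : ℝ) ≤ Real.log p := by
    apply Real.log_le_log
    · exact_mod_cast Nat.pos_of_ne_zero hp1
    · exact_mod_cast Nat.sub_le p 1
  have h4 : Real.log (Nat.totient n) ≤ Real.log n := by
    apply Real.log_le_log
    · exact_mod_cast Nat.pos_of_ne_zero hph
    · exact_mod_cast Nat.totient_le n
  have h5 := log_le_of_good (by omega : 1 ≤ U) hn
  have h6 : (U : ℝ) ^ 2 * Real.exp (top U n + SS U) ≤ Real.log X / 4 := by
    have e1 : Real.exp ((top U n : ℝ) + SS U) ≤ Real.exp (LL X - 5 * Real.log U) :=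
      Real.exp_le_exp.mpr (by linarith)
    have e2 : Real.exp (LL X - 5 * Real.log U) = Real.log X / (U : ℝ) ^ 5 := by
      rw [Real.exp_sub, LL, Real.exp_log hL]
      congr 1
      rw [show (5 : ℝ) * Real.log U = ((5 : ℕ) : ℝ) * Real.log U by norm_num,
        Real.exp_nat_mul, Real.exp_log hU0]
    rw [e2] at e1
    calc (U : ℝ) ^ 2 * Real.exp (top U n + SS U) ≤ (U : ℝ) ^ 2 * (Real.log X / (U : ℝ) ^ 5) := by
          gcongr
      _ = Real.log X / (U : ℝ) ^ 3 := by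
          field_simp
      _ ≤ Real.log X / 4 := by
          apply div_le_div_of_nonneg_left hL.le (by norm_num)
          nlinarith [mul_pos hU0 hU0]
  linarith

theorem co2_aux : ∃ U₀ : ℕ, ∀ U : ℕ, U₀ ≤ U → 2 ≤ U ∧
    (Real.log U ^ 2 + 1) * EE U ≤ (U : ℝ) ^ ((57 : ℝ) / 100) ∧
    Real.exp (SS U) ≤ Real.exp ((U : ℝ) ^ ((9 : ℝ) / 10)) / 4 ∧ 1 ≤ SS U ∧
    0 < (U : ℝ) ^ ((9 : ℝ) / 10) := by
  have h1 : ∀ᶠ x : ℝ in Filter.atTop, Real.log x ≤ x ^ ((1 : ℝ) / 200) / 2 := by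
    have := (isLittleO_log_rpow_atTop (r := (1 : ℝ) / 200) (by norm_num)).bound
      (c := 1 / 2) (by norm_num)
    filter_upwards [this, Filter.eventually_ge_atTop (1 : ℝ)] with x hx hx1
    rw [Real.norm_of_nonneg (Real.log_nonneg hx1),
      Real.norm_of_nonneg (Real.rpow_nonneg (by linarith) _)] at hx
    linarith
  have h2 : ∀ᶠ x : ℝ in Filter.atTop, 2 ≤ x ^ ((1 : ℝ) / 100) := 
    (tendsto_rpow_atTop (by norm_num : (0 : ℝ) < 1 / 100)).eventually_ge_atTop 2
  have h3 : ∀ᶠ x : ℝ in Filter.atTop, 4 ≤ x ^ ((2 : ℝ) / 5) := 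
    (tendsto_rpow_atTop (by norm_num : (0 : ℝ) < 2 / 5)).eventually_ge_atTop 4
  have h4 : ∀ᶠ x : ℝ in Filter.atTop, (2 : ℝ) ≤ x := Filter.eventually_ge_atTop 2
  obtain ⟨U₀, hU₀⟩ := Filter.eventually_atTop.mp
    (tendsto_natCast_atTop_atTop.eventually (h1.and (h2.and (h3.and h4))))
  refine ⟨U₀, fun U hU => ?_⟩
  obtain ⟨a1, a2, a3, a4⟩ := hU₀ U hU
  have hU0 : (0 : ℝ) < U := by linarith
  have hU1 : (1 : ℝ) ≤ U := by linarith
  have hU2 : 2 ≤ U := by exact_mod_cast a4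
  have hlog : 0 ≤ Real.log U := Real.log_nonneg hU1
  refine ⟨hU2, ?_, ?_, ?_, by positivity⟩
  · have b1 : Real.log U ^ 2 ≤ (U : ℝ) ^ ((1 : ℝ) / 100) / 4 := by
      have : Real.log U ^ 2 ≤ ((U : ℝ) ^ ((1 : ℝ) / 200) / 2) ^ 2 := by gcongr
      have e : ((U : ℝ) ^ ((1 : ℝ) / 200) / 2) ^ 2 = (U : ℝ) ^ ((1 : ℝ) / 100) / 4 := by
        rw [div_pow, ← Real.rpow_natCast, ← Real.rpow_mul hU0.le]
        norm_num
      rwa [e] at this
    have b2 : Real.log U ^ 2 + 1 ≤ (U : ℝ) ^ ((1 : ℝ) / 50) := by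
      have e : (U : ℝ) ^ ((1 : ℝ) / 50) = (U : ℝ) ^ ((1 : ℝ) / 100) * (U : ℝ) ^ ((1 : ℝ) / 100) := by
        rw [← Real.rpow_add hU0]; norm_num
      rw [e]
      nlinarith
    calc (Real.log U ^ 2 + 1) * EE U ≤ (U : ℝ) ^ ((1 : ℝ) / 50) * EE U := by
          apply mul_le_mul_of_nonneg_right b2
          unfold EE; positivity
      _ = (U : ℝ) ^ ((57 : ℝ) / 100) := by
          unfold EE
          rw [← Real.rpow_add hU0]; norm_num
  · have s1 : (SS U : ℝ) ≤ (U : ℝ) ^ ((1 : ℝ) / 2) := by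
      rw [← Real.sqrt_eq_rpow]
      apply Real.le_sqrt_of_sq_le
      have : SS U ^ 2 ≤ U := Nat.sqrt_le' U
      exact_mod_cast this
    have s2 : (U : ℝ) ^ ((9 : ℝ) / 10) = (U : ℝ) ^ ((1 : ℝ) / 2) * (U : ℝ) ^ ((2 : ℝ) / 5) := by
      rw [← Real.rpow_add hU0]; norm_num
    have s3 : (1 : ℝ) ≤ (U : ℝ) ^ ((1 : ℝ) / 2) := Real.one_le_rpow hU1 (by norm_num)
    have s4 : (SS U : ℝ) + 3 ≤ (U : ℝ) ^ ((9 : ℝ) / 10) := by
      rw [s2]; nlinarith
    have s5 : (4 : ℝ) ≤ Real.exp 3 := by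
      have := Real.add_one_le_exp (3 : ℝ)
      linarith
    have s6 : Real.exp (SS U) * Real.exp 3 ≤ Real.exp ((U : ℝ) ^ ((9 : ℝ) / 10)) := by
      rw [← Real.exp_add]
      exact Real.exp_le_exp.mpr s4
    have s7 : 0 < Real.exp (SS U) := Real.exp_pos _
    rw [le_div_iff₀ (by norm_num)]
    nlinarith
  · unfold SS
    exact Nat.le_sqrt'.mpr (by omega)

/-- the big part of the value -/
theorem co2_value {U p n n' : ℕ} (hn : Good U n) :
    (p - 1) * Nat.totient n = (∏ q ∈ bigs U n ∩ bigs U n', (q - 1)) *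
      ((p - 1) * (∏ i, (enum (bigs U n \ bigs U n') i - 1)) * Nat.totient (lowPart (SS U) n)) := by
  have hn0 : n ≠ 0 := by have := hn.pos; omega
  rw [totient_eq hn0 hn.sqf, prod_enum (bigs U n \ bigs U n') (fun q => q - 1),
    ← Finset.prod_inter_mul_prod_sdiff (bigs U n) (bigs U n') (fun q => q - 1)]
  ring

theorem co2_c_pos {U n n' : ℕ} : 0 < ∏ q ∈ bigs U n ∩ bigs U n', (q - 1) := by
  apply Finset.prod_pos
  intro q hq
  have := (mem_bigs.mp (Finset.mem_inter.mp hq).1).1.two_le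
  omega

theorem co_tup : ∃ U₀ : ℕ, ∀ U : ℕ, U₀ ≤ U → ∀ (X : ℝ) (p n p' n' : ℕ),
    (U : ℝ) ^ ((9 : ℝ) / 10) ≤ LL X → LL X ≤ 3 * U + 4 →
    p.Prime → p'.Prime → Normal U p → Normal U p' → p ≠ p' → Good U n → Good U n' →
    (top U n : ℝ) + SS U + 5 * Real.log U ≤ LL X → (top U n' : ℝ) + SS U + 5 * Real.log U ≤ LL X →
    (p - 1) * Nat.totient n = (p' - 1) * Nat.totient n' →
    (((p - 1) * Nat.totient n : ℕ) : ℝ) ≤ X → X < (((p - 1) * Nat.totient n : ℕ) : ℝ) ^ 2 →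
    ((bigs U n).card : ℝ) ≤ Real.log U ^ 2 ∧ ((bigs U n').card : ℝ) ≤ Real.log U ^ 2 ∧
    TupOK U X (X / ((∏ q ∈ bigs U n ∩ bigs U n', (q - 1) : ℕ) : ℝ)) ((U : ℝ) ^ ((57 : ℝ) / 100))
      (fun i => lev (enum (bigs U n \ bigs U n') i)) (fun j => lev (enum (bigs U n' \ bigs U n) j))
      (p, enum (bigs U n \ bigs U n'), Nat.totient (lowPart (SS U) n), p',
        enum (bigs U n' \ bigs U n), Nat.totient (lowPart (SS U) n')) := by
  obtain ⟨U₁, h₁⟩ := co2_aux
  obtain ⟨C, U₂, hC, h₂⟩ := card_bigs_le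
  obtain ⟨U₃, hU₃⟩ := Filter.eventually_atTop.mp
    ((Real.tendsto_log_atTop.comp tendsto_natCast_atTop_atTop).eventually_ge_atTop C)
  refine ⟨max U₁ (max U₂ U₃), fun U hU X p n p' n' hl hu hp hp' hnp hnp' hne hg hg' ht ht' heq
    hle hlt => ?_⟩
  obtain ⟨hU2, hE, hexp, hS1, hpos⟩ := h₁ U (le_trans (le_max_left _ _) hU)
  have hCU : C ≤ Real.log U := hU₃ U (le_trans (le_trans (le_max_right _ _) (le_max_right _ _)) hU)
  have hU2' : U₂ ≤ U := le_trans (le_trans (le_max_left _ _) (le_max_right _ _)) hU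
  have hlogU : 0 ≤ Real.log U := Real.log_nonneg (by exact_mod_cast (by omega : 1 ≤ U))
  have hU2R : (2 : ℝ) ≤ U := by exact_mod_cast hU2
  -- size of X
  have hX0 : 0 ≤ X := le_trans (Nat.cast_nonneg _) hle
  have hv1 : 1 ≤ (p - 1) * Nat.totient n := by
    rcases Nat.eq_zero_or_pos ((p - 1) * Nat.totient n) with h | h
    · rw [h] at hlt
      norm_num at hlt
      linarith
    · exact h
  have hX1 : 1 ≤ X := le_trans (by exact_mod_cast hv1) hle
  have hLX0 : 0 ≤ Real.log X := Real.log_nonneg hX1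
  have hLXpos : 0 < Real.log X := by
    rcases hLX0.lt_or_eq with h | h
    · exact h
    · exfalso
      have : LL X = 0 := by unfold LL; rw [← h, Real.log_zero]
      linarith
  have hX1' : 1 < X := by
    rcases hX1.lt_or_eq with h | h
    · exact h
    · rw [← h, Real.log_one] at hLXpos; exact absurd hLXpos (lt_irrefl _)
  have hlt' : X < (((p' - 1) * Nat.totient n' : ℕ) : ℝ) ^ 2 := by rw [← heq]; exact hlt
  have hlp : Real.log X / 4 ≤ Real.log p := co2_logp hU2 hX1' hg ht hlt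
  have hlp' : Real.log X / 4 ≤ Real.log p' := co2_logp hU2 hX1' hg' ht' hlt'
  have hlevp : ∀ q : ℕ, q.Prime → Real.log X / 4 ≤ Real.log q → SS U ≤ lev q := by
    intro q hq h
    rw [le_lev_iff hS1]
    have e1 : Real.exp (SS U) ≤ Real.log q := by
      have e2 : Real.exp (LL X) = Real.log X := by unfold LL; exact Real.exp_log hLXpos
      have e3 : Real.exp ((U : ℝ) ^ ((9 : ℝ) / 10)) ≤ Real.log X := by
        rw [← e2]; exact Real.exp_le_exp.mpr hl
      linarith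
    calc Real.exp (Real.exp (SS U)) ≤ Real.exp (Real.log q) := Real.exp_le_exp.mpr e1
      _ = q := Real.exp_log (by exact_mod_cast hq.pos)
  have hcard : ∀ m : ℕ, Good U m → (top U m : ℝ) + SS U + 5 * Real.log U ≤ LL X →
      ((bigs U m).card : ℝ) ≤ Real.log U ^ 2 := by
    intro m hm htm
    have h1 : top U m ≤ 8 * U := by
      have : (top U m : ℝ) ≤ 8 * U := by
        have : (0 : ℝ) ≤ SS U := Nat.cast_nonneg _
        linarith
      exact_mod_cast this
    have h2 := h₂ U hU2' m hm h1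
    nlinarith
  refine ⟨hcard n hg ht, hcard n' hg' ht', ?_⟩
  have hc : 0 < ∏ q ∈ bigs U n ∩ bigs U n', (q - 1) := co2_c_pos
  have hval := co2_value (p := p) (n' := n') hg
  have hval' := co2_value (p := p') (n' := n) hg'
  rw [Finset.inter_comm] at hval'
  have heqv : (p - 1) * (∏ i, (enum (bigs U n \ bigs U n') i - 1)) *
      Nat.totient (lowPart (SS U) n) = (p' - 1) * (∏ i, (enum (bigs U n' \ bigs U n) i - 1)) *
      Nat.totient (lowPart (SS U) n') := by
    apply Nat.eq_of_mul_eq_mul_left hc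
    rw [← hval, ← hval', heq]
  have hmemp : ∀ (a b : ℕ) (i : Fin (bigs U a \ bigs U b).card),
      enum (bigs U a \ bigs U b) i ∈ bigs U a ∧ enum (bigs U a \ bigs U b) i ∉ bigs U b :=
    fun a b i => Finset.mem_sdiff.mp (enum_mem _ i)
  refine ⟨hp, hp', fun i => ⟨(mem_bigs.mp (hmemp n n' i).1).1, rfl⟩,
    fun j => ⟨(mem_bigs.mp (hmemp n' n j).1).1, rfl⟩, hne, ?_, ?_, ?_, hlp, hlp', hnp.2, hnp'.2,
    fun i => (hg.nrm _ (hmemp n n' i).1).2, fun j => (hg'.nrm _ (hmemp n' n j).1).2,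
    fun r hr h => lev_of_dvd_totient_lowPart hr h, fun r hr h => lev_of_dvd_totient_lowPart hr h,
    hg.sml, hg'.sml, heqv, ?_, ?_⟩
  · intro i j h
    have h1 := (hmemp n n' i).1
    have h2 := (hmemp n' n j).2
    exact h2 (by rw [← show enum (bigs U n \ bigs U n') i = enum (bigs U n' \ bigs U n) j from h]; exact h1)
  · exact Nat.totient_pos.mpr (lowPart_pos _ _)
  · exact Nat.totient_pos.mpr (lowPart_pos _ _)
  · rw [le_div_iff₀ (by exact_mod_cast hc)]
    calc _ = (((∏ q ∈ bigs U n ∩ bigs U n', (q - 1)) *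
          ((p - 1) * (∏ i, (enum (bigs U n \ bigs U n') i - 1)) *
            Nat.totient (lowPart (SS U) n)) : ℕ) : ℝ) := by
            push_cast
            ring
      _ = (((p - 1) * Nat.totient n : ℕ) : ℝ) := by rw [hval]
      _ ≤ X := hle
  · intro s hs hsX
    have hp1 : p - 1 ≠ 0 := by have := hp.two_le; omega
    have hpr : ∀ i ∈ (Finset.univ : Finset (Fin (bigs U n \ bigs U n').card)),
        enum (bigs U n \ bigs U n') i - 1 ≠ 0 := by
      intro i _
      have := (mem_bigs.mp (hmemp n n' i).1).1.two_le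
      omega
    have hpr' : (∏ i, (enum (bigs U n \ bigs U n') i - 1)) ≠ 0 := Finset.prod_ne_zero_iff.mpr hpr
    have ha : Nat.totient (lowPart (SS U) n) ≠ 0 := (Nat.totient_pos.mpr (lowPart_pos _ _)).ne'
    have hLa : Lv (SS U) s (Nat.totient (lowPart (SS U) n)) = 0 := by
      unfold Lv
      rw [List.countP_eq_zero]
      intro r hr
      have h1 := lev_of_dvd_totient_lowPart (Nat.prime_of_mem_primeFactorsList hr)
        (Nat.dvd_of_mem_primeFactorsList hr)
      simp only [decide_eq_true_eq, not_and, not_lt]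
      intro h2
      omega
    have hL : Lv (SS U) s ((p - 1) * (∏ i, (enum (bigs U n \ bigs U n') i - 1)) *
        Nat.totient (lowPart (SS U) n)) = Lv (SS U) s (p - 1) +
        ∑ i, Lv (SS U) s (enum (bigs U n \ bigs U n') i - 1) := by
      rw [Lv_mul _ _ (mul_ne_zero hp1 hpr') ha, Lv_mul _ _ hp1 hpr',
        Lv_prod _ _ _ _ hpr, hLa, add_zero]
    show ((Lv (SS U) s ((p - 1) * (∏ i, (enum (bigs U n \ bigs U n') i - 1)) *
        Nat.totient (lowPart (SS U) n)) : ℕ) : ℝ) ≤ _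
    rw [hL]
    push_cast
    have hP := co2_Lv_le hnp (by have := hlevp p hp hlp; omega) hs
    have hP2 : (((min s (lev p + 1) : ℕ)) : ℝ) ≤ s := by exact_mod_cast min_le_left _ _
    have hQ : ∀ i ∈ (Finset.univ : Finset (Fin (bigs U n \ bigs U n').card)),
        (Lv (SS U) s (enum (bigs U n \ bigs U n') i - 1) : ℝ) ≤
        (((min s (lev (enum (bigs U n \ bigs U n') i) + 1) : ℕ) : ℝ) - (SS U : ℝ)) + EE U := by
      intro i _
      have hm := mem_bigs.mp (hmemp n n' i).1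
      exact co2_Lv_le (hg.nrm _ (hmemp n n' i).1) (by have := hm.2.2.2; omega) hs
    have hsum := Finset.sum_le_sum hQ
    rw [Finset.sum_add_distrib, Finset.sum_const, Finset.card_univ, Fintype.card_fin,
      nsmul_eq_mul] at hsum
    have hcd : (((bigs U n \ bigs U n').card : ℕ) : ℝ) ≤ Real.log U ^ 2 := by
      refine le_trans ?_ (hcard n hg ht)
      exact_mod_cast Finset.card_le_card Finset.sdiff_subset
    have hE0 : 0 ≤ EE U := by unfold EE; positivity
    have hfin : (((bigs U n \ bigs U n').card : ℕ) : ℝ) * EE U + EE U ≤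
        (U : ℝ) ^ ((57 : ℝ) / 100) := by
      refine le_trans ?_ hE
      nlinarith
    push_cast at hsum hP hP2
    linarith

end P031
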