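import Vale.Agent.P031.COMainA

/-!
# P031, module COMAIN: coincidences with prescribed levels

PROOF.  Put `S = SS U`.
1. For each tuple split `p-1 = α_0 m_0`, `q_i - 1 = α_i m_i`, `p'-1 = α'_0 m'_0`, `q'_j - 1 = α'_j m'_j` with
`α` composed of primes of level `< S` and `m` of primes of level `≥ S` (`α = lowPart S (·)`).  Then
`∏ m_i = ∏ m'_j` and `a ∏ α_i = a' ∏ α'_j =: σ`, `Ω(σ) ≤ R := (k + 1) 10 S + 100 S`, `log α_i ≤ 10 S e^S`.
2. By `riesz` choose `d` with `m_i = ∏_j d_{ij}`, `m'_j = ∏_i d_{ij}`; the tuple is determined by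
`((a, α), (a', α'), d)` and `d` satisfies `MatOK U X Y σ u w α α'`.
3. `co_rankin` (with `T = LL X + 3`, `v` the common value `= σ ∏ d_c`; `lwt` is multiplicative and
`lwt (zw U w) σ = 1`): `1 ≤ (∏_c lwt (zw U w) (d c)) · exp (mexp U u w + B₊ log (l+1))`.
4. Hence the number of tuples is at most
`exp (mexp + B₊ log(l+1)) ∑_{((a,α),(a',α'))} ∑_d ∏_c lwt (zw U w) (d c)`, and `co_mat`, `alpha_sum`, `co_exp` give
`≤ Y exp (-2 LL X + pcost U u + B₊ log (l+1) + l + U^{0.56}) ((k+2)(l+2))^R C e^S`, and everything besides the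
first two terms is `≤ exp (H/16)` (`R log ((k+2)(l+2)) ≤ U^{0.52}`).
-/

namespace P031

open scoped BigOperators

/-- the tuples `(p, q, a, p', q', a')` counted -/
def TupOK (U : ℕ) (X Y B : ℝ) {k l : ℕ} (u : Fin k → ℕ) (w : Fin l → ℕ)
    (x : ℕ × (Fin k → ℕ) × ℕ × ℕ × (Fin l → ℕ) × ℕ) : Prop :=
  x.1.Prime ∧ x.2.2.2.1.Prime ∧ (∀ i, (x.2.1 i).Prime ∧ lev (x.2.1 i) = u i) ∧
  (∀ j, (x.2.2.2.2.1 j).Prime ∧ lev (x.2.2.2.2.1 j) = w j) ∧ x.1 ≠ x.2.2.2.1 ∧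
  (∀ i j, x.2.1 i ≠ x.2.2.2.2.1 j) ∧ 1 ≤ x.2.2.1 ∧ 1 ≤ x.2.2.2.2.2 ∧
  Real.log X / 4 ≤ Real.log x.1 ∧ Real.log X / 4 ≤ Real.log x.2.2.2.1 ∧
  Lv 0 (SS U) (x.1 - 1) ≤ 10 * SS U ∧ Lv 0 (SS U) (x.2.2.2.1 - 1) ≤ 10 * SS U ∧
  (∀ i, Lv 0 (SS U) (x.2.1 i - 1) ≤ 10 * SS U) ∧
  (∀ j, Lv 0 (SS U) (x.2.2.2.2.1 j - 1) ≤ 10 * SS U) ∧
  (∀ r : ℕ, r.Prime → r ∣ x.2.2.1 → lev r < SS U) ∧
  (∀ r : ℕ, r.Prime → r ∣ x.2.2.2.2.2 → lev r < SS U) ∧
  x.2.2.1.primeFactorsList.length ≤ 100 * SS U ∧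
  x.2.2.2.2.2.primeFactorsList.length ≤ 100 * SS U ∧
  (x.1 - 1) * (∏ i, (x.2.1 i - 1)) * x.2.2.1 =
    (x.2.2.2.1 - 1) * (∏ j, (x.2.2.2.2.1 j - 1)) * x.2.2.2.2.2 ∧
  (((x.1 - 1) * (∏ i, (x.2.1 i - 1)) * x.2.2.1 : ℕ) : ℝ) ≤ Y ∧
  ∀ s : ℕ, SS U ≤ s → (s : ℝ) ≤ LL X + 3 →
    (Lv (SS U) s ((x.1 - 1) * (∏ i, (x.2.1 i - 1)) * x.2.2.1) : ℝ) ≤
      ((s : ℝ) - SS U) + ∑ i, ((min s (u i + 1) : ℕ) - (SS U : ℝ)) + B

/-- the vector `(p - 1, q_i - 1)` -/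
def rowV {k : ℕ} (p : ℕ) (q : Fin k → ℕ) : Fin (k + 1) → ℕ :=
  Fin.cons (p - 1) (fun i => q i - 1)

theorem rowV_zero {k : ℕ} (p : ℕ) (q : Fin k → ℕ) : rowV p q 0 = p - 1 := rfl

theorem rowV_succ {k : ℕ} (p : ℕ) (q : Fin k → ℕ) (i : Fin k) : rowV p q i.succ = q i - 1 := rfl

theorem rowV_ne {k : ℕ} {p : ℕ} {q : Fin k → ℕ} (hp : p.Prime) (hq : ∀ i, (q i).Prime)
    (i : Fin (k + 1)) : rowV p q i ≠ 0 := by
  refine Fin.cases ?_ (fun i => ?_) i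
  · rw [rowV_zero]; have := hp.two_le; omega
  · rw [rowV_succ]; have := (hq i).two_le; omega

theorem rowV_prod {k : ℕ} (p : ℕ) (q : Fin k → ℕ) :
    ∏ i, rowV p q i = (p - 1) * ∏ i, (q i - 1) := by
  rw [Fin.prod_univ_succ, rowV_zero]
  rfl

/-- data attached to a tuple -/
theorem tup_data {U : ℕ} {X Y B : ℝ} {k l : ℕ} {u : Fin k → ℕ} {w : Fin l → ℕ}
    {x : ℕ × (Fin k → ℕ) × ℕ × ℕ × (Fin l → ℕ) × ℕ} (hx : TupOK U X Y B u w x) :
    ∃ d : Fin (k + 1) × Fin (l + 1) → ℕ,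
      (∀ i, rowV x.1 x.2.1 i = loP (SS U) (rowV x.1 x.2.1 i) * ∏ j, d (i, j)) ∧
      (∀ j, rowV x.2.2.2.1 x.2.2.2.2.1 j =
        loP (SS U) (rowV x.2.2.2.1 x.2.2.2.2.1 j) * ∏ i, d (i, j)) ∧
      (∀ c, 1 ≤ d c) ∧ (∀ c, ∀ r : ℕ, r.Prime → r ∣ d c → SS U ≤ lev r) ∧
      x.2.2.1 * ∏ i, loP (SS U) (rowV x.1 x.2.1 i) =
        x.2.2.2.2.2 * ∏ j, loP (SS U) (rowV x.2.2.2.1 x.2.2.2.2.1 j) ∧
      (x.1 - 1) * (∏ i, (x.2.1 i - 1)) * x.2.2.1 =
        (x.2.2.1 * ∏ i, loP (SS U) (rowV x.1 x.2.1 i)) * ∏ c, d c := by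
  obtain ⟨h1, h2, h3, h4, h5, h6, h7, h8, h9, h10, h11, h12, h13, h14, h15, h16, h17, h18, h19,
    h20, h21⟩ := hx
  set p := x.1
  set q := x.2.1
  set a := x.2.2.1
  set p' := x.2.2.2.1
  set q' := x.2.2.2.2.1
  set a' := x.2.2.2.2.2
  have hr : ∀ i, rowV p q i ≠ 0 := rowV_ne h1 (fun i => (h3 i).1)
  have hr' : ∀ j, rowV p' q' j ≠ 0 := rowV_ne h2 (fun j => (h4 j).1)
  have ha : a ≠ 0 := by omega
  have ha' : a' ≠ 0 := by omega
  have heq : (∏ i, rowV p q i) * a = (∏ j, rowV p' q' j) * a' := by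
    rw [rowV_prod, rowV_prod]; exact h19
  have hP : (∏ i, rowV p q i) ≠ 0 := Finset.prod_ne_zero_iff.mpr (fun i _ => hr i)
  have hP' : (∏ i, rowV p' q' i) ≠ 0 := Finset.prod_ne_zero_iff.mpr (fun i _ => hr' i)
  have hhi : ∏ i, hiP (SS U) (rowV p q i) = ∏ j, hiP (SS U) (rowV p' q' j) := by
    have := congrArg (hiP (SS U)) heq
    rw [hiP_mul _ hP ha, hiP_mul _ hP' ha', hiP_eq_one ha h15, hiP_eq_one ha' h16, mul_one,
      mul_one, hiP_prod _ _ _ (fun i _ => hr i), hiP_prod _ _ _ (fun i _ => hr' i)] at this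
    exact this
  have hlo : a * ∏ i, loP (SS U) (rowV p q i) = a' * ∏ j, loP (SS U) (rowV p' q' j) := by
    have := congrArg (loP (SS U)) heq
    rw [loP_mul _ hP ha, loP_mul _ hP' ha', loP_eq_self ha h15, loP_eq_self ha' h16,
      loP_prod _ _ _ (fun i _ => hr i), loP_prod _ _ _ (fun i _ => hr' i)] at this
    rw [mul_comm a, mul_comm a']; exact this
  obtain ⟨d, hd1, hd2⟩ := riesz (fun i => hiP (SS U) (rowV p q i))
    (fun j => hiP (SS U) (rowV p' q' j)) (fun i => by have := hiP_pos (SS U) (rowV p q i); omega)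
    (fun i => by have := hiP_pos (SS U) (rowV p' q' i); omega) hhi
  have hdvd : ∀ i j, d i j ∣ hiP (SS U) (rowV p q i) := by
    intro i j
    rw [hd1 i]
    exact Finset.dvd_prod_of_mem _ (Finset.mem_univ j)
  have hpos : ∀ i j, 1 ≤ d i j := by
    intro i j
    exact Nat.pos_of_dvd_of_pos (hdvd i j) (hiP_pos _ _)
  refine ⟨fun c => d c.1 c.2, ?_, ?_, fun c => hpos _ _, ?_, hlo, ?_⟩
  · intro i
    have := loP_mul_hiP (SS U) (hr i)
    rw [hd1 i] at this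
    exact this.symm
  · intro j
    have := loP_mul_hiP (SS U) (hr' j)
    rw [hd2 j] at this
    exact this.symm
  · intro c r hrp hrd
    exact lev_of_dvd_hiP hrp (hrd.trans (hdvd _ _))
  · have e1 : ∏ c : Fin (k + 1) × Fin (l + 1), d c.1 c.2 = ∏ i, hiP (SS U) (rowV p q i) := by
      rw [Fintype.prod_prod_type]
      exact Finset.prod_congr rfl (fun i _ => (hd1 i).symm)
    rw [e1, ← rowV_prod]
    have e2 : ∏ i, rowV p q i =
        (∏ i, loP (SS U) (rowV p q i)) * ∏ i, hiP (SS U) (rowV p q i) := by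
      rw [← Finset.prod_mul_distrib]
      exact Finset.prod_congr rfl (fun i _ => (loP_mul_hiP (SS U) (hr i)).symm)
    rw [e2]; ring

theorem row_succ {k : ℕ} {p : ℕ} {q : Fin k → ℕ} (hq : ∀ i, (q i).Prime) (i : Fin k) :
    rowV p q i.succ + 1 = q i := by
  rw [rowV_succ]; have := (hq i).two_le; omega

theorem row_zero {k : ℕ} {p : ℕ} {q : Fin k → ℕ} (hp : p.Prime) :
    rowV p q 0 + 1 = p := by
  rw [rowV_zero]; have := hp.two_le; omega

theorem matOK_of_tup {U : ℕ} {X Y B : ℝ} {k l : ℕ} {u : Fin k → ℕ} {w : Fin l → ℕ}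
    {x : ℕ × (Fin k → ℕ) × ℕ × ℕ × (Fin l → ℕ) × ℕ} (hx : TupOK U X Y B u w x)
    {d : Fin (k + 1) × Fin (l + 1) → ℕ} {α : Fin (k + 1) → ℕ} {α' : Fin (l + 1) → ℕ}
    (hd1 : ∀ i, rowV x.1 x.2.1 i = α i * ∏ j, d (i, j))
    (hd2 : ∀ j, rowV x.2.2.2.1 x.2.2.2.2.1 j = α' j * ∏ i, d (i, j))
    (hd3 : ∀ c, 1 ≤ d c) (hd4 : ∀ c, ∀ r : ℕ, r.Prime → r ∣ d c → SS U ≤ lev r)
    (hd6 : (x.1 - 1) * (∏ i, (x.2.1 i - 1)) * x.2.2.1 = (x.2.2.1 * ∏ i, α i) * ∏ c, d c) :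
    MatOK U X Y ((x.2.2.1 * ∏ i, α i : ℕ) : ℝ) u w α α' d := by
  obtain ⟨h1, h2, h3, h4, h5, h6, h7, h8, h9, h10, h11, h12, h13, h14, h15, h16, h17, h18, h19,
    h20, h21⟩ := hx
  refine ⟨hd3, hd4, ?_, ?_, ?_, ?_, ?_, ?_, ?_, ?_, ?_⟩
  · rw [← hd1, row_zero h1]; exact h1
  · rw [← hd1, row_zero h1]; exact h9
  · rw [← hd2, row_zero h2]; exact h2
  · rw [← hd2, row_zero h2]; exact h10
  · intro i
    rw [← hd1, row_succ (fun i => (h3 i).1)]; exact h3 i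
  · intro j
    rw [← hd2, row_succ (fun i => (h4 i).1)]; exact h4 j
  · rw [← hd1, ← hd2, rowV_zero, rowV_zero]
    have := h1.two_le
    have := h2.two_le
    omega
  · intro i j
    rw [← hd1, ← hd2, rowV_succ, rowV_succ]
    have := (h3 i).1.two_le
    have := (h4 j).1.two_le
    have := h6 i j
    omega
  · rw [← Nat.cast_mul, ← hd6]; exact h20

theorem tup_finite {U : ℕ} {X Y B : ℝ} {k l : ℕ} {u : Fin k → ℕ} {w : Fin l → ℕ} :
    {x | TupOK U X Y B u w x}.Finite := by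
  set N : ℕ := ⌊Y⌋₊ + 1 with hN
  have hfin : (Set.Iic N ×ˢ (Set.Iic (fun _ : Fin k => N)) ×ˢ Set.Iic N ×ˢ Set.Iic N ×ˢ
      (Set.Iic (fun _ : Fin l => N)) ×ˢ Set.Iic N : Set (ℕ × (Fin k → ℕ) × ℕ × ℕ × (Fin l → ℕ) × ℕ)).Finite :=
    (Set.finite_Iic _).prod ((Set.finite_Iic _).prod ((Set.finite_Iic _).prod
      ((Set.finite_Iic _).prod ((Set.finite_Iic _).prod (Set.finite_Iic _)))))
  apply hfin.subset
  rintro ⟨p, q, a, p', q', a'⟩ ⟨h1, h2, h3, h4, h5, h6, h7, h8, h9, h10, h11, h12, h13, h14, h15,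
    h16, h17, h18, h19, h20, h21⟩
  simp only at *
  have hp2 := h1.two_le
  have hp2' := h2.two_le
  have hq : ∀ i, 1 ≤ q i - 1 := fun i => by have := (h3 i).1.two_le; omega
  have hq' : ∀ i, 1 ≤ q' i - 1 := fun i => by have := (h4 i).1.two_le; omega
  have hV : (p - 1) * (∏ i, (q i - 1)) * a ≤ ⌊Y⌋₊ := Nat.le_floor h20
  have hV' : (p' - 1) * (∏ i, (q' i - 1)) * a' ≤ ⌊Y⌋₊ := h19 ▸ hV
  have hQ : 1 ≤ ∏ i, (q i - 1) := Nat.succ_le_of_lt (Finset.prod_pos (fun i _ => Nat.lt_of_lt_of_le Nat.zero_lt_one (hq i)))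
  have hQ' : 1 ≤ ∏ i, (q' i - 1) := Nat.succ_le_of_lt (Finset.prod_pos (fun i _ => Nat.lt_of_lt_of_le Nat.zero_lt_one (hq' i)))
  have key : ∀ {P Q A : ℕ}, 1 ≤ P → 1 ≤ Q → 1 ≤ A → P * Q * A ≤ ⌊Y⌋₊ →
      P ≤ ⌊Y⌋₊ ∧ Q ≤ ⌊Y⌋₊ ∧ A ≤ ⌊Y⌋₊ := by
    intro P Q A hP hQ hA h
    refine ⟨?_, ?_, ?_⟩
    · exact (Nat.le_mul_of_pos_right P (Nat.mul_pos hQ hA)).trans (by rw [← mul_assoc]; exact h)
    · calc Q ≤ Q * (P * A) := Nat.le_mul_of_pos_right Q (Nat.mul_pos hP hA)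
        _ = P * Q * A := by ring
        _ ≤ _ := h
    · calc A ≤ A * (P * Q) := Nat.le_mul_of_pos_right A (Nat.mul_pos hP hQ)
        _ = P * Q * A := by ring
        _ ≤ _ := h
  have k1 := key (show 1 ≤ p - 1 by omega) hQ h7 hV
  have k2 := key (show 1 ≤ p' - 1 by omega) hQ' h8 hV'
  have q1 : ∀ i, q i - 1 ≤ ⌊Y⌋₊ := fun i =>
    (Finset.single_le_prod' (f := fun i => q i - 1) (fun i _ => hq i) (Finset.mem_univ i)).trans k1.2.1
  have q2 : ∀ i, q' i - 1 ≤ ⌊Y⌋₊ := fun i =>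
    (Finset.single_le_prod' (f := fun i => q' i - 1) (fun i _ => hq' i) (Finset.mem_univ i)).trans k2.2.1
  simp only [Set.mem_prod, Set.mem_Iic]
  refine ⟨by omega, fun i => ?_, by omega, by omega, fun i => ?_, by omega⟩
  · have := q1 i; simp only; omega
  · have := q2 i; simp only; omega

/-- first part of the key of a tuple -/
noncomputable def tkey (U : ℕ) {k l : ℕ} (x : ℕ × (Fin k → ℕ) × ℕ × ℕ × (Fin l → ℕ) × ℕ) :
    (ℕ × (Fin (k + 1) → ℕ)) × (ℕ × (Fin (l + 1) → ℕ)) :=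
  ((x.2.2.1, fun i => loP (SS U) (rowV x.1 x.2.1 i)),
    (x.2.2.2.2.2, fun j => loP (SS U) (rowV x.2.2.2.1 x.2.2.2.2.1 j)))

theorem tup_eq {U : ℕ} {X Y B : ℝ} {k l : ℕ} {u : Fin k → ℕ} {w : Fin l → ℕ}
    {x y : ℕ × (Fin k → ℕ) × ℕ × ℕ × (Fin l → ℕ) × ℕ} (hx : TupOK U X Y B u w x)
    (hy : TupOK U X Y B u w y) {α : Fin (k + 1) → ℕ} {α' : Fin (l + 1) → ℕ}
    {d : Fin (k + 1) × Fin (l + 1) → ℕ}
    (hx1 : ∀ i, rowV x.1 x.2.1 i = α i * ∏ j, d (i, j))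
    (hx2 : ∀ j, rowV x.2.2.2.1 x.2.2.2.2.1 j = α' j * ∏ i, d (i, j))
    (hy1 : ∀ i, rowV y.1 y.2.1 i = α i * ∏ j, d (i, j))
    (hy2 : ∀ j, rowV y.2.2.2.1 y.2.2.2.2.1 j = α' j * ∏ i, d (i, j))
    (ha : x.2.2.1 = y.2.2.1) (ha' : x.2.2.2.2.2 = y.2.2.2.2.2) : x = y := by
  have e1 : ∀ i, rowV x.1 x.2.1 i = rowV y.1 y.2.1 i := fun i => (hx1 i).trans (hy1 i).symm
  have e2 : ∀ i, rowV x.2.2.2.1 x.2.2.2.2.1 i = rowV y.2.2.2.1 y.2.2.2.2.1 i :=
    fun i => (hx2 i).trans (hy2 i).symm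
  have f1 : x.1 = y.1 := by
    rw [← row_zero (q := x.2.1) hx.1, ← row_zero (q := y.2.1) hy.1, e1]
  have f2 : x.2.1 = y.2.1 := by
    funext i
    rw [← row_succ (p := x.1) (fun i => (hx.2.2.1 i).1) i,
      ← row_succ (p := y.1) (fun i => (hy.2.2.1 i).1) i, e1]
  have f3 : x.2.2.2.1 = y.2.2.2.1 := by
    rw [← row_zero (q := x.2.2.2.2.1) hx.2.1, ← row_zero (q := y.2.2.2.2.1) hy.2.1, e2]
  have f4 : x.2.2.2.2.1 = y.2.2.2.2.1 := by
    funext i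
    rw [← row_succ (p := x.2.2.2.1) (fun i => (hx.2.2.2.1 i).1) i,
      ← row_succ (p := y.2.2.2.1) (fun i => (hy.2.2.2.1 i).1) i, e2]
  exact Prod.ext f1 (Prod.ext f2 (Prod.ext ha (Prod.ext f3 (Prod.ext f4 ha'))))

theorem co_main : ∃ U₀ : ℕ, ∀ U : ℕ, U₀ ≤ U → ∀ (X Y B : ℝ) (k l : ℕ) (u : Fin k → ℕ)
    (w : Fin l → ℕ), (U : ℝ) ^ ((9 : ℝ) / 10) ≤ LL X → LL X ≤ 3 * U + 5 → 1 ≤ Y → Y ≤ X →
    (k : ℝ) ≤ Real.log U ^ 2 → (l : ℝ) ≤ Real.log U ^ 2 → B ≤ (U : ℝ) ^ ((57 : ℝ) / 100) →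
    (∀ i, SS U ≤ u i ∧ (u i : ℝ) + 4 * Real.log U ≤ LL X) →
    (∀ j, SS U ≤ w j ∧ (w j : ℝ) + 4 * Real.log U ≤ LL X) →
    {x | TupOK U X Y B u w x}.Finite ∧
    (({x | TupOK U X Y B u w x}.ncard : ℕ) : ℝ) ≤
      Y * Real.exp (-2 * LL X + pcost U u + HH U / 16) := by
  classical
  obtain ⟨U₁, hco⟩ := co_mat
  obtain ⟨C, hC, hal⟩ := alpha_sum
  obtain ⟨U₂, has⟩ := co_asym C
  refine ⟨max U₁ U₂, fun U hU X Y B k l u w hX1 hX2 hY1 hYX hk hl hB hu hw => ⟨tup_finite, ?_⟩⟩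
  have hU1 : U₁ ≤ U := (le_max_left _ _).trans hU
  obtain ⟨hlog, hU2, hU3, hasy⟩ := has U ((le_max_right _ _).trans hU)
  have hfin := @tup_finite U X Y B k l u w
  rw [Set.ncard_eq_toFinset_card _ hfin]
  set 𝒳 := hfin.toFinset with h𝒳
  have hmem : ∀ x ∈ 𝒳, TupOK U X Y B u w x := by
    intro x hx
    rw [h𝒳, Set.Finite.mem_toFinset] at hx
    exact hx
  -- choose the matrices
  have hd : ∀ x, ∃ d : Fin (k + 1) × Fin (l + 1) → ℕ, TupOK U X Y B u w x →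
      (∀ i, rowV x.1 x.2.1 i = loP (SS U) (rowV x.1 x.2.1 i) * ∏ j, d (i, j)) ∧
      (∀ j, rowV x.2.2.2.1 x.2.2.2.2.1 j =
        loP (SS U) (rowV x.2.2.2.1 x.2.2.2.2.1 j) * ∏ i, d (i, j)) ∧
      (∀ c, 1 ≤ d c) ∧ (∀ c, ∀ r : ℕ, r.Prime → r ∣ d c → SS U ≤ lev r) ∧
      x.2.2.1 * ∏ i, loP (SS U) (rowV x.1 x.2.1 i) =
        x.2.2.2.2.2 * ∏ j, loP (SS U) (rowV x.2.2.2.1 x.2.2.2.2.1 j) ∧
      (x.1 - 1) * (∏ i, (x.2.1 i - 1)) * x.2.2.1 =
        (x.2.2.1 * ∏ i, loP (SS U) (rowV x.1 x.2.1 i)) * ∏ c, d c := by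
    intro x
    by_cases hx : TupOK U X Y B u w x
    · obtain ⟨d, hd⟩ := tup_data hx
      exact ⟨d, fun _ => hd⟩
    · exact ⟨fun _ => 1, fun h => absurd h hx⟩
  choose D hD using hd
  set E : ℝ := Real.exp (mexp U u w + max B 0 * Real.log (l + 1)) with hE
  set z := zw U w with hz
  have hz0 : ∀ s, 0 ≤ z s := zw_nonneg U w
  set R : ℕ := (k + 1) * (10 * SS U) + 100 * SS U with hR
  -- facts about the small parts
  have hLo : ∀ n : ℕ, Lv 0 (SS U) n ≤ 10 * SS U →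
      Real.log (loP (SS U) n) ≤ 10 * SS U * Real.exp (SS U) := by
    intro n hn
    refine (log_loP_le _ _).trans ?_
    apply mul_le_mul_of_nonneg_right _ (Real.exp_pos _).le
    exact_mod_cast hn
  have hrow : ∀ x, TupOK U X Y B u w x → ∀ i, Lv 0 (SS U) (rowV x.1 x.2.1 i) ≤ 10 * SS U := by
    intro x hx i
    refine Fin.cases ?_ (fun i => ?_) i
    · exact hx.2.2.2.2.2.2.2.2.2.2.1
    · exact hx.2.2.2.2.2.2.2.2.2.2.2.2.1 i
  have hrow' : ∀ x, TupOK U X Y B u w x → ∀ j,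
      Lv 0 (SS U) (rowV x.2.2.2.1 x.2.2.2.2.1 j) ≤ 10 * SS U := by
    intro x hx i
    refine Fin.cases ?_ (fun i => ?_) i
    · exact hx.2.2.2.2.2.2.2.2.2.2.2.1
    · exact hx.2.2.2.2.2.2.2.2.2.2.2.2.2.1 i
  -- the Rankin inequality for each tuple
  have hrank : ∀ x ∈ 𝒳, (1 : ℝ) ≤ E * ∏ c, lwt z (D x c) := by
    intro x hx
    have hok := hmem x hx
    obtain ⟨d1, d2, d3, d4, d5, d6⟩ := hD x hok
    obtain ⟨h1, h2, h3, h4, h5, h6, h7, h8, h9, h10, h11, h12, h13, h14, h15, h16, h17, h18, h19,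
      h20, h21⟩ := hok
    set v := (x.1 - 1) * (∏ i, (x.2.1 i - 1)) * x.2.2.1 with hv
    have hlow : ∀ r : ℕ, r.Prime → r ∣ x.2.2.1 * ∏ i, loP (SS U) (rowV x.1 x.2.1 i) →
        lev r < SS U := by
      intro r hr hdv
      rcases (Nat.Prime.dvd_mul hr).mp hdv with h | h
      · exact h15 r hr h
      · obtain ⟨i, _, hi⟩ := (Nat.Prime.prime hr).exists_mem_finset_dvd h
        exact lev_of_dvd_loP hr hi
    have hσ0 : x.2.2.1 * ∏ i, loP (SS U) (rowV x.1 x.2.1 i) ≠ 0 := by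
      apply Nat.mul_ne_zero (by omega)
      apply Finset.prod_ne_zero_iff.mpr
      intro i _
      have := loP_pos (SS U) (rowV x.1 x.2.1 i)
      omega
    have hlwt : lwt z v = ∏ c, lwt z (D x c) := by
      rw [d6, lwt_mul, lwt_eq_one_of_small hσ0 (fun s hs => zw_small U w s hs) hlow, one_mul,
        lwt_prod]
    have hv1 : 1 ≤ v := by
      rw [d6]
      apply Nat.succ_le_of_lt
      apply Nat.mul_pos (Nat.pos_of_ne_zero hσ0)
      exact Finset.prod_pos (fun c _ => d3 c)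
    have := co_rankin U (LL X + 3) (max B 0) u w v hv1 (le_max_right _ _) (fun i => (hu i).1)
      (fun j => ⟨(hw j).1, by
        have h := (hw j).2
        have h' : (w j : ℝ) < ((SS U + 4 * U : ℕ) : ℝ) := by
          push_cast
          have : (0 : ℝ) ≤ SS U := Nat.cast_nonneg _
          have h3 : (5 : ℝ) + 3 * U ≤ 4 * U := by exact_mod_cast hU3
          linarith
        exact_mod_cast h', by
        have h := (hw j).2
        linarith⟩)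
      (fun s hs1 hs2 => (h21 s hs1 hs2).trans (by
        have := le_max_left B 0
        linarith))
    rw [← hlwt, mul_comm]
    exact this
  -- the bound for fixed small parts
  have hfib : ∀ t ∈ 𝒳.image (tkey U), ∑ x ∈ 𝒳.filter (fun x => tkey U x = t),
      ∏ c, lwt z (D x c) ≤ (1 / ((t.1.1 * ∏ i, t.1.2 i : ℕ) : ℝ)) *
        (Y * Real.exp (-2 * LL X - ∑ j, (w j : ℝ) + (U : ℝ) ^ ((14 : ℝ) / 25))) := by
    intro t ht
    obtain ⟨x₀, hx₀, rfl⟩ := Finset.mem_image.mp ht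
    have hok₀ := hmem x₀ hx₀
    have hinj : Set.InjOn D (𝒳.filter (fun x => tkey U x = tkey U x₀) : Set _) := by
      intro x hx y hy hxy
      simp only [Finset.coe_filter, Set.mem_ofPred_eq] at hx hy
      obtain ⟨dx1, dx2, _⟩ := hD x (hmem x hx.1)
      obtain ⟨dy1, dy2, _⟩ := hD y (hmem y hy.1)
      have hkey : tkey U x = tkey U y := hx.2.trans hy.2.symm
      have ka : x.2.2.1 = y.2.2.1 := congrArg (fun t => t.1.1) hkey
      have ka' : x.2.2.2.2.2 = y.2.2.2.2.2 := congrArg (fun t => t.2.1) hkey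
      have kb : ∀ i, loP (SS U) (rowV x.1 x.2.1 i) = loP (SS U) (rowV y.1 y.2.1 i) :=
        fun i => congrArg (fun t => t.1.2 i) hkey
      have kb' : ∀ i, loP (SS U) (rowV x.2.2.2.1 x.2.2.2.2.1 i) =
          loP (SS U) (rowV y.2.2.2.1 y.2.2.2.2.1 i) :=
        fun i => congrArg (fun t => t.2.2 i) hkey
      refine tup_eq (hmem x hx.1) (hmem y hy.1) (d := D x)
        (α := fun i => loP (SS U) (rowV x.1 x.2.1 i))
        (α' := fun i => loP (SS U) (rowV x.2.2.2.1 x.2.2.2.2.1 i)) dx1 dx2 ?_ ?_ ka ka'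
      · intro i
        have h := dy1 i
        rw [← kb i, ← hxy] at h
        exact h
      · intro i
        have h := dy2 i
        rw [← kb' i, ← hxy] at h
        exact h
    rw [← Finset.sum_image (s := 𝒳.filter (fun x => tkey U x = tkey U x₀)) (g := D)
      (f := fun d => ∏ c, lwt z (d c)) hinj]
    set 𝒟 := (𝒳.filter (fun x => tkey U x = tkey U x₀)).image D with h𝒟
    have hσ1 : (1 : ℝ) ≤ ((x₀.2.2.1 * ∏ i, loP (SS U) (rowV x₀.1 x₀.2.1 i) : ℕ) : ℝ) := by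
      have : 1 ≤ x₀.2.2.1 * ∏ i, loP (SS U) (rowV x₀.1 x₀.2.1 i) := by
        apply Nat.succ_le_of_lt
        apply Nat.mul_pos hok₀.2.2.2.2.2.2.1
        exact Finset.prod_pos (fun i _ => loP_pos _ _)
      exact_mod_cast this
    have := hco U hU1 X Y ((x₀.2.2.1 * ∏ i, loP (SS U) (rowV x₀.1 x₀.2.1 i) : ℕ) : ℝ) k l u w
      (fun i => loP (SS U) (rowV x₀.1 x₀.2.1 i))
      (fun j => loP (SS U) (rowV x₀.2.2.2.1 x₀.2.2.2.2.1 j)) 𝒟 hX1 hX2 hY1 hYX hσ1 hk hl hu hw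
      (fun i => ⟨loP_pos _ _, hLo _ (hrow x₀ hok₀ i)⟩)
      (fun i => ⟨loP_pos _ _, hLo _ (hrow' x₀ hok₀ i)⟩)
      (by
        intro d hd
        obtain ⟨x, hx, rfl⟩ := Finset.mem_image.mp hd
        rw [Finset.mem_filter] at hx
        obtain ⟨dx1, dx2, dx3, dx4, dx5, dx6⟩ := hD x (hmem x hx.1)
        have ka : x.2.2.1 = x₀.2.2.1 := congrArg (fun t => t.1.1) hx.2
        have kb : ∀ i, loP (SS U) (rowV x.1 x.2.1 i) = loP (SS U) (rowV x₀.1 x₀.2.1 i) :=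
          fun i => congrArg (fun t => t.1.2 i) hx.2
        have kb' : ∀ i, loP (SS U) (rowV x.2.2.2.1 x.2.2.2.2.1 i) =
            loP (SS U) (rowV x₀.2.2.2.1 x₀.2.2.2.2.1 i) :=
          fun i => congrArg (fun t => t.2.2 i) hx.2
        have := matOK_of_tup (hmem x hx.1) (d := D x)
          (α := fun i => loP (SS U) (rowV x₀.1 x₀.2.1 i))
          (α' := fun j => loP (SS U) (rowV x₀.2.2.2.1 x₀.2.2.2.2.1 j))
          (fun i => (dx1 i).trans (by rw [kb i]))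
          (fun i => (dx2 i).trans (by rw [kb' i])) dx3 dx4
          (by simp only [← kb]; exact dx6)
        rw [ka] at this
        exact this)
    refine this.trans (le_of_eq ?_)
    simp only [tkey]
    ring
  -- the sum over the small parts
  have hsmall := hal (SS U) R (k + 1) (l + 1) (𝒳.image (tkey U)) (by
    intro t ht
    obtain ⟨x, hx, rfl⟩ := Finset.mem_image.mp ht
    have hok := hmem x hx
    obtain ⟨d1, d2, d3, d4, d5, d6⟩ := hD x hok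
    have hrx := hrow x hok
    obtain ⟨h1, h2, h3, h4, h5, h6, h7, h8, h9, h10, h11, h12, h13, h14, h15, h16, h17, h18, h19,
      h20, h21⟩ := hok
    have hP : (∏ i, loP (SS U) (rowV x.1 x.2.1 i)) ≠ 0 := by
      apply Finset.prod_ne_zero_iff.mpr
      intro i _
      have := loP_pos (SS U) (rowV x.1 x.2.1 i)
      omega
    refine ⟨?_, d5, ?_, ?_⟩
    · exact Nat.succ_le_of_lt (Nat.mul_pos h7 (Nat.pos_of_ne_zero hP))
    · intro r hr hdv
      rcases (Nat.Prime.dvd_mul hr).mp hdv with h | h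
      · exact h15 r hr h
      · obtain ⟨i, _, hi⟩ := (Nat.Prime.prime hr).exists_mem_finset_dvd h
        exact lev_of_dvd_loP hr hi
    · simp only [tkey]
      rw [(Nat.perm_primeFactorsList_mul (by omega) hP).length_eq, List.length_append]
      have hsum : (∏ i, loP (SS U) (rowV x.1 x.2.1 i)).primeFactorsList.length ≤
          ∑ i : Fin (k + 1), 10 * SS U := by
        have e : (∏ i, loP (SS U) (rowV x.1 x.2.1 i)).primeFactorsList.length =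
            ∑ i, (loP (SS U) (rowV x.1 x.2.1 i)).primeFactorsList.length := by
          have e2 : ∀ (s : Finset (Fin (k + 1))),
              (∏ i ∈ s, loP (SS U) (rowV x.1 x.2.1 i)).primeFactorsList.length =
              ∑ i ∈ s, (loP (SS U) (rowV x.1 x.2.1 i)).primeFactorsList.length := by
            intro s
            induction s using Finset.induction_on with
            | empty => simp
            | insert a s ha ih =>
              rw [Finset.prod_insert ha, Finset.sum_insert ha, ← ih]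
              rw [(Nat.perm_primeFactorsList_mul (by
                have := loP_pos (SS U) (rowV x.1 x.2.1 a); omega)
                (Finset.prod_ne_zero_iff.mpr (fun i _ => by
                  have := loP_pos (SS U) (rowV x.1 x.2.1 i); omega))).length_eq, List.length_append]
          exact e2 _
        rw [e]
        apply Finset.sum_le_sum
        intro i _
        rw [loP_primeFactorsList_length]
        exact hrx i
      rw [Finset.sum_const, Finset.card_univ, Fintype.card_fin, smul_eq_mul] at hsum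
      omega)
  -- assemble
  have hcount : ((𝒳.card : ℕ) : ℝ) ≤ E * ((((k + 1 : ℕ) : ℝ) + 1) * (((l + 1 : ℕ) : ℝ) + 1)) ^ R *
      (C * Real.exp (SS U)) * (Y * Real.exp (-2 * LL X - ∑ j, (w j : ℝ) + (U : ℝ) ^ ((14 : ℝ) / 25))) := by
    have hW : ∑ x ∈ 𝒳, ∏ c, lwt z (D x c) ≤
        ∑ t ∈ 𝒳.image (tkey U), (1 / ((t.1.1 * ∏ i, t.1.2 i : ℕ) : ℝ)) *
        (Y * Real.exp (-2 * LL X - ∑ j, (w j : ℝ) + (U : ℝ) ^ ((14 : ℝ) / 25))) := by
      rw [← Finset.sum_fiberwise_of_maps_to (s := 𝒳) (t := 𝒳.image (tkey U)) (g := tkey U)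
        (fun x hx => Finset.mem_image_of_mem _ hx)]
      exact Finset.sum_le_sum hfib
    have h1 : ((𝒳.card : ℕ) : ℝ) ≤ ∑ x ∈ 𝒳, E * ∏ c, lwt z (D x c) := by
      rw [Finset.card_eq_sum_ones, Nat.cast_sum, Nat.cast_one]
      exact Finset.sum_le_sum hrank
    rw [← Finset.mul_sum] at h1
    refine h1.trans ?_
    have hE0 : 0 ≤ E := (Real.exp_pos _).le
    have h2 : E * ∑ x ∈ 𝒳, ∏ c, lwt z (D x c) ≤ E * (((((k + 1 : ℕ) : ℝ) + 1) * (((l + 1 : ℕ) : ℝ) + 1)) ^ R *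
      (C * Real.exp (SS U)) * (Y * Real.exp (-2 * LL X - ∑ j, (w j : ℝ) + (U : ℝ) ^ ((14 : ℝ) / 25)))) := by
      apply mul_le_mul_of_nonneg_left _ hE0
      refine hW.trans ?_
      rw [← Finset.sum_mul]
      apply mul_le_mul_of_nonneg_right hsmall
      have := (Real.exp_pos (-2 * LL X - ∑ j, (w j : ℝ) + (U : ℝ) ^ ((14 : ℝ) / 25))).le
      positivity
    refine h2.trans (le_of_eq ?_)
    ring
  refine hcount.trans ?_
  have hexp := co_exp U u w (fun j => ⟨(hw j).1, by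
        have h := (hw j).2
        have h' : (w j : ℝ) < ((SS U + 4 * U : ℕ) : ℝ) := by
          push_cast
          have : (0 : ℝ) ≤ SS U := Nat.cast_nonneg _
          have h3 : (5 : ℝ) + 3 * U ≤ 4 * U := by exact_mod_cast hU3
          linarith
        exact_mod_cast h'⟩)
  have has2 := hasy k l hk hl B hB
  have hbase : (0 : ℝ) < (((k + 1 : ℕ) : ℝ) + 1) * (((l + 1 : ℕ) : ℝ) + 1) := by positivity
  have hpow : ((((k + 1 : ℕ) : ℝ) + 1) * (((l + 1 : ℕ) : ℝ) + 1)) ^ R =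
      Real.exp ((((k : ℝ) + 1) * (10 * SS U) + 100 * SS U) *
        Real.log (((k : ℝ) + 1 + 1) * ((l : ℝ) + 1 + 1))) := by
    rw [← Real.exp_log hbase, ← Real.exp_nat_mul]
    congr 1
    rw [hR]
    push_cast
    ring
  have hCe : C = Real.exp (Real.log C) := (Real.exp_log hC).symm
  have hwsum : ∑ j : Fin l, ((w j : ℝ) + 1 - SS U) ≤ ∑ j, (w j : ℝ) + l := by
    have : ∑ j : Fin l, ((w j : ℝ) + 1 - SS U) ≤ ∑ j : Fin l, ((w j : ℝ) + 1) := by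
      apply Finset.sum_le_sum
      intro j _
      have : (0 : ℝ) ≤ SS U := Nat.cast_nonneg _
      linarith
    refine this.trans (le_of_eq ?_)
    rw [Finset.sum_add_distrib]
    simp
  rw [hpow, hCe, hE]
  have hY0 : 0 ≤ Y := by linarith
  have hcomb : Real.exp (mexp U u w + max B 0 * Real.log (l + 1)) *
      Real.exp ((((k : ℝ) + 1) * (10 * SS U) + 100 * SS U) *
        Real.log (((k : ℝ) + 1 + 1) * ((l : ℝ) + 1 + 1))) *
      (Real.exp (Real.log C) * Real.exp (SS U)) *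
      (Y * Real.exp (-2 * LL X - ∑ j, (w j : ℝ) + (U : ℝ) ^ ((14 : ℝ) / 25))) =
      Y * Real.exp ((mexp U u w + max B 0 * Real.log (l + 1)) +
        ((((k : ℝ) + 1) * (10 * SS U) + 100 * SS U) *
        Real.log (((k : ℝ) + 1 + 1) * ((l : ℝ) + 1 + 1))) + (Real.log C + SS U) +
        (-2 * LL X - ∑ j, (w j : ℝ) + (U : ℝ) ^ ((14 : ℝ) / 25))) := by
    rw [Real.exp_add _ (-2 * LL X - ∑ j, (w j : ℝ) + (U : ℝ) ^ ((14 : ℝ) / 25)),
      Real.exp_add _ (Real.log C + SS U), Real.exp_add (Real.log C),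
      Real.exp_add (mexp U u w + max B 0 * Real.log (l + 1))]
    ring
  rw [hcomb]
  apply mul_le_mul_of_nonneg_left _ hY0
  apply Real.exp_le_exp.mpr
  linarith

end P031
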