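import Vale.Agent.P031.Mertens
import Vale.Agent.P001.Mertens

/-!
# P031, module SMOOTH: Rankin's method

`IsSm z n`: all prime factors of `n` are at most `z`.
-/

namespace P031

open scoped BigOperators

def IsSm (z : ℝ) (n : ℕ) : Prop := 1 ≤ n ∧ ∀ r : ℕ, r.Prime → r ∣ n → (r : ℝ) ≤ z

/-- completely multiplicative functions with values in `[0, ∞)` -/
def CMul (f : ℕ → ℝ) : Prop := f 1 = 1 ∧ (∀ m n, f (m * n) = f m * f n) ∧ ∀ n, 0 ≤ f n

theorem sm_one_sub_inv {x : ℝ} (h0 : 0 ≤ x) (h1 : x ≤ 9 / 10) :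
    (1 - x)⁻¹ ≤ Real.exp (x + 10 * x ^ 2) := by
  have h := Real.abs_log_sub_add_sum_range_le (x := x) (by rw [abs_of_nonneg h0]; linarith) 1
  rw [abs_of_nonneg h0] at h
  simp only [Finset.range_one, Finset.sum_singleton, Nat.cast_zero, zero_add, pow_one, div_one,
    Nat.reduceAdd] at h
  have h2 : x ^ 2 / (1 - x) ≤ 10 * x ^ 2 := by
    rw [div_le_iff₀ (by linarith)]
    nlinarith [sq_nonneg x]
  have h3 := (abs_le.mp h).1
  have h4 : -(x + 10 * x ^ 2) ≤ Real.log (1 - x) := by linarith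
  have h5 : Real.exp (-(x + 10 * x ^ 2)) ≤ 1 - x := by
    rw [← Real.exp_log (show (0 : ℝ) < 1 - x by linarith)]
    exact Real.exp_le_exp.mpr h4
  rw [Real.exp_neg] at h5
  calc (1 - x)⁻¹ ≤ ((Real.exp (x + 10 * x ^ 2))⁻¹)⁻¹ :=
        inv_anti₀ (inv_pos.mpr (Real.exp_pos _)) h5
    _ = _ := inv_inv _

theorem sm_mem_smooth {z : ℝ} {n : ℕ} (h : IsSm z n) :
    n ∈ Nat.smoothNumbers (⌊z⌋₊ + 1) := by
  rw [Nat.mem_smoothNumbers']
  intro p hp hpn
  exact Nat.lt_succ_of_le (Nat.le_floor (h.2 p hp hpn))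

theorem sm_primesBelow (z : ℝ) :
    (⌊z⌋₊ + 1).primesBelow = (Finset.Icc 1 ⌊z⌋₊).filter Nat.Prime := by
  ext p
  simp only [Nat.mem_primesBelow, Finset.mem_filter, Finset.mem_Icc]
  constructor
  · rintro ⟨h1, h2⟩
    exact ⟨⟨h2.one_lt.le, Nat.lt_succ_iff.mp h1⟩, h2⟩
  · rintro ⟨⟨_, h1⟩, h2⟩
    exact ⟨Nat.lt_succ_of_le h1, h2⟩

/-- the general Euler product bound -/
theorem sm_euler (g : ℕ → ℝ) (h1 : g 1 = 1) (hm : ∀ m n, 1 ≤ m → 1 ≤ n → g (m * n) = g m * g n)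
    (hg : ∀ n, 0 ≤ g n) (z : ℝ) (N : ℕ) (hr : ∀ r : ℕ, r.Prime → g r ≤ 9 / 10) :
    ∑ n ∈ Finset.Icc 1 N, Set.indicator {n | IsSm z n} g n ≤
      Real.exp (∑ r ∈ (Finset.Icc 1 ⌊z⌋₊).filter Nat.Prime, g r +
        10 * ∑ r ∈ (Finset.Icc 1 ⌊z⌋₊).filter Nat.Prime, (g r) ^ 2) := by
  classical
  obtain ⟨G, hG⟩ : ∃ G : ℕ →* ℝ, ∀ n, 1 ≤ n → G n = g n := by
    refine ⟨⟨⟨fun n => if n = 0 then 0 else g n, by simp [h1]⟩, ?_⟩, ?_⟩
    · intro m n
      rcases Nat.eq_zero_or_pos m with hm0 | hm0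
      · simp [hm0]
      rcases Nat.eq_zero_or_pos n with hn0 | hn0
      · simp [hn0]
      simp only [Nat.mul_eq_zero, hm0.ne', hn0.ne', or_self, if_false]
      exact hm m n hm0 hn0
    · intro n hn
      have : n ≠ 0 := by omega
      simp [this]
  have hGp : ∀ {p : ℕ}, p.Prime → ‖G p‖ < 1 := by
    intro p hp
    rw [hG p hp.one_lt.le, Real.norm_of_nonneg (hg p)]
    linarith [hr p hp]
  obtain ⟨hs1, hs2⟩ :=
    EulerProduct.summable_and_hasSum_smoothNumbers_prod_primesBelow_geometric hGp (⌊z⌋₊ + 1)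
  have hle1 : ∑ n ∈ Finset.Icc 1 N, Set.indicator {n | IsSm z n} g n ≤
      ∏ p ∈ (⌊z⌋₊ + 1).primesBelow, (1 - G p)⁻¹ := by
    have e1 : ∑ n ∈ Finset.Icc 1 N, Set.indicator {n | IsSm z n} g n ≤
        ∑ n ∈ (Finset.Icc 1 N).filter (fun n => n ∈ Nat.smoothNumbers (⌊z⌋₊ + 1)), G n := by
      rw [Finset.sum_filter]
      refine Finset.sum_le_sum fun n hn => ?_
      have hn1 : 1 ≤ n := (Finset.mem_Icc.mp hn).1
      by_cases hns : IsSm z n
      · rw [Set.indicator_of_mem (show n ∈ {n | IsSm z n} from hns),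
          if_pos (sm_mem_smooth hns), hG n hn1]
      · rw [Set.indicator_of_notMem (show n ∉ {n | IsSm z n} from hns)]
        split_ifs
        · rw [hG n hn1]; exact hg n
        · exact le_refl _
    refine e1.trans ?_
    have e2 : ∑ n ∈ (Finset.Icc 1 N).filter (fun n => n ∈ Nat.smoothNumbers (⌊z⌋₊ + 1)), G n =
        ∑ m ∈ ((Finset.Icc 1 N).filter (fun n => n ∈ Nat.smoothNumbers (⌊z⌋₊ + 1))).subtype
          (fun n => n ∈ Nat.smoothNumbers (⌊z⌋₊ + 1)), G (m : ℕ) := by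
      rw [Finset.sum_subtype_eq_sum_filter, Finset.filter_filter]
      simp
    rw [e2]
    refine sum_le_hasSum _ (fun m _ => ?_) hs2
    have : 1 ≤ (m : ℕ) := Nat.one_le_iff_ne_zero.mpr m.2.1
    rw [hG _ this]
    exact hg _
  refine hle1.trans ?_
  rw [sm_primesBelow, Finset.mul_sum, ← Finset.sum_add_distrib, Real.exp_sum]
  refine Finset.prod_le_prod (fun p hp => ?_) (fun p hp => ?_)
  · have hp' := (Finset.mem_filter.mp hp).2
    rw [hG p hp'.one_lt.le]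
    exact inv_nonneg.mpr (by linarith [hr p hp'])
  · have hp' := (Finset.mem_filter.mp hp).2
    rw [hG p hp'.one_lt.le]
    exact sm_one_sub_inv (hg p) (hr p hp')

/-- Euler product bound: `∑_{n ≤ N, z-smooth} f(n)/n ≤ C exp (∑_{r ≤ z} f(r)/r)` as soon as
`f(r)/r ≤ 3/4` and `∑ (f(r)/r)^2 ≤ B` (constant depending on `B` only). -/
theorem euler_bound (B : ℝ) : ∃ C : ℝ, 0 < C ∧ ∀ (f : ℕ → ℝ) (z : ℝ) (N : ℕ), CMul f → 2 ≤ z →
    (∀ r : ℕ, r.Prime → f r / r ≤ 3 / 4) →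
    (∑ r ∈ (Finset.Icc 1 ⌊z⌋₊).filter Nat.Prime, (f r / r) ^ 2 ≤ B) →
    ∑ n ∈ Finset.Icc 1 N, Set.indicator {n | IsSm z n} (fun n => f n / (n : ℝ)) n ≤
      C * Real.exp (∑ r ∈ (Finset.Icc 1 ⌊z⌋₊).filter Nat.Prime, f r / (r : ℝ)) := by
  refine ⟨Real.exp (10 * B), Real.exp_pos _, ?_⟩
  intro f z N hf hz hr hB
  have h := sm_euler (fun n => f n / (n : ℝ)) (by simp [hf.1]) (fun m n _ _ => by
    rw [hf.2.1]; push_cast; rw [mul_div_mul_comm]) (fun n => div_nonneg (hf.2.2 n) (Nat.cast_nonneg n))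
    z N (fun r hrp => (hr r hrp).trans (by norm_num))
  refine h.trans ?_
  rw [← Real.exp_add]
  apply Real.exp_le_exp.mpr
  linarith

theorem sm_exp4 {z : ℝ} (hz : Real.exp 4 ≤ z) : 4 ≤ Real.log z := by
  rw [Real.le_log_iff_exp_le (lt_of_lt_of_le (Real.exp_pos _) hz)]
  exact hz

theorem sm_log_sum {z : ℝ} (hz : Real.exp 4 ≤ z) :
    ∑ r ∈ (Finset.Icc 1 ⌊z⌋₊).filter Nat.Prime, Real.log r / r ≤ Real.log z + Real.log 4 := by
  have hz1 : (1 : ℝ) ≤ z := by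
    have := Real.add_one_le_exp (4 : ℝ)
    linarith
  have hfl : 0 < ⌊z⌋₊ := Nat.floor_pos.mpr hz1
  have h := Vale.Agent.P001.mertens_upper ⌊z⌋₊ hfl
  have e : Nat.primesLE ⌊z⌋₊ = (Finset.Icc 1 ⌊z⌋₊).filter Nat.Prime := by
    ext p
    simp only [Nat.mem_primesLE, Finset.mem_filter, Finset.mem_Icc]
    constructor
    · rintro ⟨h1, h2⟩
      exact ⟨⟨h2.one_lt.le, h1⟩, h2⟩
    · rintro ⟨⟨_, h1⟩, h2⟩
      exact ⟨h1, h2⟩
  rw [e] at h
  refine h.trans ?_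
  have : Real.log (⌊z⌋₊ : ℝ) ≤ Real.log z :=
    Real.log_le_log (by exact_mod_cast hfl) (Nat.floor_le (by linarith))
  linarith

/-- `∑_{r ≤ z} r^δ / r ≤ log log z + C`, `δ = 1 / log z` -/
theorem sm_sum1 : ∃ C : ℝ, 0 ≤ C ∧ ∀ z : ℝ, Real.exp 4 ≤ z →
    ∑ r ∈ (Finset.Icc 1 ⌊z⌋₊).filter Nat.Prime, (r : ℝ) ^ (1 / Real.log z - 1) ≤ LL z + C := by
  obtain ⟨C, hC, h⟩ := prime_recip
  refine ⟨C + 2 + 2 * Real.log 4, by positivity, ?_⟩
  intro z hz
  have hl := sm_exp4 hz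
  have hz5 : (5 : ℝ) ≤ z := by
    have := Real.add_one_le_exp (4 : ℝ)
    linarith
  have h1 := (abs_le.mp (h z (by linarith))).2
  have h2 := sm_log_sum hz
  have h3 : ∀ r ∈ (Finset.Icc 1 ⌊z⌋₊).filter Nat.Prime, (r : ℝ) ^ (1 / Real.log z - 1) ≤
      1 / (r : ℝ) + (2 / Real.log z) * (Real.log r / r) := by
    intro r hr
    obtain ⟨hr1, hrp⟩ := Finset.mem_filter.mp hr
    have hrz : (r : ℝ) ≤ z := by
      have := (Finset.mem_Icc.mp hr1).2
      exact (Nat.le_floor_iff (by linarith)).mp this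
    have hr0 : (0 : ℝ) < r := by exact_mod_cast hrp.pos
    have hr1' : (1 : ℝ) ≤ r := by exact_mod_cast hrp.one_lt.le
    have hlr : 0 ≤ Real.log r := Real.log_nonneg hr1'
    have hlrz : Real.log r ≤ Real.log z := Real.log_le_log hr0 hrz
    rw [Real.rpow_sub_one hr0.ne', Real.rpow_def_of_pos hr0]
    have hx : |Real.log r * (1 / Real.log z)| ≤ 1 := by
      rw [abs_of_nonneg (by positivity), mul_one_div, div_le_one (by linarith)]
      exact hlrz
    have h4 := Real.abs_exp_sub_one_le hx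
    rw [abs_of_nonneg (show (0 : ℝ) ≤ Real.log r * (1 / Real.log z) by positivity)] at h4
    have h5 := (abs_le.mp h4).2
    have h6 : Real.exp (Real.log r * (1 / Real.log z)) ≤ 1 + 2 / Real.log z * Real.log r := by
      have : 2 * (Real.log r * (1 / Real.log z)) = 2 / Real.log z * Real.log r := by ring
      linarith
    calc Real.exp (Real.log r * (1 / Real.log z)) / r ≤
        (1 + 2 / Real.log z * Real.log r) / r := by gcongr
      _ = _ := by ring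
  refine (Finset.sum_le_sum h3).trans ?_
  rw [Finset.sum_add_distrib, ← Finset.mul_sum]
  have h7 : 2 / Real.log z * ∑ r ∈ (Finset.Icc 1 ⌊z⌋₊).filter Nat.Prime, Real.log r / r ≤
      2 + 2 * Real.log 4 := by
    have hl4 : 0 ≤ Real.log 4 := Real.log_nonneg (by norm_num)
    calc _ ≤ 2 / Real.log z * (Real.log z + Real.log 4) := by
          apply mul_le_mul_of_nonneg_left h2
          positivity
      _ = 2 + 2 / Real.log z * Real.log 4 := by
          field_simp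
      _ ≤ _ := by
          have : 2 / Real.log z ≤ 2 := by
            rw [div_le_iff₀ (by linarith)]
            linarith
          nlinarith
  linarith

theorem sm_sum2 : ∃ B : ℝ, 0 ≤ B ∧ ∀ z : ℝ, Real.exp 4 ≤ z →
    ∑ r ∈ (Finset.Icc 1 ⌊z⌋₊).filter Nat.Prime, ((r : ℝ) ^ (1 / Real.log z - 1)) ^ 2 ≤ B := by
  have hsum : Summable (fun n : ℕ => (n : ℝ) ^ (-(3 / 2) : ℝ)) :=
    Real.summable_nat_rpow.mpr (by norm_num)
  refine ⟨∑' n : ℕ, (n : ℝ) ^ (-(3 / 2) : ℝ), tsum_nonneg fun n => by positivity, ?_⟩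
  intro z hz
  have hl := sm_exp4 hz
  have hd : 1 / Real.log z ≤ 1 / 4 := one_div_le_one_div_of_le (by norm_num) hl
  refine le_trans (Finset.sum_le_sum fun r hr => ?_)
    (hsum.sum_le_tsum ((Finset.Icc 1 ⌊z⌋₊).filter Nat.Prime) fun n _ => by positivity)
  obtain ⟨_, hrp⟩ := Finset.mem_filter.mp hr
  have hr1' : (1 : ℝ) ≤ r := by exact_mod_cast hrp.one_lt.le
  rw [← Real.rpow_natCast, ← Real.rpow_mul (by linarith)]
  apply Real.rpow_le_rpow_of_exponent_le hr1'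
  push_cast
  linarith

/-- the core of Rankin's method -/
theorem sm_rankin : ∃ K : ℝ, 0 < K ∧ ∀ (f : ℕ → ℝ) (z : ℝ) (N : ℕ), CMul f →
    (∀ r : ℕ, r.Prime → f r ≤ 3 / 2) → Real.exp 4 ≤ z →
    ∑ n ∈ Finset.Icc 1 N, Set.indicator {n | IsSm z n}
      (fun n : ℕ => f n * (n : ℝ) ^ (1 / Real.log z - 1)) n ≤ K * Real.log z ^ (5 : ℕ) := by
  obtain ⟨C, hC, h1⟩ := sm_sum1
  obtain ⟨B, hB, h2⟩ := sm_sum2
  refine ⟨Real.exp (3 / 2 * C + 10 * (9 / 4 * B)), Real.exp_pos _, ?_⟩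
  intro f z N hf hr hz
  have hl := sm_exp4 hz
  have hz0 : 0 < z := lt_of_lt_of_le (Real.exp_pos _) hz
  have hd : 1 / Real.log z ≤ 1 / 4 := one_div_le_one_div_of_le (by norm_num) hl
  have h34 : (2 : ℝ) ^ (-(3 / 4) : ℝ) ≤ 3 / 5 := by
    have h5 : ((2 : ℝ) ^ (-(3 / 4) : ℝ)) ^ (4 : ℕ) = 1 / 8 := by
      rw [← Real.rpow_natCast, ← Real.rpow_mul (by norm_num)]
      norm_num
    by_contra hcon
    push Not at hcon
    have : (3 / 5 : ℝ) ^ 4 < ((2 : ℝ) ^ (-(3 / 4) : ℝ)) ^ (4 : ℕ) :=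
      pow_lt_pow_left₀ hcon (by norm_num) (by norm_num)
    rw [h5] at this
    norm_num at this
  have hgr : ∀ r : ℕ, r.Prime → f r * (r : ℝ) ^ (1 / Real.log z - 1) ≤ 9 / 10 := by
    intro r hrp
    have hr2 : (2 : ℝ) ≤ r := by exact_mod_cast hrp.two_le
    have h3 : (r : ℝ) ^ (1 / Real.log z - 1) ≤ (r : ℝ) ^ (-(3 / 4) : ℝ) :=
      Real.rpow_le_rpow_of_exponent_le (by linarith) (by linarith)
    have h4 : (r : ℝ) ^ (-(3 / 4) : ℝ) ≤ (2 : ℝ) ^ (-(3 / 4) : ℝ) :=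
      Real.rpow_le_rpow_of_nonpos (by norm_num) hr2 (by norm_num)
    have h5 : 0 ≤ (r : ℝ) ^ (1 / Real.log z - 1) := by positivity
    calc _ ≤ 3 / 2 * (3 / 5) := mul_le_mul (hr r hrp) (by linarith) h5 (by norm_num)
      _ = _ := by norm_num
  have h := sm_euler (fun n : ℕ => f n * (n : ℝ) ^ (1 / Real.log z - 1)) (by simp [hf.1])
    (fun m n _ _ => by
      rw [hf.2.1]
      push_cast
      rw [Real.mul_rpow (Nat.cast_nonneg m) (Nat.cast_nonneg n)]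
      ring)
    (fun n => mul_nonneg (hf.2.2 n) (Real.rpow_nonneg (Nat.cast_nonneg n) _)) z N hgr
  refine h.trans ?_
  have e5 : Real.log z ^ (5 : ℕ) = Real.exp (5 * LL z) := by
    unfold LL
    rw [← Real.exp_log (show 0 < Real.log z by linarith), ← Real.exp_nat_mul, Real.log_exp]
    norm_num
  rw [e5, ← Real.exp_add]
  apply Real.exp_le_exp.mpr
  have hLL : 0 ≤ LL z := Real.log_nonneg (by linarith)
  have i1 : ∑ r ∈ (Finset.Icc 1 ⌊z⌋₊).filter Nat.Prime, f r * (r : ℝ) ^ (1 / Real.log z - 1) ≤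
      3 / 2 * (LL z + C) := by
    refine le_trans ?_ (mul_le_mul_of_nonneg_left (h1 z hz) (by norm_num))
    rw [Finset.mul_sum]
    refine Finset.sum_le_sum fun r hr' => ?_
    exact mul_le_mul_of_nonneg_right (hr r (Finset.mem_filter.mp hr').2)
      (Real.rpow_nonneg (Nat.cast_nonneg r) _)
  have i2 : ∑ r ∈ (Finset.Icc 1 ⌊z⌋₊).filter Nat.Prime,
      (f r * (r : ℝ) ^ (1 / Real.log z - 1)) ^ 2 ≤ 9 / 4 * B := by
    refine le_trans ?_ (mul_le_mul_of_nonneg_left (h2 z hz) (by norm_num))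
    rw [Finset.mul_sum]
    refine Finset.sum_le_sum fun r hr' => ?_
    rw [mul_pow]
    refine mul_le_mul_of_nonneg_right ?_ (sq_nonneg _)
    have := hr r (Finset.mem_filter.mp hr').2
    nlinarith [hf.2.2 r]
  nlinarith

/-- Rankin: for `f ≤ 3/2` on primes, the smooth part of the sum is tiny: if `z ≤ Y^(1/v)` then
`∑_{n ≤ Y, z-smooth} f(n) ≤ C Y e^{-v} (log z)^5`; also for sums of `1/n` beyond `Y`.
Proof: `∑ f(n) ≤ Y^σ ∏ (1 - f(r) r^{-σ})⁻¹` with `σ = 1 - 1/log z ≥ 3/4`; `r^{1/log z} ≤ 1 + 2 log r/log z`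
for `r ≤ z`, so the exponent is `≤ (3/2) log log z + O(1)`. -/
theorem rankin_sum : ∃ C : ℝ, 0 < C ∧ ∀ (f : ℕ → ℝ) (z Y v : ℝ), CMul f →
    (∀ r : ℕ, r.Prime → f r ≤ 3 / 2) → Real.exp 4 ≤ z → 1 ≤ v → 2 ≤ Y → v * Real.log z ≤ Real.log Y →
    ∑ n ∈ Finset.Icc 1 ⌊Y⌋₊, Set.indicator {n | IsSm z n} f n ≤
      C * Y * Real.exp (-v) * Real.log z ^ (5 : ℕ) := by
  obtain ⟨K, hK, h⟩ := sm_rankin
  refine ⟨K, hK, ?_⟩
  intro f z Y v hf hr hz hv hY hvY
  have hl := sm_exp4 hz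
  have hY0 : 0 < Y := by linarith
  have hd : 1 / Real.log z ≤ 1 / 4 := one_div_le_one_div_of_le (by norm_num) hl
  have hYv : Y ^ (-(1 / Real.log z)) ≤ Real.exp (-v) := by
    rw [Real.rpow_def_of_pos hY0]
    apply Real.exp_le_exp.mpr
    have : v ≤ Real.log Y * (1 / Real.log z) := by
      rw [mul_one_div, le_div_iff₀ (by linarith)]
      exact hvY
    linarith
  have h1 : ∀ n ∈ Finset.Icc 1 ⌊Y⌋₊, Set.indicator {n | IsSm z n} f n ≤
      (Y * Real.exp (-v)) * Set.indicator {n | IsSm z n}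
        (fun n : ℕ => f n * (n : ℝ) ^ (1 / Real.log z - 1)) n := by
    intro n hn
    obtain ⟨hn1, hn2⟩ := Finset.mem_Icc.mp hn
    have hn0 : (0 : ℝ) < n := by exact_mod_cast hn1
    have hnY : (n : ℝ) ≤ Y := (Nat.le_floor_iff hY0.le).mp hn2
    by_cases hns : IsSm z n
    · rw [Set.indicator_of_mem (show n ∈ {n | IsSm z n} from hns),
        Set.indicator_of_mem (show n ∈ {n | IsSm z n} from hns)]
      have e1 : f n = f n * (n : ℝ) ^ (1 / Real.log z - 1) * (n : ℝ) ^ (1 - 1 / Real.log z) := by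
        rw [mul_assoc, ← Real.rpow_add hn0]
        simp
      have e2 : (n : ℝ) ^ (1 - 1 / Real.log z) ≤ Y * Real.exp (-v) := by
        calc (n : ℝ) ^ (1 - 1 / Real.log z) ≤ Y ^ (1 - 1 / Real.log z) :=
              Real.rpow_le_rpow hn0.le hnY (by linarith)
          _ = Y * Y ^ (-(1 / Real.log z)) := by
              rw [sub_eq_add_neg, Real.rpow_add hY0, Real.rpow_one]
          _ ≤ _ := by gcongr
      have e3 : 0 ≤ f n * (n : ℝ) ^ (1 / Real.log z - 1) :=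
        mul_nonneg (hf.2.2 n) (Real.rpow_nonneg hn0.le _)
      calc f n = f n * (n : ℝ) ^ (1 / Real.log z - 1) * (n : ℝ) ^ (1 - 1 / Real.log z) := e1
        _ ≤ f n * (n : ℝ) ^ (1 / Real.log z - 1) * (Y * Real.exp (-v)) :=
            mul_le_mul_of_nonneg_left e2 e3
        _ = _ := by ring
    · rw [Set.indicator_of_notMem (show n ∉ {n | IsSm z n} from hns),
        Set.indicator_of_notMem (show n ∉ {n | IsSm z n} from hns), mul_zero]
  refine (Finset.sum_le_sum h1).trans ?_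
  rw [← Finset.mul_sum]
  calc _ ≤ (Y * Real.exp (-v)) * (K * Real.log z ^ (5 : ℕ)) :=
        mul_le_mul_of_nonneg_left (h f z ⌊Y⌋₊ hf hr hz) (by positivity)
    _ = _ := by ring

theorem rankin_tail : ∃ C : ℝ, 0 < C ∧ ∀ (f : ℕ → ℝ) (z Y v : ℝ) (N : ℕ), CMul f →
    (∀ r : ℕ, r.Prime → f r ≤ 3 / 2) → Real.exp 4 ≤ z → 1 ≤ v → 2 ≤ Y → v * Real.log z ≤ Real.log Y →
    ∑ n ∈ Finset.Icc 1 N, Set.indicator {n | IsSm z n ∧ Y < (n : ℝ)} (fun n => f n / (n : ℝ)) n ≤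
      C * Real.exp (-v) * Real.log z ^ (5 : ℕ) := by
  obtain ⟨K, hK, h⟩ := sm_rankin
  refine ⟨K, hK, ?_⟩
  intro f z Y v N hf hr hz hv hY hvY
  have hl := sm_exp4 hz
  have hY0 : 0 < Y := by linarith
  have hYv : Y ^ (-(1 / Real.log z)) ≤ Real.exp (-v) := by
    rw [Real.rpow_def_of_pos hY0]
    apply Real.exp_le_exp.mpr
    have : v ≤ Real.log Y * (1 / Real.log z) := by
      rw [mul_one_div, le_div_iff₀ (by linarith)]
      exact hvY
    linarith
  have h1 : ∀ n ∈ Finset.Icc 1 N,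
      Set.indicator {n | IsSm z n ∧ Y < (n : ℝ)} (fun n => f n / (n : ℝ)) n ≤
      Real.exp (-v) * Set.indicator {n | IsSm z n}
        (fun n : ℕ => f n * (n : ℝ) ^ (1 / Real.log z - 1)) n := by
    intro n hn
    obtain ⟨hn1, hn2⟩ := Finset.mem_Icc.mp hn
    have hn0 : (0 : ℝ) < n := by exact_mod_cast hn1
    have e3 : 0 ≤ f n * (n : ℝ) ^ (1 / Real.log z - 1) :=
      mul_nonneg (hf.2.2 n) (Real.rpow_nonneg hn0.le _)
    by_cases hns : IsSm z n ∧ Y < (n : ℝ)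
    · rw [Set.indicator_of_mem (show n ∈ {n | IsSm z n ∧ Y < (n : ℝ)} from hns),
        Set.indicator_of_mem (show n ∈ {n | IsSm z n} from hns.1)]
      have e1 : f n / (n : ℝ) =
          f n * (n : ℝ) ^ (1 / Real.log z - 1) * (n : ℝ) ^ (-(1 / Real.log z)) := by
        rw [mul_assoc, ← Real.rpow_add hn0]
        rw [show 1 / Real.log z - 1 + -(1 / Real.log z) = -1 by ring, Real.rpow_neg_one]
        rfl
      have e2 : (n : ℝ) ^ (-(1 / Real.log z)) ≤ Real.exp (-v) := by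
        calc (n : ℝ) ^ (-(1 / Real.log z)) ≤ Y ^ (-(1 / Real.log z)) :=
              Real.rpow_le_rpow_of_nonpos hY0 hns.2.le (by
                rw [neg_nonpos]
                positivity)
          _ ≤ _ := hYv
      calc f n / (n : ℝ) = _ := e1
        _ ≤ f n * (n : ℝ) ^ (1 / Real.log z - 1) * Real.exp (-v) :=
            mul_le_mul_of_nonneg_left e2 e3
        _ = _ := by ring
    · rw [Set.indicator_of_notMem (show n ∉ {n | IsSm z n ∧ Y < (n : ℝ)} from hns)]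
      apply mul_nonneg (Real.exp_pos _).le
      by_cases hns2 : IsSm z n
      · rw [Set.indicator_of_mem (show n ∈ {n | IsSm z n} from hns2)]
        exact e3
      · rw [Set.indicator_of_notMem (show n ∉ {n | IsSm z n} from hns2)]
  refine (Finset.sum_le_sum h1).trans ?_
  rw [← Finset.mul_sum]
  calc _ ≤ Real.exp (-v) * (K * Real.log z ^ (5 : ℕ)) :=
        mul_le_mul_of_nonneg_left (h f z N hf hr hz) (by positivity)
    _ = _ := by ring

end P031
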