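import Vale.Agent.P031.Basic
import Vale.Agent.P031.Smooth

/-!
# P031, module COA: sum over pairs of ordered factorizations

PROOF.  (1) For fixed `σ` the number of ordered factorizations `σ = a ∏_{i < k} α_i` is at most
`(k+1)^{Ω(σ)}`: induction on `Ω(σ)`; if the prime `r ∣ σ`, every factorization has a factor divisible by `r`, divide
it by `r`; (position, new factorization) determines the old one.  (2) `∑_σ 1/σ ≤ C e^S` over `σ` composed of
primes of level `< S`, i.e. primes `< exp exp S`: `euler_bound` with `f = 1`, `z = exp exp S` and `prime_recip`.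
(For `S = 0`: no prime has level `< 0`, so `σ = 1`.)
-/

namespace P031

open scoped BigOperators

/-- ordered factorizations of a product of a list of primes -/
theorem card_fact_list {ι : Type*} [Fintype ι] [DecidableEq ι] (L : List ℕ) :
    (∀ p ∈ L, p.Prime) → ∀ 𝒮 : Finset (ι → ℕ), (∀ f ∈ 𝒮, ∏ i, f i = L.prod) →
    𝒮.card ≤ (Fintype.card ι) ^ L.length := by
  classical
  induction L with
  | nil =>
    intro _ 𝒮 h
    rw [List.length_nil, pow_zero]
    refine Finset.card_le_one.mpr ?_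
    intro f hf g hg
    have key : ∀ f ∈ 𝒮, ∀ i, f i = 1 := by
      intro f hf i
      have h1 := h f hf
      rw [List.prod_nil] at h1
      exact Nat.dvd_one.1 (h1 ▸ Finset.dvd_prod_of_mem f (Finset.mem_univ i))
    funext i
    rw [key f hf i, key g hg i]
  | cons p L ih =>
    intro hp 𝒮 h
    have hpp : p.Prime := hp p (List.mem_cons_self)
    have hex : ∀ f ∈ 𝒮, ∃ i, p ∣ f i := by
      intro f hf
      have h1 : p ∣ ∏ i, f i := by
        rw [h f hf, List.prod_cons]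
        exact Dvd.intro _ rfl
      obtain ⟨i, -, hi⟩ := (hpp.prime.dvd_finsetProd_iff _).1 h1
      exact ⟨i, hi⟩
    rcases 𝒮.eq_empty_or_nonempty with h0 | ⟨f₀, hf₀⟩
    · rw [h0, Finset.card_empty]
      exact Nat.zero_le _
    have hne : Nonempty ι := ⟨(hex f₀ hf₀).choose⟩
    choose! j hj using hex
    let F : (ι → ℕ) → ι × (ι → ℕ) := fun f => (j f, Function.update f (j f) (f (j f) / p))
    let 𝒮' : Finset (ι → ℕ) := 𝒮.image (fun f => (F f).2)
    have h𝒮' : ∀ f ∈ 𝒮', ∏ i, f i = L.prod := by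
      intro f' hf'
      obtain ⟨f, hf, rfl⟩ := Finset.mem_image.1 hf'
      have h1 := h f hf
      rw [List.prod_cons] at h1
      obtain ⟨c, hc⟩ := hj f hf
      have h2 : ∏ i, f i = f (j f) * ∏ i ∈ Finset.univ.erase (j f), f i :=
        (Finset.mul_prod_erase Finset.univ f (Finset.mem_univ _)).symm
      have h3 : ∏ i, (F f).2 i = (f (j f) / p) * ∏ i ∈ Finset.univ.erase (j f), f i := by
        rw [← Finset.mul_prod_erase Finset.univ (F f).2 (Finset.mem_univ (j f))]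
        congr 1
        · simp [F]
        · refine Finset.prod_congr rfl fun i hi => ?_
          simp [F, Function.update_of_ne (Finset.ne_of_mem_erase hi)]
      rw [h3]
      rw [h2, hc, mul_assoc] at h1
      have h4 := Nat.eq_of_mul_eq_mul_left hpp.pos h1
      rw [hc, Nat.mul_div_cancel_left _ hpp.pos]
      exact h4
    have hcard' : 𝒮'.card ≤ Fintype.card ι ^ L.length :=
      ih (fun q hq => hp q (List.mem_cons_of_mem _ hq)) 𝒮' h𝒮'
    have hinj : Set.InjOn F 𝒮 := by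
      intro f hf g hg hfg
      have h1 : j f = j g := congrArg Prod.fst hfg
      have h2 : Function.update f (j f) (f (j f) / p) = Function.update g (j g) (g (j g) / p) :=
        congrArg Prod.snd hfg
      funext i
      by_cases hi : i = j f
      · subst hi
        have h3 := congrFun h2 (j f)
        rw [Function.update_self, h1, Function.update_self, ← h1] at h3
        have h4 := Nat.div_mul_cancel (hj f (Finset.mem_coe.1 hf))
        have h5 := Nat.div_mul_cancel (hj g (Finset.mem_coe.1 hg))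
        rw [← h1] at h5
        rw [← h4, ← h5, h3]
      · have h3 := congrFun h2 i
        rw [Function.update_of_ne hi, Function.update_of_ne (by rw [← h1]; exact hi)] at h3
        exact h3
    have hmaps : ∀ f ∈ 𝒮, F f ∈ (Finset.univ : Finset ι) ×ˢ 𝒮' := by
      intro f hf
      exact Finset.mem_product.2 ⟨Finset.mem_univ _, Finset.mem_image_of_mem _ hf⟩
    have hle := Finset.card_le_card_of_injOn F hmaps hinj
    rw [Finset.card_product, Finset.card_univ] at hle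
    rw [List.length_cons, pow_succ, mul_comm]
    exact hle.trans (Nat.mul_le_mul_left _ hcard')

/-- the number of ordered factorizations -/
theorem card_fact_le {k : ℕ} (σ R : ℕ) (hσ : 1 ≤ σ) (hR : σ.primeFactorsList.length ≤ R)
    (𝒮 : Finset (ℕ × (Fin k → ℕ))) (h : ∀ x ∈ 𝒮, x.1 * ∏ i, x.2 i = σ) :
    𝒮.card ≤ (k + 1) ^ R := by
  classical
  have hinj : Function.Injective (fun x : ℕ × (Fin k → ℕ) => (Fin.cons x.1 x.2 : Fin (k + 1) → ℕ)) := by
    rintro ⟨a, f⟩ ⟨b, g⟩ hab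
    have h1 := Fin.cons_injective2 hab
    exact Prod.ext h1.1 h1.2
  have h1 := card_fact_list (ι := Fin (k + 1)) σ.primeFactorsList
    (fun p hp => Nat.prime_of_mem_primeFactorsList hp)
    (𝒮.image (fun x : ℕ × (Fin k → ℕ) => (Fin.cons x.1 x.2 : Fin (k + 1) → ℕ))) (by
      intro f hf
      obtain ⟨x, hx, rfl⟩ := Finset.mem_image.1 hf
      rw [Nat.prod_primeFactorsList (by omega), Fin.prod_univ_succ]
      simpa using h x hx)
  rw [Finset.card_image_of_injective _ hinj, Fintype.card_fin] at h1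
  exact h1.trans (Nat.pow_le_pow_right (Nat.succ_pos k) hR)

theorem recip_sq_le (z : ℝ) :
    ∑ r ∈ (Finset.Icc 1 ⌊z⌋₊).filter Nat.Prime, ((1 : ℝ) / r) ^ 2 ≤ ∑' n : ℕ, 1 / (n : ℝ) ^ 2 := by
  have hs : Summable (fun n : ℕ => 1 / (n : ℝ) ^ 2) := Real.summable_one_div_nat_pow.2 (by norm_num)
  have h1 : ∑ r ∈ (Finset.Icc 1 ⌊z⌋₊).filter Nat.Prime, ((1 : ℝ) / r) ^ 2 =
      ∑ r ∈ (Finset.Icc 1 ⌊z⌋₊).filter Nat.Prime, 1 / (r : ℝ) ^ 2 := by
    refine Finset.sum_congr rfl fun r _ => ?_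
    rw [div_pow, one_pow]
  rw [h1]
  exact hs.sum_le_tsum _ (fun n _ => by positivity)

theorem alpha_sum : ∃ C : ℝ, 0 < C ∧ ∀ (S R k l : ℕ)
    (𝒯 : Finset ((ℕ × (Fin k → ℕ)) × (ℕ × (Fin l → ℕ)))),
    (∀ x ∈ 𝒯, 1 ≤ x.1.1 * ∏ i, x.1.2 i ∧ x.1.1 * ∏ i, x.1.2 i = x.2.1 * ∏ j, x.2.2 j ∧
      (∀ r : ℕ, r.Prime → r ∣ x.1.1 * ∏ i, x.1.2 i → lev r < S) ∧
      (x.1.1 * ∏ i, x.1.2 i).primeFactorsList.length ≤ R) →
    ∑ x ∈ 𝒯, 1 / ((x.1.1 * ∏ i, x.1.2 i : ℕ) : ℝ) ≤
      ((k + 1 : ℝ) * (l + 1)) ^ R * (C * Real.exp S) := by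
  classical
  obtain ⟨Ce, hCe, he⟩ := euler_bound (∑' n : ℕ, 1 / (n : ℝ) ^ 2)
  obtain ⟨Cp, hCp, hpr⟩ := prime_recip
  refine ⟨Ce * Real.exp (1 + Cp), by positivity, ?_⟩
  intro S R k l 𝒯 h𝒯
  let g : ((ℕ × (Fin k → ℕ)) × (ℕ × (Fin l → ℕ))) → ℕ := fun x => x.1.1 * ∏ i, x.1.2 i
  set z : ℝ := max 3 (Real.exp (Real.exp S)) with hz
  have hz3 : (3 : ℝ) ≤ z := le_max_left _ _
  have hsm : ∀ x ∈ 𝒯, IsSm z (g x) := by
    intro x hx
    obtain ⟨h1, -, h3, -⟩ := h𝒯 x hx
    refine ⟨h1, fun r hr hrd => ?_⟩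
    have h4 := h3 r hr hrd
    have hS : 1 ≤ S := by omega
    rw [lev_lt_iff hS] at h4
    exact h4.le.trans (le_max_right _ _)
  have hLL : LL z ≤ S + 1 := by
    unfold LL
    have hlog3 : Real.log 3 ≤ Real.exp 1 := by
      have h1 := Real.log_le_sub_one_of_pos (show (0 : ℝ) < 3 by norm_num)
      have h2 := Real.add_one_le_exp (1 : ℝ)
      linarith
    have hz1 : Real.log z ≤ Real.exp (S + 1) := by
      rcases le_total 3 (Real.exp (Real.exp S)) with h1 | h1
      · rw [hz, max_eq_right h1, Real.log_exp]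
        exact Real.exp_le_exp.2 (by linarith)
      · rw [hz, max_eq_left h1]
        refine hlog3.trans (Real.exp_le_exp.2 ?_)
        have : (0 : ℝ) ≤ S := Nat.cast_nonneg S
        linarith
    have hz0 : 0 < Real.log z := Real.log_pos (by linarith)
    calc Real.log (Real.log z) ≤ Real.log (Real.exp (S + 1)) := Real.log_le_log hz0 hz1
      _ = S + 1 := Real.log_exp _
  have hsum : ∀ A : Finset ℕ, (∀ σ ∈ A, IsSm z σ) →
      ∑ σ ∈ A, 1 / (σ : ℝ) ≤ Ce * Real.exp (1 + Cp) * Real.exp S := by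
    intro A hA
    have h1 : ∑ σ ∈ A, 1 / (σ : ℝ) ≤
        ∑ n ∈ Finset.Icc 1 (A.sup id), Set.indicator {n | IsSm z n} (fun n => (fun _ : ℕ => (1 : ℝ)) n / (n : ℝ)) n := by
      have h2 : ∑ σ ∈ A, 1 / (σ : ℝ) =
          ∑ n ∈ A, Set.indicator {n | IsSm z n} (fun n => (fun _ : ℕ => (1 : ℝ)) n / (n : ℝ)) n := by
        refine Finset.sum_congr rfl fun σ hσ => ?_
        rw [Set.indicator_of_mem (show σ ∈ {n | IsSm z n} from hA σ hσ)]
      rw [h2]
      refine Finset.sum_le_sum_of_subset_of_nonneg ?_ ?_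
      · intro σ hσ
        exact Finset.mem_Icc.2 ⟨(hA σ hσ).1, Finset.le_sup (f := id) hσ⟩
      · intro n _ _
        exact Set.indicator_nonneg (fun m _ => by positivity) _
    refine h1.trans ?_
    have h3 := he (fun _ => 1) z (A.sup id) ⟨rfl, fun _ _ => by norm_num, fun _ => zero_le_one⟩
      (by linarith) (fun r hr => by
        have : (2 : ℝ) ≤ r := by exact_mod_cast hr.two_le
        rw [div_le_iff₀ (by linarith)]
        linarith) (recip_sq_le z)
    refine h3.trans ?_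
    have h4 := (abs_le.1 (hpr z hz3)).2
    rw [mul_assoc, ← Real.exp_add]
    refine mul_le_mul_of_nonneg_left (Real.exp_le_exp.2 ?_) hCe.le
    linarith
  have hcomp : ∑ x ∈ 𝒯, 1 / ((x.1.1 * ∏ i, x.1.2 i : ℕ) : ℝ) =
      ∑ σ ∈ 𝒯.image g, (𝒯.filter (fun x => g x = σ)).card • (1 / (σ : ℝ)) :=
    Finset.sum_comp (fun σ : ℕ => 1 / (σ : ℝ)) g
  rw [hcomp]
  have hfib : ∀ σ ∈ 𝒯.image g, (𝒯.filter (fun x => g x = σ)).card ≤ ((k + 1) * (l + 1)) ^ R := by
    intro σ hσ
    obtain ⟨x₀, hx₀, hx₀'⟩ := Finset.mem_image.1 hσ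
    obtain ⟨h1, h2, h3, h4⟩ := h𝒯 x₀ hx₀
    have hσ1 : 1 ≤ σ := by rw [← hx₀']; exact h1
    have hσR : σ.primeFactorsList.length ≤ R := by rw [← hx₀']; exact h4
    set 𝒯' := 𝒯.filter (fun x => g x = σ) with h𝒯'
    have hsub : 𝒯' ⊆ (𝒯'.image Prod.fst) ×ˢ (𝒯'.image Prod.snd) := by
      intro x hx
      exact Finset.mem_product.2 ⟨Finset.mem_image_of_mem _ hx, Finset.mem_image_of_mem _ hx⟩
    have c1 : (𝒯'.image Prod.fst).card ≤ (k + 1) ^ R := by
      refine card_fact_le σ R hσ1 hσR _ ?_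
      intro y hy
      obtain ⟨x, hx, rfl⟩ := Finset.mem_image.1 hy
      exact (Finset.mem_filter.1 hx).2
    have c2 : (𝒯'.image Prod.snd).card ≤ (l + 1) ^ R := by
      refine card_fact_le σ R hσ1 hσR _ ?_
      intro y hy
      obtain ⟨x, hx, rfl⟩ := Finset.mem_image.1 hy
      obtain ⟨hx1, hx2⟩ := Finset.mem_filter.1 hx
      rw [← (h𝒯 x hx1).2.1]
      exact hx2
    calc 𝒯'.card ≤ ((𝒯'.image Prod.fst) ×ˢ (𝒯'.image Prod.snd)).card := Finset.card_le_card hsub
      _ = (𝒯'.image Prod.fst).card * (𝒯'.image Prod.snd).card := Finset.card_product _ _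
      _ ≤ (k + 1) ^ R * (l + 1) ^ R := Nat.mul_le_mul c1 c2
      _ = ((k + 1) * (l + 1)) ^ R := (mul_pow _ _ _).symm
  calc ∑ σ ∈ 𝒯.image g, (𝒯.filter (fun x => g x = σ)).card • (1 / (σ : ℝ))
      ≤ ∑ σ ∈ 𝒯.image g, ((k + 1 : ℝ) * (l + 1)) ^ R * (1 / (σ : ℝ)) := by
        refine Finset.sum_le_sum fun σ hσ => ?_
        rw [nsmul_eq_mul]
        refine mul_le_mul_of_nonneg_right ?_ (by positivity)
        have := hfib σ hσ
        exact_mod_cast this
    _ = ((k + 1 : ℝ) * (l + 1)) ^ R * ∑ σ ∈ 𝒯.image g, 1 / (σ : ℝ) := by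
        rw [Finset.mul_sum]
    _ ≤ ((k + 1 : ℝ) * (l + 1)) ^ R * (Ce * Real.exp (1 + Cp) * Real.exp S) := by
        refine mul_le_mul_of_nonneg_left (hsum _ ?_) (by positivity)
        intro σ hσ
        obtain ⟨x, hx, rfl⟩ := Finset.mem_image.1 hσ
        exact hsm x hx

end P031
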