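import Vale.Agent.P031.Defs

/-!
# P031, module RIESZ: refinement matrix of two factorizations of the same number

PROOF.  Induction (e.g. on the number of rows, or on `∏ a`): for one prime at a time, or: for the first row
`a 0 ∣ ∏ b j`, so `a 0 = ∏ c j` with `c j ∣ b j` (`exists_dvd_and_dvd_of_dvd_mul`, natural numbers form a
`DecompositionMonoid`), divide and use induction.
-/

namespace P031

open scoped BigOperators

theorem riesz_split {κ : Type*} [DecidableEq κ] (b : κ → ℕ) (t : Finset κ) :
    ∀ x : ℕ, x ∣ ∏ j ∈ t, b j → ∃ c : κ → ℕ, (∀ j, c j ∣ b j) ∧ x = ∏ j ∈ t, c j := by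
  induction t using Finset.induction_on with
  | empty =>
    intro x hx
    refine ⟨fun _ => 1, fun j => one_dvd _, ?_⟩
    simpa using hx
  | insert j0 t hj0 ih =>
    intro x hx
    rw [Finset.prod_insert hj0] at hx
    obtain ⟨y, z, hy, hz, rfl⟩ := exists_dvd_and_dvd_of_dvd_mul hx
    obtain ⟨c, hc, rfl⟩ := ih z hz
    refine ⟨Function.update c j0 y, ?_, ?_⟩
    · intro j
      by_cases h : j = j0
      · subst h; simpa using hy
      · simpa [Function.update_of_ne h] using hc j
    · rw [Finset.prod_insert hj0]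
      simp only [Function.update_self]
      congr 1
      refine Finset.prod_congr rfl ?_
      intro j hj
      have : j ≠ j0 := by rintro rfl; exact hj0 hj
      simp [Function.update_of_ne this]

theorem riesz_aux {ι κ : Type*} [DecidableEq ι] [DecidableEq κ] [Fintype κ] (a : ι → ℕ) (s : Finset ι) :
    ∀ b : κ → ℕ, (∀ j, b j ≠ 0) → ∏ i ∈ s, a i = ∏ j, b j →
      ∃ d : ι → κ → ℕ, (∀ i ∈ s, a i = ∏ j, d i j) ∧ ∀ j, b j = ∏ i ∈ s, d i j := by
  induction s using Finset.induction_on with
  | empty =>
    intro b hb h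
    refine ⟨fun _ _ => 1, by simp, ?_⟩
    intro j
    have h1 : ∏ j, b j = 1 := by simpa using h.symm
    have : b j ∣ 1 := by
      rw [← h1]; exact Finset.dvd_prod_of_mem b (Finset.mem_univ j)
    simpa using this
  | insert i0 s hi0 ih =>
    intro b hb h
    rw [Finset.prod_insert hi0] at h
    obtain ⟨c, hc, hac⟩ := riesz_split b Finset.univ (a i0) (h ▸ Dvd.intro _ rfl)
    choose b' hb' using hc
    have hc0 : ∀ j, c j ≠ 0 := fun j h0 => hb j (by rw [hb' j, h0, zero_mul])
    have hb0 : ∀ j, b' j ≠ 0 := fun j h0 => hb j (by rw [hb' j, h0, mul_zero])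
    have hprod : ∏ i ∈ s, a i = ∏ j, b' j := by
      have h2 : ∏ j, b j = (∏ j, c j) * ∏ j, b' j := by
        rw [← Finset.prod_mul_distrib]
        exact Finset.prod_congr rfl (fun j _ => hb' j)
      rw [h2, ← hac] at h
      have ha0 : a i0 ≠ 0 := by
        rw [hac]; exact Finset.prod_ne_zero_iff.mpr (fun j _ => hc0 j)
      exact Nat.eq_of_mul_eq_mul_left (Nat.pos_of_ne_zero ha0) h
    obtain ⟨d, hd1, hd2⟩ := ih b' hb0 hprod
    refine ⟨Function.update d i0 c, ?_, ?_⟩
    · intro i hi
      by_cases hii : i = i0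
      · subst hii; simpa using hac
      · rw [Finset.mem_insert] at hi
        rw [Function.update_of_ne hii]
        exact hd1 i (hi.resolve_left hii)
    · intro j
      rw [Finset.prod_insert hi0, Function.update_self, hb' j, hd2 j]
      congr 1
      refine Finset.prod_congr rfl ?_
      intro i hi
      have : i ≠ i0 := by rintro rfl; exact hi0 hi
      rw [Function.update_of_ne this]

/-- refinement matrix of two factorizations of the same number -/
theorem riesz {ι κ : Type*} [Fintype ι] [Fintype κ] (a : ι → ℕ) (b : κ → ℕ) (ha : ∀ i, a i ≠ 0)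
    (hb : ∀ j, b j ≠ 0) (h : ∏ i, a i = ∏ j, b j) :
    ∃ d : ι → κ → ℕ, (∀ i, a i = ∏ j, d i j) ∧ ∀ j, b j = ∏ i, d i j := by
  classical
  obtain ⟨d, h1, h2⟩ := riesz_aux a Finset.univ b hb h
  exact ⟨d, fun i => h1 i (Finset.mem_univ i), h2⟩

end P031
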