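import Vale.Agent.P031.CoM
import Vale.Agent.P031.CoA
import Vale.Agent.P031.Riesz

/-!
# P031, module COMAIN, part A: splitting into small and large levels, asymptotics
-/

namespace P031

open scoped BigOperators

/-- the part of `n` composed of primes of level `< S` -/
noncomputable def loP (S n : ℕ) : ℕ :=
  (n.primeFactorsList.filter (fun r => decide (lev r < S))).prod

/-- the part of `n` composed of primes of level `≥ S` -/
noncomputable def hiP (S n : ℕ) : ℕ :=
  (n.primeFactorsList.filter (fun r => !decide (lev r < S))).prod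

theorem loP_mul_hiP (S : ℕ) {n : ℕ} (hn : n ≠ 0) : loP S n * hiP S n = n := by
  unfold loP hiP
  rw [← List.prod_append]
  have h := List.filter_append_perm (fun r => decide (lev r < S)) n.primeFactorsList
  rw [h.prod_eq]
  exact Nat.prod_primeFactorsList hn

theorem loP_mul (S : ℕ) {m n : ℕ} (hm : m ≠ 0) (hn : n ≠ 0) :
    loP S (m * n) = loP S m * loP S n := by
  unfold loP
  rw [((Nat.perm_primeFactorsList_mul hm hn).filter _).prod_eq, List.filter_append,
    List.prod_append]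

theorem hiP_mul (S : ℕ) {m n : ℕ} (hm : m ≠ 0) (hn : n ≠ 0) :
    hiP S (m * n) = hiP S m * hiP S n := by
  unfold hiP
  rw [((Nat.perm_primeFactorsList_mul hm hn).filter _).prod_eq, List.filter_append,
    List.prod_append]

theorem loP_one (S : ℕ) : loP S 1 = 1 := by simp [loP]

theorem hiP_one (S : ℕ) : hiP S 1 = 1 := by simp [hiP]

theorem prime_of_mem_filter {n : ℕ} {p : ℕ → Bool} {r : ℕ}
    (h : r ∈ n.primeFactorsList.filter p) : r.Prime :=
  Nat.prime_of_mem_primeFactorsList (List.mem_of_mem_filter h)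

theorem mem_of_prime_dvd_prod {l : List ℕ} (hl : ∀ r ∈ l, r.Prime) {q : ℕ} (hq : q.Prime)
    (h : q ∣ l.prod) : q ∈ l := by
  obtain ⟨a, ha, hqa⟩ := (Nat.Prime.prime hq).dvd_prod_iff.mp h
  have := (Nat.prime_dvd_prime_iff_eq hq (hl a ha)).mp hqa
  rw [this]; exact ha

theorem lev_of_dvd_loP {S n r : ℕ} (hr : r.Prime) (h : r ∣ loP S n) : lev r < S := by
  have hm := mem_of_prime_dvd_prod
    (fun q hq => Nat.prime_of_mem_primeFactorsList (List.mem_of_mem_filter hq)) hr h
  have := List.of_mem_filter hm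
  simpa using this

theorem lev_of_dvd_hiP {S n r : ℕ} (hr : r.Prime) (h : r ∣ hiP S n) : S ≤ lev r := by
  have hm := mem_of_prime_dvd_prod
    (fun q hq => Nat.prime_of_mem_primeFactorsList (List.mem_of_mem_filter hq)) hr h
  have := List.of_mem_filter hm
  simpa using this

theorem loP_pos (S n : ℕ) : 1 ≤ loP S n := by
  unfold loP
  apply Nat.one_le_iff_ne_zero.mpr
  intro h0
  have := List.prod_eq_zero_iff.mp h0
  exact Nat.not_prime_zero (Nat.prime_of_mem_primeFactorsList (List.mem_of_mem_filter this))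

theorem hiP_pos (S n : ℕ) : 1 ≤ hiP S n := by
  unfold hiP
  apply Nat.one_le_iff_ne_zero.mpr
  intro h0
  have := List.prod_eq_zero_iff.mp h0
  exact Nat.not_prime_zero (Nat.prime_of_mem_primeFactorsList (List.mem_of_mem_filter this))

/-- if all primes are small then `loP` is everything -/
theorem loP_eq_self {S n : ℕ} (hn : n ≠ 0) (h : ∀ r : ℕ, r.Prime → r ∣ n → lev r < S) :
    loP S n = n := by
  unfold loP
  rw [List.filter_eq_self.mpr]
  · exact Nat.prod_primeFactorsList hn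
  · intro r hr
    simpa using h r (Nat.prime_of_mem_primeFactorsList hr) (Nat.dvd_of_mem_primeFactorsList hr)

theorem hiP_eq_one {S n : ℕ} (hn : n ≠ 0) (h : ∀ r : ℕ, r.Prime → r ∣ n → lev r < S) :
    hiP S n = 1 := by
  have h1 := loP_mul_hiP S hn
  rw [loP_eq_self hn h] at h1
  exact (Nat.mul_eq_left hn).mp h1


theorem loP_primeFactorsList_length (S n : ℕ) :
    (loP S n).primeFactorsList.length = Lv 0 S n := by
  have h : (n.primeFactorsList.filter (fun r => decide (lev r < S))).Perm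
      (loP S n).primeFactorsList := by
    apply Nat.primeFactorsList_unique rfl
    intro r hr
    exact prime_of_mem_filter hr
  rw [← h.length_eq]
  unfold Lv
  rw [List.countP_eq_length_filter]
  congr 1
  apply List.filter_congr
  intro r _
  simp

theorem log_le_of_lev_lt {r S : ℕ} (hr : r.Prime) (h : lev r < S) :
    Real.log r ≤ Real.exp S := by
  unfold lev at h
  have h1 : Real.log (Real.log r) < S := (Nat.floor_lt' (by omega)).mp h
  have hlog : 0 < Real.log r := Real.log_pos (by exact_mod_cast hr.one_lt)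
  exact le_of_lt ((Real.log_lt_iff_lt_exp hlog).mp h1)

theorem log_prod_le {l : List ℕ} {M : ℝ} (hl : ∀ r ∈ l, r.Prime ∧ Real.log r ≤ M) :
    Real.log ((l.prod : ℕ) : ℝ) ≤ l.length * M := by
  induction l with
  | nil => simp
  | cons a l ih =>
    have ha := hl a (by simp)
    have ih' := ih (fun r hr => hl r (by simp [hr]))
    have hprod : ((l.prod : ℕ) : ℝ) ≠ 0 := by
      have : l.prod ≠ 0 := by
        intro h0
        have := List.prod_eq_zero_iff.mp h0
        exact Nat.not_prime_zero (hl 0 (by simp [this])).1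
      exact_mod_cast this
    rw [List.prod_cons, Nat.cast_mul, Real.log_mul (by exact_mod_cast ha.1.ne_zero) hprod,
      List.length_cons]
    have h3 : ((l.length + 1 : ℕ) : ℝ) * M = l.length * M + M := by push_cast; ring
    rw [h3]
    linarith [ha.2]

theorem log_loP_le (S n : ℕ) : Real.log (loP S n) ≤ (Lv 0 S n : ℝ) * Real.exp S := by
  have h := log_prod_le (l := n.primeFactorsList.filter (fun r => decide (lev r < S)))
    (M := Real.exp S) (by
      intro r hr
      refine ⟨prime_of_mem_filter hr, ?_⟩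
      have := List.of_mem_filter hr
      exact log_le_of_lev_lt (prime_of_mem_filter hr) (by simpa using this))
  have h2 : (n.primeFactorsList.filter (fun r => decide (lev r < S))).length = Lv 0 S n := by
    unfold Lv
    rw [List.countP_eq_length_filter]
    congr 1
    apply List.filter_congr
    intro r _
    simp
  rw [h2] at h
  exact h

theorem loP_prod (S : ℕ) {ι : Type*} (s : Finset ι) (f : ι → ℕ) (hf : ∀ i ∈ s, f i ≠ 0) :
    loP S (∏ i ∈ s, f i) = ∏ i ∈ s, loP S (f i) := by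
  classical
  induction s using Finset.induction_on with
  | empty => simp [loP_one]
  | insert a s ha ih =>
    rw [Finset.prod_insert ha, Finset.prod_insert ha, loP_mul S (hf a (by simp))
      (Finset.prod_ne_zero_iff.mpr (fun i hi => hf i (by simp [hi]))), ih (fun i hi => hf i (by simp [hi]))]

theorem hiP_prod (S : ℕ) {ι : Type*} (s : Finset ι) (f : ι → ℕ) (hf : ∀ i ∈ s, f i ≠ 0) :
    hiP S (∏ i ∈ s, f i) = ∏ i ∈ s, hiP S (f i) := by
  classical
  induction s using Finset.induction_on with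
  | empty => simp [hiP_one]
  | insert a s ha ih =>
    rw [Finset.prod_insert ha, Finset.prod_insert ha, hiP_mul S (hf a (by simp))
      (Finset.prod_ne_zero_iff.mpr (fun i hi => hf i (by simp [hi]))), ih (fun i hi => hf i (by simp [hi]))]

theorem lwt_prod (z : ℕ → ℝ) {ι : Type*} (s : Finset ι) (f : ι → ℕ) :
    lwt z (∏ i ∈ s, f i) = ∏ i ∈ s, lwt z (f i) := by
  classical
  induction s using Finset.induction_on with
  | empty => simp [lwt_one]
  | insert a s ha ih =>
    rw [Finset.prod_insert ha, Finset.prod_insert ha, lwt_mul, ih]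

theorem lwt_eq_one_of_small {z : ℕ → ℝ} {S m : ℕ} (hm : m ≠ 0) (hz : ∀ s < S, z s = 1)
    (h : ∀ r : ℕ, r.Prime → r ∣ m → lev r < S) : lwt z m = 1 := by
  unfold lwt
  rw [if_neg hm]
  apply List.prod_eq_one
  intro x hx
  rw [List.mem_map] at hx
  obtain ⟨r, hr, rfl⟩ := hx
  exact hz _ (h r (Nat.prime_of_mem_primeFactorsList hr) (Nat.dvd_of_mem_primeFactorsList hr))

theorem lwt_nonneg {z : ℕ → ℝ} (hz : ∀ s, 0 ≤ z s) (m : ℕ) : 0 ≤ lwt z m := by
  unfold lwt
  split_ifs
  · exact le_rfl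
  · apply List.prod_nonneg
    intro x hx
    rw [List.mem_map] at hx
    obtain ⟨r, _, rfl⟩ := hx
    exact hz _

theorem zw_nonneg (U : ℕ) {l : ℕ} (w : Fin l → ℕ) (s : ℕ) : 0 ≤ zw U w s := by
  unfold zw
  split_ifs
  · norm_num
  · positivity

theorem SS_le (U : ℕ) : (SS U : ℝ) ≤ (U : ℝ) ^ ((1 : ℝ) / 2) := by
  unfold SS
  rw [← Real.sqrt_eq_rpow]
  exact Real.nat_sqrt_le_real_sqrt

/-- all lower order terms -/
theorem co_asym (C : ℝ) : ∃ U₀ : ℕ, ∀ U : ℕ, U₀ ≤ U → 4 ≤ Real.log U ∧ 2 ≤ (U : ℝ) ∧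
    5 + 3 * U ≤ 4 * U ∧
    ∀ k l : ℕ, (k : ℝ) ≤ Real.log U ^ 2 → (l : ℝ) ≤ Real.log U ^ 2 → ∀ B : ℝ,
    B ≤ (U : ℝ) ^ ((57 : ℝ) / 100) →
    (U : ℝ) ^ ((14 : ℝ) / 25) + l + max B 0 * Real.log (l + 1) +
      (((k : ℝ) + 1) * (10 * SS U) + 100 * SS U) * Real.log (((k : ℝ) + 1 + 1) * ((l : ℝ) + 1 + 1)) +
      Real.log C + SS U ≤ HH U / 16 := by
  have h1 : ∀ᶠ x : ℝ in Filter.atTop, Real.log x ≤ x ^ ((1 : ℝ) / 200) := by
    have := (isLittleO_log_rpow_atTop (show (0 : ℝ) < 1 / 200 by norm_num)).bound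
      (show (0 : ℝ) < 1 by norm_num)
    filter_upwards [this, Filter.eventually_ge_atTop (1 : ℝ)] with x hx hx1
    rw [Real.norm_of_nonneg (Real.log_nonneg hx1), Real.norm_of_nonneg (by positivity), one_mul] at hx
    exact hx
  have h2 : ∀ᶠ x : ℝ in Filter.atTop, 16 * (1084 + |Real.log C|) ≤ x ^ ((1 : ℝ) / 50) :=
    (tendsto_rpow_atTop (show (0 : ℝ) < 1 / 50 by norm_num)).eventually_ge_atTop _
  have h3 : ∀ᶠ x : ℝ in Filter.atTop, 4 ≤ Real.log x :=
    Real.tendsto_log_atTop.eventually_ge_atTop _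
  have hall := (h1.and (h2.and (h3.and (Filter.eventually_ge_atTop (5 : ℝ)))))
  have hnat : ∀ᶠ U : ℕ in Filter.atTop, (Real.log U ≤ (U : ℝ) ^ ((1 : ℝ) / 200)) ∧
      (16 * (1084 + |Real.log C|) ≤ (U : ℝ) ^ ((1 : ℝ) / 50)) ∧ (4 ≤ Real.log U) ∧ (5 : ℝ) ≤ U :=
    tendsto_natCast_atTop_atTop.eventually hall
  obtain ⟨U₀, hU₀⟩ := Filter.eventually_atTop.mp hnat
  refine ⟨U₀, fun U hU => ?_⟩
  obtain ⟨hlog, hK, h4, h5⟩ := hU₀ U hU
  have h5' : 5 ≤ U := by exact_mod_cast h5
  refine ⟨h4, by linarith, by omega, ?_⟩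
  intro k l hk hl B hB
  set x : ℝ := (U : ℝ) with hx
  have hx1 : 1 ≤ x := by linarith
  have hx0 : 0 ≤ x := by linarith
  have hxp : 0 < x := by linarith
  set t : ℝ := x ^ ((1 : ℝ) / 100) with ht
  have ht1 : 1 ≤ t := Real.one_le_rpow hx1 (by norm_num)
  have hlog0 : 0 ≤ Real.log x := by linarith
  have hlogt : Real.log x ^ 2 ≤ t := by
    have : t = x ^ ((1 : ℝ) / 200) * x ^ ((1 : ℝ) / 200) := by
      rw [ht, ← Real.rpow_add hxp]; norm_num
    rw [this, sq]
    exact mul_le_mul hlog hlog hlog0 (by positivity)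
  have hkt : (k : ℝ) ≤ t := hk.trans hlogt
  have hlt : (l : ℝ) ≤ t := hl.trans hlogt
  have hk0 : (0 : ℝ) ≤ k := Nat.cast_nonneg k
  have hl0 : (0 : ℝ) ≤ l := Nat.cast_nonneg l
  set y : ℝ := x ^ ((29 : ℝ) / 50) with hy
  have hy1 : 1 ≤ y := Real.one_le_rpow hx1 (by norm_num)
  have hH : HH U = y * x ^ ((1 : ℝ) / 50) := by
    unfold HH
    rw [← hx, hy, ← Real.rpow_add hxp]; norm_num
  have hS := SS_le U
  have hS0 : (0 : ℝ) ≤ SS U := Nat.cast_nonneg _
  rw [← hx] at hS
  -- pieces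
  have e1 : x ^ ((14 : ℝ) / 25) ≤ y := Real.rpow_le_rpow_of_exponent_le hx1 (by norm_num)
  have e2 : (l : ℝ) ≤ y := hlt.trans (Real.rpow_le_rpow_of_exponent_le hx1 (by norm_num))
  have e3 : max B 0 * Real.log (l + 1) ≤ y := by
    have ha : max B 0 ≤ x ^ ((57 : ℝ) / 100) := max_le hB (by positivity)
    have hb : Real.log (l + 1) ≤ t := by
      have := Real.log_le_sub_one_of_pos (show (0 : ℝ) < l + 1 by linarith)
      linarith
    have hb0 : 0 ≤ Real.log ((l : ℝ) + 1) := Real.log_nonneg (by linarith)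
    have : y = x ^ ((57 : ℝ) / 100) * t := by
      rw [hy, ht, ← Real.rpow_add hxp]; norm_num
    rw [this]
    exact mul_le_mul ha hb hb0 (by positivity)
  have e5 : (SS U : ℝ) ≤ y := hS.trans (Real.rpow_le_rpow_of_exponent_le hx1 (by norm_num))
  have e4 : (((k : ℝ) + 1) * (10 * SS U) + 100 * SS U) *
      Real.log (((k : ℝ) + 1 + 1) * ((l : ℝ) + 1 + 1)) ≤ 1080 * y := by
    have ha : ((k : ℝ) + 1) * (10 * SS U) + 100 * SS U ≤ 120 * t * x ^ ((1 : ℝ) / 2) := by
      have : ((k : ℝ) + 1) * (10 * SS U) + 100 * SS U ≤ (120 * t) * SS U := by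
        nlinarith
      exact this.trans (mul_le_mul_of_nonneg_left hS (by positivity))
    have hb : Real.log (((k : ℝ) + 1 + 1) * ((l : ℝ) + 1 + 1)) ≤ 9 * t ^ 2 := by
      have h6 := Real.log_le_sub_one_of_pos
        (show (0 : ℝ) < ((k : ℝ) + 1 + 1) * ((l : ℝ) + 1 + 1) by positivity)
      have h7 : ((k : ℝ) + 1 + 1) * ((l : ℝ) + 1 + 1) ≤ (3 * t) * (3 * t) :=
        mul_le_mul (by linarith) (by linarith) (by positivity) (by positivity)
      nlinarith
    have hb0 : 0 ≤ Real.log (((k : ℝ) + 1 + 1) * ((l : ℝ) + 1 + 1)) := by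
      apply Real.log_nonneg
      nlinarith
    have h8 : 120 * t * x ^ ((1 : ℝ) / 2) * (9 * t ^ 2) ≤ 1080 * y := by
      have : t ^ 3 * x ^ ((1 : ℝ) / 2) ≤ y := by
        have h9 : t ^ 3 = x ^ ((3 : ℝ) / 100) := by
          rw [ht, ← Real.rpow_natCast, ← Real.rpow_mul hx0]; norm_num
        rw [h9, ← Real.rpow_add hxp]
        exact Real.rpow_le_rpow_of_exponent_le hx1 (by norm_num)
      nlinarith
    exact (mul_le_mul ha hb hb0 (by positivity)).trans h8
  have e6 : Real.log C ≤ |Real.log C| * y := by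
    have := le_abs_self (Real.log C)
    have h0 := abs_nonneg (Real.log C)
    nlinarith
  rw [hH]
  have e7 : (1084 + |Real.log C|) * y ≤ y * x ^ ((1 : ℝ) / 50) / 16 := by
    have : 16 * (1084 + |Real.log C|) * y ≤ x ^ ((1 : ℝ) / 50) * y :=
      mul_le_mul_of_nonneg_right hK (by linarith)
    linarith
  linarith

theorem zw_small (U : ℕ) {l : ℕ} (w : Fin l → ℕ) (s : ℕ) (hs : s < SS U) : zw U w s = 1 := by
  unfold zw
  rw [if_pos hs]

end P031
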