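import Vale.Agent.P031.LemA
import Vale.Agent.P031.Riesz

/-!
# P031, module CELLS: the matrix sum

PROOF of `cells`: induction on `|R| + |R'|`.  If `R = R' = ∅` the sum factors over the live cells, each
`≤ C exp (∑ f_c(r)/r)` (`euler_bound`).  Otherwise, for each matrix `d` in the sum consider the largest
entry among the cells lying in an active row or an active column (ties: any), say at `c = (i, j)`;
there are at most `|ι| |κ|` possibilities for `c`; fix one.  `c` is live.  If `i ∈ R` then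
`(d c)^{|κ|} ≥ ∏_j d (i,j)`, so `log (d c) ≥ D i / |κ|`; if `j ∈ R'` then `log (d c) ≥ D' j / |ι|`.  Sum over
`d c` first, all other entries fixed: `lemA'` with `𝒜 = {α_i ∏_{j' ≠ j} d(i,j')` (if `i ∈ R`)`,
α'_j ∏_{i' ≠ i} d(i',j)` (if `j ∈ R'`)`}` (these are `≤ Z`, and distinct if both are present) gives at most
`C (1+LL Z)^C exp (∑_r f_c(r)/r) · (|κ|/D i) · (|ι|/D' j)` (the factors present).  The remaining sum has
active sets `R \ {i}`, `R' \ {j}` and live cells `L \ {c}`; drop the conditions involving row `i` and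
column `j`.  (Replace `d c` by `1` in the remaining matrix.)
-/

namespace P031

open scoped BigOperators

set_option linter.unusedSectionVars false

variable {ι κ : Type} [Fintype ι] [DecidableEq ι] [Fintype κ] [DecidableEq κ]

/-- admissible matrices: entries of dead cells are `1`, active rows and columns give primes -/
noncomputable def CellOK (Z : ℝ) (α : ι → ℕ) (α' : κ → ℕ) (R : Finset ι) (R' : Finset κ)
    (D : ι → ℝ) (D' : κ → ℝ) (d : ι × κ → ℕ) : Prop :=
  (∀ i ∈ R, (α i * (∏ j, d (i, j)) + 1).Prime ∧ D i ≤ Real.log (∏ j, d (i, j) : ℕ) ∧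
    ((α i * ∏ j, d (i, j) : ℕ) : ℝ) ≤ Z) ∧
  (∀ j ∈ R', (α' j * (∏ i, d (i, j)) + 1).Prime ∧ D' j ≤ Real.log (∏ i, d (i, j) : ℕ) ∧
    ((α' j * ∏ i, d (i, j) : ℕ) : ℝ) ≤ Z) ∧
  (∀ i ∈ R, ∀ j ∈ R', α i * (∏ j', d (i, j')) ≠ α' j * ∏ i', d (i', j))

/-- range of the entries -/
def cellS (L : Finset (ι × κ)) (N : ℕ) (c : ι × κ) : Finset ℕ :=
  if c ∈ L then Finset.Icc 1 N else {1}

theorem mem_cellS {L : Finset (ι × κ)} {N : ℕ} {c : ι × κ} {x : ℕ} :
    x ∈ cellS L N c ↔ (c ∈ L ∧ 1 ≤ x ∧ x ≤ N) ∨ (c ∉ L ∧ x = 1) := by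
  unfold cellS
  split_ifs with h
  · simp [h]
  · simp [h]

theorem cell_pos {L : Finset (ι × κ)} {N : ℕ} {d : ι × κ → ℕ}
    (hd : d ∈ Fintype.piFinset (cellS L N)) (c : ι × κ) : 1 ≤ d c := by
  have h := Fintype.mem_piFinset.1 hd c
  rcases mem_cellS.1 h with h | h
  · exact h.2.1
  · exact h.2.ge

theorem cell_split (L : Finset (ι × κ)) (N : ℕ) (c : ι × κ) (hc : c ∈ L)
    (F : (ι × κ → ℕ) → ℝ) :
    ∑ d ∈ Fintype.piFinset (cellS L N), F d =
      ∑ e ∈ Fintype.piFinset (cellS (L.erase c) N), ∑ x ∈ Finset.Icc 1 N,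
        F (Function.update e c x) := by
  rw [← Finset.sum_product']
  refine Finset.sum_nbij' (fun d => (Function.update d c 1, d c))
    (fun p => Function.update p.1 c p.2) ?_ ?_ ?_ ?_ ?_
  · intro d hd
    rw [Finset.mem_product]
    constructor
    · rw [Fintype.mem_piFinset]
      intro c'
      by_cases hcc : c' = c
      · subst hcc
        simp only [Function.update_self]
        exact mem_cellS.2 (Or.inr ⟨Finset.notMem_erase _ _, rfl⟩)
      · have h := Fintype.mem_piFinset.1 hd c'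
        simp only [Function.update_of_ne hcc]
        rw [mem_cellS] at h ⊢
        simpa [hcc] using h
    · have h := Fintype.mem_piFinset.1 hd c
      rw [mem_cellS] at h
      rcases h with h | h
      · exact Finset.mem_Icc.2 h.2
      · exact absurd hc h.1
  · intro p hp
    rw [Finset.mem_product] at hp
    rw [Fintype.mem_piFinset]
    intro c'
    by_cases hcc : c' = c
    · subst hcc
      simp only [Function.update_self]
      exact mem_cellS.2 (Or.inl ⟨hc, Finset.mem_Icc.1 hp.2⟩)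
    · have h := Fintype.mem_piFinset.1 hp.1 c'
      simp only [Function.update_of_ne hcc]
      rw [mem_cellS] at h ⊢
      simpa [hcc] using h
  · intro d _
    simp
  · intro p hp
    rw [Finset.mem_product] at hp
    have h := Fintype.mem_piFinset.1 hp.1 c
    have h1 : p.1 c = 1 := by
      rcases mem_cellS.1 h with h | h
      · exact absurd h.1 (Finset.notMem_erase _ _)
      · exact h.2
    ext1
    · simp only [Function.update_idem]
      rw [← h1, Function.update_eq_self]
    · simp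
  · intro d _
    simp

theorem cell_row_update (e : ι × κ → ℕ) (i : ι) (j : κ) (he : e (i, j) = 1) (x : ℕ) (i0 : ι) :
    ∏ j', Function.update e (i, j) x (i0, j') = (if i0 = i then x else 1) * ∏ j', e (i0, j') := by
  by_cases h : i0 = i
  · subst h
    rw [if_pos rfl, ← Finset.mul_prod_erase Finset.univ _ (Finset.mem_univ j),
      ← Finset.mul_prod_erase Finset.univ (fun j' => e (i0, j')) (Finset.mem_univ j), he, one_mul,
      Function.update_self]
    congr 1
    refine Finset.prod_congr rfl fun j' hj' => ?_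
    have : (i0, j') ≠ (i0, j) := by
      intro h
      exact (Finset.mem_erase.1 hj').1 (Prod.ext_iff.1 h).2
    rw [Function.update_of_ne this]
  · rw [if_neg h, one_mul]
    refine Finset.prod_congr rfl fun j' _ => ?_
    have : (i0, j') ≠ (i, j) := by
      intro h'
      exact h (Prod.ext_iff.1 h').1
    rw [Function.update_of_ne this]

theorem cell_col_update (e : ι × κ → ℕ) (i : ι) (j : κ) (he : e (i, j) = 1) (x : ℕ) (j0 : κ) :
    ∏ i', Function.update e (i, j) x (i', j0) = (if j0 = j then x else 1) * ∏ i', e (i', j0) := by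
  by_cases h : j0 = j
  · subst h
    rw [if_pos rfl, ← Finset.mul_prod_erase Finset.univ _ (Finset.mem_univ i),
      ← Finset.mul_prod_erase Finset.univ (fun i' => e (i', j0)) (Finset.mem_univ i), he, one_mul,
      Function.update_self]
    congr 1
    refine Finset.prod_congr rfl fun i' hi' => ?_
    have : (i', j0) ≠ (i, j0) := by
      intro h
      exact (Finset.mem_erase.1 hi').1 (Prod.ext_iff.1 h).1
    rw [Function.update_of_ne this]
  · rw [if_neg h, one_mul]
    refine Finset.prod_congr rfl fun i' _ => ?_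
    have : (i', j0) ≠ (i, j) := by
      intro h'
      exact h (Prod.ext_iff.1 h').2
    rw [Function.update_of_ne this]

theorem cells_sum_sq (f : ℕ → ℝ) (h0 : ∀ n, 0 ≤ f n) (h1 : ∀ r : ℕ, r.Prime → f r ≤ 1) (M : ℕ) :
    ∑ r ∈ (Finset.Icc 1 M).filter Nat.Prime, (f r / r) ^ 2 ≤ 1 := by
  have key : ∀ M : ℕ, ∑ r ∈ (Finset.Icc 1 (M + 1)).filter Nat.Prime, (f r / r) ^ 2 ≤
      1 - 1 / (M + 1 : ℝ) := by
    intro M
    induction M with
    | zero =>
      have : (Finset.Icc 1 (0 + 1)).filter Nat.Prime = ∅ := by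
        ext x
        simp only [Finset.mem_filter, Finset.mem_Icc, Finset.notMem_empty, iff_false, not_and]
        intro hx hp
        have := hp.two_le
        omega
      rw [this]
      simp
    | succ M ih =>
      have hins : Finset.Icc 1 (M + 1 + 1) = insert (M + 2) (Finset.Icc 1 (M + 1)) := by
        ext x
        simp only [Finset.mem_Icc, Finset.mem_insert]
        omega
      rw [hins, Finset.filter_insert]
      have hM : (0 : ℝ) < (M : ℝ) + 1 := by positivity
      have hstep : (1 : ℝ) / ((M : ℝ) + 1) - 1 / (((M + 1 : ℕ) : ℝ) + 1) =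
          1 / (((M : ℝ) + 1) * ((M : ℝ) + 2)) := by
        push_cast
        field_simp
        ring
      have hpos : (0 : ℝ) ≤ 1 / (((M : ℝ) + 1) * ((M : ℝ) + 2)) := by positivity
      split_ifs with hp
      · rw [Finset.sum_insert (by simp)]
        have e1 : (f (M + 2) / ((M + 2 : ℕ) : ℝ)) ^ 2 ≤ 1 / (((M : ℝ) + 1) * ((M : ℝ) + 2)) := by
          rw [div_pow]
          push_cast
          have hf0 := h0 (M + 2)
          have hf1 := h1 _ hp
          have : f (M + 2) ^ 2 ≤ 1 := by nlinarith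
          apply div_le_div₀ (by norm_num) this (by positivity)
          nlinarith
        linarith
      · linarith
  rcases Nat.eq_zero_or_pos M with hM | hM
  · subst hM
    simp
  · obtain ⟨M', rfl⟩ : ∃ M', M = M' + 1 := ⟨M - 1, by omega⟩
    have := key M'
    have h2 : (0 : ℝ) ≤ 1 / (M' + 1 : ℝ) := by positivity
    linarith

/-- the sum over one free cell -/
theorem cell_free {C1 : ℝ} (h1C : 1 ≤ C1)
    (hC1 : ∀ (f : ℕ → ℝ) (z : ℝ) (N : ℕ), CMul f → 2 ≤ z →
      (∀ r : ℕ, r.Prime → f r / r ≤ 3 / 4) →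
      (∑ r ∈ (Finset.Icc 1 ⌊z⌋₊).filter Nat.Prime, (f r / r) ^ 2 ≤ 1) →
      ∑ n ∈ Finset.Icc 1 N, Set.indicator {n | IsSm z n} (fun n => f n / (n : ℝ)) n ≤
        C1 * Real.exp (∑ r ∈ (Finset.Icc 1 ⌊z⌋₊).filter Nat.Prime, f r / (r : ℝ)))
    (f : ℕ → ℝ) (N : ℕ) (hf : CMul f) (hr : ∀ r : ℕ, r.Prime → f r ≤ 1) :
    ∑ n ∈ Finset.Icc 1 N, f n / (n : ℝ) ≤
      C1 * Real.exp (∑ r ∈ (Finset.Icc 1 N).filter Nat.Prime, f r / (r : ℝ)) := by
  have hexp : 1 ≤ Real.exp (∑ r ∈ (Finset.Icc 1 N).filter Nat.Prime, f r / (r : ℝ)) := by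
    apply Real.one_le_exp
    exact Finset.sum_nonneg fun r _ => div_nonneg (hf.2.2 r) (Nat.cast_nonneg r)
  rcases Nat.lt_or_ge N 2 with hN | hN
  · have : ∑ n ∈ Finset.Icc 1 N, f n / (n : ℝ) ≤ 1 := by
      interval_cases N
      · simp
      · simp [hf.1]
    nlinarith
  · have h := hC1 f N N hf (by exact_mod_cast hN) (fun r hp => by
      have h2 : (2 : ℝ) ≤ r := by exact_mod_cast hp.two_le
      rw [div_le_iff₀ (by linarith)]
      have := hr r hp
      nlinarith) (by
        rw [Nat.floor_natCast]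
        exact cells_sum_sq f hf.2.2 hr N)
    rw [Nat.floor_natCast] at h
    refine le_trans (le_of_eq ?_) h
    refine Finset.sum_congr rfl fun n hn => ?_
    rw [Set.indicator_of_mem]
    rw [Finset.mem_Icc] at hn
    refine ⟨hn.1, fun r _ hrn => ?_⟩
    exact_mod_cast (Nat.le_of_dvd hn.1 hrn).trans hn.2

/-- weight of a matrix -/
noncomputable def cellW (fc : ι × κ → ℕ → ℝ) (L : Finset (ι × κ)) (d : ι × κ → ℕ) : ℝ :=
  ∏ c ∈ L, fc c (d c) / (d c : ℝ)

theorem cellW_nonneg {fc : ι × κ → ℕ → ℝ} (hf : ∀ c, CMul (fc c)) (L : Finset (ι × κ))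
    (d : ι × κ → ℕ) : 0 ≤ cellW fc L d :=
  Finset.prod_nonneg fun c _ => div_nonneg ((hf c).2.2 _) (Nat.cast_nonneg _)

theorem cellW_update (fc : ι × κ → ℕ → ℝ) (L : Finset (ι × κ)) (c : ι × κ) (hc : c ∈ L)
    (e : ι × κ → ℕ) (x : ℕ) :
    cellW fc L (Function.update e c x) = cellW fc (L.erase c) e * (fc c x / (x : ℝ)) := by
  unfold cellW
  rw [← Finset.mul_prod_erase L _ hc, Function.update_self, mul_comm]
  congr 1
  refine Finset.prod_congr rfl fun c' hc' => ?_
  rw [Function.update_of_ne (Finset.mem_erase.1 hc').1]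

theorem cell_base (fc : ι × κ → ℕ → ℝ) (L : Finset (ι × κ)) (N : ℕ) :
    ∑ d ∈ Fintype.piFinset (cellS L N), cellW fc L d =
      ∏ c ∈ L, ∑ x ∈ Finset.Icc 1 N, fc c x / (x : ℝ) := by
  have h := Finset.prod_univ_sum (cellS L N) (fun c x => if c ∈ L then fc c x / (x : ℝ) else 1)
  have e1 : ∀ d : ι × κ → ℕ, cellW fc L d =
      ∏ c, (if c ∈ L then fc c (d c) / (d c : ℝ) else 1) := by
    intro d
    unfold cellW
    rw [Finset.prod_ite_mem, Finset.univ_inter]
  have e2 : ∏ c ∈ L, ∑ x ∈ Finset.Icc 1 N, fc c x / (x : ℝ) =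
      ∏ c, ∑ x ∈ cellS L N c, (if c ∈ L then fc c x / (x : ℝ) else 1) := by
    have e3 : ∏ c ∈ L, ∑ x ∈ Finset.Icc 1 N, fc c x / (x : ℝ) =
        ∏ c, (if c ∈ L then ∑ x ∈ Finset.Icc 1 N, fc c x / (x : ℝ) else 1) := by
      rw [Finset.prod_ite_mem, Finset.univ_inter]
    rw [e3]
    refine Finset.prod_congr rfl fun c _ => ?_
    unfold cellS
    by_cases hc : c ∈ L
    · simp only [if_pos hc]
    · simp only [if_neg hc, Finset.sum_singleton]
  rw [e2, h]
  exact Finset.sum_congr rfl fun d _ => e1 d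


theorem cell_LL_nonneg {Z : ℝ} (hZ : 16 ≤ Z) : 0 ≤ LL Z := by
  unfold LL
  apply Real.log_nonneg
  have h1 : Real.exp 1 ≤ 16 := by
    have := Real.exp_one_lt_d9
    linarith
  calc (1 : ℝ) = Real.log (Real.exp 1) := (Real.log_exp 1).symm
    _ ≤ Real.log Z := Real.log_le_log (Real.exp_pos _) (h1.trans hZ)

/-- the statement of `lemA'` for a fixed constant -/
def CellLemAP (C : ℝ) : Prop := ∀ (Z D : ℝ) (N : ℕ) (𝒜 : Finset ℕ) (f : ℕ → ℝ), 16 ≤ Z → 2 ≤ D →
    (N : ℝ) ≤ Z → 𝒜.card ≤ 2 → (∀ A ∈ 𝒜, 1 ≤ A ∧ (A : ℝ) ≤ Z) → CMul f →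
    (∀ r : ℕ, r.Prime → f r ≤ 3 / 2) →
    ∑ d ∈ (Finset.Icc 1 N).filter (fun d : ℕ => D ≤ (d : ℝ) ∧ ∀ A ∈ 𝒜, (A * d + 1).Prime),
        f d / (d : ℝ) ≤
      C * (1 + LL Z) ^ C / Real.log D ^ 𝒜.card *
        Real.exp (∑ r ∈ (Finset.Icc 1 N).filter Nat.Prime, f r / (r : ℝ))

/-- condition on one entry -/
def CellEntryOK (p q : Prop) (A1 A2 : ℕ) (a b k l Z : ℝ) (x : ℕ) : Prop :=
  (p → (A1 * x + 1).Prime ∧ a ≤ k * Real.log x ∧ ((A1 * x : ℕ) : ℝ) ≤ Z) ∧
  (q → (A2 * x + 1).Prime ∧ b ≤ l * Real.log x ∧ ((A2 * x : ℕ) : ℝ) ≤ Z) ∧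
  (p → q → A1 * x ≠ A2 * x)

theorem cell_exp_le_of_log {t : ℝ} {x : ℕ} (hx : 1 ≤ x) (h : t ≤ Real.log x) : Real.exp t ≤ x := by
  have hx' : (0 : ℝ) < x := by exact_mod_cast hx
  rw [← Real.exp_log hx']
  exact Real.exp_le_exp.2 h

theorem cell_two_le_exp {t : ℝ} (h : 2 ≤ t) : 2 ≤ Real.exp t := by
  have := Real.add_one_le_exp t
  linarith

open Classical in
theorem cell_inner_bound {C : ℝ} (hC0 : 0 < C) (hC : CellLemAP C) {Z : ℝ} (hZ : 16 ≤ Z) {N : ℕ}
    (hN : (N : ℝ) ≤ Z) {f : ℕ → ℝ} (hf : CMul f) (hf1 : ∀ r : ℕ, r.Prime → f r ≤ 1)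
    (p q : Prop) [Decidable p] [Decidable q] (hpq : p ∨ q) {A1 A2 : ℕ} (hA1 : 1 ≤ A1) (hA2 : 1 ≤ A2) {a b k l : ℝ}
    (hk : 1 ≤ k) (hl : 1 ≤ l) (ha : p → 2 * k ≤ a) (hb : q → 2 * l ≤ b) :
    ∑ x ∈ (Finset.Icc 1 N).filter (CellEntryOK p q A1 A2 a b k l Z), f x / (x : ℝ) ≤
      C * (1 + LL Z) ^ C * ((if p then k / a else 1) * (if q then l / b else 1)) *
        Real.exp (∑ r ∈ (Finset.Icc 1 N).filter Nat.Prime, f r / (r : ℝ)) := by
  have hLL := cell_LL_nonneg hZ
  have hK : 0 < C * (1 + LL Z) ^ C := mul_pos hC0 (Real.rpow_pos_of_pos (by linarith) _)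
  have hf32 : ∀ r : ℕ, r.Prime → f r ≤ 3 / 2 := fun r hr => (hf1 r hr).trans (by norm_num)
  have hexp := Real.exp_pos (∑ r ∈ (Finset.Icc 1 N).filter Nat.Prime, f r / (r : ℝ))
  have hp0 : 0 ≤ (if p then k / a else 1) := by
    split_ifs with h
    · have := ha h
      exact div_nonneg (by linarith) (by linarith)
    · norm_num
  have hq0 : 0 ≤ (if q then l / b else 1) := by
    split_ifs with h
    · have := hb h
      exact div_nonneg (by linarith) (by linarith)
    · norm_num
  rcases Finset.eq_empty_or_nonempty ((Finset.Icc 1 N).filter (CellEntryOK p q A1 A2 a b k l Z)) with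
    hE | ⟨x0, hx0⟩
  · rw [hE, Finset.sum_empty]
    positivity
  · rw [Finset.mem_filter, Finset.mem_Icc] at hx0
    obtain ⟨⟨hx1, hxN⟩, hx0⟩ := hx0
    have hAZ : ∀ A : ℕ, ((A * x0 : ℕ) : ℝ) ≤ Z → (A : ℝ) ≤ Z := by
      intro A h
      refine le_trans ?_ h
      exact_mod_cast Nat.le_mul_of_pos_right A hx1
    have general : ∀ (t : ℝ) (𝒜 : Finset ℕ), 2 ≤ t → 𝒜.card ≤ 2 → (∀ A ∈ 𝒜, 1 ≤ A ∧ (A : ℝ) ≤ Z) →
        (∀ x : ℕ, 1 ≤ x → CellEntryOK p q A1 A2 a b k l Z x →
          t ≤ Real.log x ∧ ∀ A ∈ 𝒜, (A * x + 1).Prime) →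
        1 / t ^ 𝒜.card ≤ (if p then k / a else 1) * (if q then l / b else 1) →
        ∑ x ∈ (Finset.Icc 1 N).filter (CellEntryOK p q A1 A2 a b k l Z), f x / (x : ℝ) ≤
          C * (1 + LL Z) ^ C * ((if p then k / a else 1) * (if q then l / b else 1)) *
            Real.exp (∑ r ∈ (Finset.Icc 1 N).filter Nat.Prime, f r / (r : ℝ)) := by
      intro t 𝒜 ht hcard hA hx hle
      have h := hC Z (Real.exp t) N 𝒜 f hZ (cell_two_le_exp ht) hN hcard hA hf hf32
      rw [Real.log_exp] at h
      refine le_trans (Finset.sum_le_sum_of_subset_of_nonneg ?_ ?_) (h.trans ?_)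
      · intro x hxm
        rw [Finset.mem_filter] at hxm ⊢
        have hx1' := (Finset.mem_Icc.1 hxm.1).1
        have hx' := hx x hx1' hxm.2
        exact ⟨hxm.1, cell_exp_le_of_log hx1' hx'.1, hx'.2⟩
      · intro x _ _
        exact div_nonneg (hf.2.2 x) (Nat.cast_nonneg x)
      · apply mul_le_mul_of_nonneg_right _ hexp.le
        rw [div_eq_mul_one_div]
        exact mul_le_mul_of_nonneg_left hle hK.le
    by_cases hp : p
    · have hap := ha hp
      have hak : 2 ≤ a / k := by
        rw [le_div_iff₀ (by linarith)]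
        linarith
      by_cases hq : q
      · have hbq := hb hq
        have hbl : 2 ≤ b / l := by
          rw [le_div_iff₀ (by linarith)]
          linarith
        have hne : A1 ≠ A2 := by
          intro h
          exact hx0.2.2 hp hq (by rw [h])
        refine general (max (a / k) (b / l)) {A1, A2} (le_max_of_le_left hak)
          (by rw [Finset.card_pair hne]) ?_ ?_ ?_
        · intro A hA
          rw [Finset.mem_insert, Finset.mem_singleton] at hA
          rcases hA with rfl | rfl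
          · exact ⟨hA1, hAZ _ (hx0.1 hp).2.2⟩
          · exact ⟨hA2, hAZ _ (hx0.2.1 hq).2.2⟩
        · intro x _ hx
          refine ⟨max_le ?_ ?_, ?_⟩
          · rw [div_le_iff₀ (by linarith)]
            linarith [(hx.1 hp).2.1]
          · rw [div_le_iff₀ (by linarith)]
            linarith [(hx.2.1 hq).2.1]
          · intro A hA
            rw [Finset.mem_insert, Finset.mem_singleton] at hA
            rcases hA with rfl | rfl
            · exact (hx.1 hp).1
            · exact (hx.2.1 hq).1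
        · have hk0 : 0 < k := by linarith
          have hl0 : 0 < l := by linarith
          have ha0 : 0 < a := by linarith
          have hb0 : 0 < b := by linarith
          have e : k / a * (l / b) = 1 / ((a / k) * (b / l)) := by field_simp
          rw [if_pos hp, if_pos hq, Finset.card_pair hne, e]
          apply one_div_le_one_div_of_le
          · positivity
          · rw [sq]
            exact mul_le_mul (le_max_left _ _) (le_max_right _ _) (by linarith)
              (le_trans (by linarith) (le_max_left _ _))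
      · refine general (a / k) {A1} hak (by simp) ?_ ?_ ?_
        · intro A hA
          rw [Finset.mem_singleton] at hA
          subst hA
          exact ⟨hA1, hAZ _ (hx0.1 hp).2.2⟩
        · intro x _ hx
          refine ⟨?_, ?_⟩
          · rw [div_le_iff₀ (by linarith)]
            linarith [(hx.1 hp).2.1]
          · intro A hA
            rw [Finset.mem_singleton] at hA
            subst hA
            exact (hx.1 hp).1
        · rw [if_pos hp, if_neg hq, mul_one, Finset.card_singleton, pow_one, one_div_div]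
    · have hq : q := hpq.resolve_left hp
      have hbq := hb hq
      have hbl : 2 ≤ b / l := by
        rw [le_div_iff₀ (by linarith)]
        linarith
      refine general (b / l) {A2} hbl (by simp) ?_ ?_ ?_
      · intro A hA
        rw [Finset.mem_singleton] at hA
        subst hA
        exact ⟨hA2, hAZ _ (hx0.2.1 hq).2.2⟩
      · intro x _ hx
        refine ⟨?_, ?_⟩
        · rw [div_le_iff₀ (by linarith)]
          linarith [(hx.2.1 hq).2.1]
        · intro A hA
          rw [Finset.mem_singleton] at hA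
          subst hA
          exact (hx.2.1 hq).1
      · rw [if_neg hp, if_pos hq, one_mul, Finset.card_singleton, pow_one, one_div_div]


theorem cell_log_prod_le {τ : Type} [Fintype τ] (g : τ → ℕ) (hg : ∀ t, 1 ≤ g t) (x : ℕ)
    (hx : ∀ t, g t ≤ x) :
    Real.log ((∏ t, g t : ℕ) : ℝ) ≤ (Fintype.card τ : ℝ) * Real.log x := by
  have h1 : ∏ t, g t ≤ x ^ Fintype.card τ := by
    calc ∏ t, g t ≤ ∏ _t : τ, x := Finset.prod_le_prod' fun t _ => hx t
      _ = x ^ Fintype.card τ := by simp
  have h0 : 0 < ∏ t, g t := Finset.prod_pos fun t _ => hg t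
  calc Real.log ((∏ t, g t : ℕ) : ℝ) ≤ Real.log ((x ^ Fintype.card τ : ℕ) : ℝ) := by
        apply Real.log_le_log
        · exact_mod_cast h0
        · exact_mod_cast h1
    _ = _ := by rw [Nat.cast_pow, Real.log_pow]

open Classical in
theorem cell_red {Z : ℝ} {α : ι → ℕ} {α' : κ → ℕ} {R : Finset ι} {R' : Finset κ} {D : ι → ℝ}
    {D' : κ → ℝ} {e : ι × κ → ℕ} {i : ι} {j : κ} {x : ℕ} (he : e (i, j) = 1)
    (h : CellOK Z α α' R R' D D' (Function.update e (i, j) x)) :
    CellOK Z α α' (R.erase i) (R'.erase j) D D' e := by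
  obtain ⟨h1, h2, h3⟩ := h
  refine ⟨?_, ?_, ?_⟩
  · intro i0 hi0
    rw [Finset.mem_erase] at hi0
    have h := h1 i0 hi0.2
    rw [cell_row_update e i j he, if_neg hi0.1, one_mul] at h
    exact h
  · intro j0 hj0
    rw [Finset.mem_erase] at hj0
    have h := h2 j0 hj0.2
    rw [cell_col_update e i j he, if_neg hj0.1, one_mul] at h
    exact h
  · intro i0 hi0 j0 hj0
    rw [Finset.mem_erase] at hi0 hj0
    have h := h3 i0 hi0.2 j0 hj0.2
    rw [cell_row_update e i j he, if_neg hi0.1, one_mul, cell_col_update e i j he, if_neg hj0.1,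
      one_mul] at h
    exact h

theorem cell_entry {Z : ℝ} {α : ι → ℕ} {α' : κ → ℕ} {R : Finset ι} {R' : Finset κ} {D : ι → ℝ}
    {D' : κ → ℝ} {e : ι × κ → ℕ} {i : ι} {j : κ} {x : ℕ} (he : e (i, j) = 1) (hx : 1 ≤ x)
    (hpos : ∀ c, 1 ≤ e c)
    (h : CellOK Z α α' R R' D D' (Function.update e (i, j) x))
    (hmax : ∀ c' : ι × κ, (c'.1 ∈ R ∨ c'.2 ∈ R') →
      Function.update e (i, j) x c' ≤ Function.update e (i, j) x (i, j)) :
    CellEntryOK (i ∈ R) (j ∈ R') (α i * ∏ j', e (i, j')) (α' j * ∏ i', e (i', j)) (D i) (D' j)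
      (Fintype.card κ) (Fintype.card ι) Z x := by
  obtain ⟨h1, h2, h3⟩ := h
  have hpos' : ∀ c, 1 ≤ Function.update e (i, j) x c := by
    intro c
    by_cases hc : c = (i, j)
    · subst hc
      simpa using hx
    · rw [Function.update_of_ne hc]
      exact hpos c
  rw [Function.update_self] at hmax
  have er : ∏ j', Function.update e (i, j) x (i, j') = x * ∏ j', e (i, j') := by
    rw [cell_row_update e i j he, if_pos rfl]
  have ec : ∏ i', Function.update e (i, j) x (i', j) = x * ∏ i', e (i', j) := by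
    rw [cell_col_update e i j he, if_pos rfl]
  refine ⟨?_, ?_, ?_⟩
  · intro hi
    have h := h1 i hi
    refine ⟨?_, ?_, ?_⟩
    · have := h.1
      rw [er] at this
      convert this using 2
      ring
    · refine h.2.1.trans ?_
      exact cell_log_prod_le (fun j' => Function.update e (i, j) x (i, j')) (fun _ => hpos' _) x
        (fun j' => hmax (i, j') (Or.inl hi))
    · have := h.2.2
      rw [er] at this
      refine le_of_eq_of_le ?_ this
      congr 1
      ring
  · intro hj
    have h := h2 j hj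
    refine ⟨?_, ?_, ?_⟩
    · have := h.1
      rw [ec] at this
      convert this using 2
      ring
    · refine h.2.1.trans ?_
      exact cell_log_prod_le (fun i' => Function.update e (i, j) x (i', j)) (fun _ => hpos' _) x
        (fun i' => hmax (i', j) (Or.inr hj))
    · have := h.2.2
      rw [ec] at this
      refine le_of_eq_of_le ?_ this
      congr 1
      ring
  · intro hi hj hEq
    apply h3 i hi j hj
    rw [er, ec]
    calc α i * (x * ∏ j', e (i, j')) = α i * (∏ j', e (i, j')) * x := by ring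
      _ = α' j * (∏ i', e (i', j)) * x := hEq
      _ = _ := by ring


open Classical in
theorem cell_inner_matrix {C : ℝ} (hC0 : 0 < C) (hC : CellLemAP C) {Z : ℝ} (hZ : 16 ≤ Z) {N : ℕ}
    (hN : (N : ℝ) ≤ Z) {fc : ι × κ → ℕ → ℝ} (hf : ∀ c, CMul (fc c))
    (hf1 : ∀ c, ∀ r : ℕ, r.Prime → fc c r ≤ 1) [Nonempty ι] [Nonempty κ]
    {α : ι → ℕ} {α' : κ → ℕ} (hα : ∀ i, 1 ≤ α i) (hα' : ∀ j, 1 ≤ α' j)
    {R : Finset ι} {R' : Finset κ} {L : Finset (ι × κ)} {D : ι → ℝ} {D' : κ → ℝ}
    (hD : ∀ i ∈ R, 2 * (Fintype.card κ : ℝ) ≤ D i) (hD' : ∀ j ∈ R', 2 * (Fintype.card ι : ℝ) ≤ D' j)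
    (i : ι) (j : κ) (hij : i ∈ R ∨ j ∈ R') (hL : (i, j) ∈ L) (e : ι × κ → ℕ)
    (he : e ∈ Fintype.piFinset (cellS (L.erase (i, j)) N)) :
    ∑ x ∈ Finset.Icc 1 N, Set.indicator {d | CellOK Z α α' R R' D D' d ∧
        ∀ c' : ι × κ, (c'.1 ∈ R ∨ c'.2 ∈ R') → d c' ≤ d (i, j)} (cellW fc L)
          (Function.update e (i, j) x) ≤
      (C * (1 + LL Z) ^ C * ((if i ∈ R then (Fintype.card κ : ℝ) / D i else 1) *
          (if j ∈ R' then (Fintype.card ι : ℝ) / D' j else 1)) *
        Real.exp (∑ r ∈ (Finset.Icc 1 N).filter Nat.Prime, fc (i, j) r / (r : ℝ))) *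
      Set.indicator {d | CellOK Z α α' (R.erase i) (R'.erase j) D D' d}
        (cellW fc (L.erase (i, j))) e := by
  have hpos : ∀ c, 1 ≤ e c := fun c => cell_pos he c
  have he1 : e (i, j) = 1 := by
    rcases mem_cellS.1 (Fintype.mem_piFinset.1 he (i, j)) with h | h
    · exact absurd h.1 (Finset.notMem_erase _ _)
    · exact h.2
  have hk : (1 : ℝ) ≤ Fintype.card κ := by exact_mod_cast Fintype.card_pos
  have hl : (1 : ℝ) ≤ Fintype.card ι := by exact_mod_cast Fintype.card_pos
  by_cases hred : CellOK Z α α' (R.erase i) (R'.erase j) D D' e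
  · rw [Set.indicator_of_mem (show e ∈ {d | CellOK Z α α' (R.erase i) (R'.erase j) D D' d} from hred)]
    have hb := cell_inner_bound hC0 hC hZ hN (hf (i, j)) (hf1 (i, j)) (i ∈ R) (j ∈ R') hij
      (A1 := α i * ∏ j', e (i, j')) (A2 := α' j * ∏ i', e (i', j))
      (Nat.mul_pos (hα i) (Finset.prod_pos fun _ _ => hpos _))
      (Nat.mul_pos (hα' j) (Finset.prod_pos fun _ _ => hpos _))
      (a := D i) (b := D' j) (k := Fintype.card κ) (l := Fintype.card ι) hk hl
      (fun h => hD i h) (fun h => hD' j h)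
    refine le_trans ?_ (mul_le_mul_of_nonneg_right hb (cellW_nonneg hf _ _))
    rw [Finset.sum_filter, Finset.sum_mul]
    refine Finset.sum_le_sum fun x hx => ?_
    have hx1 := (Finset.mem_Icc.1 hx).1
    have hnn : 0 ≤ fc (i, j) x / (x : ℝ) := div_nonneg ((hf _).2.2 _) (Nat.cast_nonneg _)
    by_cases hin : Function.update e (i, j) x ∈ {d | CellOK Z α α' R R' D D' d ∧
        ∀ c' : ι × κ, (c'.1 ∈ R ∨ c'.2 ∈ R') → d c' ≤ d (i, j)}
    · rw [Set.indicator_of_mem hin, if_pos (cell_entry he1 hx1 hpos hin.1 hin.2),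
        cellW_update fc L (i, j) hL e x]
      exact le_of_eq (mul_comm _ _)
    · rw [Set.indicator_of_notMem hin]
      apply mul_nonneg _ (cellW_nonneg hf _ _)
      split_ifs
      · exact hnn
      · exact le_refl _
  · rw [Set.indicator_of_notMem (show e ∉ {d | CellOK Z α α' (R.erase i) (R'.erase j) D D' d}
      from hred), mul_zero]
    apply le_of_eq
    refine Finset.sum_eq_zero fun x _ => ?_
    rw [Set.indicator_of_notMem]
    intro h
    exact hred (cell_red he1 h.1)

open Classical in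
theorem cells_aux {C0 C1 : ℝ} (hC0 : 0 < C0) (hC : CellLemAP C0) (h1C : 1 ≤ C1)
    (hC1 : ∀ (f : ℕ → ℝ) (z : ℝ) (N : ℕ), CMul f → 2 ≤ z →
      (∀ r : ℕ, r.Prime → f r / r ≤ 3 / 4) →
      (∑ r ∈ (Finset.Icc 1 ⌊z⌋₊).filter Nat.Prime, (f r / r) ^ 2 ≤ 1) →
      ∑ n ∈ Finset.Icc 1 N, Set.indicator {n | IsSm z n} (fun n => f n / (n : ℝ)) n ≤
        C1 * Real.exp (∑ r ∈ (Finset.Icc 1 ⌊z⌋₊).filter Nat.Prime, f r / (r : ℝ)))
    {Z : ℝ} (hZ : 16 ≤ Z) {N : ℕ}
    (hN : (N : ℝ) ≤ Z) {fc : ι × κ → ℕ → ℝ} (hf : ∀ c, CMul (fc c))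
    (hf1 : ∀ c, ∀ r : ℕ, r.Prime → fc c r ≤ 1) [Nonempty ι] [Nonempty κ]
    {α : ι → ℕ} {α' : κ → ℕ} (hα : ∀ i, 1 ≤ α i) (hα' : ∀ j, 1 ≤ α' j)
    {D : ι → ℝ} {D' : κ → ℝ} {K : ℝ} (hK1 : 1 ≤ K)
    (hK : C0 * (1 + LL Z) ^ C0 * ((Fintype.card ι : ℝ) * Fintype.card κ) ^ 3 ≤ K) :
    ∀ (n : ℕ) (R : Finset ι) (R' : Finset κ) (L : Finset (ι × κ)), R.card + R'.card = n →
      (∀ c, c ∉ L → c.1 ∉ R ∧ c.2 ∉ R') →
      (∀ i ∈ R, 2 * (Fintype.card κ : ℝ) ≤ D i) → (∀ j ∈ R', 2 * (Fintype.card ι : ℝ) ≤ D' j) →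
      ∑ d ∈ Fintype.piFinset (cellS L N),
        Set.indicator {d | CellOK Z α α' R R' D D' d} (cellW fc L) d ≤
      K ^ n * C1 ^ L.card * (∏ i ∈ R, 1 / D i) * (∏ j ∈ R', 1 / D' j) *
        ∏ c ∈ L, Real.exp (∑ r ∈ (Finset.Icc 1 N).filter Nat.Prime, fc c r / (r : ℝ)) := by
  have hLL := cell_LL_nonneg hZ
  have hK0 : 0 < C0 * (1 + LL Z) ^ C0 := mul_pos hC0 (Real.rpow_pos_of_pos (by linarith) _)
  have hk : (1 : ℝ) ≤ Fintype.card κ := by exact_mod_cast Fintype.card_pos
  have hl : (1 : ℝ) ≤ Fintype.card ι := by exact_mod_cast Fintype.card_pos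
  set M : ℝ := (Fintype.card ι : ℝ) * Fintype.card κ with hM
  have hM1 : 1 ≤ M := by nlinarith
  have hkM : (Fintype.card κ : ℝ) ≤ M := by nlinarith
  have hlM : (Fintype.card ι : ℝ) ≤ M := by nlinarith
  intro n
  induction n using Nat.strong_induction_on with
  | _ n IH =>
    intro R R' L hn hLive hD hD'
    rcases Nat.eq_zero_or_pos n with hn0 | hnpos
    · -- base
      subst hn0
      have hR : R = ∅ := Finset.card_eq_zero.1 (by omega)
      have hR' : R' = ∅ := Finset.card_eq_zero.1 (by omega)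
      subst hR
      subst hR'
      rw [Finset.prod_empty, Finset.prod_empty, pow_zero, one_mul, mul_one, mul_one]
      calc ∑ d ∈ Fintype.piFinset (cellS L N),
            Set.indicator {d | CellOK Z α α' ∅ ∅ D D' d} (cellW fc L) d ≤
            ∑ d ∈ Fintype.piFinset (cellS L N), cellW fc L d :=
              Finset.sum_le_sum fun d _ => Set.indicator_le_self' (fun _ _ => cellW_nonneg hf _ _) d
        _ = ∏ c ∈ L, ∑ x ∈ Finset.Icc 1 N, fc c x / (x : ℝ) := cell_base fc L N
        _ ≤ ∏ c ∈ L, (C1 * Real.exp (∑ r ∈ (Finset.Icc 1 N).filter Nat.Prime,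
              fc c r / (r : ℝ))) := by
            apply Finset.prod_le_prod
            · intro c _
              exact Finset.sum_nonneg fun x _ => div_nonneg ((hf c).2.2 _) (Nat.cast_nonneg _)
            · intro c _
              exact cell_free h1C hC1 (fc c) N (hf c) (hf1 c)
        _ = _ := by rw [Finset.prod_mul_distrib, Finset.prod_const]
    · -- step
      set A : Finset (ι × κ) := Finset.univ.filter (fun c => c.1 ∈ R ∨ c.2 ∈ R') with hA
      have hAL : ∀ c ∈ A, c ∈ L := by
        intro c hc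
        by_contra hcL
        have h := hLive c hcL
        rw [hA, Finset.mem_filter] at hc
        rcases hc.2 with h' | h'
        · exact h.1 h'
        · exact h.2 h'
      have hAne : A.Nonempty := by
        have : R.Nonempty ∨ R'.Nonempty := by
          rw [← Finset.card_pos, ← Finset.card_pos]
          omega
        rcases this with ⟨i, hi⟩ | ⟨j, hj⟩
        · exact ⟨(i, Classical.arbitrary κ), by rw [hA, Finset.mem_filter]; exact ⟨Finset.mem_univ _, Or.inl hi⟩⟩
        · exact ⟨(Classical.arbitrary ι, j), by rw [hA, Finset.mem_filter]; exact ⟨Finset.mem_univ _, Or.inr hj⟩⟩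
      have hAcard : (A.card : ℝ) ≤ M := by
        have h1 : A.card ≤ Fintype.card (ι × κ) := Finset.card_le_univ A
        rw [Fintype.card_prod] at h1
        rw [hM]
        exact_mod_cast h1
      set RHS : ℝ := K ^ (n - 1) * C1 ^ L.card * (∏ i ∈ R, 1 / D i) * (∏ j ∈ R', 1 / D' j) *
        ∏ c ∈ L, Real.exp (∑ r ∈ (Finset.Icc 1 N).filter Nat.Prime, fc c r / (r : ℝ)) with hRHS
      have hDpos : ∀ i ∈ R, 0 < D i := fun i hi => by
        have := hD i hi
        linarith
      have hD'pos : ∀ j ∈ R', 0 < D' j := fun j hj => by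
        have := hD' j hj
        linarith
      have hpR : 0 ≤ ∏ i ∈ R, 1 / D i := Finset.prod_nonneg fun i hi => by
        have := hDpos i hi
        positivity
      have hpR' : 0 ≤ ∏ j ∈ R', 1 / D' j := Finset.prod_nonneg fun j hj => by
        have := hD'pos j hj
        positivity
      have hpE : ∀ L' : Finset (ι × κ), 0 ≤ ∏ c ∈ L', Real.exp (∑ r ∈ (Finset.Icc 1 N).filter Nat.Prime,
          fc c r / (r : ℝ)) := fun L' => Finset.prod_nonneg fun c _ => (Real.exp_pos _).le
      have hRHS0 : 0 ≤ RHS := by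
        rw [hRHS]
        have : 0 ≤ K ^ (n - 1) := pow_nonneg (by linarith) _
        have : 0 ≤ C1 ^ L.card := pow_nonneg (by linarith) _
        have := hpE L
        positivity
      -- bound for one cell
      have hcell : ∀ c ∈ A, ∑ d ∈ Fintype.piFinset (cellS L N),
          Set.indicator {d | CellOK Z α α' R R' D D' d ∧
            ∀ c' : ι × κ, (c'.1 ∈ R ∨ c'.2 ∈ R') → d c' ≤ d c} (cellW fc L) d ≤
          C0 * (1 + LL Z) ^ C0 * M ^ 2 * RHS := by
        rintro ⟨i, j⟩ hc
        have hij : i ∈ R ∨ j ∈ R' := by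
          rw [hA, Finset.mem_filter] at hc
          exact hc.2
        have hcL := hAL _ hc
        rw [cell_split L N (i, j) hcL]
        have hcard : (R.erase i).card + (R'.erase j).card ≤ n - 1 := by
          rcases hij with hi | hj
          · have h1 := Finset.card_erase_of_mem hi
            have h2 := Finset.card_erase_le (a := j) (s := R')
            have h3 : 0 < R.card := Finset.card_pos.2 ⟨i, hi⟩
            omega
          · have h1 := Finset.card_erase_of_mem hj
            have h2 := Finset.card_erase_le (a := i) (s := R)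
            have h3 : 0 < R'.card := Finset.card_pos.2 ⟨j, hj⟩
            omega
        have hIH := IH _ (by omega : (R.erase i).card + (R'.erase j).card < n) (R.erase i) (R'.erase j)
          (L.erase (i, j)) rfl (by
            intro c hcn
            by_cases hce : c = (i, j)
            · subst hce
              exact ⟨Finset.notMem_erase _ _, Finset.notMem_erase _ _⟩
            · have hcL' : c ∉ L := fun h => hcn (Finset.mem_erase.2 ⟨hce, h⟩)
              have h := hLive c hcL'
              exact ⟨fun h' => h.1 (Finset.mem_of_mem_erase h'), fun h' => h.2 (Finset.mem_of_mem_erase h')⟩)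
          (fun i' hi' => hD i' (Finset.mem_of_mem_erase hi'))
          (fun j' hj' => hD' j' (Finset.mem_of_mem_erase hj'))
        set B : ℝ := C0 * (1 + LL Z) ^ C0 * ((if i ∈ R then (Fintype.card κ : ℝ) / D i else 1) *
          (if j ∈ R' then (Fintype.card ι : ℝ) / D' j else 1)) *
          Real.exp (∑ r ∈ (Finset.Icc 1 N).filter Nat.Prime, fc (i, j) r / (r : ℝ)) with hB
        have hp0 : 0 ≤ (if i ∈ R then (Fintype.card κ : ℝ) / D i else 1) := by
          split_ifs with h
          · exact div_nonneg (by linarith) (hDpos i h).le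
          · norm_num
        have hq0 : 0 ≤ (if j ∈ R' then (Fintype.card ι : ℝ) / D' j else 1) := by
          split_ifs with h
          · exact div_nonneg (by linarith) (hD'pos j h).le
          · norm_num
        have hB0 : 0 ≤ B := by
          rw [hB]
          have := Real.exp_pos (∑ r ∈ (Finset.Icc 1 N).filter Nat.Prime, fc (i, j) r / (r : ℝ))
          positivity
        have hstep : ∑ e ∈ Fintype.piFinset (cellS (L.erase (i, j)) N), ∑ x ∈ Finset.Icc 1 N,
            Set.indicator {d | CellOK Z α α' R R' D D' d ∧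
              ∀ c' : ι × κ, (c'.1 ∈ R ∨ c'.2 ∈ R') → d c' ≤ d (i, j)} (cellW fc L)
              (Function.update e (i, j) x) ≤
            B * (K ^ ((R.erase i).card + (R'.erase j).card) * C1 ^ (L.erase (i, j)).card *
              (∏ i ∈ R.erase i, 1 / D i) * (∏ j ∈ R'.erase j, 1 / D' j) *
              ∏ c ∈ L.erase (i, j), Real.exp (∑ r ∈ (Finset.Icc 1 N).filter Nat.Prime,
                fc c r / (r : ℝ))) := by
          refine le_trans (Finset.sum_le_sum fun e he =>
            cell_inner_matrix hC0 hC hZ hN hf hf1 hα hα' hD hD' i j hij hcL e he) ?_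
          rw [← Finset.mul_sum]
          exact mul_le_mul_of_nonneg_left hIH hB0
        refine hstep.trans ?_
        -- compare the factors
        have f1 : (if i ∈ R then (Fintype.card κ : ℝ) / D i else 1) * ∏ i ∈ R.erase i, 1 / D i ≤
            M * ∏ i ∈ R, 1 / D i := by
          split_ifs with h
          · rw [← Finset.mul_prod_erase R (fun i => 1 / D i) h]
            have hpe : 0 ≤ ∏ i ∈ R.erase i, 1 / D i := Finset.prod_nonneg fun i' hi' => by
              have := hDpos i' (Finset.mem_of_mem_erase hi')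
              positivity
            have hDi := hDpos i h
            calc (Fintype.card κ : ℝ) / D i * ∏ i ∈ R.erase i, 1 / D i =
                (Fintype.card κ : ℝ) * (1 / D i * ∏ i ∈ R.erase i, 1 / D i) := by ring
              _ ≤ M * (1 / D i * ∏ i ∈ R.erase i, 1 / D i) := by
                apply mul_le_mul_of_nonneg_right hkM
                positivity
          · rw [Finset.erase_eq_of_notMem h]
            exact mul_le_mul_of_nonneg_right hM1 hpR
        have f2 : (if j ∈ R' then (Fintype.card ι : ℝ) / D' j else 1) * ∏ j ∈ R'.erase j, 1 / D' j ≤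
            M * ∏ j ∈ R', 1 / D' j := by
          split_ifs with h
          · rw [← Finset.mul_prod_erase R' (fun j => 1 / D' j) h]
            have hpe : 0 ≤ ∏ j ∈ R'.erase j, 1 / D' j := Finset.prod_nonneg fun j' hj' => by
              have := hD'pos j' (Finset.mem_of_mem_erase hj')
              positivity
            have hDj := hD'pos j h
            calc (Fintype.card ι : ℝ) / D' j * ∏ j ∈ R'.erase j, 1 / D' j =
                (Fintype.card ι : ℝ) * (1 / D' j * ∏ j ∈ R'.erase j, 1 / D' j) := by ring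
              _ ≤ M * (1 / D' j * ∏ j ∈ R'.erase j, 1 / D' j) := by
                apply mul_le_mul_of_nonneg_right hlM
                positivity
          · rw [Finset.erase_eq_of_notMem h]
            exact mul_le_mul_of_nonneg_right hM1 hpR'
        have f3 : Real.exp (∑ r ∈ (Finset.Icc 1 N).filter Nat.Prime, fc (i, j) r / (r : ℝ)) *
            ∏ c ∈ L.erase (i, j), Real.exp (∑ r ∈ (Finset.Icc 1 N).filter Nat.Prime,
              fc c r / (r : ℝ)) =
            ∏ c ∈ L, Real.exp (∑ r ∈ (Finset.Icc 1 N).filter Nat.Prime, fc c r / (r : ℝ)) :=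
          Finset.mul_prod_erase L (fun c => Real.exp (∑ r ∈ (Finset.Icc 1 N).filter Nat.Prime,
            fc c r / (r : ℝ))) hcL
        have f4 : K ^ ((R.erase i).card + (R'.erase j).card) ≤ K ^ (n - 1) :=
          pow_le_pow_right₀ hK1 hcard
        have f5 : C1 ^ (L.erase (i, j)).card ≤ C1 ^ L.card :=
          pow_le_pow_right₀ h1C (Finset.card_erase_le)
        have hpeR : 0 ≤ ∏ i ∈ R.erase i, 1 / D i := Finset.prod_nonneg fun i' hi' => by
          have := hDpos i' (Finset.mem_of_mem_erase hi')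
          positivity
        have hpeR' : 0 ≤ ∏ j ∈ R'.erase j, 1 / D' j := Finset.prod_nonneg fun j' hj' => by
          have := hD'pos j' (Finset.mem_of_mem_erase hj')
          positivity
        have hKn : 0 ≤ K ^ ((R.erase i).card + (R'.erase j).card) := pow_nonneg (by linarith) _
        have hCn : 0 ≤ C1 ^ (L.erase (i, j)).card := pow_nonneg (by linarith) _
        have hCL : 0 ≤ C1 ^ L.card := pow_nonneg (by linarith) _
        have hKn1 : 0 ≤ K ^ (n - 1) := pow_nonneg (by linarith) _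
        rw [hB, hRHS, ← f3]
        have hE1 := Real.exp_pos (∑ r ∈ (Finset.Icc 1 N).filter Nat.Prime, fc (i, j) r / (r : ℝ))
        have hE2 := hpE (L.erase (i, j))
        calc _ = (C0 * (1 + LL Z) ^ C0) *
              (K ^ ((R.erase i).card + (R'.erase j).card) * C1 ^ (L.erase (i, j)).card) *
              (((if i ∈ R then (Fintype.card κ : ℝ) / D i else 1) * ∏ i ∈ R.erase i, 1 / D i) *
              ((if j ∈ R' then (Fintype.card ι : ℝ) / D' j else 1) * ∏ j ∈ R'.erase j, 1 / D' j)) *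
              (Real.exp (∑ r ∈ (Finset.Icc 1 N).filter Nat.Prime, fc (i, j) r / (r : ℝ)) *
              ∏ c ∈ L.erase (i, j), Real.exp (∑ r ∈ (Finset.Icc 1 N).filter Nat.Prime,
                fc c r / (r : ℝ))) := by ring
          _ ≤ (C0 * (1 + LL Z) ^ C0) * (K ^ (n - 1) * C1 ^ L.card) *
              ((M * ∏ i ∈ R, 1 / D i) * (M * ∏ j ∈ R', 1 / D' j)) *
              (Real.exp (∑ r ∈ (Finset.Icc 1 N).filter Nat.Prime, fc (i, j) r / (r : ℝ)) *
              ∏ c ∈ L.erase (i, j), Real.exp (∑ r ∈ (Finset.Icc 1 N).filter Nat.Prime,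
                fc c r / (r : ℝ))) := by
            apply mul_le_mul_of_nonneg_right _ (by positivity)
            apply mul_le_mul
            · apply mul_le_mul_of_nonneg_left _ hK0.le
              exact mul_le_mul f4 f5 hCn hKn1
            · exact mul_le_mul f1 f2 (mul_nonneg hq0 hpeR') (by positivity)
            · exact mul_nonneg (mul_nonneg hp0 hpeR) (mul_nonneg hq0 hpeR')
            · positivity
          _ = _ := by ring
      -- choose the largest entry
      have hmain : ∀ d : ι × κ → ℕ,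
          Set.indicator {d | CellOK Z α α' R R' D D' d} (cellW fc L) d ≤
          ∑ c ∈ A, Set.indicator {d | CellOK Z α α' R R' D D' d ∧
            ∀ c' : ι × κ, (c'.1 ∈ R ∨ c'.2 ∈ R') → d c' ≤ d c} (cellW fc L) d := by
        intro d
        have hnn : ∀ c ∈ A, 0 ≤ Set.indicator {d | CellOK Z α α' R R' D D' d ∧
            ∀ c' : ι × κ, (c'.1 ∈ R ∨ c'.2 ∈ R') → d c' ≤ d c} (cellW fc L) d := fun c _ =>
          Set.indicator_nonneg (fun _ _ => cellW_nonneg hf _ _) _
        by_cases hd : CellOK Z α α' R R' D D' d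
        · obtain ⟨c, hcA, hcmax⟩ := Finset.exists_max_image A (fun c => d c) hAne
          refine le_trans ?_ (Finset.single_le_sum hnn hcA)
          rw [Set.indicator_of_mem (show d ∈ {d | CellOK Z α α' R R' D D' d} from hd),
            Set.indicator_of_mem]
          refine ⟨hd, fun c' hc' => hcmax c' ?_⟩
          rw [hA, Finset.mem_filter]
          exact ⟨Finset.mem_univ _, hc'⟩
        · rw [Set.indicator_of_notMem (show d ∉ {d | CellOK Z α α' R R' D D' d} from hd)]
          exact Finset.sum_nonneg hnn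
      have hKn : K ^ n = K * K ^ (n - 1) := by
        rw [← pow_succ']
        congr 1
        omega
      calc ∑ d ∈ Fintype.piFinset (cellS L N),
            Set.indicator {d | CellOK Z α α' R R' D D' d} (cellW fc L) d ≤
            ∑ d ∈ Fintype.piFinset (cellS L N), ∑ c ∈ A,
              Set.indicator {d | CellOK Z α α' R R' D D' d ∧
              ∀ c' : ι × κ, (c'.1 ∈ R ∨ c'.2 ∈ R') → d c' ≤ d c} (cellW fc L) d :=
              Finset.sum_le_sum fun d _ => hmain d
        _ = ∑ c ∈ A, ∑ d ∈ Fintype.piFinset (cellS L N),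
              Set.indicator {d | CellOK Z α α' R R' D D' d ∧
              ∀ c' : ι × κ, (c'.1 ∈ R ∨ c'.2 ∈ R') → d c' ≤ d c} (cellW fc L) d := Finset.sum_comm
        _ ≤ ∑ _c ∈ A, C0 * (1 + LL Z) ^ C0 * M ^ 2 * RHS := Finset.sum_le_sum hcell
        _ = A.card * (C0 * (1 + LL Z) ^ C0 * M ^ 2 * RHS) := by
            rw [Finset.sum_const, nsmul_eq_mul]
        _ ≤ M * (C0 * (1 + LL Z) ^ C0 * M ^ 2 * RHS) := by
            apply mul_le_mul_of_nonneg_right hAcard
            positivity
        _ = (C0 * (1 + LL Z) ^ C0 * M ^ 3) * RHS := by ring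
        _ ≤ K * RHS := mul_le_mul_of_nonneg_right hK hRHS0
        _ = _ := by
            rw [hRHS, hKn]
            ring

theorem cells : ∃ C : ℝ, 0 < C ∧ ∀ (ι κ : Type) [Fintype ι] [DecidableEq ι] [Fintype κ]
    [DecidableEq κ] [Nonempty ι] [Nonempty κ] (Z : ℝ) (N : ℕ) (fc : ι × κ → ℕ → ℝ) (α : ι → ℕ) (α' : κ → ℕ)
    (R : Finset ι) (R' : Finset κ) (L : Finset (ι × κ)) (D : ι → ℝ) (D' : κ → ℝ),
    16 ≤ Z → (N : ℝ) ≤ Z → (∀ c, CMul (fc c)) → (∀ c, ∀ r : ℕ, r.Prime → fc c r ≤ 1) →
    (∀ i, 1 ≤ α i) → (∀ j, 1 ≤ α' j) → (∀ c, c ∉ L → c.1 ∉ R ∧ c.2 ∉ R') →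
    (∀ i ∈ R, 2 * (Fintype.card κ : ℝ) ≤ D i) → (∀ j ∈ R', 2 * (Fintype.card ι : ℝ) ≤ D' j) →
    ∑ d ∈ Fintype.piFinset (fun c : ι × κ => if c ∈ L then Finset.Icc 1 N else {1}),
        Set.indicator {d | CellOK Z α α' R R' D D' d}
          (fun d : ι × κ → ℕ => ∏ c ∈ L, fc c (d c) / (d c : ℝ)) d ≤
      (C * (1 + LL Z) ^ C * (Fintype.card ι * Fintype.card κ : ℝ) ^ 3) ^ (R.card + R'.card) *
        C ^ L.card * (∏ i ∈ R, 1 / D i) * (∏ j ∈ R', 1 / D' j) *
        ∏ c ∈ L, Real.exp (∑ r ∈ (Finset.Icc 1 N).filter Nat.Prime, fc c r / (r : ℝ)) := by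
  obtain ⟨C0, hC0, hC⟩ := lemA'
  obtain ⟨C1, hC1pos, hC1⟩ := euler_bound 1
  refine ⟨max (max C0 C1) 1, by positivity, ?_⟩
  intro ι κ _ _ _ _ _ _ Z N fc α α' R R' L D D' hZ hN hf hf1 hα hα' hL hD hD'
  set C : ℝ := max (max C0 C1) 1 with hCdef
  have hCC0 : C0 ≤ C := le_trans (le_max_left _ _) (le_max_left _ _)
  have hCC1 : C1 ≤ C := le_trans (le_max_right _ _) (le_max_left _ _)
  have hC1' : 1 ≤ C := le_max_right _ _
  have hLL := cell_LL_nonneg hZ
  have hk : (1 : ℝ) ≤ Fintype.card κ := by exact_mod_cast Fintype.card_pos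
  have hl : (1 : ℝ) ≤ Fintype.card ι := by exact_mod_cast Fintype.card_pos
  have hM1 : (1 : ℝ) ≤ (Fintype.card ι : ℝ) * Fintype.card κ := by nlinarith
  have hM3 : (1 : ℝ) ≤ ((Fintype.card ι : ℝ) * Fintype.card κ) ^ 3 := one_le_pow₀ hM1
  have hrp : (1 + LL Z) ^ C0 ≤ (1 + LL Z) ^ C :=
    Real.rpow_le_rpow_of_exponent_le (by linarith) hCC0
  have hrp1 : 1 ≤ (1 + LL Z) ^ C := Real.one_le_rpow (by linarith) (by linarith)
  have hrp0 : 0 < (1 + LL Z) ^ C0 := Real.rpow_pos_of_pos (by linarith) _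
  have h := cells_aux (C0 := C0) (C1 := C) hC0 hC hC1'
    (fun f z N h1 h2 h3 h4 => (hC1 f z N h1 h2 h3 h4).trans
      (mul_le_mul_of_nonneg_right hCC1 (Real.exp_pos _).le))
    hZ hN hf hf1 hα hα' (D := D) (D' := D')
    (K := C * (1 + LL Z) ^ C * (Fintype.card ι * Fintype.card κ : ℝ) ^ 3) (by
      have : 1 ≤ C * (1 + LL Z) ^ C := by nlinarith
      nlinarith) (by
      apply mul_le_mul_of_nonneg_right _ (by positivity)
      exact mul_le_mul hCC0 hrp hrp0.le (by linarith)) _ R R' L rfl hL hD hD'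
  exact h

end P031
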