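import Vale.Agent.P031.Prof

/-!
# P031, module COB: the Rankin weight and the exponent inequality

`J(s) = #{i : S + s ≤ u i}`, `J'(s) = #{j : S + s ≤ w j}`.

PROOF of `co_rankin`.  Let `g(s) = log (#{j : s ≤ w j} + 1)` (levels `s ≥ S`), nonincreasing, `0` for `s ≥ S + 4U`.
`- log (lwt (zw U w) v) = ∑_{r ∣ v, lev r ≥ S} g(lev r) = ∑_{s ≥ S} (g(s) - g(s+1)) Lv S (s+1) v` (Abel) and
`g(s) ≠ g(s+1)` only for `s = w j`, where `s + 1 ≤ LL X + 3` and the hypothesis applies:
`Lv S (s+1) v ≤ (s+1-S) + ∑_i (min (s+1) (u_i+1) - S) + B = ∑_{s'=S}^{s} (1 + #{i : s' ≤ u i}) + B`.  Sum by parts back: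
`≤ ∑_{s < 4U} (1 + J(s)) log (J'(s)+1) + B log (l+1)`.

PROOF of `co_exp`: `∑_{s<4U} J'(s) = ∑_j (w_j + 1 - S)` and pointwise, with `x = J+1`, `y = J'+1 ≥ 1`:
`x log y - y ≤ x log x - x` (`log (y/x) ≤ y/x - 1`), i.e. `(J+1) log (J'+1) - J' ≤ Q(J+1)`.
-/

namespace P031

open scoped BigOperators

/-- the cost of a level vector -/
noncomputable def pcost (U : ℕ) {k : ℕ} (u : Fin k → ℕ) : ℝ :=
  ∑ s ∈ Finset.range (4 * U), QQ ((Finset.univ.filter (fun i => SS U + s ≤ u i)).card + 1)

/-- Rankin weights: `1` below level `S`, `1/(J'+1)` above -/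
noncomputable def zw (U : ℕ) {l : ℕ} (w : Fin l → ℕ) (s : ℕ) : ℝ :=
  if s < SS U then 1 else 1 / (((Finset.univ.filter (fun j => s ≤ w j)).card : ℝ) + 1)

/-- the mixed exponent -/
noncomputable def mexp (U : ℕ) {k l : ℕ} (u : Fin k → ℕ) (w : Fin l → ℕ) : ℝ :=
  ∑ s ∈ Finset.range (4 * U), (((Finset.univ.filter (fun i => SS U + s ≤ u i)).card : ℝ) + 1) *
    Real.log (((Finset.univ.filter (fun j => SS U + s ≤ w j)).card : ℝ) + 1)


/-- Abel summation -/
theorem cob_abel (c f : ℕ → ℝ) (N : ℕ) :
    ∑ s ∈ Finset.range N, c s * f s =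
      ∑ t ∈ Finset.range N, (f t - f (t + 1)) * ∑ s ∈ Finset.range (t + 1), c s +
        f N * ∑ s ∈ Finset.range N, c s := by
  induction N with
  | zero => simp
  | succ N ih =>
    rw [Finset.sum_range_succ, ih, Finset.sum_range_succ (fun t => (f t - f (t + 1)) *
      ∑ s ∈ Finset.range (t + 1), c s), Finset.sum_range_succ c N]
    ring

/-- telescoping at one level -/
theorem cob_tele (f : ℕ → ℝ) (N a : ℕ) (hf : ∀ t, N ≤ t → f t = 0) :
    f a = ∑ t ∈ Finset.range N, (f t - f (t + 1)) * (if a ≤ t then 1 else 0) := by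
  by_cases ha : a ≤ N
  · have key : ∀ M, a ≤ M → ∑ t ∈ Finset.range M, (f t - f (t + 1)) * (if a ≤ t then (1 : ℝ) else 0) =
        f a - f M := by
      intro M hM
      induction M, hM using Nat.le_induction with
      | base =>
        rw [sub_self]
        apply Finset.sum_eq_zero
        intro t ht
        rw [Finset.mem_range] at ht
        rw [if_neg (by omega), mul_zero]
      | succ M hM ih =>
        rw [Finset.sum_range_succ, ih, if_pos hM]
        ring
    rw [key N ha, hf N le_rfl, sub_zero]
  · rw [hf a (by omega)]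
    symm
    apply Finset.sum_eq_zero
    intro t ht
    rw [Finset.mem_range] at ht
    rw [if_neg (by omega), mul_zero]

/-- the exponent of a list of primes, by Abel summation -/
theorem cob_list (S N : ℕ) (g : ℕ → ℝ) (hg : ∀ t, S + N ≤ t → g t = 0) (L : List ℕ) :
    (L.map (fun r => if S ≤ lev r then g (lev r) else 0)).sum =
      ∑ t ∈ Finset.range N, (g (S + t) - g (S + (t + 1))) *
        ((L.countP (fun r => decide (S ≤ lev r ∧ lev r < S + (t + 1))) : ℕ) : ℝ) := by
  induction L with
  | nil => simp
  | cons r L ih =>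
    rw [List.map_cons, List.sum_cons, ih]
    have h1 : (if S ≤ lev r then g (lev r) else 0) =
        ∑ t ∈ Finset.range N, (g (S + t) - g (S + (t + 1))) *
          (if S ≤ lev r ∧ lev r < S + (t + 1) then 1 else 0) := by
      by_cases hS : S ≤ lev r
      · rw [if_pos hS]
        obtain ⟨a, ha⟩ := Nat.exists_eq_add_of_le hS
        have := cob_tele (fun t => g (S + t)) N a (fun t ht => hg _ (by omega))
        rw [ha]
        beta_reduce at this
        rw [this]
        apply Finset.sum_congr rfl
        intro t _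
        congr 1
        by_cases hat : a ≤ t
        · rw [if_pos hat, if_pos ⟨by omega, by omega⟩]
        · rw [if_neg hat, if_neg (by omega)]
      · rw [if_neg hS]
        symm
        apply Finset.sum_eq_zero
        intro t _
        rw [if_neg (fun h => hS h.1), mul_zero]
    rw [h1, ← Finset.sum_add_distrib]
    apply Finset.sum_congr rfl
    intro t _
    rw [List.countP_cons, Nat.cast_add, mul_add, add_comm]
    congr 2
    by_cases hh : S ≤ lev r ∧ lev r < S + (t + 1)
    · rw [if_pos hh]; simp [hh.1, hh.2]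
    · rw [if_neg hh]; simp only [decide_eq_true_eq]; rw [if_neg hh]; simp

/-- `#{s' ∈ [S, S + t] : s' ≤ u}` -/
theorem cob_min (S t u : ℕ) (hu : S ≤ u) :
    ∑ s ∈ Finset.range (t + 1), (if S + s ≤ u then (1 : ℝ) else 0) =
      ((min (S + (t + 1)) (u + 1) : ℕ) : ℝ) - S := by
  obtain ⟨a, rfl⟩ := Nat.exists_eq_add_of_le hu
  have h1 : min (S + (t + 1)) (S + a + 1) = S + min (t + 1) (a + 1) := by omega
  rw [h1, Nat.cast_add, add_sub_cancel_left, Finset.sum_ite, Finset.sum_const_zero, add_zero,
    Finset.sum_const, nsmul_eq_mul, mul_one]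
  congr 1
  have : (Finset.range (t + 1)).filter (fun s => S + s ≤ S + a) = Finset.range (min (t + 1) (a + 1)) := by
    ext s
    simp only [Finset.mem_filter, Finset.mem_range]
    omega
  rw [this, Finset.card_range]

theorem cob_prod (z g : ℕ → ℝ) (L : List ℕ) (h : ∀ r ∈ L, z r * Real.exp (g r) = 1) :
    (L.map z).prod * Real.exp (L.map g).sum = 1 := by
  induction L with
  | nil => simp
  | cons r L ih =>
    rw [List.map_cons, List.map_cons, List.prod_cons, List.sum_cons, Real.exp_add]
    have h1 := h r (by simp)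
    have h2 := ih (fun r hr => h r (by simp [hr]))
    calc z r * (L.map z).prod * (Real.exp (g r) * Real.exp (L.map g).sum)
        = (z r * Real.exp (g r)) * ((L.map z).prod * Real.exp (L.map g).sum) := by ring
      _ = 1 := by rw [h1, h2, one_mul]

theorem co_rankin (U : ℕ) (T B : ℝ) {k l : ℕ} (u : Fin k → ℕ) (w : Fin l → ℕ) (v : ℕ) (hv : 1 ≤ v)
    (hB : 0 ≤ B) (hu : ∀ i, SS U ≤ u i) (hw : ∀ j, SS U ≤ w j ∧ w j < SS U + 4 * U ∧ (w j : ℝ) + 1 ≤ T)
    (h : ∀ s : ℕ, SS U ≤ s → (s : ℝ) ≤ T →
      (Lv (SS U) s v : ℝ) ≤ ((s : ℝ) - SS U) + ∑ i, ((min s (u i + 1) : ℕ) - (SS U : ℝ)) + B) :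
    1 ≤ lwt (zw U w) v * Real.exp (mexp U u w + B * Real.log (l + 1)) := by
  set g : ℕ → ℝ := fun s => Real.log (((Finset.univ.filter (fun j => s ≤ w j)).card : ℝ) + 1) with hgdef
  have hg0 : ∀ t, SS U + 4 * U ≤ t → g t = 0 := by
    intro t ht
    have : (Finset.univ.filter (fun j => t ≤ w j)) = ∅ := by
      rw [Finset.filter_eq_empty_iff]
      intro j _
      have := (hw j).2.1
      omega
    simp only [hgdef]
    rw [this]
    simp
  have hganti : ∀ t, g (t + 1) ≤ g t := by
    intro t
    simp only [hgdef]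
    apply Real.log_le_log (by positivity)
    have : (Finset.univ.filter (fun j => t + 1 ≤ w j)) ⊆ (Finset.univ.filter (fun j => t ≤ w j)) := by
      intro j
      simp only [Finset.mem_filter, Finset.mem_univ, true_and]
      omega
    have := Finset.card_le_card this
    have : (((Finset.univ.filter (fun j => t + 1 ≤ w j)).card : ℕ) : ℝ) ≤
      (((Finset.univ.filter (fun j => t ≤ w j)).card : ℕ) : ℝ) := by exact_mod_cast this
    linarith
  have hgne : ∀ t, (∀ j, w j ≠ t) → g (t + 1) = g t := by
    intro t ht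
    simp only [hgdef]
    have : (Finset.univ.filter (fun j => t + 1 ≤ w j)) = (Finset.univ.filter (fun j => t ≤ w j)) := by
      ext j
      simp only [Finset.mem_filter, Finset.mem_univ, true_and]
      have := ht j
      omega
    rw [this]
  have hgS : g (SS U) ≤ Real.log (l + 1) := by
    simp only [hgdef]
    apply Real.log_le_log (by positivity)
    have := Finset.card_le_univ (Finset.univ.filter (fun j => SS U ≤ w j))
    rw [Fintype.card_fin] at this
    have : (((Finset.univ.filter (fun j => SS U ≤ w j)).card : ℕ) : ℝ) ≤ (l : ℝ) := by exact_mod_cast this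
    linarith
  -- the exponent
  have hprod : lwt (zw U w) v *
      Real.exp ((v.primeFactorsList.map (fun r => if SS U ≤ lev r then g (lev r) else 0)).sum) = 1 := by
    unfold lwt
    rw [if_neg (by omega)]
    apply cob_prod
    intro r _
    unfold zw
    by_cases hr : lev r < SS U
    · rw [if_pos hr, if_neg (by omega)]; simp
    · rw [if_neg hr, if_pos (by omega)]
      simp only [hgdef]
      rw [Real.exp_log (by positivity)]
      field_simp
  have hlw : 0 ≤ lwt (zw U w) v := by
    by_contra hneg
    push Not at hneg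
    have := mul_neg_of_neg_of_pos hneg (Real.exp_pos
      ((v.primeFactorsList.map (fun r => if SS U ≤ lev r then g (lev r) else 0)).sum))
    linarith
  refine hprod.symm.le.trans ?_
  apply mul_le_mul_of_nonneg_left _ hlw
  apply Real.exp_le_exp.mpr
  rw [cob_list (SS U) (4 * U) g hg0]
  -- bound the counts
  have hcnt : ∀ t ∈ Finset.range (4 * U), (g (SS U + t) - g (SS U + (t + 1))) *
      ((v.primeFactorsList.countP
        (fun r => decide (SS U ≤ lev r ∧ lev r < SS U + (t + 1))) : ℕ) : ℝ) ≤
      (g (SS U + t) - g (SS U + (t + 1))) *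
        (∑ s ∈ Finset.range (t + 1), (((Finset.univ.filter (fun i => SS U + s ≤ u i)).card : ℝ) + 1)
          + B) := by
    intro t _
    by_cases hj : ∃ j, w j = SS U + t
    · obtain ⟨j, hj⟩ := hj
      apply mul_le_mul_of_nonneg_left
      · have h1 := h (SS U + (t + 1)) (by omega) (by
          have := (hw j).2.2
          rw [hj] at this
          push_cast at this ⊢
          linarith)
        have h2 : ∑ s ∈ Finset.range (t + 1),
            (((Finset.univ.filter (fun i => SS U + s ≤ u i)).card : ℝ) + 1) =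
            (((SS U + (t + 1) : ℕ) : ℝ) - SS U) +
              ∑ i, (((min (SS U + (t + 1)) (u i + 1) : ℕ) : ℝ) - (SS U : ℝ)) := by
          rw [Finset.sum_add_distrib, add_comm]
          congr 1
          · simp
          · have h3 : ∀ s, (((Finset.univ.filter (fun i => SS U + s ≤ u i)).card : ℕ) : ℝ) =
                ∑ i, (if SS U + s ≤ u i then (1 : ℝ) else 0) := by
              intro s
              rw [Finset.sum_ite, Finset.sum_const_zero, add_zero, Finset.sum_const, nsmul_eq_mul,
                mul_one]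
            simp only [h3]
            rw [Finset.sum_comm]
            apply Finset.sum_congr rfl
            intro i _
            exact cob_min (SS U) t (u i) (hu i)
        rw [h2]
        unfold Lv at h1
        exact h1
      · have := hganti (SS U + t)
        rw [add_assoc] at this
        linarith
    · push Not at hj
      have := hgne (SS U + t) hj
      rw [add_assoc] at this
      rw [this, sub_self, zero_mul, zero_mul]
  refine (Finset.sum_le_sum hcnt).trans ?_
  simp only [mul_add]
  rw [Finset.sum_add_distrib]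
  apply add_le_add
  · have habel := cob_abel (fun s => ((Finset.univ.filter (fun i => SS U + s ≤ u i)).card : ℝ) + 1)
      (fun s => g (SS U + s)) (4 * U)
    rw [hg0 (SS U + 4 * U) le_rfl, zero_mul, add_zero] at habel
    unfold mexp
    simp only [hgdef] at habel ⊢
    rw [habel]
  · rw [← Finset.sum_mul, mul_comm]
    apply mul_le_mul_of_nonneg_left _ hB
    have htel : ∑ t ∈ Finset.range (4 * U), (g (SS U + t) - g (SS U + (t + 1))) =
        g (SS U) - g (SS U + 4 * U) := by
      have := Finset.sum_range_sub' (fun t => g (SS U + t)) (4 * U)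
      simpa using this
    rw [htel, hg0 _ le_rfl, sub_zero]
    exact hgS

theorem cob_pt {x y : ℝ} (hx : 1 ≤ x) (hy : 1 ≤ y) :
    x * Real.log y ≤ x * Real.log x - x + y := by
  have hx0 : 0 < x := by linarith
  have hy0 : 0 < y := by linarith
  have h := Real.log_le_sub_one_of_pos (div_pos hy0 hx0)
  rw [Real.log_div hy0.ne' hx0.ne'] at h
  have h2 := mul_le_mul_of_nonneg_left h hx0.le
  have h3 : x * (y / x - 1) = y - x := by field_simp
  rw [h3] at h2
  linarith [mul_sub x (Real.log y) (Real.log x)]

theorem co_exp (U : ℕ) {k l : ℕ} (u : Fin k → ℕ) (w : Fin l → ℕ)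
    (hw : ∀ j, SS U ≤ w j ∧ w j < SS U + 4 * U) :
    mexp U u w ≤ pcost U u + ∑ j, ((w j : ℝ) + 1 - SS U) := by
  have h1 : ∑ j, ((w j : ℝ) + 1 - SS U) =
      ∑ s ∈ Finset.range (4 * U), ((Finset.univ.filter (fun j => SS U + s ≤ w j)).card : ℝ) := by
    have h3 : ∀ s, (((Finset.univ.filter (fun j => SS U + s ≤ w j)).card : ℕ) : ℝ) =
        ∑ j, (if SS U + s ≤ w j then (1 : ℝ) else 0) := by
      intro s
      rw [Finset.sum_ite, Finset.sum_const_zero, add_zero, Finset.sum_const, nsmul_eq_mul,
        mul_one]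
    simp only [h3]
    rw [Finset.sum_comm]
    apply Finset.sum_congr rfl
    intro j _
    obtain ⟨h4, h5⟩ := hw j
    obtain ⟨a, ha⟩ := Nat.exists_eq_add_of_le h4
    have h6 : (Finset.range (4 * U)).filter (fun s => SS U + s ≤ w j) = Finset.range (a + 1) := by
      ext s
      simp only [Finset.mem_filter, Finset.mem_range]
      omega
    rw [Finset.sum_ite, Finset.sum_const_zero, add_zero, Finset.sum_const, nsmul_eq_mul,
        mul_one, h6, Finset.card_range, ha]
    push_cast
    ring
  rw [h1]
  unfold mexp pcost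
  rw [← Finset.sum_add_distrib]
  apply Finset.sum_le_sum
  intro s _
  set a := (Finset.univ.filter (fun i => SS U + s ≤ u i)).card with ha
  set b := (Finset.univ.filter (fun j => SS U + s ≤ w j)).card with hb
  have ha1 : (1 : ℝ) ≤ (a : ℝ) + 1 := by
    have : (0 : ℝ) ≤ a := Nat.cast_nonneg a
    linarith
  have hb1 : (1 : ℝ) ≤ (b : ℝ) + 1 := by
    have : (0 : ℝ) ≤ b := Nat.cast_nonneg b
    linarith
  have h := cob_pt ha1 hb1
  unfold QQ
  push_cast
  linarith

end P031
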