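import Vale.Agent.P031.Defs

/-!
# P031, module COM, part B: numerical facts for large `U`
-/

namespace P031.COM

open scoped BigOperators
open Filter

theorem SS_le (U : ℕ) : (SS U : ℝ) ≤ (U : ℝ) ^ ((1 : ℝ) / 2) := by
  rw [← Real.sqrt_eq_rpow]
  refine Real.le_sqrt_of_sq_le ?_
  have h : SS U ^ 2 ≤ U := by
    unfold SS
    exact Nat.sqrt_le' U
  exact_mod_cast h

theorem le_SS (U : ℕ) : (U : ℝ) ^ ((1 : ℝ) / 2) ≤ SS U + 1 := by
  rw [← Real.sqrt_eq_rpow]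
  refine Real.sqrt_le_iff.2 ⟨by positivity, ?_⟩
  have h : U < (SS U + 1) ^ 2 := by
    unfold SS
    exact Nat.lt_succ_sqrt' U
  exact_mod_cast h.le

theorem ev_pow_log (M : ℝ) (a b : ℝ) (hab : a < b) (j : ℕ) :
    ∀ᶠ U : ℕ in atTop, M * Real.log U ^ j * (U : ℝ) ^ a ≤ (U : ℝ) ^ b := by
  have h1 : (fun x : ℝ => Real.log x ^ j) =o[atTop] fun x : ℝ => x ^ (b - a) := by
    have := isLittleO_log_rpow_rpow_atTop (s := b - a) (j : ℝ) (by linarith)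
    refine this.congr' ?_ EventuallyEq.rfl
    filter_upwards [eventually_ge_atTop 1] with x hx
    rw [Real.rpow_natCast]
  have h2 : ∀ᶠ x : ℝ in atTop, M * Real.log x ^ j ≤ x ^ (b - a) := by
    have h3 := h1.bound (c := 1 / (|M| + 1)) (by positivity)
    filter_upwards [h3, eventually_ge_atTop 1] with x hx hx1
    have hl : 0 ≤ Real.log x := Real.log_nonneg hx1
    rw [Real.norm_of_nonneg (by positivity), Real.norm_of_nonneg (by positivity)] at hx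
    have h5 : M * Real.log x ^ j ≤ (|M| + 1) * Real.log x ^ j := by
      gcongr
      linarith [le_abs_self M]
    refine h5.trans ?_
    calc (|M| + 1) * Real.log x ^ j ≤ (|M| + 1) * (1 / (|M| + 1) * x ^ (b - a)) := by gcongr
      _ = x ^ (b - a) := by field_simp
  have h3 := tendsto_natCast_atTop_atTop (R := ℝ) |>.eventually h2
  filter_upwards [h3, eventually_ge_atTop 1] with U hU hU1
  have hpos : (0 : ℝ) < U := by exact_mod_cast hU1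
  calc M * Real.log U ^ j * (U : ℝ) ^ a ≤ (U : ℝ) ^ (b - a) * (U : ℝ) ^ a := by gcongr
    _ = (U : ℝ) ^ b := by rw [← Real.rpow_add hpos]; congr 1; ring

theorem com_fin (C1 C2 C3 : ℝ) (h1 : 0 ≤ C1) (h2 : 0 ≤ C2) (h3 : 0 ≤ C3) :
    ∀ᶠ U : ℕ in atTop,
      C1 + C1 * (2 * Real.log U) + 7 + C2 + Real.log U ^ 2 * (1 + C2) +
        2 * Real.log U ^ 2 * (C3 + C3 * (2 * Real.log U) + 6 * Real.log U ^ 2) +
        (Real.log U ^ 2 + 1) ^ 2 * C3 + 2 * Real.log U ^ 2 * (1 + SS U + 3 * Real.log U) ≤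
      (U : ℝ) ^ ((14 : ℝ) / 25) := by
  have e1 := ev_pow_log (3 * C1 + 2 * C2 + 10 * C3 + 30) (1 / 2) (14 / 25) (by norm_num) 4
  have e2 : ∀ᶠ U : ℕ in atTop, (1 : ℝ) ≤ Real.log U :=
    (Real.tendsto_log_atTop.comp tendsto_natCast_atTop_atTop).eventually (eventually_ge_atTop 1)
  filter_upwards [e1, e2, eventually_ge_atTop 1] with U hU hl hU1
  refine le_trans ?_ hU
  have hS := SS_le U
  have hx : (1 : ℝ) ≤ (U : ℝ) ^ ((1 : ℝ) / 2) :=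
    Real.one_le_rpow (by exact_mod_cast hU1) (by norm_num)
  generalize (U : ℝ) ^ ((1 : ℝ) / 2) = x at hS hx ⊢
  generalize Real.log U = y at hl ⊢
  have hS0 : (0 : ℝ) ≤ SS U := Nat.cast_nonneg _
  generalize (SS U : ℝ) = s at hS hS0 ⊢
  have y2 : y ≤ y ^ 2 := by nlinarith
  have y3 : y ^ 2 ≤ y ^ 3 := by nlinarith [sq_nonneg y]
  have y4 : y ^ 3 ≤ y ^ 4 := by nlinarith [pow_nonneg (by linarith : (0 : ℝ) ≤ y) 3]
  have hy4 : 1 ≤ y ^ 4 := by linarith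
  have k1 : C1 + C1 * (2 * y) ≤ 3 * C1 * y ^ 4 := by nlinarith
  have k2 : (7 : ℝ) ≤ 7 * y ^ 4 := by linarith
  have k3 : C2 + y ^ 2 * (1 + C2) ≤ (2 * C2 + 1) * y ^ 4 := by nlinarith
  have k4 : 2 * y ^ 2 * (C3 + C3 * (2 * y) + 6 * y ^ 2) ≤ (6 * C3 + 12) * y ^ 4 := by nlinarith
  have k5 : (y ^ 2 + 1) ^ 2 * C3 ≤ 4 * C3 * y ^ 4 := by
    have : (y ^ 2 + 1) ^ 2 ≤ 4 * y ^ 4 := by nlinarith
    nlinarith
  have k6 : 2 * y ^ 2 * (1 + s + 3 * y) ≤ 10 * (y ^ 4 * x) := by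
    have a1 : 1 + s + 3 * y ≤ 5 * (y * x) := by nlinarith
    have a2 : 2 * y ^ 2 * (1 + s + 3 * y) ≤ 2 * y ^ 2 * (5 * (y * x)) := by gcongr
    have a3 : 2 * y ^ 2 * (5 * (y * x)) = 10 * (y ^ 3 * x) := by ring
    have a4 : y ^ 3 * x ≤ y ^ 4 * x := by gcongr
    linarith
  have k7 : y ^ 4 ≤ y ^ 4 * x := by nlinarith
  have k8 : (3 * C1 + 2 * C2 + 10 * C3 + 20) * y ^ 4 ≤
      (3 * C1 + 2 * C2 + 10 * C3 + 20) * (y ^ 4 * x) := by gcongr
  nlinarith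

/-- the numerical facts -/
theorem com_num : ∀ᶠ U : ℕ in atTop, ∀ t : ℝ, (U : ℝ) ^ ((9 : ℝ) / 10) ≤ t → t ≤ 3 * U + 5 →
    1 ≤ SS U ∧ 1 ≤ Real.log U ∧ 1000 ≤ Real.exp t ∧ 1 ≤ t ∧ Real.log (1 + t) ≤ 2 * Real.log U ∧
    10 * SS U * Real.exp (SS U) ≤ Real.exp t / 100 ∧
    Real.log U ^ 2 * Real.exp (1 - 4 * Real.log U) ≤ 1 / 100 ∧
    2 * (Real.log U ^ 2 + 1) ≤ Real.exp (SS U + 3 * Real.log U) / 2 ∧
    1 + 10 * SS U * Real.exp (SS U) ≤ Real.exp (SS U + 3 * Real.log U) / 2 := by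
  have e1 := ev_pow_log 2 (1 / 2) (9 / 10) (by norm_num) 0
  have e2 := ev_pow_log 1 0 1 (by norm_num) 2
  have e3 : ∀ᶠ U : ℕ in atTop, (1 : ℝ) ≤ Real.log U :=
    (Real.tendsto_log_atTop.comp tendsto_natCast_atTop_atTop).eventually (eventually_ge_atTop 1)
  have e4 : ∀ᶠ U : ℕ in atTop, 1000 * (U : ℝ) ^ ((1 : ℝ) / 2) ≤ Real.exp ((U : ℝ) ^ ((1 : ℝ) / 2)) := by
    have h1 : Tendsto (fun x : ℝ => Real.exp x / x ^ 1) atTop atTop := Real.tendsto_exp_div_pow_atTop 1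
    have h2 : ∀ᶠ x : ℝ in atTop, 1000 * x ≤ Real.exp x := by
      filter_upwards [h1.eventually (eventually_ge_atTop 1000), eventually_gt_atTop 0] with x hx hx0
      rwa [pow_one, le_div_iff₀ hx0] at hx
    exact ((tendsto_rpow_atTop (by norm_num : (0 : ℝ) < 1 / 2)).comp
      tendsto_natCast_atTop_atTop).eventually h2
  filter_upwards [e1, e2, e3, e4, eventually_ge_atTop 10000] with U h1 h2 h3 h4 h5 t ht1 ht2
  have hU : (10000 : ℝ) ≤ U := by exact_mod_cast h5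
  have hpos : (0 : ℝ) < U := by linarith
  rw [pow_zero, mul_one] at h1
  rw [Real.rpow_zero, mul_one, one_mul, Real.rpow_one] at h2
  have hS := SS_le U
  have hS0 : (0 : ℝ) ≤ SS U := Nat.cast_nonneg _
  have hx : (100 : ℝ) ≤ (U : ℝ) ^ ((1 : ℝ) / 2) := by
    rw [← Real.sqrt_eq_rpow]
    refine Real.le_sqrt_of_sq_le ?_
    linarith
  have hS1 := le_SS U
  have hS2 : 1 ≤ SS U := by
    have : (1 : ℝ) ≤ SS U := by linarith
    exact_mod_cast this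
  have ht : 2 * (U : ℝ) ^ ((1 : ℝ) / 2) ≤ t := h1.trans ht1
  have hexp : Real.exp (2 * (U : ℝ) ^ ((1 : ℝ) / 2)) ≤ Real.exp t := Real.exp_le_exp.2 ht
  have hexp2 : Real.exp (2 * (U : ℝ) ^ ((1 : ℝ) / 2)) =
      Real.exp ((U : ℝ) ^ ((1 : ℝ) / 2)) * Real.exp ((U : ℝ) ^ ((1 : ℝ) / 2)) := by
    rw [← Real.exp_add]; congr 1; ring
  have hU3 : Real.exp (SS U + 3 * Real.log U) = Real.exp (SS U) * (U : ℝ) ^ 3 := by
    rw [Real.exp_add]
    congr 1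
    rw [show (3 : ℝ) * Real.log U = Real.log ((U : ℝ) ^ 3) by rw [Real.log_pow]; norm_num,
      Real.exp_log (by positivity)]
  have hexS : 1 ≤ Real.exp (SS U) := Real.one_le_exp hS0
  have hSU : (SS U : ℝ) ≤ U := by
    have : SS U ≤ U := Nat.sqrt_le_self U
    exact_mod_cast this
  have hU33 : (100000000 : ℝ) * U ≤ (U : ℝ) ^ 3 := by nlinarith [sq_nonneg (U : ℝ)]
  refine ⟨hS2, h3, ?_, by linarith, ?_, ?_, ?_, ?_, ?_⟩
  · have := Real.add_one_le_exp ((U : ℝ) ^ ((1 : ℝ) / 2))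
    nlinarith
  · rw [show (2 : ℝ) * Real.log U = Real.log ((U : ℝ) ^ 2) by rw [Real.log_pow]; norm_num]
    refine Real.log_le_log (by linarith) ?_
    nlinarith
  · have h6 : Real.exp (SS U) ≤ Real.exp ((U : ℝ) ^ ((1 : ℝ) / 2)) := Real.exp_le_exp.2 hS
    have h7 : 10 * (SS U : ℝ) * Real.exp (SS U) ≤
        10 * (U : ℝ) ^ ((1 : ℝ) / 2) * Real.exp ((U : ℝ) ^ ((1 : ℝ) / 2)) := by gcongr
    have h8 : 10 * (U : ℝ) ^ ((1 : ℝ) / 2) * Real.exp ((U : ℝ) ^ ((1 : ℝ) / 2)) ≤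
        (1 / 100 * Real.exp ((U : ℝ) ^ ((1 : ℝ) / 2))) * Real.exp ((U : ℝ) ^ ((1 : ℝ) / 2)) :=
      mul_le_mul_of_nonneg_right (by linarith) (Real.exp_pos _).le
    linarith
  · have h6 : Real.exp (1 - 4 * Real.log U) = Real.exp 1 / (U : ℝ) ^ 4 := by
      rw [Real.exp_sub]
      congr 1
      rw [show (4 : ℝ) * Real.log U = Real.log ((U : ℝ) ^ 4) by rw [Real.log_pow]; norm_num,
        Real.exp_log (by positivity)]
    rw [h6]
    have h7 : Real.exp 1 ≤ 3 := Real.exp_one_lt_three.le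
    have h8 : Real.log U ^ 2 * (Real.exp 1 / (U : ℝ) ^ 4) ≤ U * (3 / (U : ℝ) ^ 4) := by gcongr
    refine h8.trans ?_
    have h9 : (U : ℝ) * (3 / (U : ℝ) ^ 4) = 3 / (U : ℝ) ^ 3 := by field_simp
    rw [h9, div_le_div_iff₀ (by positivity) (by norm_num)]
    nlinarith
  · rw [hU3]
    nlinarith
  · rw [hU3]
    have h6 : (SS U : ℝ) * Real.exp (SS U) ≤ U * Real.exp (SS U) := by gcongr
    nlinarith

end P031.COM
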