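import Vale.Agent.P031.CoMA
import Vale.Agent.P031.CoMB

/-!
# P031, module COM, part C: splitting off one coordinate; the combination of the bounds
-/

namespace P031.COM

open scoped BigOperators
open Classical

theorem split_sum {ι : Type} [Fintype ι] [DecidableEq ι] (c0 : ι) (𝒟 : Finset (ι → ℕ))
    (f : ι → ℕ → ℝ) (hf : ∀ c n, 0 ≤ f c n) (B : ℝ)
    (h : ∀ d0 ∈ 𝒟, ∑ d ∈ 𝒟.filter (fun d => Function.update d c0 1 = Function.update d0 c0 1),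
      f c0 (d c0) ≤ B * ∏ c ∈ Finset.univ.erase c0, 1 / (d0 c : ℝ)) :
    ∑ d ∈ 𝒟, ∏ c, f c (d c) ≤ B * ∑ e ∈ 𝒟.image (fun d => Function.update d c0 1),
      ∏ c ∈ Finset.univ.erase c0, f c (e c) / (e c : ℝ) := by
  rw [← Finset.sum_fiberwise_of_maps_to (s := 𝒟) (t := 𝒟.image (fun d => Function.update d c0 1))
    (g := fun d => Function.update d c0 1) (fun d hd => Finset.mem_image_of_mem _ hd), Finset.mul_sum]
  refine Finset.sum_le_sum fun e he => ?_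
  obtain ⟨d0, hd0, rfl⟩ := Finset.mem_image.1 he
  have h1 : ∀ d ∈ 𝒟.filter (fun d => Function.update d c0 1 = Function.update d0 c0 1),
      ∏ c, f c (d c) = f c0 (d c0) * ∏ c ∈ Finset.univ.erase c0, f c (d0 c) := by
    intro d hd
    rw [← Finset.mul_prod_erase Finset.univ _ (Finset.mem_univ c0)]
    congr 1
    refine Finset.prod_congr rfl fun c hc => ?_
    have h2 := congrFun (Finset.mem_filter.1 hd).2 c
    have hc' := Finset.ne_of_mem_erase hc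
    rw [Function.update_of_ne hc', Function.update_of_ne hc'] at h2
    rw [h2]
  rw [Finset.sum_congr rfl h1, ← Finset.sum_mul]
  have h3 : ∏ c ∈ Finset.univ.erase c0, f c (Function.update d0 c0 1 c) /
      ((Function.update d0 c0 1 c : ℕ) : ℝ) =
      (∏ c ∈ Finset.univ.erase c0, 1 / (d0 c : ℝ)) * ∏ c ∈ Finset.univ.erase c0, f c (d0 c) := by
    rw [← Finset.prod_mul_distrib]
    refine Finset.prod_congr rfl fun c hc => ?_
    have hc' := Finset.ne_of_mem_erase hc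
    rw [Function.update_of_ne hc']
    ring
  rw [h3, ← mul_assoc]
  exact mul_le_mul_of_nonneg_right (h d0 hd0) (Finset.prod_nonneg fun c _ => hf _ _)

theorem fiber_sum_le {ι : Type} [Fintype ι] [DecidableEq ι] (c0 : ι) (𝒟 : Finset (ι → ℕ)) (d0 : ι → ℕ) (g : ℕ → ℝ)
    (hg : ∀ n, 0 ≤ g n) (T : Finset ℕ)
    (h : ∀ d ∈ 𝒟, Function.update d c0 1 = Function.update d0 c0 1 → d c0 ∈ T) :
    ∑ d ∈ 𝒟.filter (fun d => Function.update d c0 1 = Function.update d0 c0 1), g (d c0) ≤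
      ∑ n ∈ T, g n := by
  have hinj : Set.InjOn (fun d : ι → ℕ => d c0)
      (𝒟.filter (fun d => Function.update d c0 1 = Function.update d0 c0 1) : Finset (ι → ℕ)) := by
    intro d hd d' hd' he
    have h1 := (Finset.mem_filter.1 (Finset.mem_coe.1 hd)).2
    have h2 := (Finset.mem_filter.1 (Finset.mem_coe.1 hd')).2
    funext c
    by_cases hc : c = c0
    · rw [hc]; exact he
    · have h3 := congrFun (h1.trans h2.symm) c
      rwa [Function.update_of_ne hc, Function.update_of_ne hc] at h3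
  rw [← Finset.sum_image (f := g) hinj]
  refine Finset.sum_le_sum_of_subset_of_nonneg ?_ (fun n _ _ => hg n)
  intro n hn
  obtain ⟨d, hd, rfl⟩ := Finset.mem_image.1 hn
  exact h d (Finset.mem_filter.1 hd).1 (Finset.mem_filter.1 hd).2

/-- the product of the `1/D_i` -/
theorem prod_R_le {k : ℕ} (u : Fin k → ℕ) (A K : ℝ) (hA : 0 ≤ A) (hk : (k : ℝ) ≤ K)
    (D : Fin (k + 1) → ℝ) (hD : ∀ i, D i.succ = Real.exp (u i) / 2)
    (R : Finset (Fin (k + 1))) (hR : ∀ i, i ∈ R ↔ ∃ i' : Fin k, i = i'.succ ∧ A ≤ u i') :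
    ∏ i ∈ R, 1 / D i ≤ Real.exp (-(∑ i, (u i : ℝ)) + K * (1 + A)) := by
  have h1 : R = (Finset.univ.filter (fun i : Fin k => A ≤ u i)).map (Fin.succEmb k) := by
    ext i
    rw [hR, Finset.mem_map]
    constructor
    · rintro ⟨i', rfl, h⟩
      exact ⟨i', by simpa using h, rfl⟩
    · rintro ⟨i', h, rfl⟩
      exact ⟨i', rfl, by simpa using h⟩
  rw [h1, Finset.prod_map, Finset.prod_filter]
  have h2 : ∀ i : Fin k, (if A ≤ u i then 1 / D (Fin.succEmb k i) else 1) ≤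
      Real.exp (-(u i : ℝ) + (1 + A)) := by
    intro i
    have h2 : (2 : ℝ) ≤ Real.exp 1 := by
      have := Real.add_one_le_exp (1 : ℝ)
      linarith
    split_ifs with h
    · have h3 : D (Fin.succEmb k i) = Real.exp (u i) / 2 := hD i
      rw [h3, one_div_div, Real.exp_add, Real.exp_neg, div_eq_mul_inv, mul_comm]
      refine mul_le_mul_of_nonneg_left ?_ (by positivity)
      refine h2.trans (Real.exp_le_exp.2 (by linarith))
    · exact Real.one_le_exp (by linarith [not_le.1 h])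
  refine (Finset.prod_le_prod (fun i _ => ?_) (fun i _ => h2 i)).trans ?_
  · split_ifs with h
    · have h3 : D (Fin.succEmb k i) = Real.exp (u i) / 2 := hD i
      rw [h3]
      positivity
    · norm_num
  · rw [← Real.exp_sum, Finset.sum_add_distrib, Finset.sum_const, Finset.card_univ,
      Fintype.card_fin, nsmul_eq_mul, Finset.sum_neg_distrib]
    refine Real.exp_le_exp.2 ?_
    have : (k : ℝ) * (1 + A) ≤ K * (1 + A) := by gcongr
    linarith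

/-- combination of all factors: a pure inequality -/
theorem combine {ℓ t S Y P C1 C2 C3 su sw SE E : ℝ} {k l nR nR' nL : ℕ} (hℓ : 1 ≤ ℓ) (ht : 1 ≤ t)
    (hlog : Real.log (1 + t) ≤ 2 * ℓ) (hY : 0 ≤ Y) (hP0 : 0 ≤ P) (h1 : 0 < C1) (h2 : 0 < C2) (h3 : 0 < C3)
    (hk : (k : ℝ) ≤ ℓ ^ 2) (hl : (l : ℝ) ≤ ℓ ^ 2) (hR : nR ≤ k) (hR' : nR' ≤ l)
    (hL : nL ≤ (k + 1) * (l + 1))
    (hSE : SE ≤ t + C2 + (su + k * (1 + C2)))
    (hP : P ≤ Real.exp (-su + ℓ ^ 2 * (1 + (S + 3 * ℓ))) * Real.exp (-sw + ℓ ^ 2 * (1 + (S + 3 * ℓ))))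
    (hE : C1 + C1 * (2 * ℓ) + 7 + C2 + ℓ ^ 2 * (1 + C2) +
        2 * ℓ ^ 2 * (C3 + C3 * (2 * ℓ) + 6 * ℓ ^ 2) +
        (ℓ ^ 2 + 1) ^ 2 * C3 + 2 * ℓ ^ 2 * (1 + S + 3 * ℓ) ≤ E) :
    C1 * (1 + t) ^ C1 * (512 * Real.exp (-3 * t)) * Y *
      ((C3 * (1 + t) ^ C3 * (((k + 1 : ℕ) : ℝ) * ((l + 1 : ℕ) : ℝ)) ^ 3) ^ (nR + nR') * C3 ^ nL * P *
        Real.exp SE) ≤ Y * Real.exp (-2 * t - sw + E) := by
  have hc : ∀ C : ℝ, 0 < C → C * (1 + t) ^ C ≤ Real.exp (C + C * (2 * ℓ)) := by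
    intro C hC
    rw [Real.exp_add]
    refine mul_le_mul ?_ ?_ (by positivity) (by positivity)
    · linarith [Real.add_one_le_exp C]
    · rw [Real.rpow_def_of_pos (by linarith), mul_comm]
      refine Real.exp_le_exp.2 ?_
      gcongr
  have h512 : (512 : ℝ) ≤ Real.exp 7 := by
    have h : (2.7 : ℝ) ≤ Real.exp 1 := by linarith [Real.exp_one_gt_d9]
    have h' : Real.exp 7 = Real.exp 1 ^ 7 := by rw [← Real.exp_nat_mul]; norm_num
    rw [h']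
    calc (512 : ℝ) ≤ 2.7 ^ 7 := by norm_num
      _ ≤ Real.exp 1 ^ 7 := by gcongr
  have hkl : ((((k + 1 : ℕ) : ℝ) * ((l + 1 : ℕ) : ℝ)) ^ 3) ≤ Real.exp (6 * ℓ ^ 2) := by
    have a1 : ((k + 1 : ℕ) : ℝ) ≤ Real.exp (ℓ ^ 2) := by
      push_cast
      linarith [Real.add_one_le_exp (ℓ ^ 2)]
    have a2 : ((l + 1 : ℕ) : ℝ) ≤ Real.exp (ℓ ^ 2) := by
      push_cast
      linarith [Real.add_one_le_exp (ℓ ^ 2)]
    calc ((((k + 1 : ℕ) : ℝ) * ((l + 1 : ℕ) : ℝ)) ^ 3) ≤ (Real.exp (ℓ ^ 2) * Real.exp (ℓ ^ 2)) ^ 3 := by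
          gcongr
      _ = Real.exp (6 * ℓ ^ 2) := by
          rw [← Real.exp_add, ← Real.exp_nat_mul]
          congr 1
          push_cast
          ring
  have hbase : C3 * (1 + t) ^ C3 * (((k + 1 : ℕ) : ℝ) * ((l + 1 : ℕ) : ℝ)) ^ 3 ≤
      Real.exp (C3 + C3 * (2 * ℓ) + 6 * ℓ ^ 2) := by
    rw [Real.exp_add _ (6 * ℓ ^ 2)]
    exact mul_le_mul (hc C3 h3) hkl (by positivity) (by positivity)
  have hpw : (C3 * (1 + t) ^ C3 * (((k + 1 : ℕ) : ℝ) * ((l + 1 : ℕ) : ℝ)) ^ 3) ^ (nR + nR') ≤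
      Real.exp (2 * ℓ ^ 2 * (C3 + C3 * (2 * ℓ) + 6 * ℓ ^ 2)) := by
    refine (pow_le_pow_left₀ (by positivity) hbase _).trans ?_
    rw [← Real.exp_nat_mul]
    refine Real.exp_le_exp.2 ?_
    have a1 : ((nR + nR' : ℕ) : ℝ) ≤ 2 * ℓ ^ 2 := by
      have b1 : (nR : ℝ) ≤ k := by exact_mod_cast hR
      have b2 : (nR' : ℝ) ≤ l := by exact_mod_cast hR'
      push_cast
      linarith
    have a2 : 0 ≤ C3 + C3 * (2 * ℓ) + 6 * ℓ ^ 2 := by positivity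
    gcongr
  have hL' : C3 ^ nL ≤ Real.exp ((ℓ ^ 2 + 1) ^ 2 * C3) := by
    have a0 : C3 ≤ Real.exp C3 := by linarith [Real.add_one_le_exp C3]
    refine (pow_le_pow_left₀ h3.le a0 _).trans ?_
    rw [← Real.exp_nat_mul]
    refine Real.exp_le_exp.2 ?_
    have a1 : (nL : ℝ) ≤ (ℓ ^ 2 + 1) ^ 2 := by
      have b1 : (nL : ℝ) ≤ (((k + 1) * (l + 1) : ℕ) : ℝ) := by exact_mod_cast hL
      push_cast at b1
      refine b1.trans ?_
      rw [sq (ℓ ^ 2 + 1)]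
      gcongr
    gcongr
  have hSE' : Real.exp SE ≤ Real.exp (t + C2 + (su + ℓ ^ 2 * (1 + C2))) := by
    refine Real.exp_le_exp.2 (hSE.trans ?_)
    gcongr
  have hrest : (C3 * (1 + t) ^ C3 * (((k + 1 : ℕ) : ℝ) * ((l + 1 : ℕ) : ℝ)) ^ 3) ^ (nR + nR') *
      C3 ^ nL * P * Real.exp SE ≤
      Real.exp (2 * ℓ ^ 2 * (C3 + C3 * (2 * ℓ) + 6 * ℓ ^ 2)) * Real.exp ((ℓ ^ 2 + 1) ^ 2 * C3) *
      (Real.exp (-su + ℓ ^ 2 * (1 + (S + 3 * ℓ))) * Real.exp (-sw + ℓ ^ 2 * (1 + (S + 3 * ℓ)))) *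
      Real.exp (t + C2 + (su + ℓ ^ 2 * (1 + C2))) := by
    gcongr
  have hfirst : C1 * (1 + t) ^ C1 * (512 * Real.exp (-3 * t)) * Y ≤
      Real.exp (C1 + C1 * (2 * ℓ)) * (Real.exp 7 * Real.exp (-3 * t)) * Y := by
    have := hc C1 h1
    gcongr
  calc C1 * (1 + t) ^ C1 * (512 * Real.exp (-3 * t)) * Y *
      ((C3 * (1 + t) ^ C3 * (((k + 1 : ℕ) : ℝ) * ((l + 1 : ℕ) : ℝ)) ^ 3) ^ (nR + nR') * C3 ^ nL * P *
        Real.exp SE)
      ≤ (Real.exp (C1 + C1 * (2 * ℓ)) * (Real.exp 7 * Real.exp (-3 * t)) * Y) *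
      (Real.exp (2 * ℓ ^ 2 * (C3 + C3 * (2 * ℓ) + 6 * ℓ ^ 2)) * Real.exp ((ℓ ^ 2 + 1) ^ 2 * C3) *
      (Real.exp (-su + ℓ ^ 2 * (1 + (S + 3 * ℓ))) * Real.exp (-sw + ℓ ^ 2 * (1 + (S + 3 * ℓ)))) *
      Real.exp (t + C2 + (su + ℓ ^ 2 * (1 + C2)))) := by
        refine (mul_le_mul_of_nonneg_left hrest (by positivity)).trans ?_
        exact mul_le_mul_of_nonneg_right hfirst (by positivity)
    _ = Y * Real.exp (-2 * t - sw + (C1 + C1 * (2 * ℓ) + 7 + C2 + ℓ ^ 2 * (1 + C2) +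
        2 * ℓ ^ 2 * (C3 + C3 * (2 * ℓ) + 6 * ℓ ^ 2) +
        (ℓ ^ 2 + 1) ^ 2 * C3 + 2 * ℓ ^ 2 * (1 + S + 3 * ℓ))) := by
        rw [mul_comm _ Y, mul_assoc]
        congr 1
        simp only [← Real.exp_add]
        congr 1
        ring
    _ ≤ Y * Real.exp (-2 * t - sw + E) := by
        gcongr

end P031.COM
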