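import Vale.Agent.P031.Cells
import Vale.Agent.P031.CoB
import Vale.Agent.P031.CoMC

/-!
# P031, module COM: the sum over matrices

Rows `0, …, k`, columns `0, …, l`.  `t_X = LL X`, `S = SS U`, `C` constants.

PROOF.  Only primes of level `≥ S` matter, so `lwt (zw U w) (d c) = f_c (d c)` where
`f_{ij} = lwt` of the weight `zw U w s` for `S ≤ s ≤ λ_{ij}`, `0` for other levels, where `λ_{ij} = min (u_i) (w_j)`
(`λ_{i0} = u_i`, `λ_{0j} = w_j`, `λ_{00} = ∞`): a prime dividing `d_{ij}` divides `q_i - 1`, so its level is `≤ u_i`.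
1. Sum over `d_{00}` first, for given other entries (`e = ∏_{c ≠ (0,0)} d_c`).  `d_{00} ≤ Y' := Y/(σ e)`.  The other
entries of row `0` divide `q'_j - 1 ≤ exp (e^{w_j+1}) ≤ exp (e · e^{t_X} / U^4)`, there are `≤ log² U` of them, and
`log α_0 ≤ 10 S e^S`, so `d_{00} ≥ X^{1/4 - 1/10} ≥ X^{1/8}` (hence `Y' ≥ X^{1/8}`).
`lemA` with `𝒜 = {α_0 ∏_{j≥1} d_{0j}, α'_0 ∏_{i≥1} d_{i0}}` (two different integers, since
`α_0 ∏ d_{0j} ≠ α'_0 ∏ d_{i0}`), `Z = max 16 (X + 1)` gives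
`∑_{d_{00}} f_{00}(d_{00}) ≤ C (1+LL Z)^C (Y/(σ e)) (8/log X)^3 exp (∑_{r ≤ X} f_{00}(r)/r)`.
2. The remaining sum `∑ ∏_{c ≠ (0,0)} f_c(d_c)/d_c` is bounded by `cells` with `L` = all cells except `(0,0)`,
`R = {i ≥ 1 : u_i ≥ S + 3 log U}`, `R' = {j ≥ 1 : w_j ≥ S + 3 log U}`, `D_i = e^{u_i}/2` (for `i ∈ R`:
`log ∏_j d_{ij} = log (q_i - 1) - log α_i ≥ e^{u_i} - 1 - 10 S e^S ≥ e^{u_i}/2`), `D'_j = e^{w_j}/2`.
The rows and columns outside `R`, `R'`: `1 ≤ e^{-u_i} e^{S + 3 log U}`.  The result is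
`≤ e^{U^{0.53}} ∏_{i≥1} e^{-u_i} ∏_{j ≥ 1} e^{-w_j} ∏_{c ≠ (0,0)} exp (∑_r f_c(r)/r)`.
3. With `z = zw U w`, `J'(s) = #{j : w_j ≥ s}`:
`∑_{c} ∑_r f_c(r)/r ≤ ∑_{i ≥ 0} ∑_{s=S}^{u_i} z(s) (J'(s)+1) (1 + C e^{-s}) ≤ t_X + ∑_{i≥1} u_i + C (k + 2)`
(`u_0 :=` the level of `X`; `z(s) (J'(s)+1) = 1`).
4. Product: `(Y/σ) e^{-3 t_X + t_X - ∑ w_j + U^{0.56}}`.
-/

namespace P031

open scoped BigOperators

/-- admissible matrices -/
def MatOK (U : ℕ) (X Y σ : ℝ) {k l : ℕ} (u : Fin k → ℕ) (w : Fin l → ℕ) (α : Fin (k + 1) → ℕ)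
    (α' : Fin (l + 1) → ℕ) (d : Fin (k + 1) × Fin (l + 1) → ℕ) : Prop :=
  (∀ c, 1 ≤ d c) ∧ (∀ c, ∀ r : ℕ, r.Prime → r ∣ d c → SS U ≤ lev r) ∧
  (α 0 * (∏ j, d (0, j)) + 1).Prime ∧
  Real.log X / 4 ≤ Real.log ((α 0 * (∏ j, d (0, j)) + 1 : ℕ) : ℝ) ∧
  (α' 0 * (∏ i, d (i, 0)) + 1).Prime ∧
  Real.log X / 4 ≤ Real.log ((α' 0 * (∏ i, d (i, 0)) + 1 : ℕ) : ℝ) ∧
  (∀ i : Fin k, (α i.succ * (∏ j, d (i.succ, j)) + 1).Prime ∧
    lev (α i.succ * (∏ j, d (i.succ, j)) + 1) = u i) ∧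
  (∀ j : Fin l, (α' j.succ * (∏ i, d (i, j.succ)) + 1).Prime ∧
    lev (α' j.succ * (∏ i, d (i, j.succ)) + 1) = w j) ∧
  α 0 * (∏ j, d (0, j)) ≠ α' 0 * ∏ i, d (i, 0) ∧
  (∀ (i : Fin k) (j : Fin l), α i.succ * (∏ j', d (i.succ, j')) ≠ α' j.succ * ∏ i', d (i', j.succ)) ∧
  σ * ((∏ c, d c : ℕ) : ℝ) ≤ Y


namespace COM

theorem lev_bounds {q s : ℕ} (hs : 1 ≤ s) (h : lev q = s) :
    Real.exp (Real.exp s) ≤ q ∧ (q : ℝ) < Real.exp (Real.exp ((s : ℝ) + 1)) := by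
  refine ⟨(le_lev_iff hs).1 h.ge, ?_⟩
  have h1 := (lev_lt_iff (r := q) (s := s + 1) (by omega)).1 (by omega)
  push_cast at h1
  exact h1

section

variable {U : ℕ} {X Y σ : ℝ} {k l : ℕ} {u : Fin k → ℕ} {w : Fin l → ℕ} {α : Fin (k + 1) → ℕ}
  {α' : Fin (l + 1) → ℕ} {d : Fin (k + 1) × Fin (l + 1) → ℕ}

theorem le_row (hα : ∀ i, 1 ≤ α i) (hd : ∀ c, 1 ≤ d c) (i : Fin (k + 1)) (j : Fin (l + 1)) :
    d (i, j) ≤ α i * (∏ j, d (i, j)) + 1 := by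
  have h1 : d (i, j) ≤ ∏ j, d (i, j) := by
    refine Nat.le_of_dvd (Finset.prod_pos fun j _ => hd _) ?_
    exact Finset.dvd_prod_of_mem (fun j => d (i, j)) (Finset.mem_univ j)
  have h2 : ∏ j, d (i, j) ≤ α i * ∏ j, d (i, j) := Nat.le_mul_of_pos_left _ (hα i)
  omega

theorem le_col (hα : ∀ j, 1 ≤ α' j) (hd : ∀ c, 1 ≤ d c) (i : Fin (k + 1)) (j : Fin (l + 1)) :
    d (i, j) ≤ α' j * (∏ i, d (i, j)) + 1 := by
  have h1 : d (i, j) ≤ ∏ i, d (i, j) := by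
    refine Nat.le_of_dvd (Finset.prod_pos fun j _ => hd _) ?_
    exact Finset.dvd_prod_of_mem (fun i => d (i, j)) (Finset.mem_univ i)
  have h2 : ∏ i, d (i, j) ≤ α' j * ∏ i, d (i, j) := Nat.le_mul_of_pos_left _ (hα j)
  omega

theorem mo_lwt (h : MatOK U X Y σ u w α α' d) (hα : ∀ i, 1 ≤ α i) (hα' : ∀ j, 1 ≤ α' j)
    (c : Fin (k + 1) × Fin (l + 1)) : lwt (zw U w) (d c) = lwt (zc U u w c) (d c) := by
  obtain ⟨h1, h2, -, -, -, -, h3, h4, -⟩ := h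
  refine lwt_congr fun r hr hrd => ?_
  have hrle : r ≤ d c := Nat.le_of_dvd (h1 c) hrd
  unfold zc
  rw [if_pos]
  refine ⟨h2 c r hr hrd, ?_, ?_⟩
  · intro i' hi'
    have h5 := le_row (d := d) hα h1 c.1 c.2
    rw [hi'] at h5
    rw [← (h3 i').2]
    have h6 : d (i'.succ, c.2) = d c := by rw [← hi']
    exact lev_mono (by omega)
  · intro j' hj'
    have h5 := le_col (d := d) hα' h1 c.1 c.2
    rw [hj'] at h5
    rw [← (h4 j').2]
    have h6 : d (c.1, j'.succ) = d c := by rw [← hj']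
    exact lev_mono (by omega)

theorem mo_row_log (h : MatOK U X Y σ u w α α' d) (hα : ∀ i, 1 ≤ α i) (i : Fin k)
    (hu : 1 ≤ u i) (j : Fin (l + 1)) : Real.log (d (i.succ, j)) ≤ Real.exp ((u i : ℝ) + 1) := by
  obtain ⟨h1, h2, -, -, -, -, h3, h4, -⟩ := h
  have h5 := (lev_bounds hu (h3 i).2).2
  have h6 : (d (i.succ, j) : ℝ) ≤ ((α i.succ * (∏ j, d (i.succ, j)) + 1 : ℕ) : ℝ) := by
    exact_mod_cast le_row (d := d) hα h1 i.succ j
  have h7 : (1 : ℝ) ≤ d (i.succ, j) := by exact_mod_cast h1 _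
  rw [Real.log_le_iff_le_exp (by linarith)]
  linarith

theorem mo_col_log (h : MatOK U X Y σ u w α α' d) (hα : ∀ j, 1 ≤ α' j) (j : Fin l)
    (hw : 1 ≤ w j) (i : Fin (k + 1)) : Real.log (d (i, j.succ)) ≤ Real.exp ((w j : ℝ) + 1) := by
  obtain ⟨h1, h2, -, -, -, -, h3, h4, -⟩ := h
  have h5 := (lev_bounds hw (h4 j).2).2
  have h6 : (d (i, j.succ) : ℝ) ≤ ((α' j.succ * (∏ i, d (i, j.succ)) + 1 : ℕ) : ℝ) := by
    exact_mod_cast le_col (d := d) hα h1 i j.succ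
  have h7 : (1 : ℝ) ≤ d (i, j.succ) := by exact_mod_cast h1 _
  rw [Real.log_le_iff_le_exp (by linarith)]
  linarith

end

theorem log_mul_prod_le {U n a : ℕ} {t : ℝ} (v : Fin n → ℕ) (p : Fin n → ℕ)
    (hp : ∀ j, 1 ≤ p j ∧ Real.log (p j) ≤ Real.exp ((v j : ℝ) + 1))
    (hv : ∀ j, (v j : ℝ) + 4 * Real.log U ≤ t) (hn : (n : ℝ) ≤ Real.log U ^ 2) (ha : 1 ≤ a)
    (ha' : Real.log a ≤ 10 * SS U * Real.exp (SS U))
    (h1 : 10 * SS U * Real.exp (SS U) ≤ Real.exp t / 100)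
    (h2 : Real.log U ^ 2 * Real.exp (1 - 4 * Real.log U) ≤ 1 / 100) :
    1 ≤ a * ∏ j, p j ∧ Real.log ((a * ∏ j, p j : ℕ) : ℝ) ≤ Real.exp t / 50 := by
  have hpos : 0 < ∏ j, p j := Finset.prod_pos fun j _ => (hp j).1
  refine ⟨Nat.mul_pos ha hpos, ?_⟩
  have ha0 : (a : ℝ) ≠ 0 := by
    have : (1 : ℝ) ≤ a := by exact_mod_cast ha
    linarith
  have hp0 : ((∏ j, p j : ℕ) : ℝ) ≠ 0 := by exact_mod_cast hpos.ne'
  rw [Nat.cast_mul, Real.log_mul ha0 hp0]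
  have h3 : Real.log ((∏ j, p j : ℕ) : ℝ) ≤ Real.exp t / 100 := by
    rw [Nat.cast_prod, Real.log_prod (fun j _ => by
      have : (1 : ℝ) ≤ p j := by exact_mod_cast (hp j).1
      linarith)]
    have h4 : ∀ j : Fin n, Real.log (p j) ≤ Real.exp (1 - 4 * Real.log U) * Real.exp t := by
      intro j
      refine (hp j).2.trans ?_
      rw [← Real.exp_add]
      exact Real.exp_le_exp.2 (by linarith [hv j])
    refine (Finset.sum_le_sum fun j _ => h4 j).trans ?_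
    rw [Finset.sum_const, Finset.card_univ, Fintype.card_fin, nsmul_eq_mul]
    calc (n : ℝ) * (Real.exp (1 - 4 * Real.log U) * Real.exp t) ≤
          Real.log U ^ 2 * (Real.exp (1 - 4 * Real.log U) * Real.exp t) := by gcongr
      _ = (Real.log U ^ 2 * Real.exp (1 - 4 * Real.log U)) * Real.exp t := by ring
      _ ≤ 1 / 100 * Real.exp t := by gcongr
      _ = Real.exp t / 100 := by ring
  linarith

theorem log_big {q a P s U : ℕ} (hs : 1 ≤ s) (hq : lev (a * P + 1) = s) (ha : 1 ≤ a) (hP : 1 ≤ P)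
    (hqq : q = a * P + 1)
    (ha' : Real.log a ≤ 10 * SS U * Real.exp (SS U))
    (hsU : SS U + 3 * Real.log U ≤ s)
    (h1 : 1 + 10 * SS U * Real.exp (SS U) ≤ Real.exp (SS U + 3 * Real.log U) / 2) :
    Real.exp s / 2 ≤ Real.log P ∧ Real.log q ≤ Real.exp ((s : ℝ) + 1) := by
  obtain ⟨h2, h3⟩ := lev_bounds hs hq
  have haR : (1 : ℝ) ≤ a := by exact_mod_cast ha
  have hPR : (1 : ℝ) ≤ P := by exact_mod_cast hP
  constructor
  · have h4 : (((a * P + 1 : ℕ) : ℕ) : ℝ) ≤ 2 * (a * P) := by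
      push_cast
      nlinarith
    have h5 : Real.exp s ≤ Real.log (2 * (a * P)) := by
      rw [Real.le_log_iff_exp_le (by positivity)]
      exact h2.trans h4
    rw [Real.log_mul (by norm_num) (by positivity), Real.log_mul (by positivity) (by positivity)] at h5
    have h6 : Real.log 2 ≤ 1 := by
      have := Real.log_two_lt_d9
      linarith
    have h7 : Real.exp (SS U + 3 * Real.log U) ≤ Real.exp s := Real.exp_le_exp.2 hsU
    linarith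
  · rw [hqq]
    have h4 : (0 : ℝ) < ((a * P + 1 : ℕ) : ℝ) := by positivity
    rw [Real.log_le_iff_le_exp h4]
    exact h3.le

theorem zc_le_one' {U k l : ℕ} (u : Fin k → ℕ) (w : Fin l → ℕ) (c : Fin (k + 1) × Fin (l + 1))
    (r : ℕ) (hr : r.Prime) : lwt (zc U u w c) r ≤ 1 := by
  rw [lwt_prime _ hr]
  exact zc_le_one U u w c _

theorem lwt_zc_nonneg {U k l : ℕ} (u : Fin k → ℕ) (w : Fin l → ℕ)
    (c : Fin (k + 1) × Fin (l + 1)) (n : ℕ) : 0 ≤ lwt (zc U u w c) n :=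
  (lwt_cmul (zc_nonneg U u w c)).2.2 n

theorem fib_facts {k l : ℕ} {α : Fin (k + 1) → ℕ} {α' : Fin (l + 1) → ℕ}
    {d d0 : Fin (k + 1) × Fin (l + 1) → ℕ}
    (he : Function.update d ((0 : Fin (k + 1)), (0 : Fin (l + 1))) 1 =
      Function.update d0 ((0 : Fin (k + 1)), (0 : Fin (l + 1))) 1) :
    α 0 * (∏ j, d (0, j)) = (α 0 * ∏ j : Fin l, d0 (0, j.succ)) * d (0, 0) ∧
    α' 0 * (∏ i, d (i, 0)) = (α' 0 * ∏ i : Fin k, d0 (i.succ, 0)) * d (0, 0) ∧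
    ∏ c, d c = d (0, 0) * ∏ c ∈ Finset.univ.erase ((0 : Fin (k + 1)), (0 : Fin (l + 1))), d0 c := by
  have hne : ∀ c : Fin (k + 1) × Fin (l + 1), c ≠ (0, 0) → d c = d0 c := by
    intro c hc
    have h3 := congrFun he c
    rwa [Function.update_of_ne hc, Function.update_of_ne hc] at h3
  refine ⟨?_, ?_, ?_⟩
  · rw [Fin.prod_univ_succ]
    have : ∀ j : Fin l, d (0, j.succ) = d0 (0, j.succ) := fun j => hne _ (by
      intro h
      exact Fin.succ_ne_zero j (congrArg Prod.snd h))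
    simp only [this]
    ring
  · rw [Fin.prod_univ_succ]
    have : ∀ j : Fin k, d (j.succ, 0) = d0 (j.succ, 0) := fun j => hne _ (by
      intro h
      exact Fin.succ_ne_zero j (congrArg Prod.fst h))
    simp only [this]
    ring
  · rw [← Finset.mul_prod_erase Finset.univ d (Finset.mem_univ ((0 : Fin (k + 1)), (0 : Fin (l + 1))))]
    congr 1
    exact Finset.prod_congr rfl fun c hc => hne c (Finset.ne_of_mem_erase hc)

theorem low_bound {A n : ℕ} {t : ℝ} (hA : 1 ≤ A) (hn : 1 ≤ n) (hexp : 1000 ≤ Real.exp t)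
    (h1 : Real.log A ≤ Real.exp t / 50)
    (h2 : Real.exp t / 4 ≤ Real.log ((A * n + 1 : ℕ) : ℝ)) : Real.exp t / 8 ≤ Real.log n := by
  have hd1 : (1 : ℝ) ≤ n := by exact_mod_cast hn
  have hA1' : (1 : ℝ) ≤ A := by exact_mod_cast hA
  have h6 : Real.log ((A * n + 1 : ℕ) : ℝ) ≤ Real.log (2 * (A * n)) := by
    refine Real.log_le_log (by positivity) ?_
    push_cast
    nlinarith
  rw [Real.log_mul (by norm_num) (by positivity), Real.log_mul (by positivity) (by positivity)] at h6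
  have h7 : Real.log 2 ≤ 1 := by
    have := Real.log_two_lt_d9
    linarith
  linarith

theorem lemA_app : ∃ C1 : ℝ, 0 < C1 ∧ ∀ (X X' t : ℝ) (A1 A2 : ℕ) (f : ℕ → ℝ), LL X = t →
    X = Real.exp (Real.exp t) → 1000 ≤ Real.exp t → 1 ≤ t → 0 < X' → X' ≤ X →
    Real.exp t / 8 ≤ Real.log X' → A1 ≠ A2 → 1 ≤ A1 → 1 ≤ A2 →
    Real.log A1 ≤ Real.exp t / 50 → Real.log A2 ≤ Real.exp t / 50 → CMul f →
    (∀ r : ℕ, r.Prime → f r ≤ 1) →
    ∑ d ∈ (Finset.Icc 1 ⌊X'⌋₊).filter (fun d : ℕ => ∀ A ∈ ({A1, A2} : Finset ℕ), (A * d + 1).Prime),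
      f d ≤ C1 * (1 + t) ^ C1 * (512 * Real.exp (-3 * t)) * X' *
        Real.exp (∑ r ∈ (Finset.Icc 1 ⌊X⌋₊).filter Nat.Prime, f r / (r : ℝ)) := by
  obtain ⟨C1, hC1, hlemA⟩ := lemA
  refine ⟨C1, hC1, ?_⟩
  intro X X' t A1 A2 f htt hXe hexp ht hX'0 hX'X hlogX' hne12 hA1 hA2 hl1 hl2 hf hf1
  have hX'2 : 2 ≤ X' := by
    have h6 := Real.log_le_sub_one_of_pos hX'0
    linarith
  have hX1000 : 1000 ≤ X := by
    rw [hXe]
    have := Real.add_one_le_exp (Real.exp t)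
    linarith
  have hcard : ({A1, A2} : Finset ℕ).card = 2 := Finset.card_pair hne12
  have hAX : ∀ A : ℕ, 1 ≤ A → Real.log A ≤ Real.exp t / 50 → (A : ℝ) ≤ X := by
    intro A h5 h6
    have h7 : (0 : ℝ) < A := by exact_mod_cast h5
    rw [hXe, ← Real.log_le_iff_le_exp h7]
    linarith
  have hmain := hlemA X X' {A1, A2} f (by linarith) hX'2 hX'X hcard.le (by
      intro A hA
      rw [Finset.mem_insert, Finset.mem_singleton] at hA
      rcases hA with rfl | rfl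
      · exact ⟨hA1, hAX _ hA1 hl1⟩
      · exact ⟨hA2, hAX _ hA2 hl2⟩) hf
    (fun r hr => (hf1 r hr).trans (by norm_num))
  refine hmain.trans ?_
  rw [hcard, htt]
  have g1 : X' / Real.log X' ^ (1 + 2) ≤ X' * (512 * Real.exp (-3 * t)) := by
    have g2 : (Real.exp t / 8) ^ 3 ≤ Real.log X' ^ 3 := by gcongr
    have g3 : 512 * Real.exp (-3 * t) = 1 / (Real.exp t / 8) ^ 3 := by
      rw [show (-3 : ℝ) * t = -(((3 : ℕ) : ℝ) * t) by push_cast; ring, Real.exp_neg,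
        Real.exp_nat_mul]
      field_simp
      norm_num
    rw [g3, div_eq_mul_one_div X']
    exact mul_le_mul_of_nonneg_left (one_div_le_one_div_of_le (by positivity) g2) hX'0.le
  have g4 : Real.exp (∑ r ∈ (Finset.Icc 1 ⌊X'⌋₊).filter Nat.Prime, f r / (r : ℝ)) ≤
      Real.exp (∑ r ∈ (Finset.Icc 1 ⌊X⌋₊).filter Nat.Prime, f r / (r : ℝ)) := by
    refine Real.exp_le_exp.2 (Finset.sum_le_sum_of_subset_of_nonneg ?_ ?_)
    · refine Finset.filter_subset_filter _ (Finset.Icc_subset_Icc_right ?_)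
      exact Nat.floor_le_floor hX'X
    · intro r _ _
      exact div_nonneg (hf.2.2 _) (Nat.cast_nonneg _)
  calc C1 * (1 + t) ^ C1 * X' / Real.log X' ^ (1 + 2) *
        Real.exp (∑ r ∈ (Finset.Icc 1 ⌊X'⌋₊).filter Nat.Prime, f r / (r : ℝ)) =
        C1 * (1 + t) ^ C1 * (X' / Real.log X' ^ (1 + 2)) *
        Real.exp (∑ r ∈ (Finset.Icc 1 ⌊X'⌋₊).filter Nat.Prime, f r / (r : ℝ)) := by
          rw [mul_div_assoc]
    _ ≤ C1 * (1 + t) ^ C1 * (X' * (512 * Real.exp (-3 * t))) *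
        Real.exp (∑ r ∈ (Finset.Icc 1 ⌊X⌋₊).filter Nat.Prime, f r / (r : ℝ)) := by
          refine mul_le_mul (mul_le_mul_of_nonneg_left g1 (by positivity)) g4 (Real.exp_pos _).le
            (by positivity)
    _ = _ := by ring

theorem com_inner : ∃ C1 : ℝ, 0 < C1 ∧ ∀ {U k l : ℕ} {X Y σ t : ℝ} {u : Fin k → ℕ} {w : Fin l → ℕ}
    {α : Fin (k + 1) → ℕ} {α' : Fin (l + 1) → ℕ} {𝒟 : Finset (Fin (k + 1) × Fin (l + 1) → ℕ)},
    LL X = t → Real.log X = Real.exp t → X = Real.exp (Real.exp t) → 1000 ≤ X →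
    1000 ≤ Real.exp t → 1 ≤ t → 1 ≤ Y → Y ≤ X → 1 ≤ σ →
    (k : ℝ) ≤ Real.log U ^ 2 → (l : ℝ) ≤ Real.log U ^ 2 → (∀ i, 1 ≤ u i) → (∀ j, 1 ≤ w j) →
    (∀ i, (u i : ℝ) + 4 * Real.log U ≤ t) → (∀ j, (w j : ℝ) + 4 * Real.log U ≤ t) →
    (∀ i, 1 ≤ α i ∧ Real.log (α i) ≤ 10 * SS U * Real.exp (SS U)) →
    (∀ j, 1 ≤ α' j ∧ Real.log (α' j) ≤ 10 * SS U * Real.exp (SS U)) →
    10 * SS U * Real.exp (SS U) ≤ Real.exp t / 100 →
    Real.log U ^ 2 * Real.exp (1 - 4 * Real.log U) ≤ 1 / 100 →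
    (∀ d ∈ 𝒟, MatOK U X Y σ u w α α' d) →
    ∀ d0 ∈ 𝒟, ∑ d ∈ 𝒟.filter (fun d => Function.update d ((0 : Fin (k + 1)), (0 : Fin (l + 1))) 1 =
        Function.update d0 ((0 : Fin (k + 1)), (0 : Fin (l + 1))) 1),
      lwt (zc U u w ((0 : Fin (k + 1)), (0 : Fin (l + 1)))) (d (0, 0)) ≤
      C1 * (1 + t) ^ C1 * (512 * Real.exp (-3 * t)) * (Y / σ) *
      Real.exp (∑ r ∈ (Finset.Icc 1 ⌊X⌋₊).filter Nat.Prime, lwt (zc U u w (0, 0)) r / (r : ℝ)) *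
      ∏ c ∈ Finset.univ.erase ((0 : Fin (k + 1)), (0 : Fin (l + 1))), 1 / (d0 c : ℝ) := by
  obtain ⟨C1, hC1, hlemA⟩ := lemA_app
  refine ⟨C1, hC1, ?_⟩
  intro U k l X Y σ t u w α α' 𝒟 htt hlogX hXe hX1000 hexp ht hY1 hYX hσ hk hl hu1 hw1 hu4 hw4 hα
    hα' n1 n2 h𝒟 d0 hd0
  have hσ0 : 0 < σ := by linarith
  have hα1 : ∀ i, 1 ≤ α i := fun i => (hα i).1
  have hα'1 : ∀ i, 1 ≤ α' i := fun i => (hα' i).1
  have hfn : ∀ c n, 0 ≤ lwt (zc U u w c) n := lwt_zc_nonneg u w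
  have hok0 := h𝒟 d0 hd0
  have hA1 := log_mul_prod_le (U := U) (t := t) w (fun j => d0 (0, j.succ))
    (fun j => ⟨hok0.1 _, mo_col_log hok0 hα'1 j (hw1 j) 0⟩) hw4 hl (hα 0).1
    (hα 0).2 n1 n2
  have hA2 := log_mul_prod_le (U := U) (t := t) u (fun i => d0 (i.succ, 0))
    (fun i => ⟨hok0.1 _, mo_row_log hok0 hα1 i (hu1 i) 0⟩) hu4 hk (hα' 0).1
    (hα' 0).2 n1 n2
  have hfib := fun (d : Fin (k + 1) × Fin (l + 1) → ℕ)
    (he : Function.update d ((0 : Fin (k + 1)), (0 : Fin (l + 1))) 1 =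
      Function.update d0 ((0 : Fin (k + 1)), (0 : Fin (l + 1))) 1) =>
    fib_facts (α := α) (α' := α') he
  obtain ⟨A1, hA1e⟩ : ∃ A1, A1 = α 0 * ∏ j : Fin l, d0 (0, j.succ) := ⟨_, rfl⟩
  obtain ⟨A2, hA2e⟩ : ∃ A2, A2 = α' 0 * ∏ i : Fin k, d0 (i.succ, 0) := ⟨_, rfl⟩
  have hE : ∏ c ∈ Finset.univ.erase ((0 : Fin (k + 1)), (0 : Fin (l + 1))), 1 / (d0 c : ℝ) =
      1 / ((∏ c ∈ Finset.univ.erase ((0 : Fin (k + 1)), (0 : Fin (l + 1))), d0 c : ℕ) : ℝ) := by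
    rw [Nat.cast_prod, Finset.prod_div_distrib, Finset.prod_const_one]
  rw [hE]
  have hEpos : 1 ≤ ∏ c ∈ Finset.univ.erase ((0 : Fin (k + 1)), (0 : Fin (l + 1))), d0 c :=
    Nat.succ_le_of_lt (Finset.prod_pos fun c _ => hok0.1 c)
  obtain ⟨E, hEe⟩ : ∃ E, E = ∏ c ∈ Finset.univ.erase ((0 : Fin (k + 1)), (0 : Fin (l + 1))),
    d0 c := ⟨_, rfl⟩
  rw [← hA1e] at hA1
  rw [← hA2e] at hA2
  simp only [← hA1e, ← hA2e, ← hEe] at hfib
  rw [← hEe] at hEpos ⊢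
  have hEpos' : (1 : ℝ) ≤ E := by exact_mod_cast hEpos
  have hX' : ∀ d ∈ 𝒟, Function.update d ((0 : Fin (k + 1)), (0 : Fin (l + 1))) 1 =
      Function.update d0 ((0 : Fin (k + 1)), (0 : Fin (l + 1))) 1 →
      (d (0, 0) : ℝ) ≤ Y / (σ * E) := by
    intro d hd he
    have h5 := (h𝒟 d hd).2.2.2.2.2.2.2.2.2.2
    rw [(hfib d he).2.2] at h5
    rw [le_div_iff₀ (by positivity)]
    push_cast at h5
    linarith
  have hlogX' : Real.exp t / 8 ≤ Real.log (Y / (σ * E)) := by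
    have h5 := hok0.2.2.2.1
    rw [(hfib d0 rfl).1, hlogX] at h5
    refine (low_bound hA1.1 (hok0.1 _) hexp hA1.2 h5).trans (Real.log_le_log ?_ (hX' d0 hd0 rfl))
    exact_mod_cast (hok0.1 _)
  have hX'0 : 0 < Y / (σ * E) := by positivity
  have hX'Y : Y / (σ * E) ≤ Y := by
    refine div_le_self (by linarith) ?_
    nlinarith
  have hne12 : A1 ≠ A2 := by
    have h5 := hok0.2.2.2.2.2.2.2.2.1
    rw [(hfib d0 rfl).1, (hfib d0 rfl).2.1] at h5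
    intro h6
    exact h5 (by rw [h6])
  have hmain := hlemA X (Y / (σ * E)) t A1 A2 (lwt (zc U u w (0, 0))) htt hXe hexp ht hX'0
    (hX'Y.trans hYX) hlogX' hne12 hA1.1 hA2.1 hA1.2 hA2.2 (lwt_cmul (zc_nonneg U u w _))
    (zc_le_one' u w _)
  refine (fiber_sum_le ((0 : Fin (k + 1)), (0 : Fin (l + 1))) 𝒟 d0 _ (hfn _)
    ((Finset.Icc 1 ⌊Y / (σ * E)⌋₊).filter (fun d : ℕ => ∀ A ∈ ({A1, A2} : Finset ℕ),
      (A * d + 1).Prime)) ?_).trans (hmain.trans (le_of_eq ?_))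
  · intro d hd he
    rw [Finset.mem_filter, Finset.mem_Icc]
    refine ⟨⟨(h𝒟 d hd).1 _, Nat.le_floor (hX' d hd he)⟩, ?_⟩
    intro A hA
    rw [Finset.mem_insert, Finset.mem_singleton] at hA
    obtain ⟨f1, f2, -⟩ := hfib d he
    rcases hA with rfl | rfl
    · rw [← f1]
      exact (h𝒟 d hd).2.2.1
    · rw [← f2]
      exact (h𝒟 d hd).2.2.2.2.1
  · rw [← div_div]
    ring

theorem cell_ok {U k l : ℕ} {X Y σ t : ℝ} {u : Fin k → ℕ} {w : Fin l → ℕ}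
    {α : Fin (k + 1) → ℕ} {α' : Fin (l + 1) → ℕ} {d : Fin (k + 1) × Fin (l + 1) → ℕ}
    {R : Finset (Fin (k + 1))} {R' : Finset (Fin (l + 1))} {D : Fin (k + 1) → ℝ}
    {D' : Fin (l + 1) → ℝ}
    (hR : ∀ i, i ∈ R ↔ ∃ i' : Fin k, i = i'.succ ∧ (SS U : ℝ) + 3 * Real.log U ≤ u i')
    (hR' : ∀ i, i ∈ R' ↔ ∃ i' : Fin l, i = i'.succ ∧ (SS U : ℝ) + 3 * Real.log U ≤ w i')
    (hD : ∀ i : Fin k, D i.succ = Real.exp (u i) / 2)
    (hD' : ∀ i : Fin l, D' i.succ = Real.exp (w i) / 2)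
    (hXe : X = Real.exp (Real.exp t)) (hℓ : 1 ≤ Real.log U)
    (hu1 : ∀ i, 1 ≤ u i) (hw1 : ∀ j, 1 ≤ w j)
    (hu4 : ∀ i, (u i : ℝ) + 4 * Real.log U ≤ t) (hw4 : ∀ j, (w j : ℝ) + 4 * Real.log U ≤ t)
    (hα : ∀ i, 1 ≤ α i ∧ Real.log (α i) ≤ 10 * SS U * Real.exp (SS U))
    (hα' : ∀ j, 1 ≤ α' j ∧ Real.log (α' j) ≤ 10 * SS U * Real.exp (SS U))
    (n4 : 1 + 10 * SS U * Real.exp (SS U) ≤ Real.exp (SS U + 3 * Real.log U) / 2)
    (h : MatOK U X Y σ u w α α' d) :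
    CellOK X α α' R R' D D' (Function.update d ((0 : Fin (k + 1)), (0 : Fin (l + 1))) 1) := by
  have hα1 : ∀ i, 1 ≤ α i := fun i => (hα i).1
  have hα'1 : ∀ i, 1 ≤ α' i := fun i => (hα' i).1
  obtain ⟨g1, g2, -, -, -, -, g3, g4, -, g5, -⟩ := h
  have hrow : ∀ (i : Fin k) (j : Fin (l + 1)),
      Function.update d ((0 : Fin (k + 1)), (0 : Fin (l + 1))) 1 (i.succ, j) =
        d (i.succ, j) := fun i j => Function.update_of_ne (by
          intro h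
          exact Fin.succ_ne_zero i (congrArg Prod.fst h)) _ _
  have hcol : ∀ (i : Fin (k + 1)) (j : Fin l),
      Function.update d ((0 : Fin (k + 1)), (0 : Fin (l + 1))) 1 (i, j.succ) =
        d (i, j.succ) := fun i j => Function.update_of_ne (by
          intro h
          exact Fin.succ_ne_zero j (congrArg Prod.snd h)) _ _
  have hle : ∀ v : ℕ, (v : ℝ) + 4 * Real.log U ≤ t →
      Real.exp (Real.exp ((v : ℝ) + 1)) ≤ X := by
    intro v hv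
    rw [hXe]
    exact Real.exp_le_exp.2 (Real.exp_le_exp.2 (by linarith))
  refine ⟨?_, ?_, ?_⟩
  · intro i hi
    obtain ⟨i', rfl, h⟩ := (hR i).1 hi
    simp only [hrow]
    obtain ⟨m1, m2⟩ := g3 i'
    have m3 := log_big (hu1 i') m2 (hα1 _) (Nat.succ_le_of_lt (Finset.prod_pos fun j _ => g1 _)) rfl
      (hα i'.succ).2 h n4
    refine ⟨m1, ?_, ?_⟩
    · rw [hD]
      exact m3.1
    · have m4 := (lev_bounds (hu1 i') m2).2
      have m5 := hle (u i') (hu4 i')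
      push_cast at m4 ⊢
      linarith
  · intro j hj
    obtain ⟨j', rfl, h⟩ := (hR' j).1 hj
    simp only [hcol]
    obtain ⟨m1, m2⟩ := g4 j'
    have m3 := log_big (hw1 j') m2 (hα'1 _) (Nat.succ_le_of_lt (Finset.prod_pos fun j _ => g1 _)) rfl
      (hα' j'.succ).2 h n4
    refine ⟨m1, ?_, ?_⟩
    · rw [hD']
      exact m3.1
    · have m4 := (lev_bounds (hw1 j') m2).2
      have m5 := hle (w j') (hw4 j')
      push_cast at m4 ⊢
      linarith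
  · intro i hi j hj
    obtain ⟨i', rfl, h⟩ := (hR i).1 hi
    obtain ⟨j', rfl, h'⟩ := (hR' j).1 hj
    simp only [hrow, hcol]
    exact g5 i' j'

theorem com_outer : ∃ C3 : ℝ, 0 < C3 ∧ ∀ {U k l : ℕ} {X Y σ t : ℝ} {u : Fin k → ℕ} {w : Fin l → ℕ}
    {α : Fin (k + 1) → ℕ} {α' : Fin (l + 1) → ℕ} {𝒟 : Finset (Fin (k + 1) × Fin (l + 1) → ℕ)}
    {R : Finset (Fin (k + 1))} {R' : Finset (Fin (l + 1))} {D : Fin (k + 1) → ℝ}
    {D' : Fin (l + 1) → ℝ}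
    (_ : ∀ i, i ∈ R ↔ ∃ i' : Fin k, i = i'.succ ∧ (SS U : ℝ) + 3 * Real.log U ≤ u i')
    (_ : ∀ i, i ∈ R' ↔ ∃ i' : Fin l, i = i'.succ ∧ (SS U : ℝ) + 3 * Real.log U ≤ w i')
    (_ : ∀ i : Fin k, D i.succ = Real.exp (u i) / 2)
    (_ : ∀ i : Fin l, D' i.succ = Real.exp (w i) / 2)
    (_ : (0 : Fin (k + 1)) ∉ R) (_ : (0 : Fin (l + 1)) ∉ R')
    (_ : X = Real.exp (Real.exp t)) (_ : 1000 ≤ X) (_ : Y ≤ X) (_ : 1 ≤ σ) (_ : 1 ≤ Real.log U)
    (_ : (k : ℝ) ≤ Real.log U ^ 2) (_ : (l : ℝ) ≤ Real.log U ^ 2)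
    (_ : ∀ i, 1 ≤ u i) (_ : ∀ j, 1 ≤ w j)
    (_ : ∀ i, (u i : ℝ) + 4 * Real.log U ≤ t) (_ : ∀ j, (w j : ℝ) + 4 * Real.log U ≤ t)
    (_ : ∀ i, 1 ≤ α i ∧ Real.log (α i) ≤ 10 * SS U * Real.exp (SS U))
    (_ : ∀ j, 1 ≤ α' j ∧ Real.log (α' j) ≤ 10 * SS U * Real.exp (SS U))
    (_ : 2 * (Real.log U ^ 2 + 1) ≤ Real.exp (SS U + 3 * Real.log U) / 2)
    (_ : 1 + 10 * SS U * Real.exp (SS U) ≤ Real.exp (SS U + 3 * Real.log U) / 2)
    (_ : ∀ d ∈ 𝒟, MatOK U X Y σ u w α α' d),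
    ∑ e ∈ 𝒟.image (fun d => Function.update d ((0 : Fin (k + 1)), (0 : Fin (l + 1))) 1),
      ∏ c ∈ Finset.univ.erase ((0 : Fin (k + 1)), (0 : Fin (l + 1))),
        lwt (zc U u w c) (e c) / (e c : ℝ) ≤
      (C3 * (1 + LL X) ^ C3 * (((k + 1 : ℕ) : ℝ) * ((l + 1 : ℕ) : ℝ)) ^ 3) ^ (R.card + R'.card) *
        C3 ^ (Finset.univ.erase ((0 : Fin (k + 1)), (0 : Fin (l + 1)))).card *
        (∏ i ∈ R, 1 / D i) * (∏ j ∈ R', 1 / D' j) *
        ∏ c ∈ Finset.univ.erase ((0 : Fin (k + 1)), (0 : Fin (l + 1))),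
          Real.exp (∑ r ∈ (Finset.Icc 1 ⌊X⌋₊).filter Nat.Prime, lwt (zc U u w c) r / (r : ℝ)) := by
  obtain ⟨C3, hC3, hcells⟩ := cells
  refine ⟨C3, hC3, ?_⟩
  intro U k l X Y σ t u w α α' 𝒟 R R' D D' hR hR' hD hD' h0R h0R' hXe hX1000 hYX hσ hℓ hk hl hu1 hw1
    hu4 hw4 hα hα' n3 n4 h𝒟
  have hα1 : ∀ i, 1 ≤ α i := fun i => (hα i).1
  have hα'1 : ∀ i, 1 ≤ α' i := fun i => (hα' i).1
  have hfn : ∀ c n, 0 ≤ lwt (zc U u w c) n := lwt_zc_nonneg u w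
  have hf1 : ∀ c, ∀ r : ℕ, r.Prime → lwt (zc U u w c) r ≤ 1 := zc_le_one' u w
  have hNX : ((⌊X⌋₊ : ℕ) : ℝ) ≤ X := Nat.floor_le (by linarith)
  have hC := hcells (Fin (k + 1)) (Fin (l + 1)) X ⌊X⌋₊ (fun c => lwt (zc U u w c)) α α' R R'
    (Finset.univ.erase (0, 0)) D D' (by linarith) hNX (fun c => lwt_cmul (zc_nonneg U u w c)) hf1
    hα1 hα'1 (by
      intro c hc
      have : c = (0, 0) := by
        by_contra h
        exact hc (Finset.mem_erase.2 ⟨h, Finset.mem_univ _⟩)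
      rw [this]
      exact ⟨h0R, h0R'⟩) (by
      intro i hi
      obtain ⟨i', rfl, h⟩ := (hR i).1 hi
      rw [hD, Fintype.card_fin]
      have h5 : Real.exp (SS U + 3 * Real.log U) ≤ Real.exp (u i') := Real.exp_le_exp.2 h
      push_cast
      linarith) (by
      intro i hi
      obtain ⟨i', rfl, h⟩ := (hR' i).1 hi
      rw [hD', Fintype.card_fin]
      have h5 : Real.exp (SS U + 3 * Real.log U) ≤ Real.exp (w i') := Real.exp_le_exp.2 h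
      push_cast
      linarith)
  have hCle : ∑ e ∈ 𝒟.image (fun d => Function.update d ((0 : Fin (k + 1)), (0 : Fin (l + 1))) 1),
      ∏ c ∈ Finset.univ.erase ((0 : Fin (k + 1)), (0 : Fin (l + 1))),
        lwt (zc U u w c) (e c) / (e c : ℝ) ≤
      ∑ d ∈ Fintype.piFinset (fun c : Fin (k + 1) × Fin (l + 1) =>
          if c ∈ Finset.univ.erase ((0 : Fin (k + 1)), (0 : Fin (l + 1)))
            then Finset.Icc 1 ⌊X⌋₊ else {1}),
        Set.indicator {d | CellOK X α α' R R' D D' d}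
          (fun d : Fin (k + 1) × Fin (l + 1) → ℕ =>
            ∏ c ∈ Finset.univ.erase ((0 : Fin (k + 1)), (0 : Fin (l + 1))),
              lwt (zc U u w c) (d c) / (d c : ℝ)) d := by
    have hnn : ∀ e : Fin (k + 1) × Fin (l + 1) → ℕ,
        0 ≤ ∏ c ∈ Finset.univ.erase ((0 : Fin (k + 1)), (0 : Fin (l + 1))),
          lwt (zc U u w c) (e c) / (e c : ℝ) := fun e =>
      Finset.prod_nonneg fun c _ => div_nonneg (hfn _ _) (Nat.cast_nonneg _)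
    have hCell : ∀ e ∈ 𝒟.image (fun d =>
        Function.update d ((0 : Fin (k + 1)), (0 : Fin (l + 1))) 1),
        CellOK X α α' R R' D D' e := by
      intro e he
      obtain ⟨d, hd, rfl⟩ := Finset.mem_image.1 he
      exact cell_ok hR hR' hD hD' hXe hℓ hu1 hw1 hu4 hw4 hα hα' n4 (h𝒟 d hd)
    calc _ = ∑ d ∈ 𝒟.image (fun d => Function.update d ((0 : Fin (k + 1)), (0 : Fin (l + 1))) 1),
        Set.indicator {d | CellOK X α α' R R' D D' d}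
          (fun d : Fin (k + 1) × Fin (l + 1) → ℕ =>
            ∏ c ∈ Finset.univ.erase ((0 : Fin (k + 1)), (0 : Fin (l + 1))),
              lwt (zc U u w c) (d c) / (d c : ℝ)) d := by
            refine Finset.sum_congr rfl fun e he => ?_
            rw [Set.indicator_of_mem]
            exact hCell e he
      _ ≤ _ := by
            refine Finset.sum_le_sum_of_subset_of_nonneg ?_ ?_
            · intro e he
              obtain ⟨d, hd, rfl⟩ := Finset.mem_image.1 he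
              rw [Fintype.mem_piFinset]
              intro c
              by_cases hc : c = (0, 0)
              · rw [if_neg (by rw [hc]; simp), hc, Function.update_self]
                exact Finset.mem_singleton_self 1
              · rw [if_pos (Finset.mem_erase.2 ⟨hc, Finset.mem_univ _⟩), Function.update_of_ne hc,
                  Finset.mem_Icc]
                obtain ⟨g1, -, -, -, -, -, -, -, -, -, g6⟩ := h𝒟 d hd
                refine ⟨g1 c, Nat.le_floor ?_⟩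
                have g7 : d c ≤ ∏ c, d c := by
                  refine Nat.le_of_dvd (Finset.prod_pos fun j _ => g1 _) ?_
                  exact Finset.dvd_prod_of_mem d (Finset.mem_univ c)
                have g8 : (d c : ℝ) ≤ ((∏ c, d c : ℕ) : ℝ) := by exact_mod_cast g7
                have g9 : ((∏ c, d c : ℕ) : ℝ) ≤ σ * ((∏ c, d c : ℕ) : ℝ) :=
                  le_mul_of_one_le_left (Nat.cast_nonneg _) hσ
                linarith
            · intro e _ _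
              exact Set.indicator_nonneg (fun e _ => hnn e) e
  have hfin := hCle.trans hC
  rw [Fintype.card_fin, Fintype.card_fin] at hfin
  exact hfin

end COM

open COM in
theorem co_mat : ∃ U₀ : ℕ, ∀ U : ℕ, U₀ ≤ U → ∀ (X Y σ : ℝ) (k l : ℕ) (u : Fin k → ℕ)
    (w : Fin l → ℕ) (α : Fin (k + 1) → ℕ) (α' : Fin (l + 1) → ℕ)
    (𝒟 : Finset (Fin (k + 1) × Fin (l + 1) → ℕ)),
    (U : ℝ) ^ ((9 : ℝ) / 10) ≤ LL X → LL X ≤ 3 * U + 5 → 1 ≤ Y → Y ≤ X → 1 ≤ σ →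
    (k : ℝ) ≤ Real.log U ^ 2 → (l : ℝ) ≤ Real.log U ^ 2 →
    (∀ i, SS U ≤ u i ∧ (u i : ℝ) + 4 * Real.log U ≤ LL X) →
    (∀ j, SS U ≤ w j ∧ (w j : ℝ) + 4 * Real.log U ≤ LL X) →
    (∀ i, 1 ≤ α i ∧ Real.log (α i) ≤ 10 * SS U * Real.exp (SS U)) →
    (∀ j, 1 ≤ α' j ∧ Real.log (α' j) ≤ 10 * SS U * Real.exp (SS U)) →
    (∀ d ∈ 𝒟, MatOK U X Y σ u w α α' d) →
    ∑ d ∈ 𝒟, ∏ c, lwt (zw U w) (d c) ≤
      Y / σ * Real.exp (-2 * LL X - ∑ j, (w j : ℝ) + (U : ℝ) ^ ((14 : ℝ) / 25)) := by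
  obtain ⟨C1, hC1, hinner⟩ := com_inner
  obtain ⟨C2, hC2, hsum⟩ := sum_exp_le
  obtain ⟨C3, hC3, houter⟩ := com_outer
  obtain ⟨U₀, hU₀⟩ := Filter.eventually_atTop.1
    (com_num.and (com_fin C1 C2 C3 hC1.le hC2.le hC3.le))
  refine ⟨U₀, ?_⟩
  intro U hU X Y σ k l u w α α' 𝒟 hX1 hX2 hY1 hYX hσ hk hl hu hw hα hα' h𝒟
  obtain ⟨hnum, hfin⟩ := hU₀ U hU
  obtain ⟨hS, hℓ, hexp, ht, hlog, n1, n2, n3, n4⟩ := hnum (LL X) hX1 hX2
  have hX : 1 ≤ X := hY1.trans hYX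
  have hlogX : Real.log X = Real.exp (LL X) := by
    have h0 : 0 ≤ Real.log X := Real.log_nonneg hX
    rcases h0.eq_or_lt with h0 | h0
    · exfalso
      have : LL X = 0 := by unfold LL; rw [← h0, Real.log_zero]
      linarith
    · unfold LL
      rw [Real.exp_log h0]
  generalize htt : LL X = t at *
  have hXe : X = Real.exp (Real.exp t) := by
    rw [← hlogX, Real.exp_log (by linarith)]
  have hX1000 : 1000 ≤ X := by
    rw [hXe]
    have := Real.add_one_le_exp (Real.exp t)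
    linarith
  have hσ0 : 0 < σ := by linarith
  have hα1 : ∀ i, 1 ≤ α i := fun i => (hα i).1
  have hα'1 : ∀ i, 1 ≤ α' i := fun i => (hα' i).1
  have hu1 : ∀ i, 1 ≤ u i := fun i => hS.trans (hu i).1
  have hw1 : ∀ i, 1 ≤ w i := fun i => hS.trans (hw i).1
  have hfn : ∀ c n, 0 ≤ lwt (zc U u w c) n := fun c => (lwt_cmul (zc_nonneg U u w c)).2.2
  have hf1 : ∀ c, ∀ r : ℕ, r.Prime → lwt (zc U u w c) r ≤ 1 := by
    intro c r hr
    rw [lwt_prime _ hr]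
    exact zc_le_one U u w c _
  -- step A
  have hA : ∑ d ∈ 𝒟, ∏ c, lwt (zw U w) (d c) = ∑ d ∈ 𝒟, ∏ c, lwt (zc U u w c) (d c) := by
    refine Finset.sum_congr rfl fun d hd => Finset.prod_congr rfl fun c _ => ?_
    exact mo_lwt (h𝒟 d hd) hα1 hα'1 c
  rw [hA]
  -- step B
  have hB := split_sum ((0 : Fin (k + 1)), (0 : Fin (l + 1))) 𝒟 (fun c => lwt (zc U u w c)) hfn
    (C1 * (1 + t) ^ C1 * (512 * Real.exp (-3 * t)) * (Y / σ) *
      Real.exp (∑ r ∈ (Finset.Icc 1 ⌊X⌋₊).filter Nat.Prime, lwt (zc U u w (0, 0)) r / (r : ℝ)))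
    (hinner htt hlogX hXe hX1000 hexp ht hY1 hYX hσ hk hl hu1 hw1 (fun i => (hu i).2)
      (fun j => (hw j).2) hα hα' n1 n2 h𝒟)
  refine hB.trans ?_
  -- step C
  obtain ⟨R, hR⟩ : ∃ R : Finset (Fin (k + 1)), ∀ i, i ∈ R ↔ ∃ i' : Fin k, i = i'.succ ∧
      (SS U : ℝ) + 3 * Real.log U ≤ u i' := by
    classical
    exact ⟨Finset.univ.filter fun i => ∃ i' : Fin k, i = i'.succ ∧
      (SS U : ℝ) + 3 * Real.log U ≤ u i', fun i => by simp⟩
  obtain ⟨R', hR'⟩ : ∃ R' : Finset (Fin (l + 1)), ∀ i, i ∈ R' ↔ ∃ i' : Fin l, i = i'.succ ∧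
      (SS U : ℝ) + 3 * Real.log U ≤ w i' := by
    classical
    exact ⟨Finset.univ.filter fun i => ∃ i' : Fin l, i = i'.succ ∧
      (SS U : ℝ) + 3 * Real.log U ≤ w i', fun i => by simp⟩
  have h0R : (0 : Fin (k + 1)) ∉ R := by
    rw [hR]
    rintro ⟨i', h, -⟩
    exact Fin.succ_ne_zero i' h.symm
  have h0R' : (0 : Fin (l + 1)) ∉ R' := by
    rw [hR']
    rintro ⟨i', h, -⟩
    exact Fin.succ_ne_zero i' h.symm
  have hRc : R.card ≤ k := by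
    have : R ⊆ Finset.univ.erase 0 := by
      intro i hi
      rw [Finset.mem_erase]
      exact ⟨fun h => h0R (h ▸ hi), Finset.mem_univ _⟩
    refine (Finset.card_le_card this).trans ?_
    rw [Finset.card_erase_of_mem (Finset.mem_univ _), Finset.card_univ, Fintype.card_fin]
    omega
  have hRc' : R'.card ≤ l := by
    have : R' ⊆ Finset.univ.erase 0 := by
      intro i hi
      rw [Finset.mem_erase]
      exact ⟨fun h => h0R' (h ▸ hi), Finset.mem_univ _⟩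
    refine (Finset.card_le_card this).trans ?_
    rw [Finset.card_erase_of_mem (Finset.mem_univ _), Finset.card_univ, Fintype.card_fin]
    omega
  obtain ⟨D, hD⟩ : ∃ D : Fin (k + 1) → ℝ, ∀ i : Fin k, D i.succ = Real.exp (u i) / 2 :=
    ⟨Fin.cons 0 (fun i => Real.exp (u i) / 2), fun i => Fin.cons_succ _ _ _⟩
  obtain ⟨D', hD'⟩ : ∃ D' : Fin (l + 1) → ℝ, ∀ i : Fin l, D' i.succ = Real.exp (w i) / 2 :=
    ⟨Fin.cons 0 (fun i => Real.exp (w i) / 2), fun i => Fin.cons_succ _ _ _⟩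
  have hout := houter hR hR' hD hD' h0R h0R' hXe hX1000 hYX hσ hℓ hk hl hu1 hw1 (fun i => (hu i).2)
    (fun j => (hw j).2) hα hα' n3 n4 h𝒟
  refine (mul_le_mul_of_nonneg_left hout (by positivity)).trans ?_
  rw [htt]
  have hprodE : Real.exp (∑ r ∈ (Finset.Icc 1 ⌊X⌋₊).filter Nat.Prime,
        lwt (zc U u w ((0 : Fin (k + 1)), (0 : Fin (l + 1)))) r / (r : ℝ)) *
      ∏ c ∈ Finset.univ.erase ((0 : Fin (k + 1)), (0 : Fin (l + 1))),
        Real.exp (∑ r ∈ (Finset.Icc 1 ⌊X⌋₊).filter Nat.Prime, lwt (zc U u w c) r / (r : ℝ)) =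
      Real.exp (∑ c, ∑ r ∈ (Finset.Icc 1 ⌊X⌋₊).filter Nat.Prime,
        lwt (zc U u w c) r / (r : ℝ)) := by
    rw [← Real.exp_sum, ← Real.exp_add]
    congr 1
    exact Finset.add_sum_erase Finset.univ (fun c => ∑ r ∈ (Finset.Icc 1 ⌊X⌋₊).filter Nat.Prime,
      lwt (zc U u w c) r / (r : ℝ)) (Finset.mem_univ _)
  have hSE := hsum U X k l u w (by linarith)
  rw [htt] at hSE
  have hSE' : ∑ i : Fin k, ((u i : ℝ) + 1 + C2) = (∑ i, (u i : ℝ)) + k * (1 + C2) := by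
    simp only [add_assoc]
    rw [Finset.sum_add_distrib, Finset.sum_const, Finset.card_univ, Fintype.card_fin, nsmul_eq_mul]
  rw [hSE'] at hSE
  have hD0 : ∀ i ∈ R, 0 ≤ 1 / D i := by
    intro i hi
    obtain ⟨i', rfl, h⟩ := (hR i).1 hi
    rw [hD]
    positivity
  have hD0' : ∀ i ∈ R', 0 ≤ 1 / D' i := by
    intro i hi
    obtain ⟨i', rfl, h⟩ := (hR' i).1 hi
    rw [hD']
    positivity
  have hA0 : 0 ≤ (SS U : ℝ) + 3 * Real.log U := by positivity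
  have hPR := prod_R_le u ((SS U : ℝ) + 3 * Real.log U) (Real.log U ^ 2) hA0 hk D hD R hR
  have hPR' := prod_R_le w ((SS U : ℝ) + 3 * Real.log U) (Real.log U ^ 2) hA0 hl D' hD' R' hR'
  have hfinal := combine (ℓ := Real.log U) (t := t) (S := SS U) (Y := Y / σ)
    (P := (∏ i ∈ R, 1 / D i) * (∏ j ∈ R', 1 / D' j)) (C1 := C1) (C2 := C2) (C3 := C3)
    (su := ∑ i, (u i : ℝ)) (sw := ∑ j, (w j : ℝ)) (E := (U : ℝ) ^ ((14 : ℝ) / 25))
    (nL := (Finset.univ.erase ((0 : Fin (k + 1)), (0 : Fin (l + 1)))).card)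
    hℓ ht hlog (by positivity)
    (mul_nonneg (Finset.prod_nonneg hD0) (Finset.prod_nonneg hD0')) hC1 hC2 hC3 hk hl hRc hRc' (by
      rw [Finset.card_erase_of_mem (Finset.mem_univ _), Finset.card_univ, Fintype.card_prod,
        Fintype.card_fin, Fintype.card_fin]
      omega) hSE (mul_le_mul hPR hPR' (Finset.prod_nonneg hD0') (Real.exp_pos _).le) hfin
  refine le_trans (le_of_eq ?_) hfinal
  rw [← hprodE]
  ring

end P031
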