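import Vale.Agent.P031.Cells
import Vale.Agent.P031.CoB

/-!
# P031, module COM, part A: capped weights
-/

namespace P031.COM

open scoped BigOperators
open Classical

/-- caps: no cap for row `0`, cap `u i` for row `i + 1` -/
def capR {k : ℕ} (u : Fin k → ℕ) (i : Fin (k + 1)) (s : ℕ) : Prop :=
  ∀ i' : Fin k, i = i'.succ → s ≤ u i'

theorem capR_zero {k : ℕ} (u : Fin k → ℕ) (s : ℕ) : capR u 0 s := by
  intro i' h
  exact absurd h.symm (Fin.succ_ne_zero i')

theorem capR_succ {k : ℕ} (u : Fin k → ℕ) (i : Fin k) (s : ℕ) : capR u i.succ s ↔ s ≤ u i := by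
  constructor
  · intro h
    exact h i rfl
  · intro h i' hi'
    rwa [← Fin.succ_injective _ hi']

/-- capped weights -/
noncomputable def zc (U : ℕ) {k l : ℕ} (u : Fin k → ℕ) (w : Fin l → ℕ) (c : Fin (k + 1) × Fin (l + 1))
    (s : ℕ) : ℝ :=
  if SS U ≤ s ∧ capR u c.1 s ∧ capR w c.2 s then zw U w s else 0

theorem zw_nonneg (U : ℕ) {l : ℕ} (w : Fin l → ℕ) (s : ℕ) : 0 ≤ zw U w s := by
  unfold zw
  split_ifs
  · norm_num
  · positivity

theorem zw_le_one (U : ℕ) {l : ℕ} (w : Fin l → ℕ) (s : ℕ) : zw U w s ≤ 1 := by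
  unfold zw
  split_ifs
  · norm_num
  · rw [div_le_one (by positivity)]
    have : (0 : ℝ) ≤ ((Finset.univ.filter (fun j => s ≤ w j)).card : ℝ) := Nat.cast_nonneg _
    linarith

theorem zc_nonneg (U : ℕ) {k l : ℕ} (u : Fin k → ℕ) (w : Fin l → ℕ)
    (c : Fin (k + 1) × Fin (l + 1)) (s : ℕ) : 0 ≤ zc U u w c s := by
  unfold zc
  split_ifs
  · exact zw_nonneg U w s
  · exact le_rfl

theorem zc_le_one (U : ℕ) {k l : ℕ} (u : Fin k → ℕ) (w : Fin l → ℕ)
    (c : Fin (k + 1) × Fin (l + 1)) (s : ℕ) : zc U u w c s ≤ 1 := by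
  unfold zc
  split_ifs
  · exact zw_le_one U w s
  · norm_num

theorem card_capR {l : ℕ} (w : Fin l → ℕ) (s : ℕ) :
    (Finset.univ.filter (fun j : Fin (l + 1) => capR w j s)).card =
      (Finset.univ.filter (fun j => s ≤ w j)).card + 1 := by
  rw [Fin.univ_succ, Finset.filter_cons, if_pos (capR_zero w s), Finset.card_cons,
    Finset.filter_map, Finset.card_map]
  congr 2
  ext j
  simp [capR_succ]

/-- the row sums of the weights -/
theorem sum_zc (U : ℕ) {k l : ℕ} (u : Fin k → ℕ) (w : Fin l → ℕ) (i : Fin (k + 1)) (s : ℕ) :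
    ∑ j, zc U u w (i, j) s = if SS U ≤ s ∧ capR u i s then 1 else 0 := by
  by_cases h : SS U ≤ s ∧ capR u i s
  · rw [if_pos h]
    have h1 : ∀ j, zc U u w (i, j) s = if capR w j s then zw U w s else 0 := by
      intro j
      unfold zc
      simp only [h.1, h.2, true_and]
    simp only [h1]
    rw [← Finset.sum_filter, Finset.sum_const, card_capR, nsmul_eq_mul]
    unfold zw
    rw [if_neg (not_lt.2 h.1)]
    push_cast
    field_simp
  · rw [if_neg h]
    refine Finset.sum_eq_zero fun j _ => ?_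
    unfold zc
    rw [if_neg]
    intro h'
    exact h ⟨h'.1, h'.2.1⟩

theorem lwt_congr {z z' : ℕ → ℝ} {m : ℕ} (h : ∀ r : ℕ, r.Prime → r ∣ m → z (lev r) = z' (lev r)) :
    lwt z m = lwt z' m := by
  unfold lwt
  split_ifs with h0
  · rfl
  · congr 1
    refine List.map_congr_left fun r hr => ?_
    exact h r (Nat.prime_of_mem_primeFactorsList hr) (Nat.dvd_of_mem_primeFactorsList hr)

theorem sum_exp_le : ∃ C : ℝ, 0 < C ∧ ∀ (U : ℕ) (X : ℝ) (k l : ℕ) (u : Fin k → ℕ) (w : Fin l → ℕ),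
    3 ≤ X →
    ∑ c : Fin (k + 1) × Fin (l + 1), ∑ r ∈ (Finset.Icc 1 ⌊X⌋₊).filter Nat.Prime,
      lwt (zc U u w c) r / (r : ℝ) ≤ LL X + C + ∑ i, ((u i : ℝ) + 1 + C) := by
  obtain ⟨C, hC, hR⟩ := prime_recip
  refine ⟨C, hC, ?_⟩
  intro U X k l u w hX
  have h1 : ∑ c : Fin (k + 1) × Fin (l + 1), ∑ r ∈ (Finset.Icc 1 ⌊X⌋₊).filter Nat.Prime,
      lwt (zc U u w c) r / (r : ℝ) =
      ∑ i, ∑ r ∈ (Finset.Icc 1 ⌊X⌋₊).filter Nat.Prime,
        (if SS U ≤ lev r ∧ capR u i (lev r) then 1 else 0) / (r : ℝ) := by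
    rw [Fintype.sum_prod_type]
    refine Finset.sum_congr rfl fun i _ => ?_
    rw [Finset.sum_comm]
    refine Finset.sum_congr rfl fun r hr => ?_
    rw [← Finset.sum_div]
    congr 1
    rw [← sum_zc U u w i (lev r)]
    refine Finset.sum_congr rfl fun j _ => ?_
    exact lwt_prime _ (Finset.mem_filter.1 hr).2
  rw [h1, Fin.sum_univ_succ]
  refine add_le_add ?_ (Finset.sum_le_sum fun i _ => ?_)
  · have h2 := (abs_le.1 (hR X hX)).2
    refine le_trans (Finset.sum_le_sum fun r _ => ?_) (by linarith : ∑ r ∈ (Finset.Icc 1 ⌊X⌋₊).filter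
      Nat.Prime, 1 / (r : ℝ) ≤ _)
    gcongr
    split_ifs <;> norm_num
  · have hu : (3 : ℝ) ≤ Real.exp (Real.exp ((u i : ℝ) + 1)) := by
      have h3 : (2 : ℝ) ≤ Real.exp ((u i : ℝ) + 1) := by
        have := Real.add_one_le_exp ((u i : ℝ) + 1)
        have h0 : (0 : ℝ) ≤ u i := Nat.cast_nonneg _
        linarith
      have := Real.add_one_le_exp (Real.exp ((u i : ℝ) + 1))
      linarith
    have h2 := (abs_le.1 (hR _ hu)).2
    have h4 : LL (Real.exp (Real.exp ((u i : ℝ) + 1))) = (u i : ℝ) + 1 := by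
      unfold LL
      rw [Real.log_exp, Real.log_exp]
    rw [h4] at h2
    refine le_trans ?_ (by linarith : ∑ r ∈ (Finset.Icc 1 ⌊Real.exp (Real.exp ((u i : ℝ) + 1))⌋₊).filter
      Nat.Prime, 1 / (r : ℝ) ≤ _)
    have h5 : ∑ r ∈ (Finset.Icc 1 ⌊X⌋₊).filter Nat.Prime,
        (if SS U ≤ lev r ∧ capR u i.succ (lev r) then (1 : ℝ) else 0) / (r : ℝ) =
        ∑ r ∈ ((Finset.Icc 1 ⌊X⌋₊).filter Nat.Prime).filter
          (fun r => SS U ≤ lev r ∧ capR u i.succ (lev r)), 1 / (r : ℝ) := by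
      conv_rhs => rw [Finset.sum_filter]
      refine Finset.sum_congr rfl fun r _ => ?_
      split_ifs <;> simp
    rw [h5]
    refine Finset.sum_le_sum_of_subset_of_nonneg ?_ (fun r _ _ => by positivity)
    intro r hr
    simp only [Finset.mem_filter, Finset.mem_Icc, capR_succ] at hr ⊢
    refine ⟨⟨hr.1.1.1, ?_⟩, hr.1.2⟩
    refine Nat.le_floor ?_
    have h6 : lev r < u i + 1 := by omega
    have h7 := (lev_lt_iff (by omega)).1 h6
    push_cast at h7
    exact h7.le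

end P031.COM
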