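import Vale.Agent.P031.CO
import Vale.Agent.P031.Normal

/-!
# P031, module DREC2: coincidences have small mass

PROOF.  `val x = (x.1 - 1) x.2`, `r(v)` the number of `x ∈ P` with `val x = v`.
`∑_{x ∈ P} 1/val x = ∑_{v} r(v)/v ≤ ∑_v 1/v + ∑_v r(v)(r(v)-1)/v`, and `r(v)(r(v)-1)` is the number of ordered pairs
of different elements of `P` with value `v` (they have different primes).  Group `v ∈ (X/2, X]`, `X = 2^i`: apply
`co` with `M` = the second coordinates of the elements of `P` with value in `(X/2, X]`.  Hypotheses of `co`: for `x ∈ P`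
with value `≤ X`, `lev q ≤ LL X + 1` and `top (g m') + S + 5 log U ≤ lam q - 2H + S + 5 log U ≤ LL X`, `β₀ ≤ Φ₀ ≤
lam q - 2H ≤ LL X - H/2` (`Phi_zero`); `LL X ≥ lev q - 1 ≥ η U - 1 ≥ U^{9/10}`; `log v ≤ U² e^{2U+S+2}` gives
`LL X ≤ 3U + 4`.  So the sum is `≤ ∑_{i ≥ 1, i ≤ e^{3U+4}} (2/2^i) (2^i/(i log 2)) e^{-H/4} ≤ C U e^{-H/4} ≤ 1`.
(In the formal proof a representative is chosen in every fibre and only the other elements are counted.)
-/

namespace P031

open scoped BigOperators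

/-- the value of a pair -/
def dval (x : ℕ × ℕ) : ℕ := (x.1 - 1) * x.2

theorem drec2_num (η : ℝ) (hη : 0 < η) : ∃ U₀ : ℕ, ∀ U : ℕ, U₀ ≤ U → 4 ≤ U ∧ 2 ≤ SS U ∧
    (U : ℝ) ^ ((9 : ℝ) / 10) ≤ η * U ∧ 1 + 5 * Real.log U ≤ 2 * HH U ∧ 0 ≤ HH U ∧
    Real.log 2 + (1 + (U : ℝ) ^ 2) * Real.exp (2 * U + SS U) ≤ Real.exp (3 * U + 4) ∧
    (2 / Real.log 2) * (3 * U + 6) * Real.exp (-(HH U) / 4) ≤ 1 := by
  have h1 : ∀ᶠ x : ℝ in Filter.atTop, Real.log x ≤ x ^ ((3 : ℝ) / 5) / 8 := by
    have := (isLittleO_log_rpow_atTop (r := (3 : ℝ) / 5) (by norm_num)).bound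
      (c := 1 / 8) (by norm_num)
    filter_upwards [this, Filter.eventually_ge_atTop (1 : ℝ)] with x hx hx1
    rw [Real.norm_of_nonneg (Real.log_nonneg hx1),
      Real.norm_of_nonneg (Real.rpow_nonneg (by linarith) _)] at hx
    linarith
  have h2 : ∀ᶠ x : ℝ in Filter.atTop, 32 ≤ x ^ ((3 : ℝ) / 5) :=
    (tendsto_rpow_atTop (by norm_num : (0 : ℝ) < 3 / 5)).eventually_ge_atTop 32
  have h3 : ∀ᶠ x : ℝ in Filter.atTop, 1 / η ≤ x ^ ((1 : ℝ) / 10) :=
    (tendsto_rpow_atTop (by norm_num : (0 : ℝ) < 1 / 10)).eventually_ge_atTop _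
  have h4 : ∀ᶠ x : ℝ in Filter.atTop, (4 : ℝ) ≤ x := Filter.eventually_ge_atTop 4
  obtain ⟨U₀, hU₀⟩ := Filter.eventually_atTop.mp
    (tendsto_natCast_atTop_atTop.eventually (h1.and (h2.and (h3.and h4))))
  refine ⟨U₀, fun U hU => ?_⟩
  obtain ⟨a1, a2, a3, a4⟩ := hU₀ U hU
  have hU0 : (0 : ℝ) < U := by linarith
  have hU4 : 4 ≤ U := by exact_mod_cast a4
  have hSS : SS U ≤ U / 2 := by
    unfold SS
    rw [Nat.le_div_iff_mul_le (by norm_num)]
    have e1 : Nat.sqrt U ^ 2 ≤ U := Nat.sqrt_le' U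
    have e2 : 2 ≤ Nat.sqrt U := Nat.le_sqrt'.mpr (by omega)
    nlinarith
  have hSSR : (SS U : ℝ) ≤ U / 2 := by
    have : 2 * SS U ≤ U := by omega
    have : (2 : ℝ) * SS U ≤ U := by exact_mod_cast this
    linarith
  refine ⟨hU4, ?_, ?_, ?_, ?_, ?_, ?_⟩
  · unfold SS
    exact Nat.le_sqrt'.mpr (by omega)
  · have e : (U : ℝ) = (U : ℝ) ^ ((9 : ℝ) / 10) * (U : ℝ) ^ ((1 : ℝ) / 10) := by
      rw [← Real.rpow_add hU0]; norm_num
    rw [div_le_iff₀ hη] at a3
    have h9 : 0 < (U : ℝ) ^ ((9 : ℝ) / 10) := by positivity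
    have : η * (U : ℝ) = (U : ℝ) ^ ((9 : ℝ) / 10) * ((U : ℝ) ^ ((1 : ℝ) / 10) * η) := by
      conv_lhs => rw [e]
      ring
    rw [this]
    nlinarith
  · unfold HH
    linarith
  · unfold HH; positivity
  · have e1 : Real.exp (2 * U + SS U) ≤ Real.exp (2 * U + U / 2) := Real.exp_le_exp.mpr (by linarith)
    have e2 : Real.exp (3 * U + 4) = Real.exp (2 * U + U / 2) * (Real.exp (U / 2) * Real.exp 4) := by
      rw [← Real.exp_add, ← Real.exp_add]; ring_nf
    have e3 := Real.quadratic_le_exp_of_nonneg (x := (U : ℝ) / 2) (by linarith)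
    have e4 : (16 : ℝ) ≤ Real.exp 4 := by
      have h := Real.add_one_le_exp (1 : ℝ)
      have : Real.exp 4 = Real.exp 1 ^ 4 := by rw [← Real.exp_nat_mul]; norm_num
      rw [this]
      calc (16 : ℝ) = 2 ^ 4 := by norm_num
        _ ≤ Real.exp 1 ^ 4 := by gcongr; linarith
    have e5 : 0 < Real.exp (2 * (U : ℝ) + U / 2) := Real.exp_pos _
    have e6 : (1 : ℝ) ≤ Real.exp (2 * (U : ℝ) + U / 2) := Real.one_le_exp (by positivity)
    have e7 : Real.log 2 ≤ 1 := by have := Real.log_two_lt_d9; linarith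
    have e8 : (2 + (U : ℝ) ^ 2) ≤ Real.exp (U / 2) * Real.exp 4 := by
      have : (1 + (U : ℝ) / 2 + ((U : ℝ) / 2) ^ 2 / 2) * 16 ≤ Real.exp (U / 2) * Real.exp 4 := by
        gcongr
      nlinarith
    rw [e2]
    calc Real.log 2 + (1 + (U : ℝ) ^ 2) * Real.exp (2 * U + SS U)
        ≤ Real.exp (2 * (U : ℝ) + U / 2) + (1 + (U : ℝ) ^ 2) * Real.exp (2 * (U : ℝ) + U / 2) := by
          gcongr
          linarith
      _ = Real.exp (2 * (U : ℝ) + U / 2) * (2 + (U : ℝ) ^ 2) := by ring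
      _ ≤ _ := by gcongr
  · have e1 : 2 / Real.log 2 ≤ 3 := by
      rw [div_le_iff₀ (Real.log_pos (by norm_num))]
      have := Real.log_two_gt_d9; linarith
    have e2 : (3 : ℝ) * (3 * U + 6) ≤ Real.exp (HH U / 4) := by
      have s1 : (3 : ℝ) * (3 * U + 6) ≤ 16 * U := by linarith
      have s2 : (16 : ℝ) * U ≤ Real.exp 4 * Real.exp (Real.log U) := by
        rw [Real.exp_log hU0]
        have e4 : (16 : ℝ) ≤ Real.exp 4 := by
          have h := Real.add_one_le_exp (1 : ℝ)
          have : Real.exp 4 = Real.exp 1 ^ 4 := by rw [← Real.exp_nat_mul]; norm_num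
          rw [this]
          calc (16 : ℝ) = 2 ^ 4 := by norm_num
            _ ≤ Real.exp 1 ^ 4 := by gcongr; linarith
        gcongr
      have s3 : Real.exp 4 * Real.exp (Real.log U) ≤ Real.exp (HH U / 4) := by
        rw [← Real.exp_add]
        apply Real.exp_le_exp.mpr
        unfold HH
        linarith
      linarith
    have e3 : Real.exp (-(HH U) / 4) = (Real.exp (HH U / 4))⁻¹ := by
      rw [← Real.exp_neg]; ring_nf
    rw [e3, ← div_eq_mul_inv, div_le_one (Real.exp_pos _)]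
    calc 2 / Real.log 2 * (3 * U + 6) ≤ 3 * (3 * U + 6) := by gcongr
      _ ≤ _ := e2

theorem coinc_mass (η : ℝ) (hη : 0 < η) : ∃ U₀ : ℕ, ∀ U : ℕ, U₀ ≤ U → ∀ (P : Finset (ℕ × ℕ)) (g : ℕ → ℕ),
    (∀ x ∈ P, x.1.Prime ∧ SS U ≤ lev x.1 ∧ Normal U x.1 ∧ Good U (g x.2) ∧
      Nat.totient (g x.2) = x.2 ∧ Phi U (g x.2) 0 + 2 * HH U ≤ lam U x.1 ∧ η * U ≤ lam U x.1 ∧
      (lam U x.1 : ℝ) ≤ 2 * U) →
    ∑ x ∈ P, 1 / (((x.1 - 1) * x.2 : ℕ) : ℝ) ≤
      ∑ v ∈ P.image (fun x : ℕ × ℕ => (x.1 - 1) * x.2), 1 / (v : ℝ) + 1 := by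
  classical
  obtain ⟨U₁, h₁⟩ := drec2_num η hη
  obtain ⟨U₂, h₂⟩ := co
  refine ⟨max U₁ U₂, fun U hU P g hP => ?_⟩
  obtain ⟨hU4, hS2, hη9, hH5, hH0, hbig, hfin⟩ := h₁ U (le_trans (le_max_left _ _) hU)
  have hco := h₂ U (le_trans (le_max_right _ _) hU)
  have hU1 : 1 ≤ U := by omega
  -- basic facts on elements of `P`
  have hval1 : ∀ x ∈ P, x.1 ≤ dval x + 1 := by
    intro x hx
    obtain ⟨a1, a2, a3, a4, a5, -⟩ := hP x hx
    have hm : 1 ≤ x.2 := by
      rw [← a5]
      exact Nat.totient_pos.mpr (by have := a4.pos; omega)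
    have : x.1 - 1 ≤ (x.1 - 1) * x.2 := Nat.le_mul_of_pos_right _ hm
    unfold dval
    omega
  have hlam : ∀ x ∈ P, (lev x.1 : ℝ) = lam U x.1 + SS U - 1 := by
    intro x hx
    obtain ⟨a1, a2, -⟩ := hP x hx
    have : lev x.1 + 1 = lam U x.1 + SS U := by unfold lam; omega
    have h' : (lev x.1 : ℝ) + 1 = lam U x.1 + SS U := by exact_mod_cast this
    linarith
  -- lower bound for `LL X`
  have hlow : ∀ x ∈ P, ∀ X : ℝ, (dval x : ℝ) + 1 ≤ X → (lam U x.1 : ℝ) + SS U - 1 ≤ LL X := by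
    intro x hx X hX
    obtain ⟨a1, a2, -⟩ := hP x hx
    have h1 : ((x.1 : ℕ) : ℝ) ≤ X := by
      have : (x.1 : ℝ) ≤ (dval x : ℝ) + 1 := by exact_mod_cast hval1 x hx
      linarith
    have hl1 : 1 ≤ lev x.1 := by omega
    have h2 := (le_lev_iff hl1).mp (le_refl (lev x.1))
    have h3 : Real.exp (Real.exp (lev x.1)) ≤ X := le_trans h2 h1
    rw [← hlam x hx]
    unfold LL
    have h4 : Real.exp (lev x.1) ≤ Real.log X := by
      rw [Real.le_log_iff_exp_le (lt_of_lt_of_le (Real.exp_pos _) h3)]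
      exact h3
    rw [Real.le_log_iff_exp_le (lt_of_lt_of_le (Real.exp_pos _) h4)]
    exact h4
  have htop : ∀ x ∈ P, (top U (g x.2) : ℝ) ≤ lam U x.1 - 2 * HH U ∧
      beta U (g x.2) 0 ≤ lam U x.1 - 2 * HH U := by
    intro x hx
    obtain ⟨a1, a2, a3, a4, a5, a6, -⟩ := hP x hx
    rw [Phi_zero] at a6
    have b1 := le_max_left (top U (g x.2) : ℝ) (beta U (g x.2) 0)
    have b2 := le_max_right (top U (g x.2) : ℝ) (beta U (g x.2) 0)
    constructor <;> linarith
  -- upper bound for the values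
  have hup : ∀ x ∈ P, 1 ≤ dval x ∧ Real.log 2 + Real.log (dval x) ≤ Real.exp (3 * U + 4) := by
    intro x hx
    obtain ⟨a1, a2, a3, a4, a5, a6, a7, a8⟩ := hP x hx
    have hm : 1 ≤ x.2 := by
      rw [← a5]
      exact Nat.totient_pos.mpr (by have := a4.pos; omega)
    have hq : 1 ≤ x.1 - 1 := by have := a1.two_le; omega
    have hv : 1 ≤ dval x := Nat.mul_pos hq hm
    refine ⟨hv, ?_⟩
    have e1 : Real.log (dval x) = Real.log ((x.1 - 1 : ℕ) : ℝ) + Real.log x.2 := by
      unfold dval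
      rw [Nat.cast_mul, Real.log_mul (by exact_mod_cast (by omega : x.1 - 1 ≠ 0))
        (by exact_mod_cast (by omega : x.2 ≠ 0))]
    have e2 : Real.log ((x.1 - 1 : ℕ) : ℝ) ≤ Real.exp (2 * U + SS U) := by
      have s1 : (x.1 : ℝ) < Real.exp (Real.exp ((lev x.1 + 1 : ℕ) : ℝ)) :=
        (lev_lt_iff (s := lev x.1 + 1) (by omega)).mp (by omega)
      have s2 : Real.log ((x.1 - 1 : ℕ) : ℝ) ≤ Real.log x.1 :=
        Real.log_le_log (by exact_mod_cast hq) (by exact_mod_cast Nat.sub_le _ _)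
      have s3 : Real.log x.1 ≤ Real.exp ((lev x.1 + 1 : ℕ) : ℝ) := by
        rw [Real.log_le_iff_le_exp (by exact_mod_cast a1.pos)]
        exact s1.le
      have s4 : ((lev x.1 + 1 : ℕ) : ℝ) ≤ 2 * U + SS U := by
        push_cast
        rw [hlam x hx]; linarith
      have s5 := Real.exp_le_exp.mpr s4
      linarith
    have e3 : Real.log x.2 ≤ (U : ℝ) ^ 2 * Real.exp (2 * U + SS U) := by
      have s1 : Real.log x.2 ≤ Real.log (g x.2) := by
        apply Real.log_le_log (by exact_mod_cast hm)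
        have : x.2 ≤ g x.2 := by
          conv_lhs => rw [← a5]
          exact Nat.totient_le _
        exact_mod_cast this
      have s2 := log_le_of_good hU1 a4
      have s3 : (top U (g x.2) : ℝ) + SS U ≤ 2 * U + SS U := by
        have := (htop x hx).1
        linarith
      have s4 : (U : ℝ) ^ 2 * Real.exp (top U (g x.2) + SS U) ≤
          (U : ℝ) ^ 2 * Real.exp (2 * U + SS U) := by
        gcongr
      linarith
    have e4 : Real.log (dval x) ≤ (1 + (U : ℝ) ^ 2) * Real.exp (2 * U + SS U) := by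
      rw [e1]; linarith
    linarith
  -- representatives
  set f : ℕ × ℕ → ℕ := dval with hf
  have hrep : ∀ v ∈ P.image f, ∃ x ∈ P, f x = v := fun v hv => Finset.mem_image.mp hv
  choose! rep hrep1 hrep2 using hrep
  have hinj : ∀ x ∈ P, ∀ y ∈ P, x ≠ y → f x = f y → x.1 ≠ y.1 := by
    intro x hx y hy hxy hv h1
    apply hxy
    have hq : 0 < x.1 - 1 := by have := (hP x hx).1.two_le; omega
    have h2 : (x.1 - 1) * x.2 = (x.1 - 1) * y.2 := by
      have : (x.1 - 1) * x.2 = (y.1 - 1) * y.2 := hv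
      rw [this, h1]
    exact Prod.ext h1 (Nat.eq_of_mul_eq_mul_left hq h2)
  have hsplit : ∑ x ∈ P, 1 / (f x : ℝ) =
      ∑ x ∈ P.filter (fun x => x = rep (f x)), 1 / (f x : ℝ) +
      ∑ x ∈ P.filter (fun x => ¬ x = rep (f x)), 1 / (f x : ℝ) :=
    (Finset.sum_filter_add_sum_filter_not P _ _).symm
  have hA : ∑ x ∈ P.filter (fun x => x = rep (f x)), 1 / (f x : ℝ) ≤
      ∑ v ∈ P.image f, 1 / (v : ℝ) := by
    rw [← Finset.sum_image (f := fun v : ℕ => 1 / (v : ℝ)) (s := P.filter (fun x => x = rep (f x)))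
      (g := f)]
    · apply Finset.sum_le_sum_of_subset_of_nonneg
      · exact Finset.image_subset_image (Finset.filter_subset _ _)
      · intro v _ _; positivity
    · intro x hx y hy hxy
      have h1 := (Finset.mem_filter.mp (Finset.mem_coe.mp hx)).2
      have h2 := (Finset.mem_filter.mp (Finset.mem_coe.mp hy)).2
      rw [h1, h2, hxy]
  set Q := P.filter (fun x => ¬ x = rep (f x)) with hQ
  set N : ℕ := ⌊2 * Real.exp (3 * U + 4)⌋₊ with hN
  have hQP : ∀ x ∈ Q, x ∈ P := fun x hx => (Finset.mem_filter.mp hx).1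
  have hlogN : ∀ x ∈ Q, Nat.log 2 (f x) ∈ Finset.range N := by
    intro x hx
    obtain ⟨u1, u2⟩ := hup x (hQP x hx)
    rw [Finset.mem_range, hN]
    apply Nat.lt_of_succ_le
    rw [Nat.le_floor_iff (by positivity)]
    have s1 : 2 ^ (Nat.log 2 (f x)) ≤ f x := Nat.pow_log_le_self 2 (by omega)
    have s2 : (2 : ℝ) ^ (Nat.log 2 (f x)) ≤ f x := by exact_mod_cast s1
    have s3 : Real.log ((2 : ℝ) ^ (Nat.log 2 (f x))) ≤ Real.log (f x) :=
      Real.log_le_log (by positivity) s2
    rw [Real.log_pow] at s3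
    have s4 : ((Nat.log 2 (f x) : ℕ) + 1 : ℝ) * Real.log 2 ≤ Real.exp (3 * U + 4) := by
      have : (f x : ℝ) = dval x := rfl
      rw [this] at s3
      linarith
    have s5 := Real.log_two_gt_d9
    have s6 : (0 : ℝ) ≤ (Nat.log 2 (f x) : ℕ) + 1 := by positivity
    push_cast
    nlinarith
  have hB : ∑ x ∈ Q, 1 / (f x : ℝ) ≤
      ∑ i ∈ Finset.range N, 2 / ((i + 1 : ℝ) * Real.log 2) * Real.exp (-(HH U) / 4) := by
    rw [← Finset.sum_fiberwise_of_maps_to hlogN]
    apply Finset.sum_le_sum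
    intro i _
    rcases (Q.filter (fun x => Nat.log 2 (f x) = i)).eq_empty_or_nonempty with he | hne
    · rw [he, Finset.sum_empty]
      have := Real.log_pos (show (1 : ℝ) < 2 by norm_num)
      positivity
    set X : ℝ := 2 ^ (i + 1) with hX
    have hX0 : 0 < X := by positivity
    have hlX : Real.log X = (i + 1 : ℝ) * Real.log 2 := by
      rw [hX, Real.log_pow]; push_cast; ring
    -- values in `[X/2, X)`
    have hrange : ∀ x ∈ Q.filter (fun x => Nat.log 2 (f x) = i), (2 : ℝ) ^ i ≤ f x ∧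
        (f x : ℝ) + 1 ≤ X := by
      intro x hx
      obtain ⟨hxQ, hxi⟩ := Finset.mem_filter.mp hx
      obtain ⟨u1, u2⟩ := hup x (hQP x hxQ)
      have s1 : 2 ^ (Nat.log 2 (f x)) ≤ f x := Nat.pow_log_le_self 2 (by
        have : 1 ≤ f x := u1
        omega)
      have s2 : f x < 2 ^ (Nat.log 2 (f x) + 1) := Nat.lt_pow_succ_log_self (by norm_num) _
      rw [hxi] at s1 s2
      refine ⟨by exact_mod_cast s1, ?_⟩
      rw [hX]
      have : f x + 1 ≤ 2 ^ (i + 1) := s2
      exact_mod_cast this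
    obtain ⟨x₀, hx₀⟩ := hne
    have hx₀P := hQP x₀ (Finset.mem_filter.mp hx₀).1
    have hlX1 : (U : ℝ) ^ ((9 : ℝ) / 10) ≤ LL X := by
      have h1 := hlow x₀ hx₀P X (hrange x₀ hx₀).2
      obtain ⟨a1, a2, a3, a4, a5, a6, a7, a8⟩ := hP x₀ hx₀P
      have : (1 : ℝ) ≤ SS U := by exact_mod_cast (by omega : 1 ≤ SS U)
      linarith
    have hlX2 : LL X ≤ 3 * U + 4 := by
      obtain ⟨u1, u2⟩ := hup x₀ hx₀P
      have s1 : X ≤ 2 * f x₀ := by
        have := (hrange x₀ hx₀).1
        rw [hX, pow_succ]; linarith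
      have hf0 : (0 : ℝ) < f x₀ := by
        have : 0 < f x₀ := u1
        exact_mod_cast this
      have s2 : Real.log X ≤ Real.log 2 + Real.log (f x₀) := by
        rw [← Real.log_mul (by norm_num) hf0.ne']
        exact Real.log_le_log hX0 s1
      have s3 : 0 < Real.log X := by
        rw [hlX]
        have := Real.log_pos (show (1 : ℝ) < 2 by norm_num)
        positivity
      unfold LL
      rw [Real.log_le_iff_le_exp s3]
      exact s2.trans u2
    set M : Finset ℕ := (P.filter (fun x => (f x : ℝ) + 1 ≤ X)).image Prod.snd with hM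
    have hMok : ∀ m ∈ M, Good U (g m) ∧ Nat.totient (g m) = m ∧
        (top U (g m) : ℝ) + SS U + 5 * Real.log U ≤ LL X ∧
        beta U (g m) 0 ≤ LL X - HH U / 2 := by
      intro m hm
      obtain ⟨x, hx, rfl⟩ := Finset.mem_image.mp hm
      obtain ⟨hxP, hxX⟩ := Finset.mem_filter.mp hx
      obtain ⟨a1, a2, a3, a4, a5, a6, a7, a8⟩ := hP x hxP
      have h1 := hlow x hxP X hxX
      obtain ⟨t1, t2⟩ := htop x hxP
      refine ⟨a4, a5, ?_, ?_⟩
      · linarith
      · have : (1 : ℝ) ≤ SS U := by exact_mod_cast (by omega : 1 ≤ SS U)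
        linarith
    have hX1 : 1 ≤ X := by rw [hX]; exact one_le_pow₀ (by norm_num)
    have hcoX := hco X M g hX1 hlX1 hlX2 hMok
    have hcard : (((Q.filter (fun x => Nat.log 2 (f x) = i)).card : ℕ) : ℝ) ≤
        X / Real.log X * Real.exp (-(HH U) / 4) := by
      refine le_trans ?_ hcoX
      have : (Q.filter (fun x => Nat.log 2 (f x) = i)).card ≤
          ((coinc U X M).filter
            (fun x : ℕ × ℕ × ℕ × ℕ => Normal U x.1 ∧ Normal U x.2.2.1)).card := by
        apply Finset.card_le_card_of_injOn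
          (fun x => (x.1, x.2, (rep (f x)).1, (rep (f x)).2))
        · intro x hx
          have hx' := Finset.mem_coe.mp hx
          obtain ⟨hxQ, hxi⟩ := Finset.mem_filter.mp hx'
          obtain ⟨hxP, hxr⟩ := Finset.mem_filter.mp hxQ
          obtain ⟨r1, r2⟩ := hrange x hx'
          have him : f x ∈ P.image f := Finset.mem_image_of_mem f hxP
          have hy := hrep1 (f x) him
          have hyv := hrep2 (f x) him
          set y := rep (f x) with hy'
          obtain ⟨a1, a2, a3, a4, a5, a6, a7, a8⟩ := hP x hxP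
          obtain ⟨b1, b2, b3, b4, b5, b6, b7, b8⟩ := hP y hy
          have hfx : (x.1 : ℝ) ≤ X := by
            have : (x.1 : ℝ) ≤ (dval x : ℝ) + 1 := by exact_mod_cast hval1 x hxP
            exact this.trans r2
          have hfy : (y.1 : ℝ) ≤ X := by
            have h1 : (y.1 : ℝ) ≤ (dval y : ℝ) + 1 := by exact_mod_cast hval1 y hy
            have h2 : dval y = f x := hyv
            rw [h2] at h1
            exact h1.trans r2
          have hlev : 2 ≤ lev x.1 := by omega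
          have hq3 : (4 : ℝ) < x.1 := by
            have s1 := (le_lev_iff (s := 2) (r := x.1) (by norm_num)).mp hlev
            have s2 : (3 : ℝ) ≤ Real.exp ((2 : ℕ) : ℝ) := by
              have := Real.add_one_le_exp (2 : ℝ)
              push_cast; linarith
            have s3 := Real.quadratic_le_exp_of_nonneg (x := Real.exp ((2 : ℕ) : ℝ)) (by positivity)
            have s4 : 0 < Real.exp ((2 : ℕ) : ℝ) ^ 2 / 2 := by positivity
            generalize Real.exp ((2 : ℕ) : ℝ) = z at s1 s2 s3 s4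
            linarith
          have hval4 : (3 : ℝ) < f x := by
            have : (x.1 : ℝ) ≤ (dval x : ℝ) + 1 := by exact_mod_cast hval1 x hxP
            have h' : (f x : ℝ) = dval x := rfl
            linarith
          have hmx : x.2 ∈ M := by
            rw [hM]
            exact Finset.mem_image_of_mem _ (Finset.mem_filter.mpr ⟨hxP, r2⟩)
          have hmy : y.2 ∈ M := by
            rw [hM]
            refine Finset.mem_image_of_mem _ (Finset.mem_filter.mpr ⟨hy, ?_⟩)
            rw [hyv]; exact r2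
          have hvx : (x.1 - 1) * x.2 = f x := rfl
          have hvy : (y.1 - 1) * y.2 = f x := hyv
          rw [Finset.mem_coe, Finset.mem_filter]
          refine ⟨?_, a3, b3⟩
          unfold coinc
          rw [Finset.mem_filter]
          refine ⟨?_, a1, b1, ?_, ?_, ?_, ?_⟩
          · simp only [Finset.mem_product, Finset.mem_range]
            refine ⟨?_, hmx, ?_, hmy⟩
            · have := Nat.le_floor hfx
              omega
            · have h9 := Nat.le_floor hfy
              show y.1 < ⌊X⌋₊ + 2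
              omega
          · exact hinj x hxP y hy hxr hyv.symm
          · show (x.1 - 1) * x.2 = (y.1 - 1) * y.2
            rw [hvx, hvy]
          · show (((x.1 - 1) * x.2 : ℕ) : ℝ) ≤ X
            rw [hvx]; linarith
          · show X < (((x.1 - 1) * x.2 : ℕ) : ℝ) ^ 2
            rw [hvx]
            have hX2 : X = 2 ^ i * 2 := by rw [hX, pow_succ]
            nlinarith
        · intro x hx y hy hxy
          simp only [Prod.mk.injEq] at hxy
          exact Prod.ext hxy.1 hxy.2.1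
      exact_mod_cast this
    calc ∑ x ∈ Q.filter (fun x => Nat.log 2 (f x) = i), 1 / (f x : ℝ)
        ≤ ∑ x ∈ Q.filter (fun x => Nat.log 2 (f x) = i), 1 / (2 : ℝ) ^ i := by
          apply Finset.sum_le_sum
          intro x hx
          exact one_div_le_one_div_of_le (by positivity) (hrange x hx).1
      _ = (((Q.filter (fun x => Nat.log 2 (f x) = i)).card : ℕ) : ℝ) * (1 / (2 : ℝ) ^ i) := by
          rw [Finset.sum_const, nsmul_eq_mul]
      _ ≤ (X / Real.log X * Real.exp (-(HH U) / 4)) * (1 / (2 : ℝ) ^ i) := by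
          gcongr
      _ = 2 / ((i + 1 : ℝ) * Real.log 2) * Real.exp (-(HH U) / 4) := by
          rw [hlX, hX, pow_succ]
          have := Real.log_pos (show (1 : ℝ) < 2 by norm_num)
          field_simp
  have hC : ∑ i ∈ Finset.range N, 2 / ((i + 1 : ℝ) * Real.log 2) * Real.exp (-(HH U) / 4) ≤ 1 := by
    have e1 : ∑ i ∈ Finset.range N, 2 / ((i + 1 : ℝ) * Real.log 2) * Real.exp (-(HH U) / 4) =
        (2 / Real.log 2) * (harmonic N : ℝ) * Real.exp (-(HH U) / 4) := by
      unfold harmonic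
      push_cast
      rw [Finset.mul_sum, Finset.sum_mul]
      apply Finset.sum_congr rfl
      intro i _
      have := Real.log_pos (show (1 : ℝ) < 2 by norm_num)
      field_simp
    rw [e1]
    have e2 : (harmonic N : ℝ) ≤ 3 * U + 6 := by
      have s1 := harmonic_le_one_add_log N
      have s2 : Real.log N ≤ 3 * U + 5 := by
        rcases Nat.eq_zero_or_pos N with h0 | h0
        · rw [h0]; simp; positivity
        · rw [Real.log_le_iff_le_exp (by exact_mod_cast h0)]
          have s3 : (N : ℝ) ≤ 2 * Real.exp (3 * U + 4) := Nat.floor_le (by positivity)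
          have s4 : Real.exp (3 * (U : ℝ) + 5) = Real.exp (3 * U + 4) * Real.exp 1 := by
            rw [← Real.exp_add]; ring_nf
          have s5 := Real.add_one_le_exp (1 : ℝ)
          have s6 := Real.exp_pos (3 * (U : ℝ) + 4)
          rw [s4]
          nlinarith
      linarith
    have e3 := Real.log_pos (show (1 : ℝ) < 2 by norm_num)
    calc (2 / Real.log 2) * (harmonic N : ℝ) * Real.exp (-(HH U) / 4) ≤
        (2 / Real.log 2) * (3 * U + 6) * Real.exp (-(HH U) / 4) := by gcongr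
      _ ≤ 1 := hfin
  have hgoal : ∑ x ∈ P, 1 / (f x : ℝ) ≤ ∑ v ∈ P.image f, 1 / (v : ℝ) + 1 := by
    rw [hsplit]
    linarith
  exact hgoal

end P031
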