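import Vale.Agent.P031.DRec1
import Vale.Agent.P031.DRec2

/-!
# P031, module DREC: lower recursion

PROOF.  `H = HH U`.  `W = Gset U (j+1) (T - C H) ∩ [1, NN U]`.  For `m' ∈ W` choose (function `g`) a good preimage with
minimal `⌈Φ_{j+1}⌉₊` among the good preimages; then for naturals `t < ⌊T - C H⌋₊`: `m' ∈ Gset U (j+1) t ↔ Φ_{j+1}(g m') ≤ t`
(as `Φ ≤ t ↔ ⌈Φ⌉₊ ≤ t`), so `∑_t GG U (j+1) t ≤ ∑_{m' ∈ W} (1/m') (T - C H - Φ_{j+1}(g m') + 1)`
`≤ C ∑_{m'} #𝓡(m')/m'` with `𝓡(m')` from `room`.  Let `P` be the set of pairs `(q, m')`, `m' ∈ W`, `q` a normal prime with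
`SS U ≤ lev q`, `lam U q ∈ 𝓡 m'`.  `normal_level` (`lev q = t + S - 1 ≤ 2U + S ≤ 3U`) gives
`∑_{m'} #𝓡(m')/m' ≤ 2 ∑_{(q,m') ∈ P} 1/((q-1) m')`, and `coinc_mass` bounds this by `2 ∑_{v ∈ image} 1/v + 2`.  Every `v` in
the image is in `Gset U j T`: `q · g m'` is good (`good_cons`; `top ≤ Φ₀`, `β₀ ≤ Φ₀`), `φ(q g m') = (q-1) m'`,
`Phi_cons`: `Φ_j = FF U (g m') j (lam q) ≤ T`; and `v ≤ NN U` (`Gset_le`).  Finally `1 ≤ GG U j T`.
-/

namespace P031

open scoped BigOperators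

/-- choice of a good preimage with minimal `⌈Φ_j⌉₊` -/
theorem drec_choice (U j : ℕ) : ∃ g : ℕ → ℕ, ∀ n : ℕ, Good U n →
    Good U (g (Nat.totient n)) ∧ Nat.totient (g (Nat.totient n)) = Nat.totient n ∧
      ⌈Phi U (g (Nat.totient n)) j⌉₊ ≤ ⌈Phi U n j⌉₊ := by
  classical
  have key : ∀ m : ℕ, ∃ n₀ : ℕ, ∀ n : ℕ, Good U n → Nat.totient n = m →
      Good U n₀ ∧ Nat.totient n₀ = m ∧ ⌈Phi U n₀ j⌉₊ ≤ ⌈Phi U n j⌉₊ := by
    intro m
    by_cases h : ∃ n, Good U n ∧ Nat.totient n = m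
    · have hne : ∃ a, ∃ n, Good U n ∧ Nat.totient n = m ∧ ⌈Phi U n j⌉₊ = a := by
        obtain ⟨n, hn, hm⟩ := h
        exact ⟨_, n, hn, hm, rfl⟩
      obtain ⟨n₀, h1, h2, h3⟩ := Nat.find_spec hne
      refine ⟨n₀, fun n hn hm => ⟨h1, h2, ?_⟩⟩
      rw [h3]
      exact Nat.find_min' hne ⟨n, hn, hm, rfl⟩
    · exact ⟨0, fun n hn hm => absurd ⟨n, hn, hm⟩ h⟩
  choose g hg using key
  exact ⟨g, fun n hn => hg _ n hn rfl⟩

/-- mass of the normal primes of a level, times `1/m` -/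
theorem drec_level {U t m : ℕ} (hm : 1 ≤ m)
    (h : (1 / 2 : ℝ) ≤ ∑ q ∈ prLev t, Set.indicator {q | Normal U q} (fun q : ℕ => 1 / ((q : ℝ) - 1)) q)
    [DecidablePred (Normal U)] :
    1 / (m : ℝ) ≤ 2 * ∑ q ∈ (prLev t).filter (Normal U), 1 / (((q - 1) * m : ℕ) : ℝ) := by
  have hm0 : (0 : ℝ) < m := by exact_mod_cast hm
  have e1 : ∑ q ∈ prLev t, Set.indicator {q | Normal U q} (fun q : ℕ => 1 / ((q : ℝ) - 1)) q =
      ∑ q ∈ (prLev t).filter (Normal U), 1 / ((q : ℝ) - 1) := by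
    rw [Finset.sum_filter]
    apply Finset.sum_congr rfl
    intro q _
    by_cases hq : Normal U q
    · rw [if_pos hq, Set.indicator_of_mem (show q ∈ {q | Normal U q} from hq)]
    · rw [if_neg hq, Set.indicator_of_notMem (show q ∉ {q | Normal U q} from hq)]
  rw [e1] at h
  have e2 : ∑ q ∈ (prLev t).filter (Normal U), 1 / (((q - 1) * m : ℕ) : ℝ) =
      (∑ q ∈ (prLev t).filter (Normal U), 1 / ((q : ℝ) - 1)) * (1 / (m : ℝ)) := by
    rw [Finset.sum_mul]
    apply Finset.sum_congr rfl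
    intro q hq
    rw [Finset.mem_filter, mem_prLev] at hq
    rw [Nat.cast_mul, Nat.cast_sub hq.1.1.one_le, Nat.cast_one, one_div_mul_one_div]
  rw [e2]
  have h3 : (1 / 2 : ℝ) * (1 / (m : ℝ)) ≤
      (∑ q ∈ (prLev t).filter (Normal U), 1 / ((q : ℝ) - 1)) * (1 / (m : ℝ)) :=
    mul_le_mul_of_nonneg_right h (by positivity)
  linarith

theorem lower_rec (j : ℕ) : ∃ (C : ℝ) (U₀ : ℕ), 0 < C ∧ ∀ U : ℕ, U₀ ≤ U → ∀ T : ℝ,
    (U : ℝ) / 2 ≤ T → T ≤ 2 * U →
    ∑ t ∈ Finset.range ⌊T - C * HH U⌋₊, GG U (j + 1) t ≤ C * GG U j T := by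
  classical
  obtain ⟨C₁, η, U₁, hC₁, hη, hroom⟩ := room j
  obtain ⟨U₂, hco⟩ := coinc_mass η hη
  obtain ⟨U₃, hnl⟩ := normal_level
  obtain ⟨U₄, hcons⟩ := good_cons
  obtain ⟨U₅, hle⟩ := Gset_le
  refine ⟨4 * C₁, U₁ + U₂ + U₃ + U₄ + U₅ + 1, by positivity, ?_⟩
  intro U hU T hT1 hT2
  have hU1 : 1 ≤ U := by omega
  have hUr : (1 : ℝ) ≤ U := by exact_mod_cast hU1
  have hH : 0 ≤ HH U := Real.rpow_nonneg (Nat.cast_nonneg U) _
  have hSU : SS U ≤ U := Nat.sqrt_le_self U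
  obtain ⟨g, hg⟩ := drec_choice U (j + 1)
  set W : Finset ℕ := (Finset.Icc 1 (NN U)).filter
    (fun m => (Good U (g m) ∧ Nat.totient (g m) = m) ∧ Phi U (g m) (j + 1) ≤ T - C₁ * HH U) with hW
  have hWg : ∀ m ∈ W, 1 ≤ m ∧ Good U (g m) ∧ Nat.totient (g m) = m ∧
      Phi U (g m) (j + 1) ≤ T - C₁ * HH U := by
    intro m hm
    rw [hW, Finset.mem_filter, Finset.mem_Icc] at hm
    exact ⟨hm.1.1, hm.2.1.1, hm.2.1.2, hm.2.2⟩
  -- the room for a new top prime
  have hR : ∀ m : ℕ, ∃ R : Finset ℕ, m ∈ W →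
      (∀ t ∈ R, Phi U (g m) 0 + 2 * HH U ≤ t ∧ η * U ≤ t ∧ (t : ℝ) ≤ T ∧ FF U (g m) j t ≤ T) ∧
      T - C₁ * HH U - Phi U (g m) (j + 1) + 1 ≤ C₁ * R.card := by
    intro m
    by_cases hm : m ∈ W
    · obtain ⟨_, h1, _, h3⟩ := hWg m hm
      obtain ⟨R, hR⟩ := hroom U (by omega) T (g m) hT1 hT2 h1 h3
      exact ⟨R, fun _ => hR⟩
    · exact ⟨∅, fun h => absurd h hm⟩
  choose R hR using hR
  have hRt : ∀ m ∈ W, ∀ t ∈ R m, 1 ≤ t ∧ t ≤ 2 * U := by
    intro m hm t ht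
    obtain ⟨_, h2, h3, _⟩ := (hR m hm).1 t ht
    constructor
    · have : (0 : ℝ) < t := lt_of_lt_of_le (by positivity) h2
      exact_mod_cast this
    · have : (t : ℝ) ≤ 2 * U := h3.trans hT2
      exact_mod_cast this
  set Q : ℕ → Finset ℕ := fun m =>
    (R m).biUnion (fun t => (prLev (t + SS U - 1)).filter (Normal U)) with hQ
  have hQm : ∀ m ∈ W, ∀ q ∈ Q m, q.Prime ∧ SS U ≤ lev q ∧ Normal U q ∧ lam U q ∈ R m := by
    intro m hm q hq
    rw [hQ] at hq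
    simp only [Finset.mem_biUnion, Finset.mem_filter, mem_prLev] at hq
    obtain ⟨t, ht, ⟨hp, hl⟩, hN⟩ := hq
    have h1 := (hRt m hm t ht).1
    refine ⟨hp, by omega, hN, ?_⟩
    have : lam U q = t := by
      unfold lam
      omega
    rw [this]
    exact ht
  set P : Finset (ℕ × ℕ) := (W.sigma Q).image (fun x => (x.2, x.1)) with hP
  have hPmem : ∀ x ∈ P, x.2 ∈ W ∧ x.1 ∈ Q x.2 := by
    intro x hx
    rw [hP, Finset.mem_image] at hx
    obtain ⟨y, hy, rfl⟩ := hx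
    rw [Finset.mem_sigma] at hy
    exact hy
  have hPsum : ∑ x ∈ P, 1 / (((x.1 - 1) * x.2 : ℕ) : ℝ) =
      ∑ m ∈ W, ∑ q ∈ Q m, 1 / (((q - 1) * m : ℕ) : ℝ) := by
    rw [hP, Finset.sum_image, Finset.sum_sigma]
    rintro ⟨a, b⟩ _ ⟨c, d⟩ _ h
    simp only [Prod.mk.injEq] at h
    obtain ⟨rfl, rfl⟩ := h
    rfl
  -- coincidences
  have hcoP := hco U (by omega) P g (by
    intro x hx
    obtain ⟨h1, h2⟩ := hPmem x hx
    obtain ⟨_, h3, h4, _⟩ := hWg _ h1
    obtain ⟨h5, h6, h7, h8⟩ := hQm _ h1 _ h2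
    obtain ⟨h9, h10, h11, _⟩ := (hR _ h1).1 _ h8
    exact ⟨h5, h6, h7, h3, h4, h9, h10, h11.trans hT2⟩)
  -- the image is contained in `Gset U j T`
  have himg : ∑ v ∈ P.image (fun x : ℕ × ℕ => (x.1 - 1) * x.2), 1 / (v : ℝ) ≤ GG U j T := by
    have hmem : ∀ v ∈ P.image (fun x : ℕ × ℕ => (x.1 - 1) * x.2),
        v ∈ Gset U j T ∧ v ∈ Finset.Icc 1 (NN U) := by
      intro v hv
      rw [Finset.mem_image] at hv
      obtain ⟨x, hx, rfl⟩ := hv
      obtain ⟨h1, h2⟩ := hPmem x hx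
      obtain ⟨_, h3, h4, _⟩ := hWg _ h1
      obtain ⟨h5, h6, h7, h8⟩ := hQm _ h1 _ h2
      obtain ⟨h9, h10, h11, h12⟩ := (hR _ h1).1 _ h8
      have ht0 : (top U (g x.2) : ℝ) ≤ Phi U (g x.2) 0 := by
        rw [Phi_zero]
        exact le_max_left _ _
      have hb0 : beta U (g x.2) 0 ≤ Phi U (g x.2) 0 := by
        rw [Phi_zero]
        exact le_max_right _ _
      obtain ⟨h13, h14⟩ := hcons U (by omega) x.1 (g x.2) h5 h6 h7 h3 (by linarith) (by linarith)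
      have htop : top U (g x.2) ≤ lam U x.1 := by
        have : (top U (g x.2) : ℝ) ≤ lam U x.1 := by linarith
        exact_mod_cast this
      have hg0 : g x.2 ≠ 0 := by
        have := h3.pos
        omega
      have hmG : (x.1 - 1) * x.2 ∈ Gset U j T := by
        refine ⟨x.1 * g x.2, h13, ?_, ?_⟩
        · rw [Nat.totient_mul ((Nat.Prime.coprime_iff_not_dvd h5).2 h14), Nat.totient_prime h5, h4]
        · rw [Phi_cons hU1 h5 h6 hg0 h14 htop j]
          exact h12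
      refine ⟨hmG, ?_⟩
      rw [Finset.mem_Icc]
      exact hle U (by omega) j _ T (by linarith) hmG
    unfold GG mass
    calc ∑ v ∈ P.image (fun x : ℕ × ℕ => (x.1 - 1) * x.2), 1 / (v : ℝ)
        = ∑ v ∈ P.image (fun x : ℕ × ℕ => (x.1 - 1) * x.2),
            Set.indicator (Gset U j T) (fun m : ℕ => 1 / (m : ℝ)) v := by
          apply Finset.sum_congr rfl
          intro v hv
          rw [Set.indicator_of_mem (hmem v hv).1]
      _ ≤ _ := by
          apply Finset.sum_le_sum_of_subset_of_nonneg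
          · intro v hv
            exact (hmem v hv).2
          · intro v _ _
            exact Set.indicator_nonneg (fun m _ => by positivity) v
  -- levels
  have hB : ∀ m ∈ W, ((R m).card : ℝ) / m ≤ 2 * ∑ q ∈ Q m, 1 / (((q - 1) * m : ℕ) : ℝ) := by
    intro m hm
    have h1 : ∑ q ∈ Q m, 1 / (((q - 1) * m : ℕ) : ℝ) =
        ∑ t ∈ R m, ∑ q ∈ (prLev (t + SS U - 1)).filter (Normal U), 1 / (((q - 1) * m : ℕ) : ℝ) := by
      rw [hQ]
      apply Finset.sum_biUnion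
      intro t ht t' ht' hne
      rw [Function.onFun, Finset.disjoint_left]
      intro q hq hq'
      rw [Finset.mem_filter, mem_prLev] at hq hq'
      have h2 := (hRt m hm t ht).1
      have h3 := (hRt m hm t' ht').1
      have h4 := hq.1.2
      have h5 := hq'.1.2
      omega
    rw [h1, Finset.mul_sum]
    have h2 : ((R m).card : ℝ) / m = ∑ _t ∈ R m, 1 / (m : ℝ) := by
      rw [Finset.sum_const, nsmul_eq_mul, mul_one_div]
    rw [h2]
    apply Finset.sum_le_sum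
    intro t ht
    have h3 := hRt m hm t ht
    exact drec_level (hWg m hm).1 (hnl U (by omega) (t + SS U - 1) (by omega) (by omega)).1
  -- the sum over `t`
  set K := ⌊T - 4 * C₁ * HH U⌋₊ with hK
  have hCH : 0 ≤ C₁ * HH U := by positivity
  have hKT : ∀ t, t < K → (t : ℝ) + 1 ≤ T - 4 * C₁ * HH U := by
    intro t ht
    have h1 : 0 < K := by omega
    rw [hK, Nat.floor_pos] at h1
    have h2 : (K : ℝ) ≤ T - 4 * C₁ * HH U := Nat.floor_le (by linarith)
    have h3 : (t : ℝ) + 1 ≤ K := by exact_mod_cast ht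
    linarith
  have hA : ∑ t ∈ Finset.range K, GG U (j + 1) t ≤ ∑ m ∈ W, C₁ * (((R m).card : ℝ) / m) := by
    unfold GG mass
    rw [Finset.sum_comm]
    have hsub : W ⊆ Finset.Icc 1 (NN U) := Finset.filter_subset _ _
    have hmemg : ∀ m t : ℕ, m ∈ Gset U (j + 1) t →
        Good U (g m) ∧ Nat.totient (g m) = m ∧ ⌈Phi U (g m) (j + 1)⌉₊ ≤ t := by
      rintro m t ⟨n, hn, rfl, hPhi⟩
      obtain ⟨h1, h2, h3⟩ := hg n hn
      exact ⟨h1, h2, h3.trans (Nat.ceil_le.2 hPhi)⟩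
    rw [← Finset.sum_subset hsub]
    · apply Finset.sum_le_sum
      intro m hm
      obtain ⟨hm1, h1, h2, h3⟩ := hWg m hm
      have hm0 : (0 : ℝ) < m := by exact_mod_cast hm1
      set a := ⌈Phi U (g m) (j + 1)⌉₊ with ha
      have haP : Phi U (g m) (j + 1) ≤ a := Nat.le_ceil _
      have h4 : ∑ t ∈ Finset.range K, Set.indicator (Gset U (j + 1) t) (fun m : ℕ => 1 / (m : ℝ)) m ≤
          ∑ t ∈ (Finset.range K).filter (fun t => a ≤ t), 1 / (m : ℝ) := by
        rw [Finset.sum_filter]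
        apply Finset.sum_le_sum
        intro t _
        by_cases hmt : m ∈ Gset U (j + 1) t
        · rw [Set.indicator_of_mem hmt, if_pos (hmemg m t hmt).2.2]
        · rw [Set.indicator_of_notMem hmt]
          split_ifs
          · positivity
          · exact le_rfl
      refine h4.trans ?_
      rw [Finset.sum_const, nsmul_eq_mul, mul_one_div, ← mul_div_assoc]
      apply div_le_div_of_nonneg_right _ hm0.le
      refine le_trans ?_ (hR m hm).2
      have h5 : (Finset.range K).filter (fun t => a ≤ t) = Finset.Ico a K := by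
        ext t
        simp only [Finset.mem_filter, Finset.mem_range, Finset.mem_Ico]
        tauto
      rw [h5, Nat.card_Ico]
      rcases Nat.lt_or_ge a K with haK | haK
      · have h6 := hKT (K - 1) (by omega)
        have h7 : ((K - 1 : ℕ) : ℝ) + 1 = K := by
          have : K - 1 + 1 = K := by omega
          exact_mod_cast this
        rw [h7] at h6
        rw [Nat.cast_sub haK.le]
        linarith
      · rw [Nat.sub_eq_zero_of_le haK, Nat.cast_zero]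
        linarith
    · intro m hm hmW
      apply Finset.sum_eq_zero
      intro t ht
      rw [Finset.mem_range] at ht
      apply Set.indicator_of_notMem
      intro hmt
      apply hmW
      rw [hW, Finset.mem_filter]
      obtain ⟨h1, h2, h3⟩ := hmemg m t hmt
      refine ⟨hm, ⟨h1, h2⟩, ?_⟩
      have h4 : Phi U (g m) (j + 1) ≤ t := Nat.ceil_le.1 h3
      have h5 := hKT t ht
      linarith
  have hone : 1 ≤ GG U j T := one_le_GG U j (by linarith)
  calc ∑ t ∈ Finset.range K, GG U (j + 1) t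
      ≤ ∑ m ∈ W, C₁ * (((R m).card : ℝ) / m) := hA
    _ ≤ ∑ m ∈ W, C₁ * (2 * ∑ q ∈ Q m, 1 / (((q - 1) * m : ℕ) : ℝ)) := by
        apply Finset.sum_le_sum
        intro m hm
        exact mul_le_mul_of_nonneg_left (hB m hm) hC₁.le
    _ = 2 * C₁ * ∑ x ∈ P, 1 / (((x.1 - 1) * x.2 : ℕ) : ℝ) := by
        rw [hPsum, Finset.mul_sum]
        apply Finset.sum_congr rfl
        intro m _
        ring
    _ ≤ 2 * C₁ * (GG U j T + 1) := by
        apply mul_le_mul_of_nonneg_left _ (by positivity)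
        linarith
    _ ≤ 4 * C₁ * GG U j T := by nlinarith

end P031
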