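import Vale.Agent.P031.Prof

/-!
# P031, module DREC1: room for a new top prime

PROOF.  `H = HH U`.  `FF_Phi`, `FF_slope`: `FF U n j (Φ₀ + x) ≤ Φ_{j+1}(n) + 10^{j+1} x` for `x ≥ 0`.
Case `Φ₀ + 2H ≥ η U`: take the naturals in `[Φ₀ + 2H, Φ₀ + (T - Φ_{j+1})/10^{j+1}]`, at least
`(T - Φ_{j+1})/10^{j+1} - 2H - 1 ≥ (T - C H - Φ_{j+1} + 1)/C` of them if `C ≥ 4·10^{j+1}`.
Case `Φ₀ + 2H < η U`: `Φ_{j+1} ≤ C_j Φ₀ ≤ C_j η U ≤ U/16` (`Phi_le_zero (j+1)`; this fixes `η = η_j`, also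
`η ≤ 1/(50·10^{j+1})`); take the naturals in `[η U, U/(8·10^{j+1})]`, at least `U/(20·10^{j+1})` of them.
-/

namespace P031

open scoped BigOperators

private theorem card_Icc_ge {x y : ℝ} (hx : 0 ≤ x) (hy : 0 ≤ y) :
    y - x - 1 ≤ ((Finset.Icc ⌈x⌉₊ ⌊y⌋₊).card : ℝ) := by
  rw [Nat.card_Icc]
  have h1 : (⌈x⌉₊ : ℝ) < x + 1 := Nat.ceil_lt_add_one hx
  have h2 : y < ⌊y⌋₊ + 1 := Nat.lt_floor_add_one y
  rcases le_total ⌈x⌉₊ (⌊y⌋₊ + 1) with h | h
  · rw [Nat.cast_sub h]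
    push_cast
    linarith
  · rw [Nat.sub_eq_zero_of_le h]
    have h3 : ((⌊y⌋₊ + 1 : ℕ) : ℝ) ≤ (⌈x⌉₊ : ℝ) := by exact_mod_cast h
    push_cast at h3 ⊢
    linarith

theorem room (j : ℕ) : ∃ (C η : ℝ) (U₀ : ℕ), 0 < C ∧ 0 < η ∧ ∀ U : ℕ, U₀ ≤ U → ∀ (T : ℝ) (n : ℕ),
    (U : ℝ) / 2 ≤ T → T ≤ 2 * U → Good U n → Phi U n (j + 1) ≤ T - C * HH U →
    ∃ 𝓡 : Finset ℕ, (∀ t ∈ 𝓡, Phi U n 0 + 2 * HH U ≤ t ∧ η * U ≤ t ∧ (t : ℝ) ≤ T ∧ FF U n j t ≤ T) ∧
      T - C * HH U - Phi U n (j + 1) + 1 ≤ C * 𝓡.card := by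
  obtain ⟨D, hD0, hD⟩ := Phi_le_zero (j + 1)
  set K : ℝ := 10 ^ (j + 1) with hK
  have hK10 : (10 : ℝ) ≤ K := by
    rw [hK, pow_succ]
    have : (1 : ℝ) ≤ 10 ^ j := one_le_pow₀ (by norm_num)
    linarith
  have hK0 : 0 < K := by linarith
  set η : ℝ := min (1 / (16 * D)) (1 / (50 * K)) with hη
  have hη0 : 0 < η := by
    rw [hη]; exact lt_min (by positivity) (by positivity)
  have hη1 : η * D ≤ 1 / 16 := by
    have : η ≤ 1 / (16 * D) := min_le_left _ _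
    calc η * D ≤ 1 / (16 * D) * D := mul_le_mul_of_nonneg_right this hD0.le
      _ = 1 / 16 := by field_simp
  have hη2 : η * K ≤ 1 / 50 := by
    have : η ≤ 1 / (50 * K) := min_le_right _ _
    calc η * K ≤ 1 / (50 * K) * K := mul_le_mul_of_nonneg_right this hK0.le
      _ = 1 / 50 := by field_simp
  refine ⟨41 * K, η, 20 * 10 ^ (j + 1) + 20, by positivity, hη0, ?_⟩
  intro U hU T n hT1 hT2 hn hP
  have hUr : 20 * K + 20 ≤ (U : ℝ) := by
    have : ((20 * 10 ^ (j + 1) + 20 : ℕ) : ℝ) ≤ (U : ℝ) := by exact_mod_cast hU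
    push_cast at this
    rw [hK]
    exact this
  have hU1 : (1 : ℝ) ≤ U := by linarith
  have hH : 1 ≤ HH U := by
    unfold HH
    exact Real.one_le_rpow hU1 (by norm_num)
  have hP0 : 0 ≤ Phi U n 0 := Phi_nonneg U n 0
  have hP01 : Phi U n 0 ≤ Phi U n (j + 1) := Phi_mono U n (Nat.zero_le _)
  have hDn := hD U n
  have hFF : ∀ t : ℝ, Phi U n 0 ≤ t → FF U n j t ≤ Phi U n (j + 1) + K * (t - Phi U n 0) := by
    intro t ht
    have h := (FF_slope U n j ht).2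
    rw [FF_Phi] at h
    linarith
  set P0 := Phi U n 0
  set P1 := Phi U n (j + 1)
  set H := HH U
  have hy : 41 * K * H ≤ T - P1 := by linarith
  by_cases hc : η * U ≤ P0 + 2 * H
  · refine ⟨Finset.Icc ⌈P0 + 2 * H⌉₊ ⌊P0 + (T - P1) / K⌋₊, ?_, ?_⟩
    · intro t ht
      rw [Finset.mem_Icc] at ht
      have hyn : 0 ≤ T - P1 := by
        have : 0 ≤ 41 * K * H := by positivity
        linarith
      have h1 : P0 + 2 * H ≤ t := Nat.ceil_le.1 ht.1
      have h2 : (t : ℝ) ≤ P0 + (T - P1) / K :=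
        (Nat.le_floor_iff (by positivity)).1 ht.2
      have h3 : K * ((T - P1) / K) = T - P1 := by field_simp
      have h4 : (T - P1) / K ≤ T - P1 := div_le_self hyn (by linarith)
      refine ⟨h1, by linarith, by linarith, ?_⟩
      have h5 := hFF t (by linarith)
      have h6 : K * (t - P0) ≤ K * ((T - P1) / K) := mul_le_mul_of_nonneg_left (by linarith) hK0.le
      linarith
    · have hyn : 0 ≤ T - P1 := by
        have : 0 ≤ 41 * K * H := by positivity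
        linarith
      have h1 := card_Icc_ge (x := P0 + 2 * H) (y := P0 + (T - P1) / K) (by positivity) (by positivity)
      have h2 : 41 * K * (P0 + (T - P1) / K - (P0 + 2 * H) - 1) ≤
          41 * K * ((Finset.Icc ⌈P0 + 2 * H⌉₊ ⌊P0 + (T - P1) / K⌋₊).card : ℝ) :=
        mul_le_mul_of_nonneg_left h1 (by positivity)
      have h3 : 41 * K * (P0 + (T - P1) / K - (P0 + 2 * H) - 1) =
          41 * (T - P1) - 82 * K * H - 41 * K := by
        field_simp
        ring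
      have h4 : K ≤ K * H := by nlinarith
      nlinarith
  · push Not at hc
    have hP1 : P1 ≤ U / 16 := by
      have h1 : P0 ≤ η * U := by linarith
      have h2 : D * P0 ≤ D * (η * U) := mul_le_mul_of_nonneg_left h1 hD0.le
      have h3 : D * (η * U) = (η * D) * U := by ring
      have h4 : (η * D) * U ≤ 1 / 16 * U := mul_le_mul_of_nonneg_right hη1 (by linarith)
      linarith
    refine ⟨Finset.Icc ⌈η * U⌉₊ ⌊U / (8 * K)⌋₊, ?_, ?_⟩
    · intro t ht
      rw [Finset.mem_Icc] at ht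
      have h1 : η * U ≤ t := Nat.ceil_le.1 ht.1
      have h2 : (t : ℝ) ≤ U / (8 * K) := (Nat.le_floor_iff (by positivity)).1 ht.2
      have h3 : K * (U / (8 * K)) = U / 8 := by field_simp
      have h6 : K * (t : ℝ) ≤ K * (U / (8 * K)) := mul_le_mul_of_nonneg_left h2 hK0.le
      have ht0 : (0 : ℝ) ≤ t := Nat.cast_nonneg t
      have h7 : (t : ℝ) ≤ K * t := by nlinarith
      refine ⟨by linarith, h1, by linarith, ?_⟩
      have h5 := hFF t (by linarith)
      have h8 : K * (t - P0) = K * t - K * P0 := by ring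
      have h9 : 0 ≤ K * P0 := by positivity
      linarith
    · have h1 := card_Icc_ge (x := η * U) (y := (U : ℝ) / (8 * K)) (by positivity) (by positivity)
      have h2 : 41 * K * ((U : ℝ) / (8 * K) - η * U - 1) ≤
          41 * K * ((Finset.Icc ⌈η * U⌉₊ ⌊(U : ℝ) / (8 * K)⌋₊).card : ℝ) :=
        mul_le_mul_of_nonneg_left h1 (by positivity)
      have h3 : 41 * K * ((U : ℝ) / (8 * K) - η * U - 1) =
          41 / 8 * U - 41 * (η * K) * U - 41 * K := by
        field_simp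
      have h4 : 41 * (η * K) * U ≤ 41 * (1 / 50) * U := by
        have : (0 : ℝ) ≤ U := by linarith
        nlinarith
      have h5 : 0 ≤ 41 * K * H := by positivity
      have h6 : (0 : ℝ) ≤ P1 := Phi_nonneg U n (j + 1)
      linarith

end P031
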