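import Mathlib

/-!
# P031: definitions

The counting function of totient values and the multiplicative bookkeeping used in the proof of
`V (c x) / V x → c`.
-/

namespace P031

open scoped BigOperators

/-- the set of values of Euler's function -/
def Tot : Set ℕ := {v | ∃ n : ℕ, 1 ≤ n ∧ Nat.totient n = v}

/-- `V x` is the number of distinct totient values up to `x` -/
noncomputable def V (x : ℝ) : ℕ := Set.ncard {v : ℕ | v ∈ Tot ∧ (v : ℝ) ≤ x}

/-- iterated logarithm -/
noncomputable def LL (x : ℝ) : ℝ := Real.log (Real.log x)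

/-- the level `⌊log log r⌋` (and `0` for `r < e^e`) -/
noncomputable def lev (r : ℕ) : ℕ := ⌊Real.log (Real.log r)⌋₊

/-- number of prime factors of `m` (with multiplicity) with level in `[a, b)` -/
noncomputable def Lv (a b m : ℕ) : ℕ :=
  m.primeFactorsList.countP (fun r => decide (a ≤ lev r ∧ lev r < b))

/-- the part of `n` composed of primes of level `< t` -/
noncomputable def lowPart (t n : ℕ) : ℕ :=
  ∏ q ∈ n.primeFactors.filter (fun q => lev q < t), q ^ n.factorization q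

/-- sum of reciprocals of the elements of `A` up to `N` -/
noncomputable def mass (N : ℕ) (A : Set ℕ) : ℝ :=
  ∑ m ∈ Finset.Icc 1 N, Set.indicator A (fun m : ℕ => 1 / (m : ℝ)) m

/-! ### parameters -/

/-- `⌊√U⌋` -/
def SS (U : ℕ) : ℕ := Nat.sqrt U

/-- `U^(11/20)` -/
noncomputable def EE (U : ℕ) : ℝ := (U : ℝ) ^ ((11 : ℝ) / 20)

/-- `U^(3/5)` -/
noncomputable def HH (U : ℕ) : ℝ := (U : ℝ) ^ ((3 : ℝ) / 5)

/-- the big primes dividing `n` -/
noncomputable def bigs (U n : ℕ) : Finset ℕ := n.primeFactors.filter (fun q => SS U ≤ lev q)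

/-- shifted level, `≥ 1` for big primes -/
noncomputable def lam (U q : ℕ) : ℕ := lev q + 1 - SS U

/-- number of big primes of `n` of shifted level at least `s` -/
noncomputable def prof (U n s : ℕ) : ℕ := ((bigs U n).filter (fun q => s ≤ lam U q)).card

/-- the largest shifted level of a big prime of `n` (`0` if there is none) -/
noncomputable def top (U n : ℕ) : ℕ := (bigs U n).sup (lam U)

/-- `Q(k) = k log k - k + 1` -/
noncomputable def QQ (k : ℕ) : ℝ := (k : ℝ) * Real.log k - k + 1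

/-- `a_k = Q(k+1) - Q(k)` -/
noncomputable def aa (k : ℕ) : ℝ := QQ (k + 1) - QQ k

/-- `β_k(n) = ∑_s (Q(J(s)+k+1) - Q(k+1))` -/
noncomputable def beta (U n k : ℕ) : ℝ :=
  ∑ s ∈ Finset.Icc 1 (top U n), (QQ (prof U n s + k + 1) - QQ (k + 1))

/-- the completion functionals as functions of `top` and `β` -/
noncomputable def PhiS (tp : ℝ) (b : ℕ → ℝ) : ℕ → ℝ
  | 0 => max tp (b 0)
  | j + 1 => max (PhiS tp b j) (b (j + 1) + ∑ i : Fin (j + 1), aa (j + 1 - i) * PhiS tp b i)
termination_by j => j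
decreasing_by
  all_goals omega

/-- the completion functionals `Φ_j(n)` -/
noncomputable def Phi (U n : ℕ) (j : ℕ) : ℝ := PhiS (top U n) (beta U n) j

/-- `Φ_j` of `n` with a prime of (real) shifted level `t` put on top -/
noncomputable def FF (U n : ℕ) (j : ℕ) (t : ℝ) : ℝ :=
  PhiS t (fun k => beta U n (k + 1) + aa (k + 1) * t) j

/-- normal primes -/
def Normal (U q : ℕ) : Prop :=
  (∀ s : ℕ, SS U ≤ s → s ≤ lev q + 1 →
    |(Lv (SS U) s (q - 1) : ℝ) - ((s : ℝ) - SS U)| ≤ EE U) ∧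
  Lv 0 (SS U) (q - 1) ≤ 10 * SS U

/-- good integers -/
structure Good (U n : ℕ) : Prop where
  pos : 1 ≤ n
  sqf : ∀ q : ℕ, q.Prime → SS U ≤ lev q → ¬ q ^ 2 ∣ n
  nrm : ∀ q ∈ bigs U n, Normal U q
  dec : ∀ q ∈ bigs U n, ((bigs U n).filter (fun q' => q' ≤ q ∧ lev q ≤ 10 * lev q')).card ≤ 60
  sml : (Nat.totient (lowPart (SS U) n)).primeFactorsList.length ≤ 100 * SS U
  siz : ∀ t : ℕ, SS U ≤ t → Real.log (lowPart t n) ≤ (U : ℝ) ^ 2 * Real.exp t

/-- values of `φ` on good `n` with `Φ_j(n) ≤ T` -/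
def Gset (U j : ℕ) (T : ℝ) : Set ℕ :=
  {m | ∃ n : ℕ, Good U n ∧ Nat.totient n = m ∧ Phi U n j ≤ T}

/-- the cutoff for all masses -/
noncomputable def NN (U : ℕ) : ℕ := ⌈Real.exp (Real.exp (4 * U))⌉₊

/-- `G_j(T)` -/
noncomputable def GG (U j : ℕ) (T : ℝ) : ℝ := mass (NN U) (Gset U j T)

end P031
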