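import Vale.Agent.P031.Rec0

/-!
# P031, module RECG: growth bound

PROOF.  As for `upper_rec` (`peel`, `nobig_mem`, `ob_mass`), with `W = Gset U j (100/129 T + C H)`: by `Phi_growth`
`Φ_j(n') ≤ (100/129) Φ_{j+1}(n') ≤ (100/129) (T + 10^{j+1} H)`, and `𝓡 m' = range (3U + 2)`; `pair_mass`.
-/

namespace P031

open scoped BigOperators

theorem growth (j : ℕ) : ∃ (C : ℝ) (U₀ : ℕ), 0 < C ∧ ∀ U : ℕ, U₀ ≤ U → ∀ T : ℝ,
    (U : ℝ) / 2 ≤ T → T ≤ 2 * U →
    GG U j T ≤ C * U * GG U j (100 / 129 * T + C * HH U) := by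
  obtain ⟨U₁, hpeel⟩ := peel j
  obtain ⟨U₂, hpair⟩ := pair_mass
  obtain ⟨U₃, hob⟩ := ob_mass
  refine ⟨10 ^ (j + 2), max (max U₁ U₂) (max U₃ 1), by positivity, ?_⟩
  intro U hU T hT1 hT2
  have hU1 : U₁ ≤ U := ((le_max_left _ _).trans (le_max_left _ _)).trans hU
  have hU2 : U₂ ≤ U := ((le_max_right _ _).trans (le_max_left _ _)).trans hU
  have hU3 : U₃ ≤ U := ((le_max_left _ _).trans (le_max_right _ _)).trans hU
  have hU4 : 1 ≤ U := ((le_max_right _ _).trans (le_max_right _ _)).trans hU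
  have hU4' : (1 : ℝ) ≤ U := by exact_mod_cast hU4
  have hH : 0 ≤ HH U := by unfold HH; positivity
  have hT0 : 0 ≤ T := le_trans (by positivity) hT1
  set T' : ℝ := 100 / 129 * T + 10 ^ (j + 2) * HH U with hT'
  have hT'0 : 0 ≤ T' := by positivity
  set W : Set ℕ := Gset U j T' with hW
  set R : ℕ → Finset ℕ := fun _ => Finset.range (3 * U + 2) with hR
  set S : Set ℕ := {m | ∃ q m' : ℕ, q.Prime ∧ SS U ≤ lev q ∧ lev q ≤ 3 * U ∧ m' ∈ W ∧
      lam U q ∈ R m' ∧ m = (q - 1) * m'} with hS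
  have hsub : Gset U j T ⊆ (W ∪ obSet U) ∪ S := by
    rintro m ⟨n, hn, rfl, hPhi⟩
    by_cases hb : (bigs U n).Nonempty
    · obtain ⟨q, n', hq, hq1, hq2, -, -, -, hn', -, htot, -, h⟩ := hpeel U hU1 T n hT2 hn hPhi hb
      rcases h with h | ⟨-, h2, -⟩
      · exact Or.inl (Or.inr h)
      · refine Or.inr ⟨q, Nat.totient n', hq, hq1, hq2, ⟨n', hn', rfl, ?_⟩, ?_, htot⟩
        · have h3 := Phi_growth U n' j
          have h4 : Phi U n' j ≤ 100 / 129 * (T + 10 ^ (j + 1) * HH U) := by linarith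
          have h5 : (0 : ℝ) ≤ 10 ^ (j + 1) * HH U := by positivity
          rw [hT', pow_succ (10 : ℝ) (j + 1)]
          linarith
        · rw [hR, Finset.mem_range]
          unfold lam
          omega
    · exact Or.inl (Or.inl (nobig_mem hn hb j hT'0))
  have h1 : GG U j T ≤ (mass (NN U) W + mass (NN U) (obSet U)) + mass (NN U) S := by
    unfold GG
    exact (mass_mono hsub).trans (mass_union.trans (by
      have := mass_union (N := NN U) (A := W) (B := obSet U)
      linarith))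
  have h2 : mass (NN U) (obSet U) ≤ 1 := by
    refine (hob U hU3).trans ?_
    rw [Real.exp_le_one_iff]
    linarith
  have h3 : mass (NN U) S ≤ 2 * ((3 * U + 2) * mass (NN U) W) := by
    have h4 := hpair U hU2 (NN U) S W R (fun m hm _ _ => hm)
    refine h4.trans (le_of_eq ?_)
    unfold mass
    rw [Finset.mul_sum (Finset.Icc 1 (NN U)) _ ((3 : ℝ) * U + 2)]
    congr 1
    refine Finset.sum_congr rfl fun m _ => ?_
    by_cases hm : m ∈ W
    · rw [Set.indicator_of_mem hm, Set.indicator_of_mem hm, hR, Finset.card_range]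
      push_cast
      ring
    · rw [Set.indicator_of_notMem hm, Set.indicator_of_notMem hm, mul_zero]
  have h5 : 1 ≤ mass (NN U) W := one_le_GG U j hT'0
  have h6 : GG U j T' = mass (NN U) W := rfl
  rw [h6]
  have h7 : (100 : ℝ) ≤ 10 ^ (j + 2) := by
    have : (1 : ℝ) ≤ 10 ^ j := one_le_pow₀ (by norm_num)
    rw [pow_add]
    linarith
  have h8 : (12 : ℝ) * U ≤ 10 ^ (j + 2) * U := by
    apply mul_le_mul_of_nonneg_right _ (by linarith)
    linarith
  calc GG U j T ≤ (mass (NN U) W + 1) + 2 * ((3 * U + 2) * mass (NN U) W) := by linarith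
    _ ≤ (12 * U) * mass (NN U) W := by nlinarith
    _ ≤ (10 ^ (j + 2) * U) * mass (NN U) W := mul_le_mul_of_nonneg_right h8 (by linarith)

end P031
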