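import Vale.Agent.P031.Rec0

/-!
# P031, module RECS: shell

PROOF.  Let `m` be in the difference; take a good `n` with `φ(n) = m`, `Φ₀(n) ≤ U + 5H`; then `Φ₀(n) > U - 5H > 0`, so `n`
has a big prime.  `peel` with `j = 0`, `T = U + 5H`: outside `obSet` (mass `≤ e^{-H/2} ≤ H · GG`), `m = (q-1) m'`,
`Φ₁(n') ≤ U + 15 H`, and `FF U n' 0 t = max t (β₁(n') + a_1 t) ∈ (U - 5H, U + 5H]` for `t = lam q`.  For
`m' ∈ W = Gset U 1 (U + 15 H)` choose a good `n*` with `φ(n*) = m'`, `Φ₁(n*) ≤ U + 15H`; by `rigid` (`j = 1`, the `beta`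
part) `|β₁(n') - β₁(n*)| ≤ H`, so `FF U n* 0 t ∈ (U - 6H, U + 6H]`, and by `FF_slope` the `t` with this property lie
in an interval of length `≤ 12 H/a_1`: `#𝓡 m' ≤ 32 H + 2 ≤ C H`.  `pair_mass`.
-/

namespace P031

open scoped BigOperators

private theorem card_le_of_diam {R : Finset ℕ} {D : ℝ} (hD : 0 ≤ D)
    (h : ∀ t ∈ R, ∀ t' ∈ R, t ≤ t' → (t' : ℝ) - t ≤ D) : (R.card : ℝ) ≤ D + 1 := by
  rcases R.eq_empty_or_nonempty with h0 | h0
  · subst h0
    simp only [Finset.card_empty, Nat.cast_zero]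
    linarith
  · have h1 : R ⊆ Finset.Icc (R.min' h0) (R.max' h0) := by
      intro t ht
      exact Finset.mem_Icc.2 ⟨Finset.min'_le _ _ ht, Finset.le_max' _ _ ht⟩
    have h2 := Finset.card_le_card h1
    rw [Nat.card_Icc] at h2
    have hmm : R.min' h0 ≤ R.max' h0 := Finset.min'_le _ _ (Finset.max'_mem _ _)
    have h3 := h _ (Finset.min'_mem R h0) _ (Finset.max'_mem R h0) hmm
    have h4 : (R.card : ℝ) ≤ ((R.max' h0 + 1 - R.min' h0 : ℕ) : ℝ) := by exact_mod_cast h2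
    rw [Nat.cast_sub (by omega)] at h4
    push_cast at h4
    linarith

private theorem HH_small {U : ℕ} (hU : 100000 ≤ U) : 1 ≤ HH U ∧ 100 * HH U ≤ U := by
  have hU1 : (100000 : ℝ) ≤ U := by exact_mod_cast hU
  have hU0 : (0 : ℝ) < U := by linarith
  refine ⟨Real.one_le_rpow (by linarith) (by norm_num), ?_⟩
  have h1 : (100 : ℝ) ≤ (U : ℝ) ^ ((2 : ℝ) / 5) := by
    calc (100 : ℝ) = (100000 : ℝ) ^ ((2 : ℝ) / 5) := by
          have : (100000 : ℝ) = 10 ^ (5 : ℝ) := by norm_num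
          rw [this, ← Real.rpow_mul (by norm_num)]
          norm_num
      _ ≤ (U : ℝ) ^ ((2 : ℝ) / 5) := Real.rpow_le_rpow (by norm_num) hU1 (by norm_num)
  have h2 : (U : ℝ) = (U : ℝ) ^ ((2 : ℝ) / 5) * (U : ℝ) ^ ((3 : ℝ) / 5) := by
    rw [← Real.rpow_add hU0]
    norm_num
  unfold HH
  calc 100 * (U : ℝ) ^ ((3 : ℝ) / 5) ≤ (U : ℝ) ^ ((2 : ℝ) / 5) * (U : ℝ) ^ ((3 : ℝ) / 5) :=
        mul_le_mul_of_nonneg_right h1 (by positivity)
    _ = U := h2.symm

private theorem FF_zero_eq (U n : ℕ) (t : ℝ) : FF U n 0 t = max t (beta U n 1 + aa 1 * t) := by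
  unfold FF
  rw [PhiS_zero]

theorem shell : ∃ (C : ℝ) (U₀ : ℕ), 0 < C ∧ ∀ U : ℕ, U₀ ≤ U →
    mass (NN U) (Gset U 0 (U + 5 * HH U) \ Gset U 0 (U - 5 * HH U)) ≤
      C * HH U * GG U 1 (U + C * HH U) := by
  classical
  obtain ⟨U₁, h₁⟩ := peel 0
  obtain ⟨U₂, h₂⟩ := pair_mass
  obtain ⟨U₃, h₃⟩ := rigid 1
  obtain ⟨U₄, h₄⟩ := ob_mass
  refine ⟨67, U₁ + U₂ + U₃ + U₄ + 100000, by norm_num, ?_⟩
  intro U hU
  obtain ⟨hH1, hHU⟩ := HH_small (U := U) (by omega)
  have hpeel := h₁ U (by omega)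
  have hpair := h₂ U (by omega)
  have hrig := h₃ U (by omega)
  have hob := h₄ U (by omega)
  set H := HH U with hHdef
  have hU0 : (0 : ℝ) ≤ U := Nat.cast_nonneg U
  set W : Set ℕ := Gset U 1 (U + 15 * H) with hW
  -- choice of the good preimage
  have hg : ∀ m : ℕ, ∃ n : ℕ, m ∈ W → Good U n ∧ Nat.totient n = m ∧ Phi U n 1 ≤ U + 15 * H := by
    intro m
    by_cases hm : m ∈ W
    · obtain ⟨n, hn⟩ := hm
      exact ⟨n, fun _ => hn⟩
    · exact ⟨0, fun h => absurd h hm⟩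
  choose g hg using hg
  set 𝓡 : ℕ → Finset ℕ := fun m => (Finset.range (2 * U + 1)).filter
    (fun t : ℕ => (U : ℝ) - 6 * H ≤ FF U (g m) 0 t ∧ FF U (g m) 0 t ≤ U + 6 * H) with hR
  set 𝒮 : Set ℕ := (Gset U 0 (U + 5 * H) \ Gset U 0 (U - 5 * H)) \ obSet U with hS
  have hcard : ∀ m, ((𝓡 m).card : ℝ) ≤ 33 * H := by
    intro m
    have h5 : ((𝓡 m).card : ℝ) ≤ 32 * H + 1 := by
      apply card_le_of_diam (by linarith)
      intro t ht t' ht' htt
      simp only [hR, Finset.mem_filter] at ht ht'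
      have h6 := (FF_slope U (g m) 0 (t := (t : ℝ)) (t' := (t' : ℝ)) (by exact_mod_cast htt)).1
      have h7 := aa_one.1
      have h8 : (0 : ℝ) ≤ (t' : ℝ) - t := by
        have : (t : ℝ) ≤ t' := by exact_mod_cast htt
        linarith
      have h9 : aa 1 * ((t' : ℝ) - t) ≤ 12 * H := by linarith [ht.2.1, ht'.2.2]
      nlinarith
    linarith
  have hsub : mass (NN U) 𝒮 ≤
      2 * ∑ m' ∈ Finset.Icc 1 (NN U),
        Set.indicator W (fun m' : ℕ => ((𝓡 m').card : ℝ) / (m' : ℝ)) m' := by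
    apply hpair
    intro m hm hm1 hmN
    obtain ⟨⟨⟨n, hn, hnm, hnT⟩, hnot⟩, hnob⟩ := hm
    have hPhi : (U : ℝ) - 5 * H < Phi U n 0 := by
      by_contra hcon
      push Not at hcon
      exact hnot ⟨n, hn, hnm, hcon⟩
    have hbig : (bigs U n).Nonempty := by
      by_contra hcon
      have := nobig_mem hn hcon 0 (T := (U : ℝ) - 5 * H) (by linarith)
      rw [hnm] at this
      exact hnot this
    obtain ⟨q, n', hq, hqS, hq3, -, -, -, hgood', htop', htot, hFF, hor⟩ :=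
      hpeel (U + 5 * H) n (by linarith) hn hnT hbig
    have hor' := hor.resolve_left (by rw [hnm]; exact hnob)
    obtain ⟨hor1, hor2, hor3⟩ := hor'
    have hPhi1 : Phi U n' 1 ≤ U + 15 * H := by
      have := hor2
      norm_num at this
      linarith
    have hmW : Nat.totient n' ∈ W := ⟨n', hgood', rfl, hPhi1⟩
    obtain ⟨hgg, hgt, hgP⟩ := hg _ hmW
    have htopn : ∀ k : ℕ, (top U k : ℝ) ≤ Phi U k 1 := by
      intro k
      have h2 : Phi U k 0 ≤ Phi U k 1 := Phi_mono U k (Nat.zero_le 1)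
      have h3 : (top U k : ℝ) ≤ Phi U k 0 := by
        rw [Phi_zero]; exact le_max_left _ _
      linarith
    have ht1 : top U n' ≤ 8 * U := by
      have := htopn n'
      have h : (top U n' : ℝ) ≤ ((8 * U : ℕ) : ℝ) := by push_cast; linarith
      exact_mod_cast h
    have ht2 : top U (g (Nat.totient n')) ≤ 8 * U := by
      have := htopn (g (Nat.totient n'))
      have h : (top U (g (Nat.totient n')) : ℝ) ≤ ((8 * U : ℕ) : ℝ) := by push_cast; linarith
      exact_mod_cast h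
    have hr := (hrig n' (g (Nat.totient n')) hgood' hgg hgt.symm ht1 ht2).2.2
    rw [abs_le] at hr
    have hFFd : |FF U n' 0 (lam U q) - FF U (g (Nat.totient n')) 0 (lam U q)| ≤ H := by
      rw [FF_zero_eq, FF_zero_eq]
      refine (abs_max_sub_max_le_max _ _ _ _).trans ?_
      rw [sub_self, abs_zero]
      apply max_le (by linarith)
      rw [abs_le]
      constructor <;> linarith [hr.1, hr.2]
    rw [abs_le] at hFFd
    refine ⟨q, Nat.totient n', hq, hqS, hq3, hmW, ?_, ?_⟩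
    · simp only [hR, Finset.mem_filter, Finset.mem_range]
      have hup : FF U (g (Nat.totient n')) 0 (lam U q) ≤ U + 6 * H := by
        linarith [hFFd.1, hnT, hFF]
      refine ⟨?_, by linarith [hFFd.2, hFF], hup⟩
      have h5 : (lam U q : ℝ) ≤ FF U (g (Nat.totient n')) 0 (lam U q) := by
        rw [FF_zero_eq]; exact le_max_left _ _
      have h6 : (lam U q : ℝ) ≤ ((2 * U : ℕ) : ℝ) := by push_cast; linarith
      have h7 : lam U q ≤ 2 * U := by exact_mod_cast h6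
      omega
    · rw [← hnm, htot]
  have hGG : 1 ≤ GG U 1 (U + 67 * H) := one_le_GG U 1 (by linarith)
  have hGm : GG U 1 (U + 15 * H) ≤ GG U 1 (U + 67 * H) := GG_mono U 1 (by linarith)
  have hsum : ∑ m' ∈ Finset.Icc 1 (NN U),
        Set.indicator W (fun m' : ℕ => ((𝓡 m').card : ℝ) / (m' : ℝ)) m' ≤
      33 * H * GG U 1 (U + 15 * H) := by
    unfold GG mass
    rw [Finset.mul_sum]
    apply Finset.sum_le_sum
    intro m' _
    by_cases hm : m' ∈ W
    · rw [Set.indicator_of_mem hm, Set.indicator_of_mem hm, mul_one_div]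
      exact div_le_div_of_nonneg_right (hcard m') (Nat.cast_nonneg m')
    · rw [Set.indicator_of_notMem hm, Set.indicator_of_notMem hm, mul_zero]
  have hmain : mass (NN U) (Gset U 0 (U + 5 * H) \ Gset U 0 (U - 5 * H)) ≤
      mass (NN U) (obSet U) + mass (NN U) 𝒮 := by
    refine le_trans (mass_mono ?_) mass_union
    intro m hm
    by_cases h : m ∈ obSet U
    · exact Or.inl h
    · exact Or.inr ⟨hm, h⟩
  have hob' : mass (NN U) (obSet U) ≤ 1 := by
    refine le_trans hob ?_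
    rw [Real.exp_le_one_iff]
    linarith
  have hfin : 33 * H * GG U 1 (U + 15 * H) ≤ 33 * H * GG U 1 (U + 67 * H) :=
    mul_le_mul_of_nonneg_left hGm (by linarith)
  have hHG : 1 ≤ H * GG U 1 (U + 67 * H) := by nlinarith
  nlinarith

end P031
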