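import Vale.Agent.P031.RecU
import Vale.Agent.P031.RecG
import Vale.Agent.P031.RecS

/-!
# P031, module REC: collects `upper_rec`, `growth`, `shell`
-/
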