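import Vale.Agent.P031.Defs

/-!
# P031, module REG: abstract regularity lemma (pure real analysis)
-/

namespace P031

open scoped BigOperators
open Filter

namespace RegAux

noncomputable def DD (U : ℕ) : ℝ := (U : ℝ) ^ ((13 : ℝ) / 20)

lemma ev_small (p : ℝ) (hp : 0 < p) (K δ : ℝ) (hδ : 0 < δ) :
    ∀ᶠ U : ℕ in atTop, K * (U : ℝ) ^ (-p) ≤ δ := by
  have h := ((tendsto_rpow_neg_atTop hp).comp tendsto_natCast_atTop_atTop).const_mul K
  simp only [mul_zero] at h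
  exact h.eventually (eventually_le_nhds hδ)

lemma HD (U : ℕ) (hU : 1 ≤ U) : HH U = DD U * (U : ℝ) ^ (-((1 : ℝ) / 20)) := by
  have h : (0 : ℝ) < U := by exact_mod_cast hU
  unfold HH DD
  rw [← Real.rpow_add h]
  norm_num

lemma DU (U : ℕ) (hU : 1 ≤ U) : DD U = U * (U : ℝ) ^ (-((7 : ℝ) / 20)) := by
  have h : (0 : ℝ) < U := by exact_mod_cast hU
  unfold DD
  nth_rewrite 2 [← Real.rpow_one (U : ℝ)]
  rw [← Real.rpow_add h]
  norm_num

lemma HDDU (U : ℕ) (hU : 1 ≤ U) :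
    HH U * DD U ^ 2 = (U : ℝ) ^ 2 * (U : ℝ) ^ (-((1 : ℝ) / 10)) := by
  have h : (0 : ℝ) < U := by exact_mod_cast hU
  unfold HH DD
  rw [← Real.rpow_natCast, ← Real.rpow_natCast, ← Real.rpow_mul h.le, ← Real.rpow_add h,
    ← Real.rpow_add h]
  norm_num

lemma DD_pos (U : ℕ) (hU : 1 ≤ U) : 0 < DD U := by
  have h : (0 : ℝ) < U := by exact_mod_cast hU
  exact Real.rpow_pos_of_pos h _

lemma HH_one (U : ℕ) (hU : 1 ≤ U) : 1 ≤ HH U := by
  have h : (1 : ℝ) ≤ U := by exact_mod_cast hU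
  exact Real.one_le_rpow h (by norm_num)

lemma ev_HD (K : ℝ) : ∀ᶠ U : ℕ in atTop, K * HH U ≤ DD U := by
  filter_upwards [ev_small (1 / 20) (by norm_num) K 1 one_pos, eventually_ge_atTop 1] with U h h1
  rw [HD U h1]
  have := DD_pos U h1
  nlinarith

lemma ev_DU (K : ℝ) : ∀ᶠ U : ℕ in atTop, K * DD U ≤ U := by
  filter_upwards [ev_small (7 / 20) (by norm_num) K 1 one_pos, eventually_ge_atTop 1] with U h h1
  rw [DU U h1]
  have : (0 : ℝ) < U := by exact_mod_cast h1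
  nlinarith

lemma ev_H (K : ℝ) : ∀ᶠ U : ℕ in atTop, K * HH U ≤ U := by
  filter_upwards [ev_HD K, ev_DU 1] with U h h1
  linarith

lemma ev_log (K : ℝ) : ∀ᶠ U : ℕ in atTop, K * Real.log U ≤ U := by
  have h := (Real.isLittleO_log_id_atTop.comp_tendsto
    (tendsto_natCast_atTop_atTop (R := ℝ)))
  have h2 := h.def (c := 1 / (|K| + 1)) (by positivity)
  filter_upwards [h2, eventually_ge_atTop 1] with U h h1
  have hU : (1 : ℝ) ≤ U := by exact_mod_cast h1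
  simp only [Function.comp, id, Real.norm_eq_abs] at h
  rw [abs_of_nonneg (Real.log_nonneg hU), abs_of_nonneg (by linarith : (0 : ℝ) ≤ U)] at h
  have hl := Real.log_nonneg hU
  have hK : 0 < |K| + 1 := by positivity
  have h3 : (|K| + 1) * Real.log U ≤ U := by
    calc (|K| + 1) * Real.log U ≤ (|K| + 1) * (1 / (|K| + 1) * U) := by gcongr
      _ = U := by field_simp
  have h4 : K * Real.log U ≤ (|K| + 1) * Real.log U := by
    apply mul_le_mul_of_nonneg_right _ hl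
    linarith [le_abs_self K]
  linarith

noncomputable def S (g : ℝ → ℝ) (x : ℝ) : ℝ := ∑ t ∈ Finset.range ⌊x⌋₊, g t

section
variable {g : ℝ → ℝ} (hm : ∀ T T', T ≤ T' → g T ≤ g T') (h1 : ∀ T, 0 ≤ T → 1 ≤ g T)
include hm h1

lemma S_mono {x y : ℝ} (h : x ≤ y) : S g x ≤ S g y := by
  have _ := hm
  unfold S
  apply Finset.sum_le_sum_of_subset_of_nonneg
  · exact Finset.range_mono (Nat.floor_mono h)
  · intro i _ _
    linarith [h1 i (Nat.cast_nonneg i)]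

lemma S_nonneg (x : ℝ) : 0 ≤ S g x := by
  have _ := hm
  unfold S
  apply Finset.sum_nonneg
  intro i _
  linarith [h1 i (Nat.cast_nonneg i)]

lemma S_low {a b : ℝ} (ha : 0 ≤ a) (hab : 4 ≤ b - a) : (b - a) / 2 * g a ≤ S g b := by
  have hb : 0 ≤ b := by linarith
  have hsub : Finset.Ico ⌈a⌉₊ ⌊b⌋₊ ⊆ Finset.range ⌊b⌋₊ := by
    intro t ht
    simp only [Finset.mem_Ico, Finset.mem_range] at ht ⊢
    exact ht.2
  have hA : ∑ t ∈ Finset.Ico ⌈a⌉₊ ⌊b⌋₊, g t ≤ S g b := by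
    apply Finset.sum_le_sum_of_subset_of_nonneg hsub
    intro i _ _
    linarith [h1 i (Nat.cast_nonneg i)]
  have hB : ∑ t ∈ Finset.Ico ⌈a⌉₊ ⌊b⌋₊, g a ≤ ∑ t ∈ Finset.Ico ⌈a⌉₊ ⌊b⌋₊, g t := by
    apply Finset.sum_le_sum
    intro t ht
    apply hm
    have := (Finset.mem_Ico.mp ht).1
    exact (Nat.le_ceil a).trans (by exact_mod_cast this)
  rw [Finset.sum_const, Nat.card_Ico, nsmul_eq_mul] at hB
  have hc1 : b - 1 < ⌊b⌋₊ := by linarith [Nat.lt_floor_add_one b]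
  have hc2 : (⌈a⌉₊ : ℝ) < a + 1 := Nat.ceil_lt_add_one ha
  have hle : ⌈a⌉₊ ≤ ⌊b⌋₊ := by
    have : (⌈a⌉₊ : ℝ) ≤ ⌊b⌋₊ := by linarith
    exact_mod_cast this
  have hga := h1 a ha
  have hcard : (b - a) / 2 ≤ ((⌊b⌋₊ - ⌈a⌉₊ : ℕ) : ℝ) := by
    rw [Nat.cast_sub hle]
    linarith
  calc (b - a) / 2 * g a ≤ ((⌊b⌋₊ - ⌈a⌉₊ : ℕ) : ℝ) * g a := by gcongr
    _ ≤ _ := hB.trans hA

lemma S_up {a b : ℝ} (ha : 0 ≤ a) (hab : a ≤ b) : S g b ≤ S g a + (b - a + 1) * g b := by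
  have hb : 0 ≤ b := ha.trans hab
  have hle : ⌊a⌋₊ ≤ ⌊b⌋₊ := Nat.floor_mono hab
  have e : S g b = S g a + ∑ t ∈ Finset.Ico ⌊a⌋₊ ⌊b⌋₊, g t := by
    unfold S
    rw [Finset.range_eq_Ico, Finset.range_eq_Ico,
      Finset.sum_Ico_consecutive _ (Nat.zero_le _) hle]
  rw [e]
  have hB : ∑ t ∈ Finset.Ico ⌊a⌋₊ ⌊b⌋₊, g t ≤ ∑ t ∈ Finset.Ico ⌊a⌋₊ ⌊b⌋₊, g b := by
    apply Finset.sum_le_sum
    intro t ht
    apply hm
    have := (Finset.mem_Ico.mp ht).2
    exact (by exact_mod_cast this.le : (t : ℝ) ≤ ⌊b⌋₊).trans (Nat.floor_le hb)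
  rw [Finset.sum_const, Nat.card_Ico, nsmul_eq_mul] at hB
  have hc1 : (⌊b⌋₊ : ℝ) ≤ b := Nat.floor_le hb
  have hc2 : a - 1 < (⌊a⌋₊ : ℝ) := by linarith [Nat.lt_floor_add_one a]
  have hgb := h1 b hb
  have hcard : ((⌊b⌋₊ - ⌊a⌋₊ : ℕ) : ℝ) ≤ b - a + 1 := by
    rw [Nat.cast_sub hle]
    linarith
  have : ((⌊b⌋₊ - ⌊a⌋₊ : ℕ) : ℝ) * g b ≤ (b - a + 1) * g b := by gcongr
  linarith

end

/-- uniform constants for finitely many `j` -/
lemma unif (P : ℕ → ℝ → ℕ → Prop)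
    (hP : ∀ j, ∃ (C : ℝ) (U₀ : ℕ), 0 < C ∧ ∀ U : ℕ, U₀ ≤ U → P j C U)
    (hmon : ∀ j C C' U, 0 < C → C ≤ C' → P j C U → P j C' U) :
    ∃ C : ℝ, 0 < C ∧ ∀ᶠ U : ℕ in atTop, ∀ j < 4, P j C U := by
  choose C U₀ hC h using hP
  refine ⟨C 0 + C 1 + C 2 + C 3, by linarith [hC 0, hC 1, hC 2, hC 3], ?_⟩
  filter_upwards [eventually_ge_atTop (U₀ 0 + U₀ 1 + U₀ 2 + U₀ 3)] with U hU j hj
  interval_cases j
  · exact hmon 0 (C 0) _ U (hC 0) (by linarith [hC 0, hC 1, hC 2, hC 3]) (h 0 U (by omega))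
  · exact hmon 1 (C 1) _ U (hC 1) (by linarith [hC 0, hC 1, hC 2, hC 3]) (h 1 U (by omega))
  · exact hmon 2 (C 2) _ U (hC 2) (by linarith [hC 0, hC 1, hC 2, hC 3]) (h 2 U (by omega))
  · exact hmon 3 (C 3) _ U (hC 3) (by linarith [hC 0, hC 1, hC 2, hC 3]) (h 3 U (by omega))

lemma core1 (g : ℕ → ℝ → ℝ) (C A U H D : ℝ) (hC : 1 ≤ C) (hA1 : 1 ≤ A) (hUr : 1000 ≤ U) (hD : 0 < D)
    (hH1 : 1 ≤ H) (hDU : 1000 * D ≤ U)
    (hHD' : 100 * (A * H) + 300 * (C * H) + 500 * H ≤ D)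
    (hHU' : 1000 * (A * H) + 3000 * (C * H) + 5000 * H ≤ U)
    (hmono : ∀ j T T', T ≤ T' → g j T ≤ g j T')
    (hone : ∀ j T, 0 ≤ T → 1 ≤ g j T)
    (low : ∀ j < 4, ∀ T : ℝ, U / 2 ≤ T → T ≤ 2 * U → S (g (j + 1)) (T - C * H) ≤ C * g j T) :
    U / 40 * g 1 (9 / 10 * U) ≤ C * g 0 (U - 5 * H) ∧
    D * S (g 2) (U - 2 * D) ≤ 4 * C ^ 2 * g 0 (U - 5 * H) ∧
    D ^ 2 * S (g 3) (U - 4 * D) ≤ 8 * C ^ 3 * g 0 (U - 5 * H) ∧
    U ^ 3 * g 3 (8 / 10 * U) ≤ 256000 * C ^ 3 * g 0 (U - 5 * H) := by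
  have hGn : ∀ j T, 0 ≤ T → 0 ≤ g j T := fun j T h => by linarith [hone j T h]
  have hC0 : 0 < C := by linarith
  have hCH : 0 ≤ C * H := by positivity
  have hAH : 0 ≤ A * H := by positivity
  have _ := hHU'
  set G0 := g 0 (U - 5 * H) with hG0
  have hG0n : 0 ≤ G0 := hGn _ _ (by linarith)
  -- (c)
  have c1 : S (g 1) (U - 5 * H - C * H) ≤ C * G0 := low 0 (by norm_num) (U - 5 * H)
    (by linarith) (by linarith)
  have c2 : U / 40 * g 1 (9 / 10 * U) ≤ C * G0 := by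
    have h1 := S_low (hmono 1) (hone 1) (a := 9 / 10 * U) (b := 19 / 20 * U)
      (by linarith) (by linarith)
    have h2 := S_mono (hmono 1) (hone 1) (x := 19 / 20 * U) (y := U - 5 * H - C * H)
      (by linarith)
    have h3 : (19 / 20 * U - 9 / 10 * U) / 2 = U / 40 := by ring
    rw [h3] at h1
    linarith
  have c3 : U / 40 * g 2 (85 / 100 * U) ≤ 2 * C * g 1 (9 / 10 * U) := by
    have h0 := low 1 (by norm_num) (9 / 10 * U) (by linarith) (by linarith)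
    have h1 := S_low (hmono 2) (hone 2) (a := 85 / 100 * U) (b := 875 / 1000 * U)
      (by linarith) (by linarith)
    have h2 := S_mono (hmono 2) (hone 2) (x := 875 / 1000 * U)
      (y := 9 / 10 * U - C * H) (by linarith)
    have h3 : (875 / 1000 * U - 85 / 100 * U) / 2 = U / 80 := by ring
    rw [h3] at h1
    simp only [show (1 + 1 : ℕ) = 2 from rfl] at h0
    linarith
  have c4 : U / 40 * g 3 (8 / 10 * U) ≤ 2 * C * g 2 (85 / 100 * U) := by
    have h0 := low 2 (by norm_num) (85 / 100 * U) (by linarith) (by linarith)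
    have h1 := S_low (hmono 3) (hone 3) (a := 8 / 10 * U) (b := 825 / 1000 * U)
      (by linarith) (by linarith)
    have h2 := S_mono (hmono 3) (hone 3) (x := 825 / 1000 * U)
      (y := 85 / 100 * U - C * H) (by linarith)
    have h3 : (825 / 1000 * U - 8 / 10 * U) / 2 = U / 80 := by ring
    rw [h3] at h1
    simp only [show (2 + 1 : ℕ) = 3 from rfl] at h0
    linarith
  -- (a)
  have a1 : D * g 1 (U - D) ≤ 4 * C * G0 := by
    have h1 := S_low (hmono 1) (hone 1) (a := U - D) (b := U - 5 * H - C * H)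
      (by linarith) (by linarith)
    have h2 : D / 4 * g 1 (U - D) ≤ (U - 5 * H - C * H - (U - D)) / 2 * g 1 (U - D) := by
      apply mul_le_mul_of_nonneg_right _ (hGn _ _ (by linarith))
      linarith
    linarith
  have a2 : S (g 2) (U - 2 * D) ≤ C * g 1 (U - D) := by
    have h0 := low 1 (by norm_num) (U - D) (by linarith) (by linarith)
    simp only [show (1 + 1 : ℕ) = 2 from rfl] at h0
    exact (S_mono (hmono 2) (hone 2) (by linarith)).trans h0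
  have a3 : D * S (g 2) (U - 2 * D) ≤ 4 * C ^ 2 * G0 := by
    calc D * S (g 2) (U - 2 * D) ≤ D * (C * g 1 (U - D)) := by gcongr
      _ = C * (D * g 1 (U - D)) := by ring
      _ ≤ C * (4 * C * G0) := by gcongr
      _ = _ := by ring
  -- (b)
  have b1 : D * g 2 (U - 3 * D) ≤ 2 * S (g 2) (U - 2 * D) := by
    have h1 := S_low (hmono 2) (hone 2) (a := U - 3 * D) (b := U - 2 * D)
      (by linarith) (by linarith)
    have h3 : (U - 2 * D - (U - 3 * D)) / 2 = D / 2 := by ring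
    rw [h3] at h1
    linarith
  have b2 : S (g 3) (U - 4 * D) ≤ C * g 2 (U - 3 * D) := by
    have h0 := low 2 (by norm_num) (U - 3 * D) (by linarith) (by linarith)
    simp only [show (2 + 1 : ℕ) = 3 from rfl] at h0
    exact (S_mono (hmono 3) (hone 3) (by linarith)).trans h0
  have b3 : D ^ 2 * S (g 3) (U - 4 * D) ≤ 8 * C ^ 3 * G0 := by
    calc D ^ 2 * S (g 3) (U - 4 * D) ≤ D ^ 2 * (C * g 2 (U - 3 * D)) := by gcongr
      _ = C * D * (D * g 2 (U - 3 * D)) := by ring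
      _ ≤ C * D * (2 * S (g 2) (U - 2 * D)) := by gcongr
      _ = 2 * C * (D * S (g 2) (U - 2 * D)) := by ring
      _ ≤ 2 * C * (4 * C ^ 2 * G0) := by gcongr
      _ = _ := by ring
  -- (c) continued
  have c5 : U ^ 3 * g 3 (8 / 10 * U) ≤ 256000 * C ^ 3 * G0 := by
    have hU0 : (0 : ℝ) < U := by linarith
    calc U ^ 3 * g 3 (8 / 10 * U)
        = 40 * U ^ 2 * (U / 40 * g 3 (8 / 10 * U)) := by ring
      _ ≤ 40 * U ^ 2 * (2 * C * g 2 (85 / 100 * U)) := by gcongr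
      _ = 3200 * C * U * (U / 40 * g 2 (85 / 100 * U)) := by ring
      _ ≤ 3200 * C * U * (2 * C * g 1 (9 / 10 * U)) := by gcongr
      _ = 256000 * C ^ 2 * (U / 40 * g 1 (9 / 10 * U)) := by ring
      _ ≤ 256000 * C ^ 2 * (C * G0) := by gcongr
      _ = _ := by ring
  exact ⟨c2, a3, b3, c5⟩

lemma core2 (g : ℕ → ℝ → ℝ) (C A U H D : ℝ) (hC : 1 ≤ C) (hA1 : 1 ≤ A) (hUr : 1000 ≤ U) (hD : 0 < D)
    (hH1 : 1 ≤ H) (hDU : 1000 * D ≤ U)
    (hHD' : 100 * (A * H) + 300 * (C * H) + 500 * H ≤ D)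
    (hHU' : 1000 * (A * H) + 3000 * (C * H) + 5000 * H ≤ U)
    (hmono : ∀ j T T', T ≤ T' → g j T ≤ g j T')
    (hone : ∀ j T, 0 ≤ T → 1 ≤ g j T)
    (low : ∀ j < 4, ∀ T : ℝ, U / 2 ≤ T → T ≤ 2 * U → S (g (j + 1)) (T - C * H) ≤ C * g j T)
    (up : ∀ j < 4, ∀ T : ℝ, U / 2 ≤ T → T ≤ 2 * U → g j T ≤ C * S (g (j + 1)) (T + C * H + 1))
    (gr : ∀ j < 4, ∀ T : ℝ, U / 2 ≤ T → T ≤ 2 * U → g j T ≤ C * U * g j (100 / 129 * T + C * H))
    (B : ℝ) (hBA : B ≤ A) :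
    ∃ X Y : ℝ, 0 ≤ X ∧ 0 ≤ Y ∧ U ^ 2 * X ≤ 256000 * C ^ 4 * g 0 (U - 5 * H) ∧
      Y ≤ C * (S (g 3) (U - 4 * D) + 5 * D * X) ∧
      g 1 (U + B * H) ≤ C * (S (g 2) (U - 2 * D) + 3 * D * Y) := by
  have hGn : ∀ j T, 0 ≤ T → 0 ≤ g j T := fun j T h => by linarith [hone j T h]
  have hC0 : 0 < C := by linarith
  have hCH : 0 ≤ C * H := by positivity
  have hAH : 0 ≤ A * H := by positivity
  obtain ⟨-, -, -, c5⟩ := core1 g C A U H D hC hA1 hUr hD hH1 hDU hHD' hHU' hmono hone low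
  set G0 := g 0 (U - 5 * H) with hG0
  have hG0n : 0 ≤ G0 := hGn _ _ (by linarith)
  -- (U)
  have hU0 : (0 : ℝ) < U := by linarith
  set b1 : ℝ := U + A * H + C * H + H with hb1
  set b2 : ℝ := U + A * H + 2 * (C * H) + 2 * H with hb2
  have u1 : g 1 (U + B * H) ≤ C * S (g 2) b1 := by
    have h0 : g 1 (U + B * H) ≤ g 1 (U + A * H) := by
      apply hmono
      have : B * H ≤ A * H := by
        apply mul_le_mul_of_nonneg_right _ (by linarith)
        exact hBA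
      linarith
    have h1 := up 1 (by norm_num) (U + A * H) (by linarith) (by linarith)
    have h2 := S_mono (hmono 2) (hone 2) (x := U + A * H + C * H + 1) (y := b1)
      (by rw [hb1]; linarith)
    simp only [show (1 + 1 : ℕ) = 2 from rfl] at h1
    calc g 1 (U + B * H) ≤ _ := h0.trans h1
      _ ≤ _ := mul_le_mul_of_nonneg_left h2 hC0.le
  have u2 : S (g 2) b1 ≤ S (g 2) (U - 2 * D) + 3 * D * g 2 b1 := by
    have h1 := S_up (hmono 2) (hone 2) (a := U - 2 * D) (b := b1) (by linarith)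
      (by rw [hb1]; linarith)
    have h2 : (b1 - (U - 2 * D) + 1) * g 2 b1 ≤ 3 * D * g 2 b1 := by
      apply mul_le_mul_of_nonneg_right _ (hGn _ _ (by rw [hb1]; linarith))
      rw [hb1]
      linarith
    linarith
  have u3 : g 2 b1 ≤ C * S (g 3) b2 := by
    have h1 := up 2 (by norm_num) b1 (by rw [hb1]; linarith) (by rw [hb1]; linarith)
    have h2 := S_mono (hmono 3) (hone 3) (x := b1 + C * H + 1) (y := b2)
      (by rw [hb1, hb2]; linarith)
    simp only [show (2 + 1 : ℕ) = 3 from rfl] at h1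
    exact h1.trans (mul_le_mul_of_nonneg_left h2 hC0.le)
  have u4 : S (g 3) b2 ≤ S (g 3) (U - 4 * D) + 5 * D * g 3 b2 := by
    have h1 := S_up (hmono 3) (hone 3) (a := U - 4 * D) (b := b2) (by linarith)
      (by rw [hb2]; linarith)
    have h2 : (b2 - (U - 4 * D) + 1) * g 3 b2 ≤ 5 * D * g 3 b2 := by
      apply mul_le_mul_of_nonneg_right _ (hGn _ _ (by rw [hb2]; linarith))
      rw [hb2]
      linarith
    linarith
  have u5 : U ^ 2 * g 3 b2 ≤ 256000 * C ^ 4 * G0 := by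
    have h1 := gr 3 (by norm_num) b2 (by rw [hb2]; linarith) (by rw [hb2]; linarith)
    have h2 : g 3 (100 / 129 * b2 + C * H) ≤ g 3 (8 / 10 * U) := by
      apply hmono
      rw [hb2]
      linarith
    calc U ^ 2 * g 3 b2 ≤ U ^ 2 * (C * U * g 3 (100 / 129 * b2 + C * H)) := by gcongr
      _ ≤ U ^ 2 * (C * U * g 3 (8 / 10 * U)) := by gcongr
      _ = C * (U ^ 3 * g 3 (8 / 10 * U)) := by ring
      _ ≤ C * (256000 * C ^ 3 * G0) := by gcongr
      _ = _ := by ring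
  refine ⟨g 3 b2, g 2 b1, hGn _ _ (by rw [hb2]; linarith), hGn _ _ (by rw [hb1]; linarith), u5, ?_, ?_⟩
  · exact u3.trans (by gcongr)
  · exact u1.trans (by gcongr)

lemma core3 (C D H U S2 S3 X Y Z G0 r s K : ℝ) (hC : 1 ≤ C) (hD : 0 < D) (hH0 : 0 ≤ H)
    (hr0 : 0 ≤ r) (hs0 : 0 ≤ s) (hG0n : 0 ≤ G0)
    (hHr : H = D * r) (hHs : H * D ^ 2 = U ^ 2 * s)
    (hK : K = 4 * C ^ 3 + 24 * C ^ 5 + 3840000 * C ^ 6)
    (a3 : D * S2 ≤ 4 * C ^ 2 * G0) (b3 : D ^ 2 * S3 ≤ 8 * C ^ 3 * G0)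
    (u5 : U ^ 2 * X ≤ 256000 * C ^ 4 * G0)
    (v1 : Y ≤ C * (S3 + 5 * D * X)) (v2 : Z ≤ C * (S2 + 3 * D * Y)) :
    H * Z ≤ K * r * G0 + K * s * G0 := by
  have hC0 : 0 < C := by linarith
  have v3 : H * Z ≤ C * (H * S2) + 3 * C ^ 2 * (H * D * S3)
      + 15 * C ^ 2 * (H * D ^ 2 * X) := by
    calc H * Z ≤ H * (C * (S2 + 3 * D * Y)) := by gcongr
      _ ≤ H * (C * (S2 + 3 * D * (C * (S3 + 5 * D * X)))) := by gcongr
      _ = _ := by ring
  have w1 : H * S2 ≤ r * (4 * C ^ 2 * G0) := by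
    calc H * S2 = r * (D * S2) := by rw [hHr]; ring
      _ ≤ _ := by gcongr
  have w2 : H * D * S3 ≤ r * (8 * C ^ 3 * G0) := by
    calc H * D * S3 = r * (D ^ 2 * S3) := by rw [hHr]; ring
      _ ≤ _ := by gcongr
  have w3 : H * D ^ 2 * X ≤ s * (256000 * C ^ 4 * G0) := by
    calc H * D ^ 2 * X = s * (U ^ 2 * X) := by rw [hHs]; ring
      _ ≤ _ := by gcongr
  have w4 : H * Z ≤ (4 * C ^ 3 + 24 * C ^ 5) * r * G0 + 3840000 * C ^ 6 * s * G0 := by
    calc H * Z ≤ C * (H * S2) + 3 * C ^ 2 * (H * D * S3)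
          + 15 * C ^ 2 * (H * D ^ 2 * X) := v3
      _ ≤ C * (r * (4 * C ^ 2 * G0)) + 3 * C ^ 2 * (r * (8 * C ^ 3 * G0))
          + 15 * C ^ 2 * (s * (256000 * C ^ 4 * G0)) := by gcongr
      _ = _ := by ring
  have h6 : 0 ≤ C ^ 6 := by positivity
  have h3 : 0 ≤ C ^ 3 := by positivity
  have h5 : 0 ≤ C ^ 5 := by positivity
  have w5 : (4 * C ^ 3 + 24 * C ^ 5) * r * G0 ≤ K * r * G0 := by
    apply mul_le_mul_of_nonneg_right _ hG0n
    apply mul_le_mul_of_nonneg_right _ hr0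
    rw [hK]
    linarith
  have w6 : 3840000 * C ^ 6 * s * G0 ≤ K * s * G0 := by
    apply mul_le_mul_of_nonneg_right _ hG0n
    apply mul_le_mul_of_nonneg_right _ hs0
    rw [hK]
    linarith
  linarith

end RegAux

open RegAux

theorem reg (G : ℕ → ℕ → ℝ → ℝ)
    (hmono : ∀ U j T T', T ≤ T' → G U j T ≤ G U j T')
    (hone : ∀ U j T, 0 ≤ T → 1 ≤ G U j T)
    (hup : ∀ j, ∃ (C : ℝ) (U₀ : ℕ), 0 < C ∧ ∀ U : ℕ, U₀ ≤ U → ∀ T : ℝ, (U : ℝ) / 2 ≤ T → T ≤ 2 * U →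
      G U j T ≤ C * ∑ t ∈ Finset.range (⌊T + C * HH U⌋₊ + 1), G U (j + 1) t)
    (hlow : ∀ j, ∃ (C : ℝ) (U₀ : ℕ), 0 < C ∧ ∀ U : ℕ, U₀ ≤ U → ∀ T : ℝ, (U : ℝ) / 2 ≤ T → T ≤ 2 * U →
      ∑ t ∈ Finset.range ⌊T - C * HH U⌋₊, G U (j + 1) t ≤ C * G U j T)
    (hgr : ∀ j, ∃ (C : ℝ) (U₀ : ℕ), 0 < C ∧ ∀ U : ℕ, U₀ ≤ U → ∀ T : ℝ, (U : ℝ) / 2 ≤ T → T ≤ 2 * U →
      G U j T ≤ C * U * G U j (100 / 129 * T + C * HH U))
    (B ε : ℝ) (hε : 0 < ε) :
    ∃ U₀ : ℕ, ∀ U : ℕ, U₀ ≤ U →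
      HH U * G U 1 (U + B * HH U) ≤ ε * G U 0 (U - 5 * HH U) ∧
      Real.log U * G U 1 (9 / 10 * U) ≤ ε * G U 0 (U - 5 * HH U) := by
  have hHn : ∀ U : ℕ, 0 ≤ HH U := fun U => Real.rpow_nonneg (Nat.cast_nonneg U) _
  have hGn : ∀ U j T, 0 ≤ T → 0 ≤ G U j T := fun U j T h => by linarith [hone U j T h]
  obtain ⟨C1, hC1, E1⟩ := unif (fun j C U => ∀ T : ℝ, (U : ℝ) / 2 ≤ T → T ≤ 2 * U →
      G U j T ≤ C * ∑ t ∈ Finset.range (⌊T + C * HH U⌋₊ + 1), G U (j + 1) t) hup (by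
    intro j C C' U hC hCC h T hT1 hT2
    refine (h T hT1 hT2).trans ?_
    apply mul_le_mul hCC _ _ (hC.le.trans hCC)
    · apply Finset.sum_le_sum_of_subset_of_nonneg
      · apply Finset.range_mono
        have : ⌊T + C * HH U⌋₊ ≤ ⌊T + C' * HH U⌋₊ := by
          apply Nat.floor_mono
          have := mul_le_mul_of_nonneg_right hCC (hHn U)
          linarith
        omega
      · intro i _ _
        exact hGn _ _ _ (Nat.cast_nonneg i)
    · exact Finset.sum_nonneg fun i _ => hGn _ _ _ (Nat.cast_nonneg i))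
  obtain ⟨C2, hC2, E2⟩ := unif (fun j C U => ∀ T : ℝ, (U : ℝ) / 2 ≤ T → T ≤ 2 * U →
      ∑ t ∈ Finset.range ⌊T - C * HH U⌋₊, G U (j + 1) t ≤ C * G U j T) hlow (by
    intro j C C' U hC hCC h T hT1 hT2
    have hT : 0 ≤ T := le_trans (by positivity) hT1
    have hA : ∑ t ∈ Finset.range ⌊T - C' * HH U⌋₊, G U (j + 1) t
        ≤ ∑ t ∈ Finset.range ⌊T - C * HH U⌋₊, G U (j + 1) t := by
      apply Finset.sum_le_sum_of_subset_of_nonneg
      · apply Finset.range_mono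
        apply Nat.floor_mono
        have := mul_le_mul_of_nonneg_right hCC (hHn U)
        linarith
      · intro i _ _
        exact hGn _ _ _ (Nat.cast_nonneg i)
    refine hA.trans ((h T hT1 hT2).trans ?_)
    exact mul_le_mul_of_nonneg_right hCC (hGn _ _ _ hT))
  obtain ⟨C3, hC3, E3⟩ := unif (fun j C U => ∀ T : ℝ, (U : ℝ) / 2 ≤ T → T ≤ 2 * U →
      G U j T ≤ C * U * G U j (100 / 129 * T + C * HH U)) hgr (by
    intro j C C' U hC hCC h T hT1 hT2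
    have hT : 0 ≤ T := le_trans (by positivity) hT1
    have hU : (0 : ℝ) ≤ U := Nat.cast_nonneg U
    refine (h T hT1 hT2).trans ?_
    have hm := mul_le_mul_of_nonneg_right hCC (hHn U)
    have h1 : G U j (100 / 129 * T + C * HH U) ≤ G U j (100 / 129 * T + C' * HH U) :=
      hmono _ _ _ _ (by linarith)
    have h2 : 0 ≤ G U j (100 / 129 * T + C * HH U) :=
      hGn _ _ _ (by have := mul_nonneg hC.le (hHn U); linarith)
    apply mul_le_mul _ h1 h2 (mul_nonneg (hC.le.trans hCC) hU)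
    exact mul_le_mul_of_nonneg_right hCC hU)
  obtain ⟨C, hC, hCC1, hCC2, hCC3⟩ : ∃ C : ℝ, 1 ≤ C ∧ C1 ≤ C ∧ C2 ≤ C ∧ C3 ≤ C :=
    ⟨C1 + C2 + C3 + 1, by linarith, by linarith, by linarith, by linarith⟩
  have hC0 : 0 < C := by linarith
  -- the three rules with the common constant, in terms of `S`
  have up : ∀ᶠ U : ℕ in atTop, ∀ j < 4, ∀ T : ℝ, (U : ℝ) / 2 ≤ T → T ≤ 2 * U →
      G U j T ≤ C * S (G U (j + 1)) (T + C * HH U + 1) := by
    filter_upwards [E1] with U h j hj T hT1 hT2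
    have hT : 0 ≤ T := le_trans (by positivity) hT1
    refine (h j hj T hT1 hT2).trans ?_
    have hm := mul_le_mul_of_nonneg_right hCC1 (hHn U)
    have hp := mul_nonneg hC0.le (hHn U)
    apply mul_le_mul hCC1 _ _ hC0.le
    · unfold S
      apply Finset.sum_le_sum_of_subset_of_nonneg
      · apply Finset.range_mono
        rw [Nat.floor_add_one (by linarith)]
        have : ⌊T + C1 * HH U⌋₊ ≤ ⌊T + C * HH U⌋₊ := Nat.floor_mono (by linarith)
        omega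
      · intro i _ _
        exact hGn _ _ _ (Nat.cast_nonneg i)
    · exact Finset.sum_nonneg fun i _ => hGn _ _ _ (Nat.cast_nonneg i)
  have low : ∀ᶠ U : ℕ in atTop, ∀ j < 4, ∀ T : ℝ, (U : ℝ) / 2 ≤ T → T ≤ 2 * U →
      S (G U (j + 1)) (T - C * HH U) ≤ C * G U j T := by
    filter_upwards [E2] with U h j hj T hT1 hT2
    have hT : 0 ≤ T := le_trans (by positivity) hT1
    have hm := mul_le_mul_of_nonneg_right hCC2 (hHn U)
    refine (S_mono (hmono U (j + 1)) (hone U (j + 1))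
      (by linarith : T - C * HH U ≤ T - C2 * HH U)).trans ?_
    refine (h j hj T hT1 hT2).trans ?_
    exact mul_le_mul_of_nonneg_right hCC2 (hGn _ _ _ hT)
  have gr : ∀ᶠ U : ℕ in atTop, ∀ j < 4, ∀ T : ℝ, (U : ℝ) / 2 ≤ T → T ≤ 2 * U →
      G U j T ≤ C * U * G U j (100 / 129 * T + C * HH U) := by
    filter_upwards [E3] with U h j hj T hT1 hT2
    have hT : 0 ≤ T := le_trans (by positivity) hT1
    have hU : (0 : ℝ) ≤ U := Nat.cast_nonneg U
    refine (h j hj T hT1 hT2).trans ?_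
    have hm := mul_le_mul_of_nonneg_right hCC3 (hHn U)
    have h1 : G U j (100 / 129 * T + C3 * HH U) ≤ G U j (100 / 129 * T + C * HH U) :=
      hmono _ _ _ _ (by linarith)
    have h2 : 0 ≤ G U j (100 / 129 * T + C3 * HH U) :=
      hGn _ _ _ (by have := mul_nonneg hC3.le (hHn U); linarith)
    apply mul_le_mul _ h1 h2 (by positivity)
    exact mul_le_mul_of_nonneg_right hCC3 hU
  set A : ℝ := |B| + 1 with hA
  have hA1 : 1 ≤ A := by have := abs_nonneg B; linarith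
  -- final constants
  set K : ℝ := 4 * C ^ 3 + 24 * C ^ 5 + 3840000 * C ^ 6 with hK
  have hKpos : 0 < K := by positivity
  have ev : ∀ᶠ U : ℕ in atTop,
      HH U * G U 1 (U + B * HH U) ≤ ε * G U 0 (U - 5 * HH U) ∧
      Real.log U * G U 1 (9 / 10 * U) ≤ ε * G U 0 (U - 5 * HH U) := by
    filter_upwards [up, low, gr, eventually_ge_atTop 1000, ev_HD (100 * (A + 3 * C + 5)),
      ev_DU 1000, ev_H (1000 * (A + 3 * C + 5)), ev_log (40 * C / ε),
      ev_small (1 / 20) (by norm_num) K (ε / 2) (by positivity),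
      ev_small (1 / 10) (by norm_num) K (ε / 2) (by positivity)] with
      U up low gr hU1000 hHD hDU hHU hlogU hs1 hs2
    have hU1 : 1 ≤ U := by omega
    have hUr : (1000 : ℝ) ≤ U := by exact_mod_cast hU1000
    have hD := DD_pos U hU1
    have hH1 := HH_one U hU1
    set H := HH U with hHdef
    set D := DD U with hDdef
    have hCH : 0 ≤ C * H := by positivity
    have hAH : 0 ≤ A * H := by positivity
    have hHD' : 100 * (A * H) + 300 * (C * H) + 500 * H ≤ D := by nlinarith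
    have hHU' : 1000 * (A * H) + 3000 * (C * H) + 5000 * H ≤ U := by nlinarith
    set G0 := G U 0 (U - 5 * H) with hG0
    have hG0n : 0 ≤ G0 := hGn _ _ _ (by linarith)
    have P1 := core1 (G U) C A U H D hC hA1 hUr hD hH1 hDU hHD' hHU' (hmono U) (hone U) low
    obtain ⟨c2, a3, b3, -⟩ := P1
    have P2 := core2 (G U) C A U H D hC hA1 hUr hD hH1 hDU hHD' hHU' (hmono U) (hone U) low up gr B
      (by rw [hA]; linarith [le_abs_self B])
    obtain ⟨X, Y, -, -, u5, v1, v2⟩ := P2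
    have hU0 : (0 : ℝ) < U := by linarith
    have P3 := core3 C D H U _ _ X Y _ G0 ((U : ℝ) ^ (-((1 : ℝ) / 20))) ((U : ℝ) ^ (-((1 : ℝ) / 10))) K
      hC hD (by linarith) (Real.rpow_nonneg hU0.le _) (Real.rpow_nonneg hU0.le _) hG0n
      (HD U hU1) (HDDU U hU1) hK a3 b3 u5 v1 v2
    constructor
    · calc H * G U 1 (U + B * H) ≤ _ := P3
        _ ≤ (ε / 2) * G0 + (ε / 2) * G0 := by
            apply add_le_add
            · exact mul_le_mul_of_nonneg_right hs1 hG0n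
            · exact mul_le_mul_of_nonneg_right hs2 hG0n
        _ = ε * G0 := by ring
    · have g1 : 0 ≤ G U 1 (9 / 10 * U) := hGn _ _ _ (by linarith)
      have hl2 : Real.log U ≤ ε / C * (U / 40) := by
        have h3 : Real.log U = ε / (40 * C) * (40 * C / ε * Real.log U) := by
          field_simp
        rw [h3]
        calc ε / (40 * C) * (40 * C / ε * Real.log U) ≤ ε / (40 * C) * U := by gcongr
          _ = _ := by field_simp
      calc Real.log U * G U 1 (9 / 10 * U) ≤ (ε / C * (U / 40)) * G U 1 (9 / 10 * U) := by gcongr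
        _ = ε / C * (U / 40 * G U 1 (9 / 10 * U)) := by ring
        _ ≤ ε / C * (C * G0) := by gcongr
        _ = ε * G0 := by field_simp
  obtain ⟨U₀, h⟩ := eventually_atTop.mp ev
  exact ⟨U₀, h⟩

end P031
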