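import Vale.Agent.P031.FinP
import Vale.Agent.P031.Bad
import Vale.Agent.P031.Rec
import Vale.Agent.P031.DRec
import Vale.Agent.P031.Reg

/-!
# P031, module FINU: the upper bound for `V`

PROOF.  `v ≤ X` in `Tot`: `bad_rep`, or `RepT U p n v`.  If `β₀(n) ≥ U + 4H`: `ob` with `b = U + 4H`:
`≤ X e^{-U - 3H} ≤ (X/log X) e^{-H}` (`log X ≤ e^{U+2}`).  Else if `top + S > U - 20 log U`: `bad_top` and `reg` (second
conclusion).  Else `m = φ(n) ∈ Gset U 0 (U + 5H)` (`Phi_zero`), `log m ≤ log n ≤ U² e^{U - 20 log U} ≤ (log X)/U`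
(`log_le_of_good`), `m ≤ NN U`, and `prime_upper` gives `V(X) ≤ (1 + ε/3) (X/log X) mass (Gset U 0 (U + 5H)) + negligible`,
`mass (Gset U 0 (U+5H)) ≤ GG U 0 (U - 5H) + shell`, `shell` and `reg` (first conclusion).  `reg` is applied to
`G = GG` with `GG_mono`, `one_le_GG`, `upper_rec`, `lower_rec`, `growth`.
-/

namespace P031

open scoped BigOperators
open Filter

open Classical in
/-- counting products `(p-1) m` with `m` in a good set -/
theorem fu_count {X : ℝ} {U : ℕ} {ε : ℝ} (T : ℝ) (hL : 0 ≤ X / Real.log X) (hε : 0 ≤ ε)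
    (hP : ∀ m : ℕ, 1 ≤ m → Real.log m ≤ Real.log X / U →
      (((Finset.range (⌊X⌋₊ + 2)).filter (fun p : ℕ => p.Prime ∧
        (((p - 1) * m : ℕ) : ℝ) ≤ X)).card : ℝ) ≤ (1 + ε) * (X / Real.log X * (1 / (m : ℝ))))
    (A : Set ℕ)
    (hA : ∀ v ∈ A, ∃ p m : ℕ, p.Prime ∧ v = (p - 1) * m ∧ 1 ≤ m ∧ m ≤ NN U ∧ m ∈ Gset U 0 T ∧
      Real.log m ≤ Real.log X / U) :
    (cnt X A : ℝ) ≤ (1 + ε) * (X / Real.log X * GG U 0 T) := by
  obtain ⟨M, hM⟩ : ∃ M : Finset ℕ, M = (Finset.Icc 1 (NN U)).filter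
      (fun m => m ∈ Gset U 0 T ∧ Real.log m ≤ Real.log X / U) := ⟨_, rfl⟩
  obtain ⟨P, hPd⟩ : ∃ P : ℕ → Finset ℕ, ∀ m, P m = (Finset.range (⌊X⌋₊ + 2)).filter
      (fun p : ℕ => p.Prime ∧ (((p - 1) * m : ℕ) : ℝ) ≤ X) := ⟨_, fun _ => rfl⟩
  have hsub : {v : ℕ | v ∈ A ∧ (v : ℝ) ≤ X} ⊆
      ((M.biUnion fun m => (P m).image fun p => (p - 1) * m : Finset ℕ) : Set ℕ) := by
    rintro v ⟨hvA, hvX⟩
    obtain ⟨p, m, hp, hv, hm1, hm2, hm3, hm4⟩ := hA v hvA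
    rw [Finset.mem_coe, Finset.mem_biUnion]
    refine ⟨m, ?_, ?_⟩
    · rw [hM]
      exact Finset.mem_filter.mpr ⟨Finset.mem_Icc.mpr ⟨hm1, hm2⟩, hm3, hm4⟩
    · rw [Finset.mem_image]
      refine ⟨p, ?_, hv.symm⟩
      rw [hPd, Finset.mem_filter, Finset.mem_range]
      refine ⟨?_, hp, ?_⟩
      · have h1 : v ≤ ⌊X⌋₊ := Nat.le_floor hvX
        have h2 : p - 1 ≤ v := by
          rw [hv]
          exact Nat.le_mul_of_pos_right _ hm1
        omega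
      · rw [← hv]
        exact hvX
  have h1 : cnt X A ≤ ∑ m ∈ M, (P m).card := by
    unfold cnt
    refine (Set.ncard_le_ncard hsub (Finset.finite_toSet _)).trans ?_
    rw [Set.ncard_coe_finset]
    refine Finset.card_biUnion_le.trans ?_
    exact Finset.sum_le_sum fun m _ => Finset.card_image_le
  have h2 : (cnt X A : ℝ) ≤ ∑ m ∈ M, ((P m).card : ℝ) := by exact_mod_cast h1
  refine h2.trans ?_
  have h3 : ∑ m ∈ M, ((P m).card : ℝ) ≤ ∑ m ∈ M, (1 + ε) * (X / Real.log X * (1 / (m : ℝ))) := by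
    refine Finset.sum_le_sum fun m hm => ?_
    rw [hM, Finset.mem_filter] at hm
    rw [hPd]
    exact hP m (Finset.mem_Icc.mp hm.1).1 hm.2.2
  refine h3.trans ?_
  rw [← Finset.mul_sum, ← Finset.mul_sum]
  refine mul_le_mul_of_nonneg_left (mul_le_mul_of_nonneg_left ?_ hL) (by linarith)
  unfold GG mass
  rw [hM, Finset.sum_filter]
  refine Finset.sum_le_sum fun m hm => ?_
  have hm0 : (0 : ℝ) ≤ 1 / (m : ℝ) := by positivity
  split_ifs with h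
  · rw [Set.indicator_of_mem h.1]
  · exact Set.indicator_nonneg (fun _ _ => by positivity) _

theorem fu_small (δ : ℝ) (hδ : 0 < δ) : ∃ U₀ : ℕ, ∀ U : ℕ, U₀ ≤ U →
    Real.exp (-(U : ℝ) ^ ((1 : ℝ) / 40)) ≤ δ ∧ Real.exp (2 - 31 / 8 * HH U) ≤ δ ∧
      5 * HH U ≤ U := by
  have h1 : Tendsto (fun U : ℕ => Real.exp (-(U : ℝ) ^ ((1 : ℝ) / 40))) atTop (nhds 0) :=
    Real.tendsto_exp_neg_atTop_nhds_zero.comp
      ((tendsto_rpow_atTop (by norm_num : (0 : ℝ) < 1 / 40)).comp tendsto_natCast_atTop_atTop)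
  have h2' : Tendsto (fun U : ℕ => (U : ℝ) ^ ((3 : ℝ) / 5)) atTop atTop :=
    (tendsto_rpow_atTop (by norm_num : (0 : ℝ) < 3 / 5)).comp tendsto_natCast_atTop_atTop
  have h2 : ∀ᶠ U : ℕ in atTop, 2 - Real.log δ ≤ HH U := h2'.eventually_ge_atTop _
  obtain ⟨U₀, h⟩ := eventually_atTop.mp
    ((h1.eventually (eventually_le_nhds hδ)).and (h2.and (RegAux.ev_H 5)))
  refine ⟨U₀, fun U hU => ⟨(h U hU).1, ?_, (h U hU).2.2⟩⟩
  have h3 := (h U hU).2.1
  have h4 : 0 ≤ HH U := Real.rpow_nonneg (Nat.cast_nonneg U) _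
  rw [← Real.exp_log hδ]
  apply Real.exp_le_exp.mpr
  linarith

theorem fu_arith {v c₀ c₁ c₂ c₃ L G g ε : ℝ} (hε : 0 < ε) (hε1 : ε ≤ 1) (hL : 0 < L) (hG : 1 ≤ G)
    (hV : v ≤ c₀ + (c₁ + (c₂ + c₃))) (h0 : c₀ ≤ L * (ε / 8)) (h1 : c₁ ≤ L * (ε / 8))
    (h2 : c₂ ≤ L * (ε / 8 * G)) (h3 : c₃ ≤ (1 + ε / 8) * (L * g)) (h4 : g ≤ G + ε / 8 * G) :
    v ≤ (1 + ε) * (L * G) := by
  have h5 : (1 + ε / 8) * (L * g) ≤ (1 + ε / 8) * (L * (G + ε / 8 * G)) :=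
    mul_le_mul_of_nonneg_left (mul_le_mul_of_nonneg_left h4 hL.le) (by linarith)
  obtain ⟨W, hW⟩ : ∃ W, W = L * G := ⟨_, rfl⟩
  have hW0 : 0 < W := by rw [hW]; positivity
  have hLW : L ≤ W := by
    rw [hW]
    calc L = L * 1 := (mul_one L).symm
      _ ≤ L * G := mul_le_mul_of_nonneg_left hG hL.le
  have h6 : L * (ε / 8) ≤ W * (ε / 8) := mul_le_mul_of_nonneg_right hLW (by linarith)
  have h8 : L * (ε / 8 * G) = W * (ε / 8) := by rw [hW]; ring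
  have h9 : (1 + ε / 8) * (L * (G + ε / 8 * G)) = W + W * ε / 4 + W * ε * ε / 64 := by
    rw [hW]; ring
  have h10 : W * ε * ε ≤ W * ε * 1 := mul_le_mul_of_nonneg_left hε1 (by positivity)
  have h11 : 0 < W * ε := by positivity
  rw [← hW]
  rw [h9] at h5
  rw [h8] at h2
  have h12 : (1 + ε) * W = W + W * ε := by ring
  rw [h12]
  linarith

theorem final_upper : ∀ ε : ℝ, 0 < ε → ∃ U₀ : ℕ, ∀ U : ℕ, U₀ ≤ U → ∀ X : ℝ, 1 ≤ X →
    (U : ℝ) ≤ LL X → LL X ≤ U + 2 →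
    (V X : ℝ) ≤ (1 + ε) * (X / Real.log X * GG U 0 (U - 5 * HH U)) := by
  intro ε₀ hε₀
  obtain ⟨ε, hεd⟩ : ∃ ε : ℝ, ε = min ε₀ 1 := ⟨_, rfl⟩
  have hε : 0 < ε := by rw [hεd]; exact lt_min hε₀ one_pos
  have hε1 : ε ≤ 1 := by rw [hεd]; exact min_le_right _ _
  have hεε : ε ≤ ε₀ := by rw [hεd]; exact min_le_left _ _
  obtain ⟨U₁, hPU⟩ := prime_upper (ε / 8) (by linarith)
  obtain ⟨U₂, hBR⟩ := bad_rep
  obtain ⟨C₁, U₃, hC₁, hBT⟩ := bad_top
  obtain ⟨U₄, hOB⟩ := ob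
  obtain ⟨C₂, U₅, hC₂, hSh⟩ := shell
  have hC : 0 < 8 * (C₁ + C₂) := by linarith
  obtain ⟨U₆, hReg⟩ := reg GG (fun U j T T' h => GG_mono U j h) (fun U j T h => one_le_GG U j h)
    upper_rec lower_rec growth C₂ (ε / (8 * (C₁ + C₂))) (by positivity)
  obtain ⟨U₇, hGle⟩ := Gset_le
  obtain ⟨U₈, hSm⟩ := fu_small (ε / 8) (by linarith)
  refine ⟨U₁ + U₂ + U₃ + U₄ + U₅ + U₆ + U₇ + U₈ + 16, ?_⟩
  intro U hU X hX1 hLU hUL
  replace hPU := hPU U (by omega)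
  replace hBR := hBR U (by omega) X hX1 hLU hUL
  replace hBT := hBT U (by omega) X hX1 hLU hUL
  replace hOB := hOB U (by omega) X
  replace hSh := hSh U (by omega)
  obtain ⟨hR1, hR2⟩ := hReg U (by omega)
  replace hGle := hGle U (by omega) 0
  obtain ⟨hs1, hs2, hs3⟩ := hSm U (by omega)
  have hU16 : (16 : ℝ) ≤ U := by exact_mod_cast (by omega : 16 ≤ U)
  have hU0 : (0 : ℝ) < U := by linarith
  obtain ⟨H, hHd⟩ : ∃ H, H = HH U := ⟨_, rfl⟩
  have hH0 : 0 ≤ H := by rw [hHd]; exact Real.rpow_nonneg (Nat.cast_nonneg U) _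
  rw [← hHd] at hBT hSh hR1 hR2 hs2 hs3 ⊢
  have hlogX : 0 < Real.log X := by
    rcases (Real.log_nonneg hX1).lt_or_eq with h | h
    · exact h
    · exfalso
      unfold LL at hLU
      rw [← h, Real.log_zero] at hLU
      linarith
  have hexpLL : Real.exp (LL X) = Real.log X := by unfold LL; exact Real.exp_log hlogX
  have hlog1 : Real.exp U ≤ Real.log X := by rw [← hexpLL]; exact Real.exp_le_exp.mpr hLU
  have hlog2 : Real.log X ≤ Real.exp (U + 2) := by rw [← hexpLL]; exact Real.exp_le_exp.mpr hUL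
  have hX16 : 16 ≤ X := by
    have h1 : (U : ℝ) + 1 ≤ Real.exp U := Real.add_one_le_exp _
    have h2 : Real.log X ≤ X := Real.log_le_self (by linarith)
    linarith
  have hX0 : 0 < X := by linarith
  obtain ⟨L, hLd⟩ : ∃ L, L = X / Real.log X := ⟨_, rfl⟩
  have hL0 : 0 < L := by rw [hLd]; positivity
  have hLX : X = L * Real.log X := by rw [hLd]; field_simp
  obtain ⟨G, hGd⟩ : ∃ G, G = GG U 0 (U - 5 * H) := ⟨_, rfl⟩
  have hG1 : 1 ≤ G := by rw [hGd]; exact one_le_GG U 0 (by linarith)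
  rw [← hLd] at hBR hBT ⊢
  rw [← hGd] at hR1 hR2 ⊢
  have hlogU : 0 ≤ Real.log U := Real.log_nonneg (by linarith)
  -- the four sets
  obtain ⟨A₁, hA₁⟩ : ∃ A₁ : Set ℕ, A₁ = {v | ∃ p n : ℕ, Rep U p n v ∧ U + 4 * H ≤ beta U n 0} :=
    ⟨_, rfl⟩
  obtain ⟨A₂, hA₂⟩ : ∃ A₂ : Set ℕ, A₂ = {v | ∃ p n : ℕ, RepT U p n v ∧ beta U n 0 ≤ U + 4 * H ∧
      (U : ℝ) - 20 * Real.log U < top U n + SS U} := ⟨_, rfl⟩
  obtain ⟨A₃, hA₃⟩ : ∃ A₃ : Set ℕ, A₃ = {v | ∃ p n : ℕ, RepT U p n v ∧ beta U n 0 ≤ U + 4 * H ∧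
      (top U n : ℝ) + SS U ≤ (U : ℝ) - 20 * Real.log U} := ⟨_, rfl⟩
  obtain ⟨A₀, hA₀⟩ : ∃ A₀ : Set ℕ, A₀ = {v | v ∈ Tot ∧ ¬ ∃ p n : ℕ, RepT U p n v} := ⟨_, rfl⟩
  have hcover : Tot ⊆ A₀ ∪ (A₁ ∪ (A₂ ∪ A₃)) := by
    intro v hv
    by_cases h : ∃ p n : ℕ, RepT U p n v
    · right
      obtain ⟨p, n, hpn⟩ := h
      rcases le_or_gt (U + 4 * H) (beta U n 0) with h1 | h1
      · left
        rw [hA₁]
        exact ⟨p, n, hpn.1, h1⟩
      · right
        rcases lt_or_ge ((U : ℝ) - 20 * Real.log U) ((top U n : ℝ) + SS U) with h2 | h2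
        · left
          rw [hA₂]
          exact ⟨p, n, hpn, h1.le, h2⟩
        · right
          rw [hA₃]
          exact ⟨p, n, hpn, h1.le, h2⟩
    · left
      rw [hA₀]
      exact ⟨hv, h⟩
  have hV : (V X : ℝ) ≤ cnt X A₀ + (cnt X A₁ + (cnt X A₂ + cnt X A₃)) := by
    rw [V_eq_cnt]
    have h1 : cnt X Tot ≤ cnt X A₀ + (cnt X A₁ + (cnt X A₂ + cnt X A₃)) := by
      refine (cnt_mono hcover).trans (cnt_union.trans ?_)
      refine Nat.add_le_add_left (cnt_union.trans ?_) _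
      exact Nat.add_le_add_left cnt_union _
    exact_mod_cast h1
  -- `A₀`
  have h0 : (cnt X A₀ : ℝ) ≤ L * (ε / 8) := by
    rw [hA₀]
    exact hBR.trans (mul_le_mul_of_nonneg_left hs1 hL0.le)
  -- `A₁`
  have h1 : (cnt X A₁ : ℝ) ≤ L * (ε / 8) := by
    rw [hA₁]
    refine (hOB hX16 (by linarith) (U + 4 * H)).trans ?_
    rw [← hHd]
    calc X * Real.exp (-(U + 4 * H) + H / 8)
        = L * (Real.log X * Real.exp (-(U + 4 * H) + H / 8)) := by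
          nth_rewrite 1 [hLX]
          ring
      _ ≤ L * (Real.exp (U + 2) * Real.exp (-(U + 4 * H) + H / 8)) :=
          mul_le_mul_of_nonneg_left
            (mul_le_mul_of_nonneg_right hlog2 (Real.exp_pos _).le) hL0.le
      _ = L * Real.exp (2 - 31 / 8 * H) := by
          rw [← Real.exp_add]
          congr 2
          ring
      _ ≤ L * (ε / 8) := mul_le_mul_of_nonneg_left hs2 hL0.le
  -- `A₂`
  have h2 : (cnt X A₂ : ℝ) ≤ L * (ε / 8 * G) := by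
    rw [hA₂]
    refine hBT.trans ?_
    have h3 : C₁ * (ε / (8 * (C₁ + C₂)) * G) ≤ ε / 8 * G := by
      have h4 : C₁ / (C₁ + C₂) ≤ 1 := by
        rw [div_le_one (by linarith)]
        linarith
      calc C₁ * (ε / (8 * (C₁ + C₂)) * G) = C₁ / (C₁ + C₂) * (ε / 8 * G) := by
            field_simp
        _ ≤ 1 * (ε / 8 * G) := mul_le_mul_of_nonneg_right h4 (by positivity)
        _ = ε / 8 * G := one_mul _
    calc C₁ * L * (Real.log U * GG U 1 (9 / 10 * U))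
        = L * (C₁ * (Real.log U * GG U 1 (9 / 10 * U))) := by ring
      _ ≤ L * (C₁ * (ε / (8 * (C₁ + C₂)) * G)) :=
          mul_le_mul_of_nonneg_left (mul_le_mul_of_nonneg_left hR2 hC₁.le) hL0.le
      _ ≤ L * (ε / 8 * G) := mul_le_mul_of_nonneg_left h3 hL0.le
  -- `A₃`
  have h3 : (cnt X A₃ : ℝ) ≤ (1 + ε / 8) * (L * GG U 0 (U + 5 * H)) := by
    rw [hLd]
    refine fu_count (U + 5 * H) (by rw [← hLd]; exact hL0.le) (by linarith)
      (fun m hm1 hm2 => hPU X m hX1 hLU hUL hm1 hm2) A₃ ?_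
    intro v hv
    rw [hA₃] at hv
    obtain ⟨p, n, ⟨⟨hp, hN, hlev, hgood, hall, hvn⟩, -⟩, hb, ht⟩ := hv
    have hS0 : (0 : ℝ) ≤ SS U := Nat.cast_nonneg _
    have hmem : Nat.totient n ∈ Gset U 0 (U + 5 * H) := by
      refine ⟨n, hgood, rfl, ?_⟩
      rw [Phi_zero]
      apply max_le
      · linarith
      · linarith
    obtain ⟨hm1, hm2⟩ := hGle (Nat.totient n) (U + 5 * H) (by linarith) hmem
    refine ⟨p, Nat.totient n, hp, hvn, hm1, hm2, hmem, ?_⟩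
    have e1 : Real.log (Nat.totient n) ≤ Real.log n := by
      apply Real.log_le_log
      · exact_mod_cast hm1
      · exact_mod_cast Nat.totient_le n
    have e2 := log_le_of_good (by omega : 1 ≤ U) hgood
    have e3 : Real.exp (top U n + SS U) ≤ Real.exp U / (U : ℝ) ^ 20 := by
      have e4 : Real.exp (20 * Real.log U) = (U : ℝ) ^ 20 := by
        rw [show (20 : ℝ) = ((20 : ℕ) : ℝ) by norm_num, Real.exp_nat_mul, Real.exp_log hU0]
      rw [← e4, ← Real.exp_sub]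
      exact Real.exp_le_exp.mpr ht
    have e5 : (U : ℝ) ^ 2 * Real.exp (top U n + SS U) ≤ Real.exp U / U := by
      refine (mul_le_mul_of_nonneg_left e3 (by positivity)).trans ?_
      rw [← mul_div_assoc, div_le_div_iff₀ (by positivity) hU0]
      have e6 : (U : ℝ) ^ 3 ≤ (U : ℝ) ^ 20 := pow_le_pow_right₀ (by linarith) (by norm_num)
      have e7 := Real.exp_pos (U : ℝ)
      calc (U : ℝ) ^ 2 * Real.exp U * U = Real.exp U * (U : ℝ) ^ 3 := by ring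
        _ ≤ Real.exp U * (U : ℝ) ^ 20 := mul_le_mul_of_nonneg_left e6 e7.le
    have e8 : Real.exp U / U ≤ Real.log X / U := div_le_div_of_nonneg_right hlog1 hU0.le
    linarith
  -- the shell
  have h4 : GG U 0 (U + 5 * H) ≤ G + ε / 8 * G := by
    have e1 : GG U 0 (U + 5 * H) ≤ mass (NN U) (Gset U 0 (U - 5 * H)) +
        mass (NN U) (Gset U 0 (U + 5 * H) \ Gset U 0 (U - 5 * H)) := by
      refine le_trans (mass_mono ?_) mass_union
      intro v hv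
      by_cases h : v ∈ Gset U 0 (U - 5 * H)
      · exact Or.inl h
      · exact Or.inr ⟨hv, h⟩
    have e2 : mass (NN U) (Gset U 0 (U - 5 * H)) = G := hGd.symm
    rw [e2] at e1
    have e3 : C₂ * (ε / (8 * (C₁ + C₂)) * G) ≤ ε / 8 * G := by
      have h4 : C₂ / (C₁ + C₂) ≤ 1 := by
        rw [div_le_one (by linarith)]
        linarith
      calc C₂ * (ε / (8 * (C₁ + C₂)) * G) = C₂ / (C₁ + C₂) * (ε / 8 * G) := by
            field_simp
        _ ≤ 1 * (ε / 8 * G) := mul_le_mul_of_nonneg_right h4 (by positivity)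
        _ = ε / 8 * G := one_mul _
    have e4 : C₂ * H * GG U 1 (U + C₂ * H) ≤ ε / 8 * G := by
      calc C₂ * H * GG U 1 (U + C₂ * H) = C₂ * (H * GG U 1 (U + C₂ * H)) := by ring
        _ ≤ C₂ * (ε / (8 * (C₁ + C₂)) * G) := mul_le_mul_of_nonneg_left hR1 hC₂.le
        _ ≤ _ := e3
    linarith
  have h7 : (V X : ℝ) ≤ (1 + ε) * (L * G) := fu_arith hε hε1 hL0 hG1 hV h0 h1 h2 h3 h4
  exact h7.trans (mul_le_mul_of_nonneg_right (by linarith) (by positivity))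

end P031
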