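import Vale.Agent.P031.FinL
import Vale.Agent.P031.FinU

/-!
# P031, module FIN: `V(c x)/V(x) → c`

PROOF.  For large `x` let `U = ⌊LL x⌋₊`; then `U ≤ LL x ≤ LL (c x) ≤ U + 2`, and `final_lower`, `final_upper` at `x` and `c x`
with the same `U` show that `V(c x)/V(x)` is between `(1-ε)/(1+ε)` and `(1+ε)/(1-ε)` times
`(c x/log (c x))/(x/log x) → c`.
-/

namespace P031

open scoped BigOperators
open Filter Topology

theorem V_pos {x : ℝ} (hx : 1 ≤ x) : 0 < V x := by
  have hfin : {v : ℕ | v ∈ Tot ∧ (v : ℝ) ≤ x}.Finite := by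
    refine (Set.finite_Iic (⌊x⌋₊)).subset ?_
    rintro v ⟨-, hv⟩
    exact Nat.le_floor hv
  unfold V
  rw [Set.ncard_pos hfin]
  exact ⟨1, ⟨1, le_refl _, Nat.totient_one⟩, by simpa using hx⟩

theorem main_aux (G : ℕ → ℝ)
    (hl : ∀ ε : ℝ, 0 < ε → ∃ U₀ : ℕ, ∀ U : ℕ, U₀ ≤ U → ∀ X : ℝ, 1 ≤ X → (U : ℝ) ≤ LL X →
      LL X ≤ U + 2 → (1 - ε) * (X / Real.log X * G U) ≤ V X)
    (hu : ∀ ε : ℝ, 0 < ε → ∃ U₀ : ℕ, ∀ U : ℕ, U₀ ≤ U → ∀ X : ℝ, 1 ≤ X → (U : ℝ) ≤ LL X →
      LL X ≤ U + 2 → (V X : ℝ) ≤ (1 + ε) * (X / Real.log X * G U))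
    (c : ℝ) (hc : 1 < c) :
    Tendsto (fun x : ℝ => (V (c * x) : ℝ) / V x) atTop (𝓝 c) := by
  have hLL : Tendsto LL atTop atTop := Real.tendsto_log_atTop.comp Real.tendsto_log_atTop
  have hc0 : 0 < c := by linarith
  have hlc : 0 < Real.log c := Real.log_pos hc
  -- basic facts for large x
  have key : ∀ ε : ℝ, 0 < ε → ε < 1 → ∀ᶠ x : ℝ in atTop,
      ∃ g : ℝ, 0 < g ∧ (1 - ε) * g ≤ V x ∧ (V x : ℝ) ≤ (1 + ε) * g ∧
        (1 - ε) * ((1 - ε) * (c * g)) ≤ V (c * x) ∧ (V (c * x) : ℝ) ≤ (1 + ε) * (c * g) := by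
    intro ε hε hε1
    obtain ⟨U₁, h1⟩ := hl ε hε
    obtain ⟨U₂, h2⟩ := hu ε hε
    have e1 : ∀ᶠ x : ℝ in atTop, ((max U₁ U₂ : ℕ) : ℝ) ≤ LL x := hLL.eventually_ge_atTop _
    have e2 : ∀ᶠ x : ℝ in atTop, Real.log c / ε ≤ Real.log x :=
      Real.tendsto_log_atTop.eventually_ge_atTop _
    have e3 : ∀ᶠ x : ℝ in atTop, Real.log c ≤ Real.log x :=
      Real.tendsto_log_atTop.eventually_ge_atTop _
    filter_upwards [e1, e2, e3, eventually_ge_atTop (1 : ℝ)] with x hx1 hx2 hx3 hx4
    have hx0 : 0 < x := by linarith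
    have hlx : 0 < Real.log x := lt_of_lt_of_le hlc hx3
    have hLLx0 : 0 ≤ LL x := le_trans (Nat.cast_nonneg _) hx1
    set U : ℕ := ⌊LL x⌋₊ with hU
    have hUmax : max U₁ U₂ ≤ U := Nat.le_floor hx1
    have hU1 : (U : ℝ) ≤ LL x := Nat.floor_le hLLx0
    have hU2 : LL x ≤ U + 1 := (Nat.lt_floor_add_one _).le
    have hlogcx : Real.log (c * x) = Real.log c + Real.log x :=
      Real.log_mul hc0.ne' hx0.ne'
    have hlogcx0 : 0 < Real.log (c * x) := by rw [hlogcx]; linarith
    have hU3 : (U : ℝ) ≤ LL (c * x) := by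
      refine hU1.trans ?_
      unfold LL
      exact Real.log_le_log hlx (by rw [hlogcx]; linarith)
    have hU4 : LL (c * x) ≤ U + 2 := by
      have : LL (c * x) ≤ LL x + 1 := by
        unfold LL
        have h3 : Real.log (c * x) ≤ Real.exp 1 * Real.log x := by
          rw [hlogcx]
          have := Real.add_one_le_exp (1 : ℝ)
          nlinarith
        calc Real.log (Real.log (c * x)) ≤ Real.log (Real.exp 1 * Real.log x) :=
              Real.log_le_log hlogcx0 h3
          _ = Real.log (Real.log x) + 1 := by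
              rw [Real.log_mul (Real.exp_pos 1).ne' hlx.ne', Real.log_exp]; ring
      linarith
    have hcx1 : 1 ≤ c * x := by nlinarith
    have a1 := h1 U (le_trans (le_max_left _ _) hUmax) x hx4 hU1 (by linarith)
    have a2 := h2 U (le_trans (le_max_right _ _) hUmax) x hx4 hU1 (by linarith)
    have a3 := h1 U (le_trans (le_max_left _ _) hUmax) (c * x) hcx1 hU3 hU4
    have a4 := h2 U (le_trans (le_max_right _ _) hUmax) (c * x) hcx1 hU3 hU4
    have hV : (0 : ℝ) < V x := by exact_mod_cast V_pos hx4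
    set g : ℝ := x / Real.log x * G U with hg
    have hg0 : 0 < g := by
      by_contra hcon
      rw [not_lt] at hcon
      nlinarith
    have hxl : 0 < x / Real.log x := div_pos hx0 hlx
    have hGU : 0 < G U := by
      by_contra hcon
      rw [not_lt] at hcon
      have : g ≤ 0 := by rw [hg]; exact mul_nonpos_of_nonneg_of_nonpos hxl.le hcon
      linarith
    have hcx : c * x / Real.log (c * x) * G U = (Real.log x / Real.log (c * x)) * (c * g) := by
      rw [hg]; field_simp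
    have hr1 : Real.log x / Real.log (c * x) ≤ 1 := by
      rw [div_le_one hlogcx0, hlogcx]; linarith
    have hr2 : 1 - ε ≤ Real.log x / Real.log (c * x) := by
      rw [le_div_iff₀ hlogcx0, hlogcx]
      have : Real.log c ≤ ε * Real.log x := by
        rw [div_le_iff₀ hε] at hx2; linarith
      nlinarith
    have hcg : 0 < c * g := mul_pos hc0 hg0
    refine ⟨g, hg0, a1, a2, ?_, ?_⟩
    · refine le_trans ?_ a3
      rw [hcx]
      refine mul_le_mul_of_nonneg_left ?_ (by linarith)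
      exact mul_le_mul_of_nonneg_right hr2 hcg.le
    · refine le_trans a4 ?_
      rw [hcx]
      refine mul_le_mul_of_nonneg_left ?_ (by linarith)
      nlinarith [mul_le_mul_of_nonneg_right hr1 hcg.le]
  rw [tendsto_order]
  constructor
  · intro a ha
    set a' : ℝ := max a 0 with ha'
    have ha'0 : 0 ≤ a' := le_max_right _ _
    have haa : a ≤ a' := le_max_left _ _
    have ha'c : a' < c := max_lt ha hc0
    set ε : ℝ := (c - a') / (2 * (2 * c + a')) with hεdef
    have hden : 0 < 2 * c + a' := by linarith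
    have hε : 0 < ε := div_pos (by linarith) (by linarith)
    have hεeq : ε * (2 * (2 * c + a')) = c - a' := by
      rw [hεdef]; field_simp
    have hε1 : ε < 1 := by
      rw [hεdef, div_lt_one (by linarith)]; linarith
    filter_upwards [key ε hε hε1, eventually_ge_atTop (1 : ℝ)] with x hx hx1
    obtain ⟨g, hg, -, b2, b3, -⟩ := hx
    have hV : (0 : ℝ) < V x := by exact_mod_cast V_pos hx1
    refine lt_of_le_of_lt haa ?_
    rw [lt_div_iff₀ hV]
    have h1 : a' * (V x : ℝ) ≤ a' * ((1 + ε) * g) := mul_le_mul_of_nonneg_left b2 ha'0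
    refine lt_of_le_of_lt h1 (lt_of_lt_of_le ?_ b3)
    have h2 : a' * (1 + ε) < (1 - ε) * (1 - ε) * c := by nlinarith
    nlinarith [mul_lt_mul_of_pos_right h2 hg]
  · intro b hb
    set ε : ℝ := (b - c) / (2 * (b + c)) with hεdef
    have hden : 0 < b + c := by linarith
    have hε : 0 < ε := div_pos (by linarith) (by linarith)
    have hεeq : ε * (2 * (b + c)) = b - c := by
      rw [hεdef]; field_simp
    have hε1 : ε < 1 := by
      rw [hεdef, div_lt_one (by linarith)]; linarith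
    filter_upwards [key ε hε hε1, eventually_ge_atTop (1 : ℝ)] with x hx hx1
    obtain ⟨g, hg, b1, -, -, b4⟩ := hx
    have hV : (0 : ℝ) < V x := by exact_mod_cast V_pos hx1
    rw [div_lt_iff₀ hV]
    refine lt_of_le_of_lt b4 (lt_of_lt_of_le ?_ (mul_le_mul_of_nonneg_left b1 (by linarith)))
    have h2 : (1 + ε) * c < b * (1 - ε) := by nlinarith
    nlinarith [mul_lt_mul_of_pos_right h2 hg]

theorem main (c : ℝ) (hc : 1 < c) :
    Tendsto (fun x : ℝ => (V (c * x) : ℝ) / V x) atTop (𝓝 c) :=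
  main_aux (fun U => GG U 0 (U - 5 * HH U)) final_lower final_upper c hc

end P031
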