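import Vale.Agent.P031.FinP
import Vale.Agent.P031.CO

/-!
# P031, module FINL: the lower bound for `V`

PROOF.  `M = Gset U 0 (U - 5H) ∩ [1, NN U]` (a finite set), `g` a choice of good preimages with `Φ₀ ≤ U - 5H`.  For `m ∈ M`
`log m ≤ log (g m) ≤ U² e^{U - 5H + S} ≤ (log X)/U` (`log_le_of_good`, `top ≤ Φ₀`).  The number of pairs
`(p, m)`, `m ∈ M`, `p` as in `prime_lower`, is `≥ (1 - ε/2) (X/log X) GG U 0 (U - 5H)`.  All `v = (p-1) m` are
totients: `p` does not divide `g m` because `p - 1 > √X / m` and so `p > g m` (or: `lev`), so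
`v = φ(p · g m)`.  The number of distinct values is at least the number of pairs minus the number of ordered
pairs of different pairs with the same value (these have `p ≠ p'`), which is
`≤ (X/log X) e^{-H/4} ≤ (ε/2) (X/log X) GG U 0 (U - 5H)` by `co` (`top + S + 5 log U ≤ U`, `β₀ ≤ Φ₀ ≤ U - 5H`) and
`one_le_GG`.
-/

namespace P031

open scoped BigOperators

/-- a finite set is at most as large as its image plus the number of collisions -/
theorem card_le_image_add_coll {α β : Type*} [DecidableEq α] [DecidableEq β] (s : Finset α)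
    (f : α → β) :
    s.card ≤ (s.image f).card +
      ((s ×ˢ s).filter (fun x : α × α => x.1 ≠ x.2 ∧ f x.1 = f x.2)).card := by
  rcases s.eq_empty_or_nonempty with rfl | ⟨a, ha⟩
  · simp
  have hr : ∀ v : β, ∃ x ∈ s, (∃ y ∈ s, f y = v) → f x = v := by
    intro v
    by_cases h : ∃ y ∈ s, f y = v
    · obtain ⟨y, hy, hv⟩ := h
      exact ⟨y, hy, fun _ => hv⟩
    · exact ⟨a, ha, fun h' => absurd h' h⟩
  choose r hrs hrf using hr
  rw [← Finset.card_filter_add_card_filter_not (s := s) (fun x => x = r (f x))]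
  refine Nat.add_le_add ?_ ?_
  · refine Finset.card_le_card_of_injOn f (fun x hx => ?_) (fun x hx y hy hxy => ?_)
    · rw [Finset.mem_coe, Finset.mem_filter] at hx
      exact Finset.mem_coe.2 (Finset.mem_image_of_mem f hx.1)
    · rw [Finset.mem_coe, Finset.mem_filter] at hx hy
      rw [hx.2, hy.2, hxy]
  · refine Finset.card_le_card_of_injOn (fun x => (x, r (f x))) (fun x hx => ?_)
      (fun x _ y _ hxy => (Prod.mk.inj hxy).1)
    rw [Finset.mem_coe, Finset.mem_filter] at hx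
    rw [Finset.mem_coe, Finset.mem_filter, Finset.mem_product]
    exact ⟨⟨hx.1, hrs _⟩, hx.2, (hrf (f x) ⟨x, hx.1, rfl⟩).symm⟩

theorem finL_SS_le (U : ℕ) : (SS U : ℝ) ≤ Real.sqrt U := by
  apply Real.le_sqrt_of_sq_le
  have := Nat.sqrt_le' U
  unfold SS
  exact_mod_cast this

/-- `5 log U + S ≤ 4 H` for large `U` -/
theorem finL_aux : ∃ U₀ : ℕ, ∀ U : ℕ, U₀ ≤ U → 5 * Real.log U + SS U ≤ 4 * HH U := by
  have htend : Filter.Tendsto (fun U : ℕ => ((U : ℝ)) ^ ((1 : ℝ) / 10)) Filter.atTop Filter.atTop :=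
    (tendsto_rpow_atTop (by norm_num)).comp tendsto_natCast_atTop_atTop
  obtain ⟨U₁, hU₁⟩ := Filter.eventually_atTop.1 (htend.eventually_ge_atTop 10)
  refine ⟨max U₁ 1, fun U hU => ?_⟩
  have hU1 : (1 : ℝ) ≤ U := by exact_mod_cast (le_max_right _ _).trans hU
  have hY := hU₁ U ((le_max_left _ _).trans hU)
  have hU0 : (0 : ℝ) < U := by linarith
  have hs : Real.sqrt U = (U : ℝ) ^ ((1 : ℝ) / 2) := Real.sqrt_eq_rpow _
  have hs1 : 1 ≤ Real.sqrt U := Real.one_le_sqrt.2 hU1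
  have hH : HH U = Real.sqrt U * (U : ℝ) ^ ((1 : ℝ) / 10) := by
    rw [hs, ← Real.rpow_add hU0]
    unfold HH
    norm_num
  have hlog : Real.log U ≤ 2 * Real.sqrt U := by
    have h1 := Real.log_le_rpow_div hU0.le (show (0 : ℝ) < 1 / 2 by norm_num)
    rw [← hs] at h1
    linarith
  have hS := finL_SS_le U
  rw [hH]
  have h2 : Real.sqrt U * 10 ≤ Real.sqrt U * (U : ℝ) ^ ((1 : ℝ) / 10) :=
    mul_le_mul_of_nonneg_left hY (by linarith)
  linarith

theorem finL_HH_tendsto : Filter.Tendsto HH Filter.atTop Filter.atTop :=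
  (tendsto_rpow_atTop (by norm_num : (0 : ℝ) < 3 / 5)).comp tendsto_natCast_atTop_atTop

theorem finL_log_pos {U : ℕ} (hU : 1 ≤ U) {X : ℝ} (hX : 1 ≤ X) (h : (U : ℝ) ≤ LL X) :
    Real.exp U ≤ Real.log X := by
  have h0 : 0 ≤ Real.log X := Real.log_nonneg hX
  have hU1 : (1 : ℝ) ≤ U := by exact_mod_cast hU
  rcases h0.eq_or_lt with h1 | h1
  · unfold LL at h
    rw [← h1, Real.log_zero] at h
    linarith
  · unfold LL at h
    exact (Real.le_log_iff_exp_le h1).1 h

theorem final_lower : ∀ ε : ℝ, 0 < ε → ∃ U₀ : ℕ, ∀ U : ℕ, U₀ ≤ U → ∀ X : ℝ, 1 ≤ X → (U : ℝ) ≤ LL X →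
    LL X ≤ U + 2 → (1 - ε) * (X / Real.log X * GG U 0 (U - 5 * HH U)) ≤ V X := by
  classical
  intro ε hε
  obtain ⟨U₁, hpl⟩ := prime_lower (ε / 2) (by linarith)
  obtain ⟨U₂, hco⟩ := co
  obtain ⟨U₃, haux⟩ := finL_aux
  obtain ⟨U₄, hH4⟩ := Filter.eventually_atTop.1
    (finL_HH_tendsto.eventually_ge_atTop (4 * Real.log (2 / ε)))
  have hHU : ∃ U₅ : ℕ, ∀ U : ℕ, U₅ ≤ U → 5 * HH U ≤ U := by
    have htend : Filter.Tendsto (fun U : ℕ => ((U : ℝ)) ^ ((2 : ℝ) / 5)) Filter.atTop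
        Filter.atTop := (tendsto_rpow_atTop (by norm_num)).comp tendsto_natCast_atTop_atTop
    obtain ⟨U₅, hU₅⟩ := Filter.eventually_atTop.1 (htend.eventually_ge_atTop 5)
    refine ⟨max U₅ 1, fun U hU => ?_⟩
    have hU1 : (1 : ℝ) ≤ U := by exact_mod_cast (le_max_right _ _).trans hU
    have h5 := hU₅ U ((le_max_left _ _).trans hU)
    have hU0 : (0 : ℝ) < U := by linarith
    have h6 : (U : ℝ) = HH U * (U : ℝ) ^ ((2 : ℝ) / 5) := by
      unfold HH
      rw [← Real.rpow_add hU0]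
      norm_num
    have h7 : 0 ≤ HH U := Real.rpow_nonneg hU0.le _
    calc 5 * HH U = HH U * 5 := by ring
      _ ≤ HH U * (U : ℝ) ^ ((2 : ℝ) / 5) := mul_le_mul_of_nonneg_left h5 h7
      _ = U := h6.symm
  obtain ⟨U₅, hHU⟩ := hHU
  refine ⟨max (max (max U₁ U₂) (max U₃ U₄)) (max U₅ 4), fun U hU X hX hUX hXU => ?_⟩
  have hU1 : U₁ ≤ U := (le_max_left _ _).trans ((le_max_left _ _).trans ((le_max_left _ _).trans hU))
  have hU2 : U₂ ≤ U := (le_max_right _ _).trans ((le_max_left _ _).trans ((le_max_left _ _).trans hU))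
  have hU3 : U₃ ≤ U := (le_max_left _ _).trans ((le_max_right _ _).trans ((le_max_left _ _).trans hU))
  have hU4 : U₄ ≤ U := (le_max_right _ _).trans ((le_max_right _ _).trans ((le_max_left _ _).trans hU))
  have hU5 : U₅ ≤ U := (le_max_left _ _).trans ((le_max_right _ _).trans hU)
  have hU6 : 4 ≤ U := (le_max_right _ _).trans ((le_max_right _ _).trans hU)
  have hUr : (4 : ℝ) ≤ U := by exact_mod_cast hU6
  have hU0 : (0 : ℝ) < U := by linarith
  have hLexp : Real.exp U ≤ Real.log X := finL_log_pos (by omega) hX hUX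
  have hL : 0 < Real.log X := (Real.exp_pos _).trans_le hLexp
  have hX0 : 0 < X := by linarith
  have hXL : 0 < X / Real.log X := div_pos hX0 hL
  have haux' := haux U hU3
  have hH0 : 0 ≤ HH U := Real.rpow_nonneg hU0.le _
  have h5H := hHU U hU5
  -- the set of `m`
  set T : ℝ := (U : ℝ) - 5 * HH U with hT
  have hT0 : 0 ≤ T := by rw [hT]; linarith
  set M : Finset ℕ := (Finset.Icc 1 (NN U)).filter (fun m => m ∈ Gset U 0 T) with hM
  have hGG : GG U 0 T = ∑ m ∈ M, 1 / (m : ℝ) := by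
    unfold GG mass
    rw [hM, Finset.sum_filter]
    exact Finset.sum_congr rfl fun m _ => Set.indicator_apply _ _ _
  have hg : ∀ m : ℕ, m ∈ Gset U 0 T → ∃ n : ℕ, Good U n ∧ Nat.totient n = m ∧ Phi U n 0 ≤ T :=
    fun m h => h
  choose! g hg using hg
  have hMG : ∀ m ∈ M, m ∈ Gset U 0 T := fun m h => (Finset.mem_filter.1 h).2
  have hM1 : ∀ m ∈ M, 1 ≤ m := fun m h => (Finset.mem_Icc.1 (Finset.mem_filter.1 h).1).1
  have htop : ∀ m ∈ M, (top U (g m) : ℝ) ≤ T ∧ beta U (g m) 0 ≤ T := by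
    intro m hm
    have h1 := (hg m (hMG m hm)).2.2
    rw [Phi_zero] at h1
    exact ⟨(le_max_left _ _).trans h1, (le_max_right _ _).trans h1⟩
  have hlogg : ∀ m ∈ M, Real.log (g m) ≤ Real.log X / U := by
    intro m hm
    have h1 := log_le_of_good (by omega) (hg m (hMG m hm)).1
    have h2 := (htop m hm).1
    have h3 : (U : ℝ) = Real.exp (Real.log U) := (Real.exp_log hU0).symm
    rw [le_div_iff₀ hU0]
    calc Real.log (g m) * U ≤ ((U : ℝ) ^ 2 * Real.exp (top U (g m) + SS U)) * U :=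
          mul_le_mul_of_nonneg_right h1 hU0.le
      _ = Real.exp (3 * Real.log U + (top U (g m) + SS U)) := by
          have h4 : Real.exp (3 * Real.log U) = (U : ℝ) ^ 3 := by
            conv_rhs => rw [h3]
            rw [← Real.exp_nat_mul]
            norm_num
          rw [Real.exp_add (3 * Real.log U), h4]
          ring
      _ ≤ Real.exp U := by
          apply Real.exp_le_exp.2
          have h5 : 0 ≤ Real.log U := Real.log_nonneg (by linarith)
          rw [hT] at h2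
          linarith
      _ ≤ Real.log X := hLexp
  have hlogm : ∀ m ∈ M, Real.log m ≤ Real.log X / U := by
    intro m hm
    refine le_trans ?_ (hlogg m hm)
    apply Real.log_le_log
    · exact_mod_cast hM1 m hm
    · have h1 := Nat.totient_le (g m)
      rw [(hg m (hMG m hm)).2.1] at h1
      exact_mod_cast h1
  -- the set of pairs
  set P : Finset (ℕ × ℕ) := (Finset.range (⌊X⌋₊ + 2) ×ˢ M).filter (fun x : ℕ × ℕ => x.1.Prime ∧
    Normal U x.1 ∧ SS U ≤ lev x.1 ∧ (((x.1 - 1) * x.2 : ℕ) : ℝ) ≤ X ∧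
      X < (((x.1 - 1) * x.2 : ℕ) : ℝ) ^ 2) with hP
  have hPcard : P.card = ∑ m ∈ M, ((Finset.range (⌊X⌋₊ + 2)).filter (fun p : ℕ => p.Prime ∧
      Normal U p ∧ SS U ≤ lev p ∧ (((p - 1) * m : ℕ) : ℝ) ≤ X ∧
        X < (((p - 1) * m : ℕ) : ℝ) ^ 2)).card := by
    rw [hP, Finset.card_filter, Finset.sum_product_right]
    exact Finset.sum_congr rfl fun m _ => (Finset.card_filter _ _).symm
  have hPlow : (1 - ε / 2) * (X / Real.log X * GG U 0 T) ≤ P.card := by
    rw [hPcard, hGG, Nat.cast_sum, Finset.mul_sum, Finset.mul_sum]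
    exact Finset.sum_le_sum fun m hm => hpl U hU1 X m hX hUX hXU (hM1 m hm) (hlogm m hm)
  -- collisions
  have hcoU := hco U hU2 X M g hX (by
    refine le_trans ?_ hUX
    calc (U : ℝ) ^ ((9 : ℝ) / 10) ≤ (U : ℝ) ^ (1 : ℝ) :=
          Real.rpow_le_rpow_of_exponent_le (by linarith) (by norm_num)
      _ = U := Real.rpow_one _) (by linarith) (by
    intro m hm
    have h1 := htop m hm
    rw [hT] at h1
    refine ⟨(hg m (hMG m hm)).1, (hg m (hMG m hm)).2.1, ?_, ?_⟩
    · linarith [h1.1]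
    · linarith [h1.2])
  have hcoll : (((P ×ˢ P).filter (fun x : (ℕ × ℕ) × (ℕ × ℕ) => x.1 ≠ x.2 ∧
      (x.1.1 - 1) * x.1.2 = (x.2.1 - 1) * x.2.2)).card) ≤
      (((coinc U X M).filter
        (fun x : ℕ × ℕ × ℕ × ℕ => Normal U x.1 ∧ Normal U x.2.2.1)).card) := by
    refine Finset.card_le_card_of_injOn (fun x => (x.1.1, x.1.2, x.2.1, x.2.2)) ?_ ?_
    · rintro ⟨⟨p, m⟩, ⟨p', m'⟩⟩ hx
      rw [Finset.mem_coe, Finset.mem_filter, Finset.mem_product, hP, Finset.mem_filter,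
        Finset.mem_filter, Finset.mem_product, Finset.mem_product] at hx
      obtain ⟨⟨⟨⟨h1, h2⟩, h3, h4, h5, h6, h7⟩, ⟨⟨h1', h2'⟩, h3', h4', h5', h6', h7'⟩⟩, h8, h9⟩ := hx
      simp only at h1 h2 h3 h4 h5 h6 h7 h1' h2' h3' h4' h5' h6' h7' h8 h9
      simp only [Finset.mem_coe, Finset.mem_filter, coinc, Finset.mem_product]
      refine ⟨⟨⟨h1, h2, h1', h2'⟩, h3, h3', ?_, h9, h6, h7⟩, h4, h4'⟩
      intro hpp
      apply h8
      rw [← hpp] at h9
      have h10 : 0 < p - 1 := by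
        have := h3.two_le
        omega
      rw [hpp, Nat.eq_of_mul_eq_mul_left h10 h9]
    · rintro ⟨⟨p, m⟩, ⟨p', m'⟩⟩ _ ⟨⟨q, n⟩, ⟨q', n'⟩⟩ _ hxy
      simp only [Prod.mk.injEq] at hxy ⊢
      tauto
  have himg : ((P.image (fun x : ℕ × ℕ => (x.1 - 1) * x.2)).card) ≤ V X := by
    unfold V
    rw [← Set.ncard_coe_finset]
    apply Set.ncard_le_ncard
    · intro v hv
      rw [Finset.mem_coe, Finset.mem_image] at hv
      obtain ⟨⟨p, m⟩, hx, rfl⟩ := hv
      rw [hP, Finset.mem_filter, Finset.mem_product] at hx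
      obtain ⟨⟨h1, h2⟩, h3, h4, h5, h6, h7⟩ := hx
      simp only at h1 h2 h3 h4 h5 h6 h7 ⊢
      refine ⟨?_, h6⟩
      have hgm := hg m (hMG m h2)
      have hg1 : 1 ≤ g m := hgm.1.pos
      have hp2 := h3.two_le
      have hlt : g m < p - 1 := by
        have hp1 : 0 < p - 1 := by omega
        have hm1 := hM1 m h2
        have hpm : (0 : ℝ) < ((p - 1 : ℕ) : ℝ) := by exact_mod_cast hp1
        have hmr : (0 : ℝ) < (m : ℝ) := by exact_mod_cast hm1
        have h8 := Real.log_lt_log hX0 h7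
        rw [Real.log_pow] at h8
        push_cast at h8
        rw [Real.log_mul hpm.ne' hmr.ne'] at h8
        have h9 := hlogm m h2
        have h10 := hlogg m h2
        have h11 : Real.log X / U ≤ Real.log X / 4 :=
          div_le_div_of_nonneg_left hL.le (by norm_num) hUr
        have h12 : Real.log (g m) < Real.log ((p - 1 : ℕ) : ℝ) := by linarith
        have h13 := (Real.log_lt_log_iff (by exact_mod_cast hg1) hpm).1 h12
        exact_mod_cast h13
      have hnd : ¬ p ∣ g m := fun hd => by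
        have := Nat.le_of_dvd (by omega) hd
        omega
      refine ⟨p * g m, Nat.mul_pos (by omega) (by omega), ?_⟩
      rw [Nat.totient_mul ((Nat.Prime.coprime_iff_not_dvd h3).2 hnd), Nat.totient_prime h3, hgm.2.1]
    · apply Set.Finite.subset (Set.finite_Iic ⌊X⌋₊)
      rintro v ⟨_, hv⟩
      exact Nat.le_floor hv
  have hmain := card_le_image_add_coll P (fun x : ℕ × ℕ => (x.1 - 1) * x.2)
  have hG1 : 1 ≤ GG U 0 T := one_le_GG U 0 hT0
  have hexp : Real.exp (-(HH U) / 4) ≤ ε / 2 := by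
    have h1 := hH4 U hU4
    have h2 : -(HH U) / 4 ≤ - Real.log (2 / ε) := by linarith
    calc Real.exp (-(HH U) / 4) ≤ Real.exp (- Real.log (2 / ε)) := Real.exp_le_exp.2 h2
      _ = ε / 2 := by
        rw [Real.exp_neg, Real.exp_log (by positivity)]
        rw [inv_div]
  have hfin : (P.card : ℝ) ≤ V X + X / Real.log X * (ε / 2) := by
    have h1 : (P.card : ℝ) ≤ ((P.image (fun x : ℕ × ℕ => (x.1 - 1) * x.2)).card : ℝ) +
        (((P ×ˢ P).filter (fun x : (ℕ × ℕ) × (ℕ × ℕ) => x.1 ≠ x.2 ∧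
      (x.1.1 - 1) * x.1.2 = (x.2.1 - 1) * x.2.2)).card : ℝ) := by exact_mod_cast hmain
    have h2 : (((P ×ˢ P).filter (fun x : (ℕ × ℕ) × (ℕ × ℕ) => x.1 ≠ x.2 ∧
      (x.1.1 - 1) * x.1.2 = (x.2.1 - 1) * x.2.2)).card : ℝ) ≤
      (((coinc U X M).filter
        (fun x : ℕ × ℕ × ℕ × ℕ => Normal U x.1 ∧ Normal U x.2.2.1)).card : ℝ) := by
      exact_mod_cast hcoll
    have h3 : ((P.image (fun x : ℕ × ℕ => (x.1 - 1) * x.2)).card : ℝ) ≤ V X := by
      exact_mod_cast himg
    have h4 : X / Real.log X * Real.exp (-(HH U) / 4) ≤ X / Real.log X * (ε / 2) :=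
      mul_le_mul_of_nonneg_left hexp hXL.le
    linarith
  have hlast : X / Real.log X * (ε / 2) ≤ (ε / 2) * (X / Real.log X * GG U 0 T) := by
    have h1 : X / Real.log X * 1 ≤ X / Real.log X * GG U 0 T :=
      mul_le_mul_of_nonneg_left hG1 hXL.le
    have h2 := mul_le_mul_of_nonneg_left h1 (by linarith : 0 ≤ ε / 2)
    linarith
  have e : (1 - ε) * (X / Real.log X * GG U 0 T) =
      (1 - ε / 2) * (X / Real.log X * GG U 0 T) - (ε / 2) * (X / Real.log X * GG U 0 T) := by ring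
  linarith

end P031
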