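import Vale.Agent.P031.PNT
import Vale.Agent.P031.Normal

/-!
# P031, module FINP: counting the top prime

PROOF.  `Y = X/m ≥ X^{1 - 1/U}` tends to infinity uniformly, `(1 - 1/U) log X ≤ log Y ≤ log X`.
`prime_upper`: `#{p : (p-1) m ≤ X} = π(X/m + 1) ≤ (1 + ε/3) (Y + 1)/log (Y+1)` (`pnt`).
`prime_lower`: `π(Y + 1) ≥ (1 - ε/3) Y / log X`; remove the `p ≤ √X / m + 2 ≤ √X + 2` (then `X < ((p-1) m)²` holds for the
rest), the abnormal ones (`abn_count` with `Y + 1`: `≤ (Y+1)/log (Y+1) e^{-2U^{1/20}}`), and those with `lev p < SS U`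
(`< exp (exp S)`).
-/

namespace P031

open scoped BigOperators
open Filter Topology

theorem fp_pnt (δ : ℝ) (hδ : 0 < δ) : ∃ x₀ : ℝ, 2 ≤ x₀ ∧ ∀ x : ℝ, x₀ ≤ x →
    (Nat.primeCounting ⌊x⌋₊ : ℝ) ≤ (1 + δ) * (x / Real.log x) ∧
    (1 - δ) * (x / Real.log x) ≤ (Nat.primeCounting ⌊x⌋₊ : ℝ) := by
  have h := pnt.eventually (Ioo_mem_nhds (show 1 - δ < 1 by linarith)
    (show (1 : ℝ) < 1 + δ by linarith))
  obtain ⟨x₀, hx₀⟩ := eventually_atTop.mp h
  refine ⟨max x₀ 2, le_max_right _ _, ?_⟩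
  intro x hx
  have h1 := hx₀ x (le_trans (le_max_left _ _) hx)
  have h2 : (2 : ℝ) ≤ x := le_trans (le_max_right _ _) hx
  have hl : 0 < Real.log x := Real.log_pos (by linarith)
  have hx0 : (0 : ℝ) < x := by linarith
  constructor
  · have := h1.2.le
    rw [div_le_iff₀ hx0] at this
    rw [mul_div_assoc', le_div_iff₀ hl]
    exact this
  · have := h1.1.le
    rw [le_div_iff₀ hx0] at this
    rw [mul_div_assoc', div_le_iff₀ hl]
    exact this

theorem fp_par {U : ℕ} {X : ℝ} {m : ℕ} (hU4 : 4 ≤ U) (hX : 1 ≤ X) (h1 : (U : ℝ) ≤ LL X)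
    (h2 : LL X ≤ U + 2) (hm : 1 ≤ m) (hlm : Real.log m ≤ Real.log X / U) :
    Real.exp U ≤ Real.log X ∧ Real.log X ≤ Real.exp (U + 2) ∧ 0 < X / m ∧
    (1 - 1 / (U : ℝ)) * Real.log X ≤ Real.log (X / m) ∧ Real.log (X / m) ≤ Real.log X := by
  have hU : (4 : ℝ) ≤ U := by exact_mod_cast hU4
  have hL0 : 0 ≤ Real.log X := Real.log_nonneg hX
  have hL : 0 < Real.log X := by
    rcases hL0.lt_or_eq with h | h
    · exact h
    · exfalso
      unfold LL at h1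
      rw [← h, Real.log_zero] at h1
      linarith
  have hm1 : (1 : ℝ) ≤ m := by exact_mod_cast hm
  have hm0 : (0 : ℝ) < m := by linarith
  have hX0 : 0 < X := by linarith
  refine ⟨(Real.le_log_iff_exp_le hL).1 h1, (Real.log_le_iff_le_exp hL).1 h2, by positivity, ?_, ?_⟩
  · rw [Real.log_div hX0.ne' hm0.ne']
    have : (1 - 1 / (U : ℝ)) * Real.log X = Real.log X - Real.log X / U := by ring
    rw [this]
    linarith
  · rw [Real.log_div hX0.ne' hm0.ne']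
    have := Real.log_nonneg hm1
    linarith

theorem fp_big {U : ℕ} {X Y : ℝ} (hU4 : 4 ≤ U) (hY : 0 < Y) (h1 : Real.exp U ≤ Real.log X)
    (h3 : (1 - 1 / (U : ℝ)) * Real.log X ≤ Real.log Y) :
    (3 / 4) * Real.log X ≤ Real.log Y ∧ (U : ℝ) / 2 ≤ Y := by
  have hU : (4 : ℝ) ≤ U := by exact_mod_cast hU4
  have hL : 0 < Real.log X := lt_of_lt_of_le (Real.exp_pos _) h1
  have h4 : (3 / 4) * Real.log X ≤ Real.log Y := by
    refine le_trans ?_ h3
    have : 1 / (U : ℝ) ≤ 1 / 4 := one_div_le_one_div_of_le (by norm_num) hU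
    nlinarith
  refine ⟨h4, ?_⟩
  have h5 := Real.add_one_le_exp (U : ℝ)
  have h6 := Real.add_one_le_exp (Real.log Y)
  rw [Real.exp_log hY] at h6
  linarith

theorem fp_count (x : ℝ) : (Nat.primeCounting ⌊x⌋₊) =
    ((Finset.range (⌊x⌋₊ + 1)).filter Nat.Prime).card := by
  rw [Nat.primeCounting, Nat.primeCounting', Nat.count_eq_card_filter_range]

open Classical in
theorem prime_upper : ∀ ε : ℝ, 0 < ε → ∃ U₀ : ℕ, ∀ U : ℕ, U₀ ≤ U → ∀ (X : ℝ) (m : ℕ), 1 ≤ X →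
    (U : ℝ) ≤ LL X →
    LL X ≤ U + 2 → 1 ≤ m → Real.log m ≤ Real.log X / U →
      (((Finset.range (⌊X⌋₊ + 2)).filter (fun p : ℕ => p.Prime ∧
        (((p - 1) * m : ℕ) : ℝ) ≤ X)).card : ℝ) ≤ (1 + ε) * (X / Real.log X * (1 / (m : ℝ))) := by
  intro ε hε
  obtain ⟨δ, hδ, hδ1, hδε⟩ : ∃ δ : ℝ, 0 < δ ∧ δ ≤ 1 ∧ 8 * δ ≤ ε := by
    refine ⟨min 1 ε / 8, by positivity, ?_, ?_⟩
    · have := min_le_left 1 ε
      linarith
    · have := min_le_right 1 ε
      linarith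
  obtain ⟨x₀, hx2, hx₀⟩ := fp_pnt δ hδ
  refine ⟨4 + ⌈2 * x₀⌉₊ + ⌈2 / δ⌉₊, ?_⟩
  intro U hU X m hX h1 h2 hm hlm
  have hU4 : 4 ≤ U := by omega
  have hUx : 2 * x₀ ≤ U := by
    have a1 : ⌈2 * x₀⌉₊ ≤ U := by omega
    exact (Nat.le_ceil _).trans (by exact_mod_cast a1)
  have hUδ : 2 / δ ≤ U := by
    have a1 : ⌈2 / δ⌉₊ ≤ U := by omega
    exact (Nat.le_ceil _).trans (by exact_mod_cast a1)
  have hU4' : (4 : ℝ) ≤ U := by exact_mod_cast hU4
  obtain ⟨hL1, -, hY, hlY, hlY2⟩ := fp_par hU4 hX h1 h2 hm hlm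
  obtain ⟨h34, hYU⟩ := fp_big hU4 hY hL1 hlY
  set Y := X / (m : ℝ) with hYdef
  have hm0 : (0 : ℝ) < m := by exact_mod_cast hm
  have hL : 0 < Real.log X := lt_of_lt_of_le (Real.exp_pos _) hL1
  have hlY0 : 0 < Real.log Y := by nlinarith
  have hXY : X / Real.log X * (1 / (m : ℝ)) = Y / Real.log X := by
    rw [hYdef]; field_simp
  have hYx : x₀ ≤ Y := by linarith
  have hδY : 1 ≤ δ * Y := by
    have : 2 ≤ δ * U := by
      rw [div_le_iff₀ hδ] at hUδ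
      linarith
    nlinarith
  have hsub : (Finset.range (⌊X⌋₊ + 2)).filter (fun p : ℕ => p.Prime ∧
        (((p - 1) * m : ℕ) : ℝ) ≤ X) ⊆ (Finset.range (⌊Y + 1⌋₊ + 1)).filter Nat.Prime := by
    intro p hp
    rw [Finset.mem_filter] at hp ⊢
    obtain ⟨-, hp1, hp2⟩ := hp
    refine ⟨?_, hp1⟩
    rw [Finset.mem_range]
    apply Nat.lt_succ_of_le
    apply Nat.le_floor
    push_cast at hp2
    rw [Nat.cast_sub hp1.one_le, Nat.cast_one] at hp2
    have : (p : ℝ) - 1 ≤ Y := by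
      rw [hYdef, le_div_iff₀ hm0]
      exact hp2
    linarith
  have hcard := Finset.card_le_card hsub
  rw [← fp_count] at hcard
  have h5 := (hx₀ (Y + 1) (by linarith)).1
  have h6 : ((Finset.range (⌊X⌋₊ + 2)).filter (fun p : ℕ => p.Prime ∧
        (((p - 1) * m : ℕ) : ℝ) ≤ X)).card ≤ (1 + δ) * ((Y + 1) / Real.log (Y + 1)) :=
    le_trans (by exact_mod_cast hcard) h5
  refine h6.trans ?_
  rw [hXY]
  have h7 : (Y + 1) / Real.log (Y + 1) ≤ (1 + δ) * Y / Real.log Y := by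
    apply div_le_div₀ (by positivity) (by linarith) hlY0
    exact Real.log_le_log hY (by linarith)
  have h8 : Y / Real.log Y ≤ (1 + δ) * (Y / Real.log X) := by
    have : (1 + δ) * (Y / Real.log X) = ((1 + δ) * Y) / Real.log X := by ring
    rw [this, div_le_div_iff₀ hlY0 hL]
    have h9 : Real.log X ≤ (1 + δ) * Real.log Y := by
      have a1 : 1 ≤ (1 + δ) * (1 - 1 / (U : ℝ)) := by
        have a2 : 1 / (U : ℝ) ≤ δ / 2 := by
          rw [div_le_iff₀ (by positivity)]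
          rw [div_le_iff₀ hδ] at hUδ
          linarith
        nlinarith
      calc Real.log X = 1 * Real.log X := (one_mul _).symm
        _ ≤ ((1 + δ) * (1 - 1 / (U : ℝ))) * Real.log X := mul_le_mul_of_nonneg_right a1 hL.le
        _ = (1 + δ) * ((1 - 1 / (U : ℝ)) * Real.log X) := by ring
        _ ≤ _ := mul_le_mul_of_nonneg_left hlY (by linarith)
    calc Y * Real.log X ≤ Y * ((1 + δ) * Real.log Y) := mul_le_mul_of_nonneg_left h9 hY.le
      _ = _ := by ring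
  have h10 : 0 ≤ Y / Real.log X := by positivity
  calc (1 + δ) * ((Y + 1) / Real.log (Y + 1)) ≤ (1 + δ) * ((1 + δ) * Y / Real.log Y) :=
        mul_le_mul_of_nonneg_left h7 (by linarith)
    _ = (1 + δ) * (1 + δ) * (Y / Real.log Y) := by ring
    _ ≤ (1 + δ) * (1 + δ) * ((1 + δ) * (Y / Real.log X)) :=
        mul_le_mul_of_nonneg_left h8 (by positivity)
    _ = ((1 + δ) * (1 + δ) * (1 + δ)) * (Y / Real.log X) := by ring
    _ ≤ (1 + ε) * (Y / Real.log X) := by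
        refine mul_le_mul_of_nonneg_right ?_ h10
        nlinarith [mul_nonneg hδ.le (sub_nonneg.mpr hδ1), mul_nonneg (mul_nonneg hδ.le hδ.le) (sub_nonneg.mpr hδ1)]

theorem fp_small {δ L : ℝ} (hδ : 0 < δ) (hL : 96 / δ ≤ L) :
    L * (Real.exp (L / 2) + 2) ≤ δ * Real.exp (3 / 4 * L) := by
  have hL0 : 0 < L := lt_of_lt_of_le (by positivity) hL
  have h1 : Real.exp (3 / 4 * L) = Real.exp (L / 2) * Real.exp (L / 4) := by
    rw [← Real.exp_add]; congr 1; ring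
  have h2 := Real.quadratic_le_exp_of_nonneg (show 0 ≤ L / 4 by positivity)
  have h3 : 3 * L ≤ δ * Real.exp (L / 4) := by
    rw [div_le_iff₀ hδ] at hL
    have : 3 * L ≤ δ * (L ^ 2 / 32) := by nlinarith
    refine this.trans (mul_le_mul_of_nonneg_left ?_ hδ.le)
    nlinarith
  have h4 : (1 : ℝ) ≤ Real.exp (L / 2) := Real.one_le_exp (by positivity)
  rw [h1]
  calc L * (Real.exp (L / 2) + 2) ≤ L * (3 * Real.exp (L / 2)) :=
        mul_le_mul_of_nonneg_left (by linarith) hL0.le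
    _ = Real.exp (L / 2) * (3 * L) := by ring
    _ ≤ Real.exp (L / 2) * (δ * Real.exp (L / 4)) :=
        mul_le_mul_of_nonneg_left h3 (Real.exp_pos _).le
    _ = _ := by ring

theorem fp_exp_small {δ : ℝ} (hδ : 0 < δ) : ∃ U₀ : ℕ, ∀ U : ℕ, U₀ ≤ U →
    4 * Real.exp (-2 * (U : ℝ) ^ ((1 : ℝ) / 20)) ≤ δ := by
  have h1 : Tendsto (fun U : ℕ => (U : ℝ) ^ ((1 : ℝ) / 20)) atTop atTop :=
    (tendsto_rpow_atTop (by norm_num)).comp tendsto_natCast_atTop_atTop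
  obtain ⟨U₀, h⟩ := eventually_atTop.mp (h1.eventually_ge_atTop (2 / δ))
  refine ⟨U₀, fun U hU => ?_⟩
  have h2 := h U hU
  set u := (U : ℝ) ^ ((1 : ℝ) / 20) with hu
  have hu0 : 0 < u := lt_of_lt_of_le (by positivity) h2
  have h3 := Real.add_one_le_exp (2 * u)
  have h4 : Real.exp (-2 * u) ≤ 1 / (2 * u) := by
    rw [show -2 * u = -(2 * u) by ring, Real.exp_neg, ← one_div]
    exact one_div_le_one_div_of_le (by positivity) (by linarith)
  rw [div_le_iff₀ hδ] at h2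
  have h5 : 4 * (1 / (2 * u)) ≤ δ := by
    rw [mul_one_div, div_le_iff₀ (by positivity)]
    linarith
  linarith

theorem fp_SU {U : ℕ} {L : ℝ} (hSU1 : 1 ≤ SS U) (hSU2 : 2 * (SS U : ℝ) ≤ U)
    (hL1 : Real.exp U ≤ L) : Real.exp (SS U : ℝ) ≤ L / 2 := by
  have b1 : Real.exp (SS U : ℝ) * Real.exp (SS U : ℝ) ≤ L := by
    rw [← Real.exp_add]
    refine le_trans (Real.exp_le_exp.mpr ?_) hL1
    linarith
  have b2 : (2 : ℝ) ≤ Real.exp (SS U : ℝ) := by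
    have := Real.add_one_le_exp (SS U : ℝ)
    have b3 : (1 : ℝ) ≤ SS U := by exact_mod_cast hSU1
    linarith
  nlinarith

open Classical in
theorem fp_A {U : ℕ} {X Y L δ : ℝ} (hY2 : 2 ≤ Y) (hYX : Y ≤ X) (hLX : L = Real.log X)
    (hL : 0 < L) (hL1 : Real.exp U ≤ L)
    (hL2 : L ≤ Real.exp (U + 2)) (h34 : 3 / 4 * L ≤ Real.log Y) (hSU1 : 1 ≤ SS U)
    (hSU2 : 2 * (SS U : ℝ) ≤ U)
    (habn : ∀ Y : ℝ, 1 ≤ Y → (SS U : ℝ) ≤ LL Y → LL Y ≤ 3 * U + 6 →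
      (cnt Y (Abn U) : ℝ) ≤ Y / Real.log Y * Real.exp (-2 * (U : ℝ) ^ ((1 : ℝ) / 20)))
    (b2 : 4 * Real.exp (-2 * (U : ℝ) ^ ((1 : ℝ) / 20)) ≤ δ) :
    (((Finset.range (⌊Y⌋₊ + 1)).filter (fun p => p ∈ Abn U)).card : ℝ) ≤ δ * (Y / L) := by
  have hY : 0 < Y := by linarith
  have hU0 : (0 : ℝ) ≤ U := Nat.cast_nonneg U
  have a1 : ((Finset.range (⌊Y⌋₊ + 1)).filter (fun p => p ∈ Abn U)).card ≤ cnt (Y + 1) (Abn U) := by
    unfold cnt
    rw [← Set.ncard_coe_finset]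
    refine Set.ncard_le_ncard ?_ ?_
    · intro p hp
      rw [Finset.mem_coe, Finset.mem_filter, Finset.mem_range] at hp
      refine ⟨hp.2, ?_⟩
      have a1 : p ≤ ⌊Y⌋₊ := by omega
      have := (Nat.le_floor_iff hY.le).1 a1
      linarith
    · refine (Set.finite_Iic ⌊Y + 1⌋₊).subset fun v hv => ?_
      exact Nat.le_floor hv.2
  have hlY1 : Real.log Y ≤ Real.log (Y + 1) := Real.log_le_log hY (by linarith)
  have a2 : (SS U : ℝ) ≤ LL (Y + 1) := by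
    unfold LL
    rw [Real.le_log_iff_exp_le (by linarith)]
    have b1 := fp_SU hSU1 hSU2 hL1
    linarith
  have a3 : LL (Y + 1) ≤ 3 * U + 6 := by
    unfold LL
    rw [Real.log_le_iff_le_exp (by linarith)]
    have b1 : Y + 1 ≤ X ^ 2 := by nlinarith
    have b2 : Real.log (Y + 1) ≤ 2 * L := by
      have := Real.log_le_log (by linarith) b1
      rw [Real.log_pow, ← hLX] at this
      exact_mod_cast this
    have b3 : 2 * Real.exp ((U : ℝ) + 2) ≤ Real.exp (3 * U + 6) := by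
      have c1 : Real.exp (3 * (U : ℝ) + 6) = Real.exp (2 * U + 4) * Real.exp (U + 2) := by
        rw [← Real.exp_add]; congr 1; ring
      rw [c1]
      refine mul_le_mul_of_nonneg_right ?_ (Real.exp_pos _).le
      have := Real.add_one_le_exp (2 * (U : ℝ) + 4)
      linarith
    linarith
  have a4 := habn (Y + 1) (by linarith) a2 a3
  have a5 : ((cnt (Y + 1) (Abn U) : ℕ) : ℝ) ≤ δ * (Y / L) := by
    refine a4.trans ?_
    have b1 : (Y + 1) / Real.log (Y + 1) ≤ 4 * (Y / L) := by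
      have c1 : 4 * (Y / L) = (2 * Y) / (L / 2) := by field_simp; norm_num
      rw [c1]
      refine div_le_div₀ (by positivity) (by linarith) (by positivity) (by linarith)
    have b3 : 0 ≤ Y / L := by positivity
    calc (Y + 1) / Real.log (Y + 1) * Real.exp (-2 * (U : ℝ) ^ ((1 : ℝ) / 20))
        ≤ 4 * (Y / L) * Real.exp (-2 * (U : ℝ) ^ ((1 : ℝ) / 20)) :=
          mul_le_mul_of_nonneg_right b1 (Real.exp_pos _).le
      _ = (4 * Real.exp (-2 * (U : ℝ) ^ ((1 : ℝ) / 20))) * (Y / L) := by ring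
      _ ≤ δ * (Y / L) := mul_le_mul_of_nonneg_right b2 b3
  exact le_trans (by exact_mod_cast a1) a5

open Classical in
theorem fp_sub {U m : ℕ} {X Y L : ℝ} (hX : 1 ≤ X) (hY : 0 < Y) (hm1 : 1 ≤ m)
    (hYm : Y * m = X) (hYX : Y ≤ X) (hLX : L = Real.log X)
    (hL1 : Real.exp U ≤ L) (hSU1 : 1 ≤ SS U) (hSU2 : 2 * (SS U : ℝ) ≤ U) :
    (Finset.range (⌊Y⌋₊ + 1)).filter Nat.Prime ⊆
      (Finset.range (⌊X⌋₊ + 2)).filter (fun p : ℕ => p.Prime ∧ Normal U p ∧ SS U ≤ lev p ∧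
        (((p - 1) * m : ℕ) : ℝ) ≤ X ∧ X < (((p - 1) * m : ℕ) : ℝ) ^ 2) ∪
      ((Finset.range (⌊Y⌋₊ + 1)).filter (fun p => p ∈ Abn U) ∪
        Finset.range (⌊Real.exp (L / 2)⌋₊ + 2)) := by
  intro p hp
  rw [Finset.mem_filter, Finset.mem_range] at hp
  obtain ⟨hp1, hp2⟩ := hp
  have hm1' : (1 : ℝ) ≤ m := by exact_mod_cast hm1
  have hpY : (p : ℝ) ≤ Y := by
    have a1 : p ≤ ⌊Y⌋₊ := by omega
    exact (Nat.le_floor_iff hY.le).1 a1
  have hp1' : (1 : ℝ) ≤ p := by exact_mod_cast hp2.one_le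
  rw [Finset.mem_union, Finset.mem_union]
  by_cases hb : p ∈ Finset.range (⌊Real.exp (L / 2)⌋₊ + 2)
  · exact Or.inr (Or.inr hb)
  by_cases ha : p ∈ Abn U
  · refine Or.inr (Or.inl ?_)
    rw [Finset.mem_filter, Finset.mem_range]
    exact ⟨hp1, ha⟩
  refine Or.inl ?_
  have hb' : ⌊Real.exp (L / 2)⌋₊ + 2 ≤ p := by
    rw [Finset.mem_range] at hb
    omega
  have hb2 : Real.exp (L / 2) < (p : ℝ) - 1 := by
    have a1 := Nat.lt_floor_add_one (Real.exp (L / 2))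
    have a2 : ((⌊Real.exp (L / 2)⌋₊ + 2 : ℕ) : ℝ) ≤ p := by exact_mod_cast hb'
    push_cast at a2
    linarith
  have hlevp : SS U ≤ lev p := by
    by_contra hcon
    rw [not_le, lev_lt_iff hSU1] at hcon
    have a1 := fp_SU hSU1 hSU2 hL1
    have a2 := Real.exp_le_exp.mpr a1
    linarith
  have hn : Normal U p := by
    by_contra hcon
    exact ha ⟨hp2, hlevp, hcon⟩
  rw [Finset.mem_filter, Finset.mem_range]
  have hcast : (((p - 1) * m : ℕ) : ℝ) = ((p : ℝ) - 1) * m := by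
    push_cast
    rw [Nat.cast_sub hp2.one_le, Nat.cast_one]
  have hpm : ((p : ℝ) - 1) * m ≤ X := by
    have : (p : ℝ) * m ≤ X := by
      rw [← hYm]
      exact mul_le_mul_of_nonneg_right hpY (by linarith)
    linarith
  refine ⟨?_, hp2, hn, hlevp, ?_, ?_⟩
  · have a1 : p ≤ ⌊X⌋₊ := Nat.le_floor (hpY.trans hYX)
    omega
  · rw [hcast]; exact hpm
  · rw [hcast]
    have a3 : Real.exp (L / 2) < ((p : ℝ) - 1) * m := by
      refine lt_of_lt_of_le hb2 ?_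
      exact le_mul_of_one_le_right (by linarith) hm1'
    have a4 : X = Real.exp (L / 2) ^ 2 := by
      rw [← Real.exp_nat_mul]
      have : ((2 : ℕ) : ℝ) * (L / 2) = L := by push_cast; ring
      rw [this, hLX, Real.exp_log (by linarith)]
    rw [a4]
    exact pow_lt_pow_left₀ a3 (Real.exp_pos _).le (by norm_num)

open Classical in
theorem prime_lower : ∀ ε : ℝ, 0 < ε → ∃ U₀ : ℕ, ∀ U : ℕ, U₀ ≤ U → ∀ (X : ℝ) (m : ℕ), 1 ≤ X →
    (U : ℝ) ≤ LL X →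
    LL X ≤ U + 2 → 1 ≤ m → Real.log m ≤ Real.log X / U →
    (1 - ε) * (X / Real.log X * (1 / (m : ℝ))) ≤
      (((Finset.range (⌊X⌋₊ + 2)).filter (fun p : ℕ => p.Prime ∧ Normal U p ∧ SS U ≤ lev p ∧
        (((p - 1) * m : ℕ) : ℝ) ≤ X ∧ X < (((p - 1) * m : ℕ) : ℝ) ^ 2)).card : ℝ) := by
  intro ε hε
  obtain ⟨δ, hδ, hδ1, hδε⟩ : ∃ δ : ℝ, 0 < δ ∧ δ ≤ 1 ∧ 8 * δ ≤ ε := by
    refine ⟨min 1 ε / 8, by positivity, ?_, ?_⟩
    · have := min_le_left 1 ε
      linarith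
    · have := min_le_right 1 ε
      linarith
  obtain ⟨x₀, hx2, hx₀⟩ := fp_pnt δ hδ
  obtain ⟨U₁, hU₁⟩ := abn_count
  obtain ⟨U₂, hU₂⟩ := fp_exp_small hδ
  refine ⟨4 + ⌈2 * x₀⌉₊ + ⌈96 / δ⌉₊ + U₁ + U₂, ?_⟩
  intro U hU X m hX h1 h2 hm hlm
  have hU4 : 4 ≤ U := by omega
  have hUx : 2 * x₀ ≤ U := by
    have a1 : ⌈2 * x₀⌉₊ ≤ U := by omega
    exact (Nat.le_ceil _).trans (by exact_mod_cast a1)
  have hUδ : 96 / δ ≤ U := by
    have a1 : ⌈96 / δ⌉₊ ≤ U := by omega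
    exact (Nat.le_ceil _).trans (by exact_mod_cast a1)
  obtain ⟨hL1, hL2, hY, hlY, hlY2⟩ := fp_par hU4 hX h1 h2 hm hlm
  obtain ⟨h34, hYU⟩ := fp_big hU4 hY hL1 hlY
  obtain ⟨Y, hYdef⟩ : ∃ Y : ℝ, Y = X / (m : ℝ) := ⟨_, rfl⟩
  obtain ⟨L, hLdef⟩ : ∃ L : ℝ, L = Real.log X := ⟨_, rfl⟩
  rw [← hYdef] at hY hlY hlY2 h34 hYU
  rw [← hLdef] at hL1 hL2 hlY hlY2 h34 ⊢
  have hm1 : (1 : ℝ) ≤ m := by exact_mod_cast hm
  have hm0 : (0 : ℝ) < m := by linarith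
  have hL : 0 < L := lt_of_lt_of_le (Real.exp_pos _) hL1
  have hlY0 : 0 < Real.log Y := by linarith
  have hXY : X / L * (1 / (m : ℝ)) = Y / L := by
    rw [hYdef]; field_simp
  have hYm : Y * m = X := by rw [hYdef]; field_simp
  have hYx : x₀ ≤ Y := by linarith
  have hYX : Y ≤ X := by
    rw [← hYm]
    exact le_mul_of_one_le_right hY.le hm1
  have hUexp := Real.add_one_le_exp (U : ℝ)
  have hLδ : 96 / δ ≤ L := by linarith
  have hsm := fp_small hδ hLδ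
  have hYexp : Real.exp (3 / 4 * L) ≤ Y := by
    rw [← Real.exp_log hY]
    exact Real.exp_le_exp.mpr h34
  have hq : Real.exp (L / 2) + 2 ≤ δ * (Y / L) := by
    rw [← mul_div_assoc, le_div_iff₀ hL]
    calc (Real.exp (L / 2) + 2) * L = L * (Real.exp (L / 2) + 2) := by ring
      _ ≤ δ * Real.exp (3 / 4 * L) := hsm
      _ ≤ δ * Y := mul_le_mul_of_nonneg_left hYexp hδ.le
  have hSU1 : 1 ≤ SS U := Nat.le_sqrt.2 (by omega)
  have hSU2 : 2 * SS U ≤ U := by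
    have a1 : SS U * SS U ≤ U := Nat.sqrt_le U
    have a2 : 2 ≤ SS U := Nat.le_sqrt.2 (by omega)
    exact le_trans (Nat.mul_le_mul_right _ a2) a1
  have hSU2' : 2 * (SS U : ℝ) ≤ U := by exact_mod_cast hSU2
  have hsub := fp_sub hX hY hm hYm hYX hLdef hL1 hSU1 hSU2'
  have hcard := (Finset.card_le_card hsub).trans ((Finset.card_union_le _ _).trans
    (Nat.add_le_add_left (Finset.card_union_le _ _) _))
  have hA1 := fp_A (by linarith) hYX hLdef hL hL1 hL2 h34 hSU1 hSU2' (hU₁ U (by omega))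
    (hU₂ U (by omega))
  have hP1 := (hx₀ Y hYx).2
  rw [fp_count] at hP1
  have hB1 : ((Finset.range (⌊Real.exp (L / 2)⌋₊ + 2)).card : ℝ) ≤ δ * (Y / L) := by
    rw [Finset.card_range]
    push_cast
    have := Nat.floor_le (Real.exp_pos (L / 2)).le
    linarith
  have hP2 : (1 - δ) * (Y / L) ≤ (1 - δ) * (Y / Real.log Y) := by
    refine mul_le_mul_of_nonneg_left ?_ (by linarith)
    exact div_le_div_of_nonneg_left hY.le hlY0 hlY2
  have hYL : 0 ≤ Y / L := by positivity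
  have hcard' : (((Finset.range (⌊Y⌋₊ + 1)).filter Nat.Prime).card : ℝ) ≤
      (((Finset.range (⌊X⌋₊ + 2)).filter (fun p : ℕ => p.Prime ∧ Normal U p ∧ SS U ≤ lev p ∧
        (((p - 1) * m : ℕ) : ℝ) ≤ X ∧ X < (((p - 1) * m : ℕ) : ℝ) ^ 2)).card : ℝ) +
      ((((Finset.range (⌊Y⌋₊ + 1)).filter (fun p => p ∈ Abn U)).card : ℝ) +
        ((Finset.range (⌊Real.exp (L / 2)⌋₊ + 2)).card : ℝ)) := by exact_mod_cast hcard
  rw [hXY]
  have h9 : (1 - ε) * (Y / L) ≤ (1 - 8 * δ) * (Y / L) :=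
    mul_le_mul_of_nonneg_right (by linarith) hYL
  have h10 : 0 ≤ δ * (Y / L) := mul_nonneg hδ.le hYL
  linarith

end P031
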