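import Vale.Agent.P031.LemA1

/-!
# P031, module LEMA2: the logarithmic version of `lemA`

PROOF.  Sum over dyadic ranges `2^i ≤ d < 2^(i+1)`, `2^i ≤ N`, `2^(i+1) > D`: on each range
`f d / d ≤ 2^{-i} f d` and `lemA` with `X = min (2^(i+1)) (max N 2)` gives
`≤ C' (1 + LL Z)^C / (i+1)^{k} · (1/(i+1))^{…}`; precisely each range contributes
`≤ C (1+LL Z)^C (i+1)^{-(1+k)} exp (∑_{r ≤ N} f r / r)` (the primes between `N` and `2N` cost a constant, or use
`X = min …`).  `∑_{i ≤ log₂ N} 1/(i+1) ≤ C (1 + LL Z)` for `k = 0`, and `∑_{i ≥ log₂ D - 1} (i+1)^{-(1+k)} ≤ C / (log D)^k`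
for `k ≥ 1`.
-/

namespace P031

open scoped BigOperators

/-- tail of `∑ 1/j²` -/
theorem lemA2_tail (y : ℝ) (hy : 0 < y) (N : ℕ) :
    ∑ i ∈ (Finset.range N).filter (fun i : ℕ => y ≤ (i : ℝ) + 1), 1 / ((i : ℝ) + 1) ^ 2 ≤ 2 / y := by
  have hc : 1 ≤ ⌈y⌉₊ := Nat.one_le_iff_ne_zero.mpr (Nat.ceil_pos.mpr hy).ne'
  have h1 : ∑ i ∈ (Finset.range N).filter (fun i : ℕ => y ≤ (i : ℝ) + 1), 1 / ((i : ℝ) + 1) ^ 2 ≤
      ∑ j ∈ Finset.Ioo (⌈y⌉₊ - 1) (N + 1), ((j : ℝ) ^ 2)⁻¹ := by
    have h2 : ∑ i ∈ (Finset.range N).filter (fun i : ℕ => y ≤ (i : ℝ) + 1),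
        1 / ((i : ℝ) + 1) ^ 2 =
        ∑ j ∈ ((Finset.range N).filter (fun i : ℕ => y ≤ (i : ℝ) + 1)).image
          (fun i : ℕ => (i + 1 : ℕ)), ((j : ℝ) ^ 2)⁻¹ := by
      rw [Finset.sum_image (by
        intro a _ b _ hab
        exact Nat.succ_injective hab)]
      refine Finset.sum_congr rfl fun i _ => ?_
      push_cast
      rw [one_div]
    rw [h2]
    refine Finset.sum_le_sum_of_subset_of_nonneg ?_ fun _ _ _ => by positivity
    intro j hj
    obtain ⟨i, hi, rfl⟩ := Finset.mem_image.mp hj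
    obtain ⟨hi1, hi2⟩ := Finset.mem_filter.mp hi
    rw [Finset.mem_range] at hi1
    rw [Finset.mem_Ioo]
    have h3 : ⌈y⌉₊ ≤ i + 1 := Nat.ceil_le.mpr (by push_cast; exact hi2)
    omega
  refine h1.trans ((sum_Ioo_inv_sq_le (α := ℝ) _ _).trans ?_)
  have h4 : ((⌈y⌉₊ - 1 : ℕ) : ℝ) + 1 = (⌈y⌉₊ : ℝ) := by
    exact_mod_cast Nat.sub_add_cancel hc
  rw [h4]
  exact div_le_div_of_nonneg_left (by norm_num) hy (Nat.le_ceil y)

theorem lemA' : ∃ C : ℝ, 0 < C ∧ ∀ (Z D : ℝ) (N : ℕ) (𝒜 : Finset ℕ) (f : ℕ → ℝ), 16 ≤ Z → 2 ≤ D →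
    (N : ℝ) ≤ Z → 𝒜.card ≤ 2 → (∀ A ∈ 𝒜, 1 ≤ A ∧ (A : ℝ) ≤ Z) → CMul f →
    (∀ r : ℕ, r.Prime → f r ≤ 3 / 2) →
    ∑ d ∈ (Finset.Icc 1 N).filter (fun d : ℕ => D ≤ (d : ℝ) ∧ ∀ A ∈ 𝒜, (A * d + 1).Prime),
        f d / (d : ℝ) ≤
      C * (1 + LL Z) ^ C / Real.log D ^ 𝒜.card *
        Real.exp (∑ r ∈ (Finset.Icc 1 N).filter Nat.Prime, f r / (r : ℝ)) := by
  classical
  obtain ⟨CE, hCE, heul⟩ := lemA_euler
  obtain ⟨CA, hCA, hlem⟩ := lemA
  set K : ℝ := CE + 108 * CA + CA with hK
  refine ⟨K, by positivity, ?_⟩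
  intro Z D N 𝒜 f hZ hD hNZ hcard hA hf hr
  set Λ := 1 + LL Z with hΛ
  have hLL := SieveAux.LL_pos hZ
  have hΛ2 : 2 ≤ Λ := by linarith
  set P := Real.exp (∑ r ∈ (Finset.Icc 1 N).filter Nat.Prime, f r / (r : ℝ)) with hP
  have hP0 : 0 < P := Real.exp_pos _
  have hlD : 0 < Real.log D := Real.log_pos (by linarith)
  set S := (Finset.Icc 1 N).filter (fun d : ℕ => D ≤ (d : ℝ) ∧ ∀ A ∈ 𝒜, (A * d + 1).Prime) with hS
  have h1K : 1 ≤ Λ ^ K := Real.one_le_rpow (by linarith) (by positivity)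
  have hAK : Λ ^ CA ≤ Λ ^ K := by
    apply Real.rpow_le_rpow_of_exponent_le (by linarith)
    have : 0 < CE + 108 * CA := by positivity
    linarith
  rcases S.eq_empty_or_nonempty with hemp | ⟨d0, hd0⟩
  · rw [hemp, Finset.sum_empty]
    positivity
  have hN2 : (2 : ℝ) ≤ N := by
    simp only [hS, Finset.mem_filter, Finset.mem_Icc] at hd0
    have : (d0 : ℝ) ≤ N := by exact_mod_cast hd0.1.2
    linarith [hd0.2.1]
  rcases Nat.eq_zero_or_pos 𝒜.card with hk0 | hkpos
  · -- no conditions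
    rw [hk0, pow_zero, div_one]
    have h1 := heul (N : ℝ) f hN2 hf hr
    rw [Nat.floor_natCast, ← hP] at h1
    calc ∑ d ∈ S, f d / (d : ℝ) ≤ ∑ d ∈ Finset.Icc 1 N, f d / (d : ℝ) :=
          Finset.sum_le_sum_of_subset_of_nonneg (Finset.filter_subset _ _)
            fun d _ _ => div_nonneg (hf.2.2 d) (Nat.cast_nonneg d)
      _ ≤ CE * P := h1
      _ = CE * 1 * P := by ring
      _ ≤ K * Λ ^ K * P := by
          have : CE ≤ K := by
            have : 0 < 108 * CA + CA := by positivity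
            linarith
          gcongr
  · obtain ⟨k', hk'⟩ : ∃ k', 𝒜.card = k' + 1 := ⟨𝒜.card - 1, by omega⟩
    set T := (Finset.range (N + 1)).filter (fun i : ℕ => Real.log D ≤ (i : ℝ) + 1) with hT
    have hmaps : ∀ d ∈ S, Nat.log 2 d ∈ T := by
      intro d hd
      simp only [hS, Finset.mem_filter, Finset.mem_Icc] at hd
      simp only [hT, Finset.mem_filter, Finset.mem_range]
      refine ⟨?_, ?_⟩
      · have := Nat.log_le_self 2 d
        omega
      · have h1 : d < 2 ^ (Nat.log 2 d + 1) := Nat.lt_pow_succ_log_self (by norm_num) d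
        have h2 : D ≤ (2 : ℝ) ^ (Nat.log 2 d + 1) := by
          have : (d : ℝ) < (2 : ℝ) ^ (Nat.log 2 d + 1) := by exact_mod_cast h1
          linarith [hd.2.1]
        have h3 := Real.log_le_log (by linarith) h2
        rw [Real.log_pow] at h3
        have h4 : Real.log 2 ≤ 1 := by
          have := Real.log_two_lt_d9
          linarith
        push_cast at h3
        have h5 : (0 : ℝ) ≤ (Nat.log 2 d : ℝ) + 1 := by positivity
        nlinarith
    rw [← Finset.sum_fiberwise_of_maps_to hmaps]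
    set M : ℝ := 54 * CA * Λ ^ CA * P with hM
    have hM0 : 0 < M := by positivity
    have hterm : ∀ i ∈ T, ∑ d ∈ S.filter (fun d => Nat.log 2 d = i), f d / (d : ℝ) ≤
        M / ((i : ℝ) + 1) ^ (𝒜.card + 1) := by
      intro i _
      rcases (S.filter (fun d => Nat.log 2 d = i)).eq_empty_or_nonempty with hem | ⟨d1, hd1⟩
      · rw [hem, Finset.sum_empty]
        positivity
      have hd1' := hd1
      simp only [hS, Finset.mem_filter, Finset.mem_Icc] at hd1'
      obtain ⟨⟨⟨hd11, hd12⟩, hd13, _⟩, hd14⟩ := hd1'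
      have hd1two : 2 ≤ d1 := by
        have : (2 : ℝ) ≤ d1 := by linarith
        exact_mod_cast this
      have hi1 : 1 ≤ i := by
        rw [← hd14]
        exact Nat.log_pos (by norm_num) hd1two
      have h2i : 2 ^ i ≤ d1 := by
        rw [← hd14]
        exact Nat.pow_log_le_self 2 (by omega)
      set Xi : ℝ := min ((2 : ℝ) ^ (i + 1)) N with hXi
      have hXi2 : 2 ≤ Xi := by
        apply le_min _ hN2
        calc (2 : ℝ) = 2 ^ 1 := (pow_one _).symm
          _ ≤ 2 ^ (i + 1) := pow_le_pow_right₀ (by norm_num) (by omega)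
      have hXiN : Xi ≤ N := min_le_right _ _
      have hXi1 : Xi ≤ 2 ^ (i + 1) := min_le_left _ _
      have hXii : (2 : ℝ) ^ i ≤ Xi := by
        apply le_min
        · exact pow_le_pow_right₀ (by norm_num) (by omega)
        · have : 2 ^ i ≤ N := h2i.trans hd12
          exact_mod_cast this
      have hlemX := hlem Z Xi 𝒜 f hZ hXi2 (hXiN.trans hNZ) hcard hA hf hr
      have hfl : ⌊Xi⌋₊ ≤ N := by
        rw [← Nat.floor_natCast (R := ℝ) N]
        exact Nat.floor_le_floor hXiN
      have hPi : Real.exp (∑ r ∈ (Finset.Icc 1 ⌊Xi⌋₊).filter Nat.Prime, f r / (r : ℝ)) ≤ P := by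
        apply Real.exp_le_exp.mpr
        apply Finset.sum_le_sum_of_subset_of_nonneg
        · apply Finset.filter_subset_filter
          exact Finset.Icc_subset_Icc le_rfl hfl
        · intro r _ _
          exact div_nonneg (hf.2.2 r) (Nat.cast_nonneg r)
      have hlogXi : ((i : ℝ) + 1) / 3 ≤ Real.log Xi := by
        have h1 := Real.log_le_log (by positivity) hXii
        rw [Real.log_pow] at h1
        have h2 := Real.log_two_gt_d9
        have h3 : (1 : ℝ) ≤ i := by exact_mod_cast hi1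
        nlinarith
      have hlogpos : 0 < Real.log Xi := by
        have : (0 : ℝ) < ((i : ℝ) + 1) / 3 := by positivity
        linarith
      have hsum1 : ∑ d ∈ S.filter (fun d => Nat.log 2 d = i), f d / (d : ℝ) ≤
          (1 / 2 ^ i) * ∑ d ∈ (Finset.Icc 1 ⌊Xi⌋₊).filter (fun d : ℕ => ∀ A ∈ 𝒜, (A * d + 1).Prime),
            f d := by
        rw [Finset.mul_sum]
        have hsub : S.filter (fun d => Nat.log 2 d = i) ⊆
            (Finset.Icc 1 ⌊Xi⌋₊).filter (fun d : ℕ => ∀ A ∈ 𝒜, (A * d + 1).Prime) := by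
          intro d hd
          simp only [hS, Finset.mem_filter, Finset.mem_Icc] at hd
          simp only [Finset.mem_filter, Finset.mem_Icc]
          refine ⟨⟨hd.1.1.1, ?_⟩, hd.1.2.2⟩
          apply Nat.le_floor
          apply le_min
          · have h1 : d < 2 ^ (Nat.log 2 d + 1) := Nat.lt_pow_succ_log_self (by norm_num) d
            rw [hd.2] at h1
            exact_mod_cast h1.le
          · exact_mod_cast hd.1.1.2
        calc _ ≤ ∑ d ∈ S.filter (fun d => Nat.log 2 d = i), 1 / 2 ^ i * f d := by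
              refine Finset.sum_le_sum fun d hd => ?_
              simp only [hS, Finset.mem_filter, Finset.mem_Icc] at hd
              have h1 : 2 ^ i ≤ d := by
                rw [← hd.2]
                exact Nat.pow_log_le_self 2 (by omega)
              have h2 : (2 : ℝ) ^ i ≤ d := by exact_mod_cast h1
              rw [div_mul_eq_mul_div, one_mul]
              exact div_le_div_of_nonneg_left (hf.2.2 d) (by positivity) h2
          _ ≤ _ := Finset.sum_le_sum_of_subset_of_nonneg hsub fun d _ _ => by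
              have := hf.2.2 d
              positivity
      have hpow : ((i : ℝ) + 1) ^ (𝒜.card + 1) / 27 ≤ Real.log Xi ^ (1 + 𝒜.card) := by
        calc ((i : ℝ) + 1) ^ (𝒜.card + 1) / 27 ≤ ((i : ℝ) + 1) ^ (𝒜.card + 1) / 3 ^ (𝒜.card + 1) := by
              apply div_le_div_of_nonneg_left (by positivity) (by positivity)
              calc (3 : ℝ) ^ (𝒜.card + 1) ≤ 3 ^ 3 := pow_le_pow_right₀ (by norm_num) (by omega)
                _ = 27 := by norm_num
          _ = (((i : ℝ) + 1) / 3) ^ (1 + 𝒜.card) := by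
              rw [div_pow, add_comm 1]
          _ ≤ _ := pow_le_pow_left₀ (by positivity) hlogXi _
      have hinv : 1 / Real.log Xi ^ (1 + 𝒜.card) ≤ 27 / ((i : ℝ) + 1) ^ (𝒜.card + 1) := by
        calc _ ≤ 1 / (((i : ℝ) + 1) ^ (𝒜.card + 1) / 27) :=
              one_div_le_one_div_of_le (by positivity) hpow
          _ = _ := by rw [one_div_div]
      calc _ ≤ _ := hsum1
        _ ≤ (1 / 2 ^ i) * (CA * Λ ^ CA * Xi / Real.log Xi ^ (1 + 𝒜.card) * P) := by
            apply mul_le_mul_of_nonneg_left _ (by positivity)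
            refine hlemX.trans ?_
            apply mul_le_mul_of_nonneg_left hPi
            apply div_nonneg _ (pow_nonneg hlogpos.le _)
            positivity
        _ = (CA * Λ ^ CA * P) * (Xi / 2 ^ i) * (1 / Real.log Xi ^ (1 + 𝒜.card)) := by ring
        _ ≤ (CA * Λ ^ CA * P) * 2 * (27 / ((i : ℝ) + 1) ^ (𝒜.card + 1)) := by
            have h2 : Xi / 2 ^ i ≤ 2 := by
              rw [div_le_iff₀ (by positivity)]
              calc Xi ≤ 2 ^ (i + 1) := hXi1
                _ = _ := by ring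
            have h3 : 0 ≤ 1 / Real.log Xi ^ (1 + 𝒜.card) :=
              div_nonneg zero_le_one (pow_nonneg hlogpos.le _)
            apply mul_le_mul _ hinv h3 (by positivity)
            apply mul_le_mul_of_nonneg_left h2 (by positivity)
        _ = _ := by rw [hM]; ring
    calc _ ≤ ∑ i ∈ T, M / ((i : ℝ) + 1) ^ (𝒜.card + 1) := Finset.sum_le_sum hterm
      _ ≤ ∑ i ∈ T, (M / Real.log D ^ k') * (1 / ((i : ℝ) + 1) ^ 2) := by
          refine Finset.sum_le_sum fun i hi => ?_
          have h1 : Real.log D ≤ (i : ℝ) + 1 := (Finset.mem_filter.mp hi).2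
          have h2 : Real.log D ^ k' ≤ ((i : ℝ) + 1) ^ k' := pow_le_pow_left₀ hlD.le h1 _
          rw [div_mul_div_comm, mul_one, hk', show k' + 1 + 1 = k' + 2 by ring, pow_add]
          apply div_le_div_of_nonneg_left hM0.le (by positivity)
          gcongr
      _ ≤ (M / Real.log D ^ k') * (2 / Real.log D) := by
          rw [← Finset.mul_sum]
          apply mul_le_mul_of_nonneg_left _ (by positivity)
          exact lemA2_tail _ hlD _
      _ = (108 * CA) * Λ ^ CA / Real.log D ^ 𝒜.card * P := by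
          rw [hM, hk', pow_succ]
          field_simp
          ring
      _ ≤ K * Λ ^ K / Real.log D ^ 𝒜.card * P := by
          have : 108 * CA ≤ K := by
            have : 0 < CE + CA := by positivity
            linarith
          gcongr

end P031
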