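import Vale.Agent.P031.Sieve
import Vale.Agent.P031.Smooth
import Vale.Agent.P031.Basic

/-!
# P031, module LEMA1: multiplicative weights over `d` with `A d + 1` prime

PROOF of `lemA` (`k = |𝒜|`).  Put `w = X^(1/(10 (1 + LL Z)))`.  If `w < e^4`, then
`log X ≤ 40 (1 + LL Z)` and the trivial bound `∑_{d ≤ X} f(d) ≤ C X (log X)^{1/2}·…` (`euler_bound`
with `∑ f(d) ≤ X ∑ f(d)/d`) suffices, as `(log X)^{1+k} ≤ (40 (1 + LL Z))^3`.  Otherwise split by
`r = P⁺(d)`.  (1) `r ≤ w`: `rankin_sum` with `v = 10 (1 + LL Z) ≥ 10 log log X`, so the contribution is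
`≤ C X (log X)^{-5}`.  (2) `r > w`: `d = h r`, `f(d) ≤ (3/2) f(h)`, `h ≤ X / w`; for given `h` the
number of primes `r ≤ X/h` with `(A h) r + 1` prime for all `A ∈ 𝒜` is, by `prime_tuple_bound` with
`Z² ` in place of `Z` (`A h ≤ Z²`, `X / h ≥ w ≥ 2`), at most
`C (2 + LL Z)^C (X/h) (10 (1 + LL Z) / log X)^{1+k}`; and `∑_{h ≤ X} f(h)/h` is bounded by
`euler_bound` (every `h ≤ X` is `X`-smooth).
-/

namespace P031

open scoped BigOperators

theorem lwt_cmul {z : ℕ → ℝ} (hz : ∀ s, 0 ≤ z s) : CMul (lwt z) := by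
  refine ⟨lwt_one z, lwt_mul z, fun n => ?_⟩
  unfold lwt
  split_ifs
  · exact le_rfl
  · apply List.prod_nonneg
    intro a ha
    obtain ⟨r, _, rfl⟩ := List.mem_map.mp ha
    exact hz _

/-- `∑_{h ≤ X} f(h)/h ≤ C exp (∑_{r ≤ X} f(r)/r)` -/
theorem lemA_euler : ∃ C : ℝ, 0 < C ∧ ∀ (X : ℝ) (f : ℕ → ℝ), 2 ≤ X → CMul f →
    (∀ r : ℕ, r.Prime → f r ≤ 3 / 2) →
    ∑ h ∈ Finset.Icc 1 ⌊X⌋₊, f h / (h : ℝ) ≤
      C * Real.exp (∑ r ∈ (Finset.Icc 1 ⌊X⌋₊).filter Nat.Prime, f r / (r : ℝ)) := by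
  have hsum : Summable (fun n : ℕ => (9 / 4 : ℝ) * (1 / (n : ℝ) ^ 2)) :=
    (Real.summable_one_div_nat_pow.mpr (by norm_num)).mul_left _
  obtain ⟨C, hC, h⟩ := euler_bound (∑' n : ℕ, (9 / 4 : ℝ) * (1 / (n : ℝ) ^ 2))
  refine ⟨C, hC, ?_⟩
  intro X f hX hf hr
  have h1 := h f X ⌊X⌋₊ hf hX ?_ ?_
  · refine le_trans (Finset.sum_le_sum fun n hn => ?_) h1
    obtain ⟨hn1, hn2⟩ := Finset.mem_Icc.mp hn
    have hsm : IsSm X n := by
      refine ⟨hn1, fun r _ hrn => ?_⟩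
      have h3 : r ≤ ⌊X⌋₊ := (Nat.le_of_dvd hn1 hrn).trans hn2
      exact (Nat.le_floor_iff (by linarith)).mp h3
    rw [Set.indicator_of_mem (show n ∈ {n | IsSm X n} from hsm)]
  · intro r hrp
    have hr2 : (2 : ℝ) ≤ r := by exact_mod_cast hrp.two_le
    rw [div_le_iff₀ (by linarith)]
    have := hr r hrp
    linarith
  · refine le_trans (Finset.sum_le_sum fun r hr' => ?_)
      (hsum.sum_le_tsum ((Finset.Icc 1 ⌊X⌋₊).filter Nat.Prime) fun n _ => by positivity)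
    have hrp := (Finset.mem_filter.mp hr').2
    have h2 := hr r hrp
    have h3 := hf.2.2 r
    rw [div_pow, mul_one_div]
    have : (f r) ^ 2 ≤ 9 / 4 := by nlinarith
    gcongr

/-- the double sum over `d = h r`, `r > w` -/
theorem lemA_split (X w : ℝ) [DecidablePred fun d => ¬ IsSm w d] (hX : 2 ≤ X) (𝒜 : Finset ℕ)
    (f : ℕ → ℝ) (hf : CMul f) (hr : ∀ r : ℕ, r.Prime → f r ≤ 3 / 2) :
    ∑ d ∈ ((Finset.Icc 1 ⌊X⌋₊).filter (fun d : ℕ => ∀ A ∈ 𝒜, (A * d + 1).Prime)).filter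
        (fun d => ¬ IsSm w d), f d ≤
      ∑ h ∈ Finset.Icc 1 ⌊X⌋₊, 3 / 2 * f h *
        (((Finset.Icc 1 ⌊X⌋₊).filter (fun r : ℕ => r.Prime ∧ w < r ∧ (h : ℝ) * r ≤ X ∧
          ∀ A ∈ 𝒜, (A * h * r + 1).Prime)).card : ℝ) := by
  classical
  have hX0 : 0 ≤ X := by linarith
  -- choose a prime factor
  have hex : ∀ d : ℕ, ∃ r : ℕ, (1 ≤ d ∧ ¬ IsSm w d) → r.Prime ∧ r ∣ d ∧ w < r := by
    intro d
    by_cases hd : 1 ≤ d ∧ ¬ IsSm w d
    · obtain ⟨h1, h2⟩ := hd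
      unfold IsSm at h2
      push Not at h2
      obtain ⟨r, hr1, hr2, hr3⟩ := h2 h1
      exact ⟨r, fun _ => ⟨hr1, hr2, hr3⟩⟩
    · exact ⟨0, fun h => absurd h hd⟩
  choose g hg using hex
  set S := ((Finset.Icc 1 ⌊X⌋₊).filter (fun d : ℕ => ∀ A ∈ 𝒜, (A * d + 1).Prime)).filter
        (fun d => ¬ IsSm w d) with hS
  set T := (Finset.Icc 1 ⌊X⌋₊ ×ˢ Finset.Icc 1 ⌊X⌋₊).filter (fun x : ℕ × ℕ => x.2.Prime ∧ w < x.2 ∧
    (x.1 : ℝ) * x.2 ≤ X ∧ ∀ A ∈ 𝒜, (A * x.1 * x.2 + 1).Prime) with hT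
  have hmul : ∀ d ∈ S, d / g d * g d = d := by
    intro d hd
    simp only [hS, Finset.mem_filter, Finset.mem_Icc] at hd
    exact Nat.div_mul_cancel (hg d ⟨hd.1.1.1, hd.2⟩).2.1
  have h1 : ∑ d ∈ S, f d = ∑ x ∈ S.image (fun d => (d / g d, g d)), f (x.1 * x.2) := by
    rw [Finset.sum_image]
    · exact Finset.sum_congr rfl fun d hd => by rw [hmul d hd]
    · intro d hd d' hd' hdd
      have e1 : d / g d = d' / g d' := congrArg Prod.fst hdd
      have e2 : g d = g d' := congrArg Prod.snd hdd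
      rw [← hmul d hd, ← hmul d' hd', e1, e2]
  have h2 : S.image (fun d => (d / g d, g d)) ⊆ T := by
    intro x hx
    obtain ⟨d, hd, rfl⟩ := Finset.mem_image.mp hx
    have hm := hmul d hd
    simp only [hS, Finset.mem_filter, Finset.mem_Icc] at hd
    obtain ⟨hp, hdv, hw⟩ := hg d ⟨hd.1.1.1, hd.2⟩
    simp only [hT, Finset.mem_filter, Finset.mem_product, Finset.mem_Icc]
    have hle : g d ≤ d := Nat.le_of_dvd hd.1.1.1 hdv
    refine ⟨⟨⟨?_, ?_⟩, ?_, ?_⟩, hp, hw, ?_, ?_⟩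
    · exact Nat.div_pos hle hp.pos
    · exact (Nat.div_le_self _ _).trans hd.1.1.2
    · exact hp.one_lt.le
    · exact hle.trans hd.1.1.2
    · have : ((d / g d * g d : ℕ) : ℝ) ≤ X := by
        rw [hm]
        exact (Nat.le_floor_iff hX0).mp hd.1.1.2
      push_cast at this
      exact_mod_cast this
    · intro A hA
      rw [mul_assoc, hm]
      exact hd.1.2 A hA
  rw [h1]
  calc ∑ x ∈ S.image (fun d => (d / g d, g d)), f (x.1 * x.2)
      ≤ ∑ x ∈ T, f (x.1 * x.2) :=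
        Finset.sum_le_sum_of_subset_of_nonneg h2 fun x _ _ => hf.2.2 _
    _ = ∑ h ∈ Finset.Icc 1 ⌊X⌋₊, ∑ r ∈ (Finset.Icc 1 ⌊X⌋₊).filter (fun r : ℕ => r.Prime ∧ w < r ∧
          (h : ℝ) * r ≤ X ∧ ∀ A ∈ 𝒜, (A * h * r + 1).Prime), f (h * r) := by
        rw [hT, Finset.sum_filter, Finset.sum_product]
        refine Finset.sum_congr rfl fun h _ => ?_
        rw [Finset.sum_filter]
    _ ≤ _ := by
        refine Finset.sum_le_sum fun h _ => ?_
        calc _ ≤ ∑ r ∈ (Finset.Icc 1 ⌊X⌋₊).filter (fun r : ℕ => r.Prime ∧ w < r ∧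
          (h : ℝ) * r ≤ X ∧ ∀ A ∈ 𝒜, (A * h * r + 1).Prime), 3 / 2 * f h := by
              refine Finset.sum_le_sum fun r hr' => ?_
              rw [hf.2.1]
              have h3 := hr r (Finset.mem_filter.mp hr').2.1
              have h4 := hf.2.2 h
              nlinarith
          _ = _ := by
              rw [Finset.sum_const, nsmul_eq_mul]
              ring

/-- the number of `r` for given `h` -/
theorem lemA_card : ∃ C : ℝ, 0 < C ∧ ∀ (Z X : ℝ) (𝒜 : Finset ℕ), 16 ≤ Z → 2 ≤ X → X ≤ Z →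
    𝒜.card ≤ 2 → (∀ A ∈ 𝒜, 1 ≤ A ∧ (A : ℝ) ≤ Z) → 40 * (1 + LL Z) ≤ Real.log X →
    ∀ h ∈ Finset.Icc 1 ⌊X⌋₊,
      (((Finset.Icc 1 ⌊X⌋₊).filter (fun r : ℕ => r.Prime ∧
          Real.exp (Real.log X / (10 * (1 + LL Z))) < r ∧ (h : ℝ) * r ≤ X ∧
          ∀ A ∈ 𝒜, (A * h * r + 1).Prime)).card : ℝ) ≤
        C * (1 + LL Z) ^ C * (X / h) / Real.log X ^ (1 + 𝒜.card) := by
  classical
  obtain ⟨C, hC, htup⟩ := prime_tuple_bound
  refine ⟨1000 * C * 2 ^ C + C + 3, by positivity, ?_⟩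
  intro Z X 𝒜 hZ hX hXZ hcard hA hL h hh
  obtain ⟨hh1, hh2⟩ := Finset.mem_Icc.mp hh
  set Λ := 1 + LL Z with hΛ
  have hLL := SieveAux.LL_pos hZ
  have hΛ2 : 2 ≤ Λ := by linarith
  set L := Real.log X with hLdef
  set w := Real.exp (L / (10 * Λ)) with hw
  have hL0 : 0 < L := by linarith
  have hX0 : 0 < X := by linarith
  have hh0 : (0 : ℝ) < h := by exact_mod_cast hh1
  set R := (Finset.Icc 1 ⌊X⌋₊).filter (fun r : ℕ => r.Prime ∧ w < r ∧ (h : ℝ) * r ≤ X ∧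
          ∀ A ∈ 𝒜, (A * h * r + 1).Prime) with hR
  rcases R.eq_empty_or_nonempty with hemp | ⟨r0, hr0⟩
  · rw [hemp, Finset.card_empty, Nat.cast_zero]
    positivity
  have hwX : w < X / h := by
    simp only [hR, Finset.mem_filter] at hr0
    rw [lt_div_iff₀ hh0]
    calc w * h < r0 * h := by
          apply mul_lt_mul_of_pos_right hr0.2.2.1 hh0
      _ = h * r0 := mul_comm _ _
      _ ≤ X := hr0.2.2.2.1
  have hlogw : L / (10 * Λ) ≤ Real.log (X / h) := by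
    rw [Real.le_log_iff_exp_le (by positivity)]
    exact hwX.le
  have h4 : 4 ≤ L / (10 * Λ) := by
    rw [le_div_iff₀ (by positivity)]
    linarith
  have hX2 : 2 ≤ X / h := by
    have h5 : Real.exp 4 ≤ w := Real.exp_le_exp.mpr h4
    have := Real.add_one_le_exp (4 : ℝ)
    linarith
  have hXhX : X / h ≤ X := div_le_self hX0.le (by exact_mod_cast hh1)
  have hZ2 : Z ≤ Z ^ 2 := by nlinarith
  have hcardeq : (𝒜.image (fun A => A * h)).card = 𝒜.card := by
    apply Finset.card_image_of_injective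
    intro a b hab
    exact Nat.eq_of_mul_eq_mul_right (by omega) hab
  have ht := htup (Z ^ 2) (X / h) (𝒜.image (fun A => A * h)) (by nlinarith) hX2
    (hXhX.trans (hXZ.trans hZ2)) (by rw [hcardeq]; exact hcard) (by
      intro A' hA'
      obtain ⟨A, hA1, rfl⟩ := Finset.mem_image.mp hA'
      obtain ⟨h5, h6⟩ := hA A hA1
      refine ⟨Nat.mul_pos h5 hh1, ?_⟩
      push_cast
      have h7 : (h : ℝ) ≤ Z := ((Nat.le_floor_iff hX0.le).mp hh2).trans hXZ
      rw [sq]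
      exact mul_le_mul h6 h7 hh0.le (by linarith))
  rw [hcardeq] at ht
  have hsub : R ⊆ (Finset.Icc 1 ⌊X / h⌋₊).filter
      (fun r => r.Prime ∧ ∀ A ∈ 𝒜.image (fun A => A * h), (A * r + 1).Prime) := by
    intro r hr
    simp only [hR, Finset.mem_filter, Finset.mem_Icc] at hr
    simp only [Finset.mem_filter, Finset.mem_Icc]
    refine ⟨⟨hr.1.1, ?_⟩, hr.2.1, ?_⟩
    · apply Nat.le_floor
      rw [le_div_iff₀ hh0, mul_comm]
      exact hr.2.2.2.1
    · intro A' hA'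
      obtain ⟨A, hA1, rfl⟩ := Finset.mem_image.mp hA'
      exact hr.2.2.2.2 A hA1
  have hc : (R.card : ℝ) ≤ _ := le_trans (by exact_mod_cast Finset.card_le_card hsub) ht
  refine hc.trans ?_
  -- numerics
  have hLLZ2 : 1 + LL (Z ^ 2) ≤ 2 * Λ := by
    unfold LL
    rw [Real.log_pow]
    have hlz : 0 < Real.log Z := Real.log_pos (by linarith)
    push_cast
    rw [Real.log_mul (by norm_num) hlz.ne']
    have : Real.log 2 ≤ 1 := by
      have := Real.log_two_lt_d9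
      linarith
    have e : LL Z = Real.log (Real.log Z) := rfl
    rw [hΛ, e]
    have : 0 ≤ LL Z := by linarith
    rw [e] at this
    linarith
  have hLLZ2' : 0 ≤ 1 + LL (Z ^ 2) := by
    have := SieveAux.LL_pos (Z := Z ^ 2) (by nlinarith)
    linarith
  have i1 : (1 + LL (Z ^ 2)) ^ C ≤ 2 ^ C * Λ ^ C := by
    rw [← Real.mul_rpow (by norm_num) (by linarith)]
    exact Real.rpow_le_rpow hLLZ2' hLLZ2 hC.le
  have i2 : L ^ (1 + 𝒜.card) / (10 * Λ) ^ (1 + 𝒜.card) ≤ Real.log (X / h) ^ (1 + 𝒜.card) := by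
    rw [← div_pow]
    exact pow_le_pow_left₀ (by positivity) hlogw _
  have i3 : (10 * Λ) ^ (1 + 𝒜.card) ≤ 1000 * Λ ^ (3 : ℝ) := by
    calc (10 * Λ) ^ (1 + 𝒜.card) ≤ (10 * Λ) ^ 3 :=
          pow_le_pow_right₀ (by linarith) (by omega)
      _ = 1000 * Λ ^ (3 : ℕ) := by ring
      _ = 1000 * Λ ^ (3 : ℝ) := by norm_cast
  have hLk : 0 < L ^ (1 + 𝒜.card) := by positivity
  have hk : 0 < (10 * Λ) ^ (1 + 𝒜.card) := by positivity
  have hlogpos : 0 < Real.log (X / h) := by linarith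
  have hlogk : 0 ≤ 1 / Real.log (X / h) ^ (1 + 𝒜.card) := by
    apply div_nonneg zero_le_one
    exact pow_nonneg hlogpos.le _
  have i4 : 1 / Real.log (X / h) ^ (1 + 𝒜.card) ≤ 1000 * Λ ^ (3 : ℝ) / L ^ (1 + 𝒜.card) := by
    calc 1 / Real.log (X / h) ^ (1 + 𝒜.card)
        ≤ 1 / (L ^ (1 + 𝒜.card) / (10 * Λ) ^ (1 + 𝒜.card)) :=
          one_div_le_one_div_of_le (by positivity) i2
      _ = (10 * Λ) ^ (1 + 𝒜.card) / L ^ (1 + 𝒜.card) := by
          field_simp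
      _ ≤ _ := by gcongr
  have hXh : 0 < X / h := by positivity
  calc C * (1 + LL (Z ^ 2)) ^ C * (X / h) / Real.log (X / h) ^ (1 + 𝒜.card)
      = (C * (1 + LL (Z ^ 2)) ^ C * (X / h)) * (1 / Real.log (X / h) ^ (1 + 𝒜.card)) := by ring
    _ ≤ (C * (2 ^ C * Λ ^ C) * (X / h)) * (1000 * Λ ^ (3 : ℝ) / L ^ (1 + 𝒜.card)) := by
        apply mul_le_mul _ i4 hlogk (by positivity)
        gcongr
    _ = (1000 * C * 2 ^ C) * Λ ^ (C + 3) * (X / h) / L ^ (1 + 𝒜.card) := by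
        rw [Real.rpow_add (by linarith)]
        ring
    _ ≤ (1000 * C * 2 ^ C + C + 3) * Λ ^ (1000 * C * 2 ^ C + C + 3) * (X / h) /
          L ^ (1 + 𝒜.card) := by
        have j1 : Λ ^ (C + 3) ≤ Λ ^ (1000 * C * 2 ^ C + C + 3) := by
          apply Real.rpow_le_rpow_of_exponent_le (by linarith)
          have : 0 < 1000 * C * 2 ^ C := by positivity
          linarith
        have j2 : 1000 * C * 2 ^ C ≤ 1000 * C * 2 ^ C + C + 3 := by linarith
        gcongr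

theorem lemA : ∃ C : ℝ, 0 < C ∧ ∀ (Z X : ℝ) (𝒜 : Finset ℕ) (f : ℕ → ℝ), 16 ≤ Z → 2 ≤ X → X ≤ Z →
    𝒜.card ≤ 2 → (∀ A ∈ 𝒜, 1 ≤ A ∧ (A : ℝ) ≤ Z) → CMul f → (∀ r : ℕ, r.Prime → f r ≤ 3 / 2) →
    ∑ d ∈ (Finset.Icc 1 ⌊X⌋₊).filter (fun d : ℕ => ∀ A ∈ 𝒜, (A * d + 1).Prime), f d ≤
      C * (1 + LL Z) ^ C * X / Real.log X ^ (1 + 𝒜.card) *
        Real.exp (∑ r ∈ (Finset.Icc 1 ⌊X⌋₊).filter Nat.Prime, f r / (r : ℝ)) := by
  classical
  obtain ⟨CE, hCE, heul⟩ := lemA_euler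
  obtain ⟨CR, hCR, hran⟩ := rankin_sum
  obtain ⟨CT, hCT, htup⟩ := lemA_card
  set K : ℝ := 64000 * CE + CR + 3 / 2 * CT * CE + CT + 3 with hK
  refine ⟨K, by positivity, ?_⟩
  intro Z X 𝒜 f hZ hX hXZ hcard hA hf hr
  set Λ := 1 + LL Z with hΛ
  have hLL := SieveAux.LL_pos hZ
  have hΛ2 : 2 ≤ Λ := by linarith
  set L := Real.log X with hLdef
  have hX0 : 0 < X := by linarith
  have hL0 : 0 < L := Real.log_pos (by linarith)
  set P := Real.exp (∑ r ∈ (Finset.Icc 1 ⌊X⌋₊).filter Nat.Prime, f r / (r : ℝ)) with hP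
  have hP1 : 1 ≤ P := by
    apply Real.one_le_exp
    exact Finset.sum_nonneg fun r _ => div_nonneg (hf.2.2 r) (Nat.cast_nonneg r)
  have heulX := heul X f hX hf hr
  rw [← hP] at heulX
  have hΛK : ∀ a : ℝ, a ≤ K → Λ ^ a ≤ Λ ^ K := fun a ha =>
    Real.rpow_le_rpow_of_exponent_le (by linarith) ha
  have hK3 : 3 ≤ K := by
    have : 0 < 64000 * CE + CR + 3 / 2 * CT * CE + CT := by positivity
    linarith
  rcases lt_or_ge L (40 * Λ) with hsmall | hbig
  · -- small X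
    have h1 : ∑ d ∈ (Finset.Icc 1 ⌊X⌋₊).filter (fun d : ℕ => ∀ A ∈ 𝒜, (A * d + 1).Prime), f d ≤
        X * (CE * P) := by
      calc _ ≤ ∑ d ∈ Finset.Icc 1 ⌊X⌋₊, f d :=
            Finset.sum_le_sum_of_subset_of_nonneg (Finset.filter_subset _ _)
              fun d _ _ => hf.2.2 d
        _ ≤ ∑ d ∈ Finset.Icc 1 ⌊X⌋₊, X * (f d / (d : ℝ)) := by
            refine Finset.sum_le_sum fun d hd => ?_
            obtain ⟨hd1, hd2⟩ := Finset.mem_Icc.mp hd
            have hd0 : (0 : ℝ) < d := by exact_mod_cast hd1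
            have hdX : (d : ℝ) ≤ X := (Nat.le_floor_iff hX0.le).mp hd2
            rw [mul_div_assoc', le_div_iff₀ hd0]
            have := hf.2.2 d
            nlinarith
        _ ≤ X * (CE * P) := by
            rw [← Finset.mul_sum]
            gcongr
    refine h1.trans ?_
    have h2 : L ^ (1 + 𝒜.card) ≤ 64000 * Λ ^ (3 : ℝ) := by
      calc L ^ (1 + 𝒜.card) ≤ (40 * Λ) ^ (1 + 𝒜.card) :=
            pow_le_pow_left₀ hL0.le hsmall.le _
        _ ≤ (40 * Λ) ^ 3 := pow_le_pow_right₀ (by linarith) (by omega)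
        _ = 64000 * Λ ^ (3 : ℕ) := by ring
        _ = 64000 * Λ ^ (3 : ℝ) := by norm_cast
    have h3 : CE * L ^ (1 + 𝒜.card) ≤ K * Λ ^ K := by
      calc CE * L ^ (1 + 𝒜.card) ≤ CE * (64000 * Λ ^ (3 : ℝ)) := by gcongr
        _ = (64000 * CE) * Λ ^ (3 : ℝ) := by ring
        _ ≤ K * Λ ^ K := by
            apply mul_le_mul _ (hΛK 3 hK3) (by positivity) (by positivity)
            have : 0 < CR + 3 / 2 * CT * CE + CT + 3 := by positivity
            linarith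
    have h4 : CE ≤ K * Λ ^ K / L ^ (1 + 𝒜.card) := by
      rw [le_div_iff₀ (by positivity)]
      exact h3
    calc X * (CE * P) = CE * X * P := by ring
      _ ≤ (K * Λ ^ K / L ^ (1 + 𝒜.card)) * X * P := by gcongr
      _ = _ := by ring
  · -- large X
    set w := Real.exp (L / (10 * Λ)) with hw
    have hlogw : Real.log w = L / (10 * Λ) := Real.log_exp _
    have hL1 : 1 ≤ L := by linarith
    rw [← Finset.sum_filter_add_sum_filter_not _ (fun d => IsSm w d)]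
    have hsm : ∑ d ∈ ((Finset.Icc 1 ⌊X⌋₊).filter (fun d : ℕ => ∀ A ∈ 𝒜, (A * d + 1).Prime)).filter
        (fun d => IsSm w d), f d ≤ CR * X / L ^ (1 + 𝒜.card) := by
      have hw4 : Real.exp 4 ≤ w := by
        apply Real.exp_le_exp.mpr
        rw [le_div_iff₀ (by positivity)]
        linarith
      have h1 := hran f w X (10 * Λ) hf hr hw4 (by linarith) hX (by
        rw [hlogw]
        apply le_of_eq
        field_simp
        exact hLdef)
      have h2 : ∑ d ∈ ((Finset.Icc 1 ⌊X⌋₊).filter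
          (fun d : ℕ => ∀ A ∈ 𝒜, (A * d + 1).Prime)).filter (fun d => IsSm w d), f d ≤
          ∑ n ∈ Finset.Icc 1 ⌊X⌋₊, Set.indicator {n | IsSm w n} f n := by
        rw [Finset.filter_filter, Finset.sum_filter]
        refine Finset.sum_le_sum fun d _ => ?_
        by_cases hd : IsSm w d
        · rw [Set.indicator_of_mem (show d ∈ {n | IsSm w n} from hd)]
          split_ifs
          · exact le_rfl
          · exact hf.2.2 d
        · rw [if_neg (fun h => hd h.2),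
            Set.indicator_of_notMem (show d ∉ {n | IsSm w n} from hd)]
      refine h2.trans (h1.trans ?_)
      have h3 : Real.exp (-(10 * Λ)) ≤ 1 / L ^ 10 := by
        have hlz : 0 < Real.log Z := Real.log_pos (by linarith)
        have hLZ : L ≤ Real.log Z := Real.log_le_log hX0 hXZ
        have h5 : L ≤ Real.exp Λ := by
          calc L ≤ Real.log Z := hLZ
            _ = Real.exp (LL Z) := (Real.exp_log hlz).symm
            _ ≤ Real.exp Λ := Real.exp_le_exp.mpr (by linarith)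
        rw [Real.exp_neg, one_div]
        apply inv_anti₀ (by positivity)
        calc L ^ 10 ≤ Real.exp Λ ^ 10 := pow_le_pow_left₀ hL0.le h5 _
          _ = Real.exp (10 * Λ) := by
              rw [← Real.exp_nat_mul]
              norm_num
      have h4 : Real.log w ^ (5 : ℕ) ≤ L ^ 5 := by
        rw [hlogw]
        apply pow_le_pow_left₀ (by positivity)
        apply div_le_self hL0.le
        linarith
      have h5 : 1 / L ^ 10 * L ^ 5 ≤ 1 / L ^ (1 + 𝒜.card) := by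
        rw [div_mul_eq_mul_div, one_mul, div_le_div_iff₀ (by positivity) (by positivity), one_mul,
          ← pow_add]
        exact pow_le_pow_right₀ hL1 (by omega)
      have h6 : 0 ≤ Real.log w ^ (5 : ℕ) := by
        rw [hlogw]
        positivity
      calc CR * X * Real.exp (-(10 * Λ)) * Real.log w ^ (5 : ℕ)
          ≤ CR * X * (1 / L ^ 10) * L ^ 5 := by gcongr
        _ = CR * X * (1 / L ^ 10 * L ^ 5) := by ring
        _ ≤ CR * X * (1 / L ^ (1 + 𝒜.card)) := by gcongr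
        _ = _ := by ring
    have hns : ∑ d ∈ ((Finset.Icc 1 ⌊X⌋₊).filter (fun d : ℕ => ∀ A ∈ 𝒜, (A * d + 1).Prime)).filter
        (fun d => ¬ IsSm w d), f d ≤
        (3 / 2 * CT * CE) * Λ ^ CT * X / L ^ (1 + 𝒜.card) * P := by
      refine (lemA_split X w hX 𝒜 f hf hr).trans ?_
      calc _ ≤ ∑ h ∈ Finset.Icc 1 ⌊X⌋₊, (3 / 2 * CT * Λ ^ CT * X / L ^ (1 + 𝒜.card)) *
              (f h / (h : ℝ)) := by
            refine Finset.sum_le_sum fun h hh => ?_
            have h1 := htup Z X 𝒜 hZ hX hXZ hcard hA hbig h hh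
            have h2 := hf.2.2 h
            calc _ ≤ 3 / 2 * f h * (CT * (1 + LL Z) ^ CT * (X / h) / Real.log X ^ (1 + 𝒜.card)) :=
                  mul_le_mul_of_nonneg_left h1 (by positivity)
              _ = _ := by
                  rw [← hΛ, ← hLdef]
                  ring
        _ ≤ (3 / 2 * CT * Λ ^ CT * X / L ^ (1 + 𝒜.card)) * (CE * P) := by
            rw [← Finset.mul_sum]
            gcongr
        _ = _ := by ring
    have hA0 : 0 < X / L ^ (1 + 𝒜.card) := by positivity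
    have h1K : 1 ≤ Λ ^ K := Real.one_le_rpow (by linarith) (by positivity)
    have hTK : Λ ^ CT ≤ Λ ^ K := by
      apply hΛK
      have : 0 < 64000 * CE + CR + 3 / 2 * CT * CE + 3 := by positivity
      linarith
    calc _ ≤ CR * X / L ^ (1 + 𝒜.card) + (3 / 2 * CT * CE) * Λ ^ CT * X / L ^ (1 + 𝒜.card) * P :=
          add_le_add hsm hns
      _ = (CR * 1 * 1 + (3 / 2 * CT * CE) * Λ ^ CT * P) * (X / L ^ (1 + 𝒜.card)) := by ring
      _ ≤ (CR * Λ ^ K * P + (3 / 2 * CT * CE) * Λ ^ K * P) * (X / L ^ (1 + 𝒜.card)) := by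
          gcongr
      _ = (CR + 3 / 2 * CT * CE) * (Λ ^ K * P * (X / L ^ (1 + 𝒜.card))) := by ring
      _ ≤ K * (Λ ^ K * P * (X / L ^ (1 + 𝒜.card))) := by
          apply mul_le_mul_of_nonneg_right _ (by positivity)
          have : 0 < 64000 * CE + CT + 3 := by positivity
          linarith
      _ = _ := by ring

end P031
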