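import Vale.Agent.P031.Smooth
import Vale.Agent.P031.Basic

/-!
# P031, module LEMB: sums of completely multiplicative functions with large values at large primes

PROOF.  `∑_{v ≤ X} f(v) log v = ∑_{v ≤ X} f(v) ∑_{r^a ∣ v, a ≥ 1} log r
≤ ∑_{w ≤ X} f(w) ∑_{r^a ≤ X/w} f(r)^a log r`, and `∑_{r^a ≤ Y} f(r)^a log r ≤ C F Y`
(`a = 1`: Chebyshev; `a ≥ 2`, `r ≥ y ≥ 4F²`: `f(r)^a ≤ F^a ≤ r^{a/2} 2^{-a}`; `r < y`: `f(r)^a ≤ (3/2)^a`).
Also `∑ f(v) log (X/v) ≤ X ∑ f(v)/v`.  Hence `∑_{v ≤ X} f(v) ≤ C F (X / log X) ∑_{v ≤ X} f(v)/v` and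
`euler_bound` applies.
-/

namespace P031

open scoped BigOperators

theorem lb_ratio {F y : ℝ} {f : ℕ → ℝ} (hF : 1 ≤ F) (hy : 4 * F ^ 2 ≤ y)
    (h1 : ∀ r : ℕ, r.Prime → f r ≤ 2 * F)
    (h2 : ∀ r : ℕ, r.Prime → (r : ℝ) < 16 * y → f r ≤ 3 / 2)
    (r : ℕ) (hr : r.Prime) : f r / r ≤ 3 / 4 := by
  have hr2 : (2 : ℝ) ≤ r := by exact_mod_cast hr.two_le
  rw [div_le_iff₀ (by linarith)]
  have hFF : F ≤ F ^ 2 := by nlinarith
  rcases lt_or_ge (r : ℝ) (16 * y) with h | h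
  · have := h2 r hr h
    linarith
  · have := h1 r hr
    linarith

theorem lb_inv_sq (k N : ℕ) : ∑ r ∈ Finset.Ioo k (N + 1), ((r : ℝ) ^ 2)⁻¹ ≤ 2 / ((k : ℝ) + 1) :=
  sum_Ioo_inv_sq_le k (N + 1)

theorem lb_sq {F y : ℝ} {f : ℕ → ℝ} (hF : 1 ≤ F) (hy : 4 * F ^ 2 ≤ y) (hf : ∀ n, 0 ≤ f n)
    (h1 : ∀ r : ℕ, r.Prime → f r ≤ 2 * F)
    (h2 : ∀ r : ℕ, r.Prime → (r : ℝ) < 16 * y → f r ≤ 3 / 2) (N : ℕ) :
    ∑ r ∈ (Finset.Icc 1 N).filter Nat.Prime, (f r / r) ^ 2 ≤ 5 := by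
  have hFF : 1 ≤ F ^ 2 := by nlinarith
  have hy16 : 64 ≤ 16 * y := by linarith
  obtain ⟨k, hk⟩ : ∃ k, ⌈16 * y⌉₊ = k + 1 := by
    refine ⟨⌈16 * y⌉₊ - 1, ?_⟩
    have : 0 < ⌈16 * y⌉₊ := Nat.ceil_pos.mpr (by linarith)
    omega
  have hk' : 16 * y ≤ (k : ℝ) + 1 := by
    have := Nat.le_ceil (16 * y)
    rw [hk] at this
    push_cast at this
    exact this
  have hterm : ∀ r ∈ (Finset.Icc 1 N).filter Nat.Prime, (f r / r) ^ 2 ≤
      9 / 4 * ((r : ℝ) ^ 2)⁻¹ + (if k < r then 4 * F ^ 2 * ((r : ℝ) ^ 2)⁻¹ else 0) := by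
    intro r hr
    have hrp := (Finset.mem_filter.mp hr).2
    have hr0 : (0 : ℝ) < (r : ℝ) := by exact_mod_cast hrp.pos
    have hinv : 0 < ((r : ℝ) ^ 2)⁻¹ := by positivity
    rw [div_pow, div_eq_mul_inv]
    rcases lt_or_ge (r : ℝ) (16 * y) with h | h
    · have h3 : f r ^ 2 ≤ 9 / 4 := by
        have := h2 r hrp h
        have h0 := hf r
        nlinarith
      have h4 : f r ^ 2 * ((r : ℝ) ^ 2)⁻¹ ≤ 9 / 4 * ((r : ℝ) ^ 2)⁻¹ :=
        mul_le_mul_of_nonneg_right h3 hinv.le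
      have h5 : (0 : ℝ) ≤ if k < r then 4 * F ^ 2 * ((r : ℝ) ^ 2)⁻¹ else 0 := by
        split_ifs
        · positivity
        · exact le_refl _
      linarith
    · have h3 : f r ^ 2 ≤ 4 * F ^ 2 := by
        have := h1 r hrp
        have h0 := hf r
        nlinarith
      have h4 : f r ^ 2 * ((r : ℝ) ^ 2)⁻¹ ≤ 4 * F ^ 2 * ((r : ℝ) ^ 2)⁻¹ :=
        mul_le_mul_of_nonneg_right h3 hinv.le
      have hkr : k < r := by
        have : ⌈16 * y⌉₊ ≤ r := Nat.ceil_le.mpr h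
        omega
      rw [if_pos hkr]
      have : 0 ≤ 9 / 4 * ((r : ℝ) ^ 2)⁻¹ := by positivity
      linarith
  refine (Finset.sum_le_sum hterm).trans ?_
  rw [Finset.sum_add_distrib, ← Finset.mul_sum]
  have hA : ∑ r ∈ (Finset.Icc 1 N).filter Nat.Prime, ((r : ℝ) ^ 2)⁻¹ ≤ 2 := by
    have h3 := lb_inv_sq 0 N
    have h4 : ∑ r ∈ (Finset.Icc 1 N).filter Nat.Prime, ((r : ℝ) ^ 2)⁻¹ ≤
        ∑ r ∈ Finset.Ioo 0 (N + 1), ((r : ℝ) ^ 2)⁻¹ := by
      refine Finset.sum_le_sum_of_subset_of_nonneg ?_ (fun r _ _ => by positivity)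
      intro r hr
      have := (Finset.mem_Icc.mp (Finset.mem_filter.mp hr).1)
      exact Finset.mem_Ioo.mpr ⟨by omega, by omega⟩
    refine (h4.trans h3).trans ?_
    norm_num
  have hB : ∑ r ∈ (Finset.Icc 1 N).filter Nat.Prime,
      (if k < r then 4 * F ^ 2 * ((r : ℝ) ^ 2)⁻¹ else 0) ≤ 1 / 2 := by
    rw [← Finset.sum_filter, ← Finset.mul_sum]
    have h3 := lb_inv_sq k N
    have h4 : ∑ r ∈ ((Finset.Icc 1 N).filter Nat.Prime).filter (fun r => k < r),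
        ((r : ℝ) ^ 2)⁻¹ ≤ ∑ r ∈ Finset.Ioo k (N + 1), ((r : ℝ) ^ 2)⁻¹ := by
      refine Finset.sum_le_sum_of_subset_of_nonneg ?_ (fun r _ _ => by positivity)
      intro r hr
      have h5 := (Finset.mem_filter.mp hr).2
      have := (Finset.mem_Icc.mp (Finset.mem_filter.mp (Finset.mem_filter.mp hr).1).1)
      exact Finset.mem_Ioo.mpr ⟨by omega, by omega⟩
    have h5 : (2 : ℝ) / ((k : ℝ) + 1) ≤ 2 / (64 * F ^ 2) := by
      apply div_le_div_of_nonneg_left (by norm_num) (by positivity)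
      linarith
    calc 4 * F ^ 2 * ∑ r ∈ ((Finset.Icc 1 N).filter Nat.Prime).filter (fun r => k < r),
        ((r : ℝ) ^ 2)⁻¹ ≤ 4 * F ^ 2 * (2 / (64 * F ^ 2)) :=
          mul_le_mul_of_nonneg_left ((h4.trans h3).trans h5) (by positivity)
      _ = 1 / 8 := by
          have : F ^ 2 ≠ 0 := by positivity
          field_simp
          norm_num
      _ ≤ 1 / 2 := by norm_num
  linarith

/-- the logarithmic version without the factor `1/log X` -/
theorem lemB_log : ∃ C : ℝ, 0 < C ∧ ∀ (F y : ℝ) (N : ℕ) (f : ℕ → ℝ), 1 ≤ F → 4 * F ^ 2 ≤ y → CMul f →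
    (∀ r : ℕ, r.Prime → f r ≤ 2 * F) → (∀ r : ℕ, r.Prime → (r : ℝ) < 16 * y → f r ≤ 3 / 2) →
    ∑ v ∈ Finset.Icc 1 N, f v / (v : ℝ) ≤
      C * Real.exp (∑ r ∈ (Finset.Icc 1 N).filter Nat.Prime, f r / (r : ℝ)) := by
  obtain ⟨C₀, hC₀, hE⟩ := euler_bound 5
  refine ⟨max C₀ 1, lt_max_of_lt_left hC₀, ?_⟩
  intro F y N f hF hy hf h1 h2
  have hexp0 : 0 ≤ ∑ r ∈ (Finset.Icc 1 N).filter Nat.Prime, f r / (r : ℝ) :=
    Finset.sum_nonneg fun r _ => div_nonneg (hf.2.2 r) (Nat.cast_nonneg r)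
  rcases lt_or_ge N 2 with hN | hN
  · have h3 : ∑ v ∈ Finset.Icc 1 N, f v / (v : ℝ) ≤ 1 := by
      interval_cases N
      · simp
      · simp [hf.1]
    have h4 : 1 ≤ max C₀ 1 * Real.exp (∑ r ∈ (Finset.Icc 1 N).filter Nat.Prime, f r / (r : ℝ)) := by
      have h5 : (1 : ℝ) ≤ max C₀ 1 := le_max_right _ _
      have h6 := Real.one_le_exp hexp0
      nlinarith
    exact h3.trans h4
  · have h3 := hE f (N : ℝ) N hf (by exact_mod_cast hN) (lb_ratio hF hy h1 h2)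
      (by rw [Nat.floor_natCast]; exact lb_sq hF hy hf.2.2 h1 h2 N)
    rw [Nat.floor_natCast] at h3
    have h4 : ∑ v ∈ Finset.Icc 1 N, f v / (v : ℝ) =
        ∑ n ∈ Finset.Icc 1 N, Set.indicator {n | IsSm (N : ℝ) n} (fun n => f n / (n : ℝ)) n := by
      refine Finset.sum_congr rfl fun n hn => ?_
      obtain ⟨hn1, hn2⟩ := Finset.mem_Icc.mp hn
      rw [Set.indicator_of_mem]
      refine ⟨hn1, fun r _ hrn => ?_⟩
      exact_mod_cast (Nat.le_of_dvd (by omega) hrn).trans hn2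
    rw [h4]
    refine h3.trans ?_
    exact mul_le_mul_of_nonneg_right (le_max_left _ _) (Real.exp_pos _).le

theorem lb_T1 (f : ℕ → ℝ) (hf : CMul f) (N : ℕ) :
    ∑ v ∈ Finset.Ioc 0 N, f v * Real.log v =
      ∑ w ∈ Finset.Ioc 0 N, f w * ∑ d ∈ Finset.Ioc 0 (N / w),
        ArithmeticFunction.vonMangoldt d * f d := by
  obtain ⟨fA, hfA⟩ : ∃ fA : ArithmeticFunction ℝ, ∀ n, fA n = if n = 0 then 0 else f n :=
    ⟨⟨fun n => if n = 0 then 0 else f n, by simp⟩, fun n => rfl⟩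
  obtain ⟨gA, hgA⟩ : ∃ gA : ArithmeticFunction ℝ, ∀ n,
      gA n = ArithmeticFunction.vonMangoldt n * f n :=
    ⟨⟨fun n => ArithmeticFunction.vonMangoldt n * f n, by simp⟩, fun n => rfl⟩
  have h := ArithmeticFunction.sum_Ioc_mul_eq_sum_sum fA gA N
  have h1 : ∀ v ∈ Finset.Ioc 0 N, (fA * gA) v = f v * Real.log v := by
    intro v hv
    have hv0 := (Finset.mem_Ioc.mp hv).1
    rw [ArithmeticFunction.mul_apply, ← ArithmeticFunction.vonMangoldt_sum, Finset.mul_sum,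
      ← Nat.sum_divisorsAntidiagonal' (fun _ b => f v * ArithmeticFunction.vonMangoldt b)]
    refine Finset.sum_congr rfl fun x hx => ?_
    obtain ⟨hx1, hx2⟩ := Nat.mem_divisorsAntidiagonal.mp hx
    have hx0 : x.1 ≠ 0 := by
      intro h0
      rw [h0, zero_mul] at hx1
      omega
    rw [hfA, hgA, if_neg hx0, ← hx1, hf.2.1]
    ring
  rw [← Finset.sum_congr rfl h1, h]
  refine Finset.sum_congr rfl fun w hw => ?_
  have hw0 := (Finset.mem_Ioc.mp hw).1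
  rw [hfA, if_neg (by omega)]
  congr 1
  exact Finset.sum_congr rfl fun d _ => hgA d

theorem cmul_pow {f : ℕ → ℝ} (hf : CMul f) (p k : ℕ) : f (p ^ k) = f p ^ k := by
  induction k with
  | zero => simp [hf.1]
  | succ k ih => rw [pow_succ, hf.2.1, ih, pow_succ]

/-- the inner bound for one exponent -/
theorem lb_inner {F y : ℝ} {f : ℕ → ℝ} (hF : 1 ≤ F) (hy : 4 * F ^ 2 ≤ y) (hf : ∀ n, 0 ≤ f n)
    (h1 : ∀ r : ℕ, r.Prime → f r ≤ 2 * F)
    (h2 : ∀ r : ℕ, r.Prime → (r : ℝ) < 16 * y → f r ≤ 3 / 2) (x : ℝ) (hx : 1 ≤ x) (k : ℕ)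
    (hk : 1 ≤ k) (hkx : (2 : ℝ) ^ k ≤ x) :
    ∑ p ∈ (Finset.Ioc 0 ⌊x ^ ((1 : ℝ) / k)⌋₊).filter Nat.Prime, Real.log p * f p ^ k ≤
      3 * F * Real.log 4 * x * (3 / 4) ^ k := by
  obtain ⟨u, hu⟩ : ∃ u : ℝ, u = x ^ ((1 : ℝ) / k) := ⟨_, rfl⟩
  have hk0 : (k : ℝ) ≠ 0 := by
    have : (k : ℝ) ≥ 1 := by exact_mod_cast hk
    linarith
  have hx0 : 0 ≤ x := by linarith
  have hu0 : 0 ≤ u := by rw [hu]; exact Real.rpow_nonneg hx0 _
  have huk : u ^ k = x := by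
    rw [hu, ← Real.rpow_natCast, ← Real.rpow_mul hx0, one_div, inv_mul_cancel₀ hk0, Real.rpow_one]
  have hu2 : 2 ≤ u := by
    by_contra hlt
    push Not at hlt
    have := pow_lt_pow_left₀ hlt hu0 (by omega : k ≠ 0)
    linarith [huk]
  have hlog4 : 0 < Real.log 4 := Real.log_pos (by norm_num)
  have hth := Chebyshev.theta_le_log4_mul_x hu0
  have hthdef : Chebyshev.theta u = ∑ p ∈ (Finset.Ioc 0 ⌊u⌋₊).filter Nat.Prime, Real.log p := rfl
  rw [hthdef] at hth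
  rw [← hu]
  have hlogp : ∀ p ∈ (Finset.Ioc 0 ⌊u⌋₊).filter Nat.Prime, 0 ≤ Real.log p := by
    intro p hp
    exact Real.log_nonneg (by exact_mod_cast (Finset.mem_filter.mp hp).2.one_lt.le)
  rcases Nat.eq_or_lt_of_le hk with hk1 | hk2
  · -- `k = 1`
    rw [← hk1] at huk ⊢
    rw [pow_one] at huk
    have h3 : ∑ p ∈ (Finset.Ioc 0 ⌊u⌋₊).filter Nat.Prime, Real.log p * f p ^ 1 ≤
        ∑ p ∈ (Finset.Ioc 0 ⌊u⌋₊).filter Nat.Prime, Real.log p * (2 * F) := by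
      refine Finset.sum_le_sum fun p hp => ?_
      rw [pow_one]
      exact mul_le_mul_of_nonneg_left (h1 p (Finset.mem_filter.mp hp).2) (hlogp p hp)
    rw [← Finset.sum_mul] at h3
    have h4 : (∑ p ∈ (Finset.Ioc 0 ⌊u⌋₊).filter Nat.Prime, Real.log p) * (2 * F) ≤
        Real.log 4 * u * (2 * F) := mul_le_mul_of_nonneg_right hth (by linarith)
    refine h3.trans (h4.trans ?_)
    rw [huk, pow_one]
    have : 0 ≤ Real.log 4 * x * F := by positivity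
    nlinarith
  · -- `k ≥ 2`
    have hus : u ^ 2 ≤ x := by
      rw [← huk]
      exact pow_le_pow_right₀ (by linarith) hk2
    have husq : u ≤ Real.sqrt x := Real.le_sqrt_of_sq_le hus
    have hpt : ∀ p ∈ (Finset.Ioc 0 ⌊u⌋₊).filter Nat.Prime,
        f p ^ k ≤ (3 / 2) ^ k + Real.sqrt x * (1 / 4) ^ k := by
      intro p hp
      have hpp := (Finset.mem_filter.mp hp).2
      have hpu : (p : ℝ) ≤ u := by
        have := (Finset.mem_Ioc.mp (Finset.mem_filter.mp hp).1).2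
        exact (Nat.le_floor_iff hu0).mp this
      have hp0 : (0 : ℝ) ≤ p := Nat.cast_nonneg p
      have hs0 := Real.sqrt_nonneg x
      rcases lt_or_ge (p : ℝ) (16 * y) with h | h
      · have h3 : f p ^ k ≤ (3 / 2) ^ k := pow_le_pow_left₀ (hf p) (h2 p hpp h) k
        have : 0 ≤ Real.sqrt x * (1 / 4) ^ k := by positivity
        linarith
      · have h3 : f p ≤ Real.sqrt p * (1 / 4) := by
          have h4 := h1 p hpp
          have h5 : 8 * F ≤ Real.sqrt p := by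
            apply Real.le_sqrt_of_sq_le
            nlinarith
          linarith
        have h4 : f p ^ k ≤ (Real.sqrt p * (1 / 4)) ^ k := pow_le_pow_left₀ (hf p) h3 k
        have h5 : Real.sqrt p ^ k ≤ Real.sqrt x := by
          apply Real.le_sqrt_of_sq_le
          rw [← pow_mul, mul_comm, pow_mul, Real.sq_sqrt hp0, ← huk]
          exact pow_le_pow_left₀ hp0 hpu k
        rw [mul_pow] at h4
        have h6 : Real.sqrt p ^ k * (1 / 4) ^ k ≤ Real.sqrt x * (1 / 4) ^ k :=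
          mul_le_mul_of_nonneg_right h5 (by positivity)
        have : (0 : ℝ) ≤ (3 / 2) ^ k := by positivity
        linarith
    have h3 : ∑ p ∈ (Finset.Ioc 0 ⌊u⌋₊).filter Nat.Prime, Real.log p * f p ^ k ≤
        ∑ p ∈ (Finset.Ioc 0 ⌊u⌋₊).filter Nat.Prime,
          Real.log p * ((3 / 2) ^ k + Real.sqrt x * (1 / 4) ^ k) := by
      refine Finset.sum_le_sum fun p hp => ?_
      exact mul_le_mul_of_nonneg_left (hpt p hp) (hlogp p hp)
    rw [← Finset.sum_mul] at h3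
    have hs0 := Real.sqrt_nonneg x
    have hpos : (0 : ℝ) ≤ (3 / 2) ^ k + Real.sqrt x * (1 / 4) ^ k := by positivity
    have h4 : (∑ p ∈ (Finset.Ioc 0 ⌊u⌋₊).filter Nat.Prime, Real.log p) *
        ((3 / 2) ^ k + Real.sqrt x * (1 / 4) ^ k) ≤
        Real.log 4 * u * ((3 / 2) ^ k + Real.sqrt x * (1 / 4) ^ k) :=
      mul_le_mul_of_nonneg_right hth hpos
    refine h3.trans (h4.trans ?_)
    have h5 : u * (3 / 2) ^ k ≤ 2 * x * (3 / 4) ^ k := by
      have h6 : (3 / 2 : ℝ) ^ k = 2 ^ k * (3 / 4) ^ k := by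
        rw [← mul_pow]
        norm_num
      rw [h6, ← mul_assoc]
      refine mul_le_mul_of_nonneg_right ?_ (by positivity)
      obtain ⟨j, hj⟩ : ∃ j, k = j + 1 := ⟨k - 1, by omega⟩
      rw [← huk, hj, pow_succ, pow_succ]
      have h7 : (2 : ℝ) ^ j ≤ u ^ j := pow_le_pow_left₀ (by norm_num) hu2 j
      nlinarith
    have h6 : u * (Real.sqrt x * (1 / 4) ^ k) ≤ x * (3 / 4) ^ k := by
      have h7 : u * Real.sqrt x ≤ x := by
        calc u * Real.sqrt x ≤ Real.sqrt x * Real.sqrt x :=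
              mul_le_mul_of_nonneg_right husq hs0
          _ = x := Real.mul_self_sqrt hx0
      have h8 : (1 / 4 : ℝ) ^ k ≤ (3 / 4) ^ k :=
        pow_le_pow_left₀ (by norm_num) (by norm_num) k
      rw [← mul_assoc]
      exact mul_le_mul h7 h8 (by positivity) hx0
    have h9 : u * ((3 / 2) ^ k + Real.sqrt x * (1 / 4) ^ k) ≤ 3 * x * (3 / 4) ^ k := by
      rw [mul_add]
      linarith
    calc Real.log 4 * u * ((3 / 2) ^ k + Real.sqrt x * (1 / 4) ^ k) =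
        Real.log 4 * (u * ((3 / 2) ^ k + Real.sqrt x * (1 / 4) ^ k)) := by ring
      _ ≤ Real.log 4 * (3 * x * (3 / 4) ^ k) := mul_le_mul_of_nonneg_left h9 hlog4.le
      _ = 1 * (3 * Real.log 4 * x * (3 / 4) ^ k) := by ring
      _ ≤ F * (3 * Real.log 4 * x * (3 / 4) ^ k) :=
          mul_le_mul_of_nonneg_right hF (by positivity)
      _ = 3 * F * Real.log 4 * x * (3 / 4) ^ k := by ring

theorem lb_psi {F y : ℝ} {f : ℕ → ℝ} (hF : 1 ≤ F) (hy : 4 * F ^ 2 ≤ y) (hf : CMul f)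
    (h1 : ∀ r : ℕ, r.Prime → f r ≤ 2 * F)
    (h2 : ∀ r : ℕ, r.Prime → (r : ℝ) < 16 * y → f r ≤ 3 / 2) (M : ℕ) :
    ∑ d ∈ Finset.Ioc 0 M, ArithmeticFunction.vonMangoldt d * f d ≤ 24 * F * M := by
  rcases Nat.eq_zero_or_pos M with hM | hM
  · simp [hM]
  have hM1 : (1 : ℝ) ≤ M := by exact_mod_cast hM
  have e1 : ∑ d ∈ Finset.Ioc 0 M, ArithmeticFunction.vonMangoldt d * f d =
      ∑ d ∈ (Finset.Ioc 0 ⌊(M : ℝ)⌋₊).filter IsPrimePow,
        ArithmeticFunction.vonMangoldt d * f d := by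
    rw [Nat.floor_natCast, Finset.sum_filter]
    refine Finset.sum_congr rfl fun d _ => ?_
    split_ifs with h
    · rfl
    · rw [ArithmeticFunction.vonMangoldt_eq_zero_iff.mpr h, zero_mul]
  rw [e1, Chebyshev.sum_PrimePow_eq_sum_sum _ (by linarith : (0 : ℝ) ≤ M)]
  have e2 : ∀ k ∈ Finset.Icc 1 ⌊Real.log M / Real.log 2⌋₊,
      ∑ p ∈ (Finset.Ioc 0 ⌊(M : ℝ) ^ ((1 : ℝ) / k)⌋₊).filter Nat.Prime,
        ArithmeticFunction.vonMangoldt (p ^ k) * f (p ^ k) ≤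
      3 * F * Real.log 4 * M * (3 / 4) ^ k := by
    intro k hk
    obtain ⟨hk1, hk2⟩ := Finset.mem_Icc.mp hk
    have hlog2 : 0 < Real.log 2 := Real.log_pos (by norm_num)
    have hkx : (2 : ℝ) ^ k ≤ M := by
      have h3 : (k : ℝ) ≤ Real.log M / Real.log 2 :=
        (Nat.le_floor_iff (div_nonneg (Real.log_nonneg hM1) hlog2.le)).mp hk2
      rw [le_div_iff₀ hlog2] at h3
      rw [← Real.log_pow] at h3
      exact (Real.log_le_log_iff (by positivity) (by linarith)).mp h3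
    refine le_trans (le_of_eq ?_) (lb_inner hF hy hf.2.2 h1 h2 M hM1 k hk1 hkx)
    refine Finset.sum_congr rfl fun p hp => ?_
    rw [ArithmeticFunction.vonMangoldt_apply_pow (by omega),
      ArithmeticFunction.vonMangoldt_apply_prime (Finset.mem_filter.mp hp).2, cmul_pow hf]
  refine (Finset.sum_le_sum e2).trans ?_
  rw [← Finset.mul_sum]
  have hgeo : ∑ k ∈ Finset.Icc 1 ⌊Real.log M / Real.log 2⌋₊, ((3 : ℝ) / 4) ^ k ≤ 4 := by
    refine ((summable_geometric_of_lt_one (by norm_num) (by norm_num)).sum_le_tsum _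
      (fun _ _ => by positivity)).trans ?_
    rw [tsum_geometric_of_lt_one (by norm_num) (by norm_num)]
    norm_num
  have hlog4 : Real.log 4 ≤ 2 := by
    have h3 : Real.log 4 = 2 * Real.log 2 := by
      rw [show (4 : ℝ) = 2 ^ 2 by norm_num, Real.log_pow]
      norm_num
    have := Real.log_two_lt_d9
    rw [h3]
    linarith
  have hl0 : 0 ≤ Real.log 4 := Real.log_nonneg (by norm_num)
  have hFM : 0 ≤ F * M := by positivity
  calc 3 * F * Real.log 4 * M * ∑ k ∈ Finset.Icc 1 ⌊Real.log M / Real.log 2⌋₊, ((3 : ℝ) / 4) ^ k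
      ≤ 3 * F * Real.log 4 * M * 4 := mul_le_mul_of_nonneg_left hgeo (by positivity)
    _ = 12 * (F * M) * Real.log 4 := by ring
    _ ≤ 12 * (F * M) * 2 := mul_le_mul_of_nonneg_left hlog4 (by positivity)
    _ = 24 * F * M := by ring

theorem lemB : ∃ C : ℝ, 0 < C ∧ ∀ (F y X : ℝ) (f : ℕ → ℝ), 1 ≤ F → 4 * F ^ 2 ≤ y → 2 ≤ X → CMul f →
    (∀ r : ℕ, r.Prime → f r ≤ 2 * F) → (∀ r : ℕ, r.Prime → (r : ℝ) < 16 * y → f r ≤ 3 / 2) →
    ∑ v ∈ Finset.Icc 1 ⌊X⌋₊, f v ≤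
      C * F * X / Real.log X *
        Real.exp (∑ r ∈ (Finset.Icc 1 ⌊X⌋₊).filter Nat.Prime, f r / (r : ℝ)) := by
  obtain ⟨C₀, hC₀, hL⟩ := lemB_log
  refine ⟨25 * C₀, by positivity, ?_⟩
  intro F y X f hF hy hX hf h1 h2
  obtain ⟨N, hN⟩ : ∃ N, N = ⌊X⌋₊ := ⟨_, rfl⟩
  rw [← hN]
  have hX0 : 0 < X := by linarith
  have hlogX : 0 < Real.log X := Real.log_pos (by linarith)
  have hS := hL F y N f hF hy hf h1 h2
  obtain ⟨S, hSd⟩ : ∃ S, S = ∑ v ∈ Finset.Icc 1 N, f v / (v : ℝ) := ⟨_, rfl⟩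
  rw [← hSd] at hS
  have hS0 : 0 ≤ S := by
    rw [hSd]
    exact Finset.sum_nonneg fun v _ => div_nonneg (hf.2.2 v) (Nat.cast_nonneg v)
  have hIcc : Finset.Icc 1 N = Finset.Ioc 0 N := rfl
  have hNX : (N : ℝ) ≤ X := by rw [hN]; exact Nat.floor_le hX0.le
  have hT1 : ∑ v ∈ Finset.Ioc 0 N, f v * Real.log v ≤ 24 * F * X * S := by
    rw [lb_T1 f hf N, hSd, Finset.mul_sum, hIcc]
    refine Finset.sum_le_sum fun w hw => ?_
    have hw0 : 0 < w := (Finset.mem_Ioc.mp hw).1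
    have hw0' : (0 : ℝ) < w := by exact_mod_cast hw0
    have h3 := lb_psi hF hy hf h1 h2 (N / w)
    have h4 : ((N / w : ℕ) : ℝ) ≤ X / w :=
      Nat.cast_div_le.trans (div_le_div_of_nonneg_right hNX hw0'.le)
    have h5 : 24 * F * ((N / w : ℕ) : ℝ) ≤ 24 * F * (X / w) :=
      mul_le_mul_of_nonneg_left h4 (by linarith)
    calc f w * ∑ d ∈ Finset.Ioc 0 (N / w), ArithmeticFunction.vonMangoldt d * f d
        ≤ f w * (24 * F * (X / w)) := mul_le_mul_of_nonneg_left (h3.trans h5) (hf.2.2 w)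
      _ = 24 * F * X * (f w / w) := by ring
  have hT2 : ∑ v ∈ Finset.Ioc 0 N, f v * Real.log (X / v) ≤ X * S := by
    rw [hSd, Finset.mul_sum, hIcc]
    refine Finset.sum_le_sum fun w hw => ?_
    have hw0 : 0 < w := (Finset.mem_Ioc.mp hw).1
    have hw0' : (0 : ℝ) < w := by exact_mod_cast hw0
    have h3 : Real.log (X / w) ≤ X / w := Real.log_le_self (by positivity)
    calc f w * Real.log (X / w) ≤ f w * (X / w) := mul_le_mul_of_nonneg_left h3 (hf.2.2 w)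
      _ = X * (f w / w) := by ring
  have hsum : (∑ v ∈ Finset.Icc 1 N, f v) * Real.log X =
      ∑ v ∈ Finset.Ioc 0 N, f v * Real.log v + ∑ v ∈ Finset.Ioc 0 N, f v * Real.log (X / v) := by
    rw [Finset.sum_mul, hIcc, ← Finset.sum_add_distrib]
    refine Finset.sum_congr rfl fun w hw => ?_
    have hw0 : 0 < w := (Finset.mem_Ioc.mp hw).1
    have hw0' : (w : ℝ) ≠ 0 := by positivity
    rw [Real.log_div hX0.ne' hw0']
    ring
  have hmain : (∑ v ∈ Finset.Icc 1 N, f v) * Real.log X ≤ 25 * F * X * S := by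
    have : X * S ≤ F * (X * S) := by
      have : 0 ≤ X * S := by positivity
      nlinarith
    rw [hsum]
    linarith
  have h3 : 25 * F * X * S ≤ 25 * F * X *
      (C₀ * Real.exp (∑ r ∈ (Finset.Icc 1 N).filter Nat.Prime, f r / (r : ℝ))) :=
    mul_le_mul_of_nonneg_left hS (by positivity)
  have h4 : ∑ v ∈ Finset.Icc 1 N, f v ≤ 25 * F * X *
      (C₀ * Real.exp (∑ r ∈ (Finset.Icc 1 N).filter Nat.Prime, f r / (r : ℝ))) / Real.log X := by
    rw [le_div_iff₀ hlogX]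
    exact hmain.trans h3
  refine h4.trans (le_of_eq ?_)
  ring

end P031
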