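import Vale.Agent.P031.LemA

/-!
# P031, module NORMAL1: abnormal primes are rare

PROOF of `abn_count`.  `H`-type savings: we lose only powers of `U` (through `lemA`, `𝒜 = {1}`,
`Z = Y`).  For fixed integer `s ∈ [S, lev ⌊Y⌋ + 1]` (at most `3U + 8` values) use Rankin's trick:
* upper tail `Lv S s (q-1) ≥ s - S + E`: weight `1 + δ` on levels `[S, s)` and `1` elsewhere,
  `δ = E/(20U)`;
* lower tail: weight `1 - δ` similarly (here `∑_{lev r ∈ [S,s), r ≤ Y} 1/r ≥ s - S - C` because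
  `s ≤ lev ⌊Y⌋ + 1`, the top level may be incomplete);
* `Lv 0 S (q-1) > 10 S`: weight `3/2` on levels `< S`.
`∑_{r ≤ Y} f(r)/r = log log Y + ε (b - a) + O(1)` by `level_mass`, `prime_recip`.
-/

namespace P031

open scoped BigOperators

/-- abnormal big primes -/
def Abn (U : ℕ) : Set ℕ := {q | q.Prime ∧ SS U ≤ lev q ∧ ¬ Normal U q}

/-- the two-valued weight -/
noncomputable def wz (a b : ℕ) (ε : ℝ) (t : ℕ) : ℝ := if a ≤ t ∧ t < b then 1 + ε else 1

theorem n1_list (L : List ℕ) (p : ℕ → Bool) (c : ℝ) :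
    (L.map (fun r => if p r = true then c else 1)).prod = c ^ (L.countP p) := by
  induction L with
  | nil => simp
  | cons x L ih =>
    rw [List.map_cons, List.prod_cons, ih, List.countP_cons]
    by_cases h : p x = true
    · simp only [h, if_true, pow_succ]; ring
    · simp only [h]; simp

theorem lwt_wz (a b : ℕ) (ε : ℝ) {m : ℕ} (hm : m ≠ 0) :
    lwt (wz a b ε) m = (1 + ε) ^ (Lv a b m) := by
  rw [lwt, if_neg hm, Lv, ← n1_list]
  congr 1
  apply List.map_congr_left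
  intro r _
  simp [wz]

theorem n1_geom (a b : ℕ) : ∑ t ∈ Finset.Ico a b, Real.exp (-(t : ℝ)) ≤ 2 := by
  have h1 : ∀ t : ℕ, Real.exp (-(t : ℝ)) ≤ (1 / 2 : ℝ) ^ t := by
    intro t
    have h2 : Real.exp (-1) ≤ 1 / 2 := by
      rw [Real.exp_neg]
      have := Real.add_one_le_exp (1 : ℝ)
      rw [one_div]
      apply inv_anti₀ <;> linarith
    calc Real.exp (-(t : ℝ)) = (Real.exp (-1)) ^ t := by
          rw [← Real.exp_nat_mul]; ring_nf
      _ ≤ _ := pow_le_pow_left₀ (Real.exp_pos _).le h2 t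
  calc ∑ t ∈ Finset.Ico a b, Real.exp (-(t : ℝ))
      ≤ ∑ t ∈ Finset.Ico a b, (1 / 2 : ℝ) ^ t := Finset.sum_le_sum fun t _ => h1 t
    _ ≤ ∑ t ∈ Finset.range b, (1 / 2 : ℝ) ^ t := by
        apply Finset.sum_le_sum_of_subset_of_nonneg
        · intro t ht
          rw [Finset.mem_Ico] at ht
          exact Finset.mem_range.2 ht.2
        · intro t _ _
          positivity
    _ ≤ 2 := by
        rw [geom_sum_eq (by norm_num)]
        have : (0 : ℝ) ≤ (1 / 2) ^ b := by positivity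
        rw [div_le_iff_of_neg (by norm_num)]
        nlinarith

/-- primes of level in `[a, b)` up to `Y`: the sum of the reciprocals is `b - a + O(1)` -/
theorem sum_levels : ∃ C : ℝ, 0 < C ∧ ∀ (a b : ℕ) (Y : ℝ), a ≤ b → b ≤ lev ⌊Y⌋₊ + 1 →
    |∑ r ∈ ((Finset.Icc 1 ⌊Y⌋₊).filter Nat.Prime).filter (fun r => a ≤ lev r ∧ lev r < b),
      1 / (r : ℝ) - ((b : ℝ) - a)| ≤ C := by
  obtain ⟨C0, hC0, hl⟩ := level_mass
  refine ⟨1 + 2 * C0, by positivity, ?_⟩
  intro a b Y hab hb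
  set A := ((Finset.Icc 1 ⌊Y⌋₊).filter Nat.Prime).filter (fun r => a ≤ lev r ∧ lev r < b) with hA
  have hmemA : ∀ r, r ∈ A ↔ (1 ≤ r ∧ r ≤ ⌊Y⌋₊) ∧ r.Prime ∧ a ≤ lev r ∧ lev r < b := by
    intro r
    rw [hA, Finset.mem_filter, Finset.mem_filter, Finset.mem_Icc, and_assoc]
  have hfib : ∑ r ∈ A, 1 / (r : ℝ) =
      ∑ t ∈ Finset.Ico a b, ∑ r ∈ A.filter (fun r => lev r = t), 1 / (r : ℝ) := by
    rw [Finset.sum_fiberwise_of_maps_to]
    intro r hr
    rw [hmemA] at hr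
    exact Finset.mem_Ico.2 hr.2.2
  have hsub : ∀ t, A.filter (fun r => lev r = t) ⊆ prLev t := by
    intro t r hr
    rw [Finset.mem_filter, hmemA] at hr
    exact mem_prLev.2 ⟨hr.1.2.1, hr.2⟩
  have hup : ∀ t, ∑ r ∈ A.filter (fun r => lev r = t), 1 / (r : ℝ) ≤
      1 + C0 * Real.exp (-(t : ℝ)) := by
    intro t
    have h1 := Finset.sum_le_sum_of_subset_of_nonneg (f := fun r : ℕ => 1 / (r : ℝ)) (hsub t)
      (fun r _ _ => by positivity)
    have h2 := (abs_le.1 (hl t)).2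
    linarith
  have hlow : ∀ t ∈ Finset.Ico a b, t + 1 < b →
      1 - C0 * Real.exp (-(t : ℝ)) ≤ ∑ r ∈ A.filter (fun r => lev r = t), 1 / (r : ℝ) := by
    intro t ht htb
    rw [Finset.mem_Ico] at ht
    have h1 : prLev t ⊆ A.filter (fun r => lev r = t) := by
      intro r hr
      rw [mem_prLev] at hr
      rw [Finset.mem_filter, hmemA]
      refine ⟨⟨⟨hr.1.one_le, ?_⟩, hr.1, by omega, by omega⟩, hr.2⟩
      by_contra hcon
      have := lev_mono (not_le.1 hcon).le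
      omega
    have h2 := Finset.sum_le_sum_of_subset_of_nonneg (f := fun r : ℕ => 1 / (r : ℝ)) h1
      (fun r _ _ => by positivity)
    have h3 := (abs_le.1 (hl t)).1
    linarith
  have hcast : ((b : ℝ) - a) = ∑ t ∈ Finset.Ico a b, (1 : ℝ) := by
    rw [Finset.sum_const, Nat.card_Ico, nsmul_eq_mul, mul_one, Nat.cast_sub hab]
  have hg := n1_geom a b
  rw [abs_le]
  constructor
  · rcases Nat.eq_or_lt_of_le hab with hab' | hab'
    · have hnn : 0 ≤ ∑ r ∈ A, 1 / (r : ℝ) := Finset.sum_nonneg fun r _ => by positivity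
      subst hab'
      have : 0 < C0 := hC0
      linarith
    · obtain ⟨b', rfl⟩ : ∃ b', b = b' + 1 := ⟨b - 1, by omega⟩
      rw [hfib, Finset.sum_Ico_succ_top (by omega)]
      have hnn : 0 ≤ ∑ r ∈ A.filter (fun r => lev r = b'), 1 / (r : ℝ) :=
        Finset.sum_nonneg fun r _ => by positivity
      have h1 : ∑ t ∈ Finset.Ico a b', (1 - C0 * Real.exp (-(t : ℝ))) ≤
          ∑ t ∈ Finset.Ico a b', ∑ r ∈ A.filter (fun r => lev r = t), 1 / (r : ℝ) := by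
        apply Finset.sum_le_sum
        intro t ht
        rw [Finset.mem_Ico] at ht
        exact hlow t (Finset.mem_Ico.2 ⟨ht.1, by omega⟩) (by omega)
      rw [Finset.sum_sub_distrib, ← Finset.mul_sum] at h1
      have h2 : ∑ t ∈ Finset.Ico a b', (1 : ℝ) = (b' : ℝ) - a := by
        rw [Finset.sum_const, Nat.card_Ico, nsmul_eq_mul, mul_one, Nat.cast_sub (by omega)]
      have h3 := n1_geom a b'
      have h4 : C0 * ∑ t ∈ Finset.Ico a b', Real.exp (-(t : ℝ)) ≤ C0 * 2 :=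
        mul_le_mul_of_nonneg_left h3 hC0.le
      push_cast
      linarith
  · rw [hfib]
    have h1 : ∑ t ∈ Finset.Ico a b, ∑ r ∈ A.filter (fun r => lev r = t), 1 / (r : ℝ) ≤
        ∑ t ∈ Finset.Ico a b, (1 + C0 * Real.exp (-(t : ℝ))) :=
      Finset.sum_le_sum fun t _ => hup t
    rw [Finset.sum_add_distrib, ← Finset.mul_sum] at h1
    have h4 : C0 * ∑ t ∈ Finset.Ico a b, Real.exp (-(t : ℝ)) ≤ C0 * 2 :=
      mul_le_mul_of_nonneg_left hg hC0.le
    linarith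

/-- the sum over primes of the two-valued weight -/
theorem sum_wz : ∃ C : ℝ, 0 < C ∧ ∀ (a b : ℕ) (Y ε : ℝ), 3 ≤ Y → a ≤ b → b ≤ lev ⌊Y⌋₊ + 1 →
    -(1 / 2) ≤ ε → ε ≤ 1 / 2 →
    ∑ r ∈ (Finset.Icc 1 ⌊Y⌋₊).filter Nat.Prime, lwt (wz a b ε) r / (r : ℝ) ≤
      LL Y + ε * ((b : ℝ) - a) + C := by
  obtain ⟨C1, hC1, h1⟩ := sum_levels
  obtain ⟨C2, hC2, h2⟩ := prime_recip
  refine ⟨C1 + C2, by positivity, ?_⟩
  intro a b Y ε hY hab hb hε hε'
  have e1 := h1 a b Y hab hb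
  have e2 := h2 Y hY
  have e3 : ∑ r ∈ (Finset.Icc 1 ⌊Y⌋₊).filter Nat.Prime, lwt (wz a b ε) r / (r : ℝ) =
      ∑ r ∈ (Finset.Icc 1 ⌊Y⌋₊).filter Nat.Prime, 1 / (r : ℝ) +
      ε * ∑ r ∈ ((Finset.Icc 1 ⌊Y⌋₊).filter Nat.Prime).filter
        (fun r => a ≤ lev r ∧ lev r < b), 1 / (r : ℝ) := by
    rw [Finset.sum_filter (fun r => a ≤ lev r ∧ lev r < b), Finset.mul_sum,
      ← Finset.sum_add_distrib]
    apply Finset.sum_congr rfl
    intro r hr
    rw [Finset.mem_filter] at hr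
    rw [lwt_prime _ hr.2, wz]
    split_ifs
    · ring
    · ring
  rw [e3]
  rw [abs_le] at e1 e2
  set B := ∑ r ∈ ((Finset.Icc 1 ⌊Y⌋₊).filter Nat.Prime).filter
        (fun r => a ≤ lev r ∧ lev r < b), 1 / (r : ℝ) with hB
  have h5 : ε * (B - ((b : ℝ) - a)) ≤ C1 := by
    have h6 : |ε * (B - ((b : ℝ) - a))| ≤ 1 / 2 * C1 := by
      rw [abs_mul]
      exact mul_le_mul (abs_le.2 ⟨hε, hε'⟩) (abs_le.2 e1) (abs_nonneg _) (by norm_num)
    have := le_abs_self (ε * (B - ((b : ℝ) - a)))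
    linarith
  nlinarith [e2.2]

/-- Rankin's trick -/
theorem rankin_gen : ∃ C : ℝ, 0 < C ∧ ∀ (Y : ℝ) (a b : ℕ) (ε l : ℝ) (P : ℕ → Prop)
    [DecidablePred P], 16 ≤ Y → a ≤ b → b ≤ lev ⌊Y⌋₊ + 1 → -(1 / 2) ≤ ε → ε ≤ 1 / 2 →
    (∀ q, P q → Real.exp l ≤ (1 + ε) ^ (Lv a b (q - 1))) →
    ((((Finset.Icc 1 ⌊Y⌋₊).filter (fun q => q.Prime ∧ P q)).card : ℕ) : ℝ) ≤
      C * (1 + LL Y) ^ C * (Y / Real.log Y) * Real.exp (ε * ((b : ℝ) - a) - l) := by
  obtain ⟨C1, hC1, h1⟩ := lemA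
  obtain ⟨C2, hC2, h2⟩ := sum_wz
  refine ⟨max C1 (C1 * Real.exp C2), lt_max_of_lt_left hC1, ?_⟩
  intro Y a b ε l P _ hY hab hb hε hε' hP
  set C := max C1 (C1 * Real.exp C2) with hC
  have hlogY : 0 < Real.log Y := Real.log_pos (by linarith)
  have hLL : 1 ≤ LL Y := SieveAux.LL_pos hY
  set f : ℕ → ℝ := lwt (wz a b ε) with hf
  have hz : ∀ s, 0 ≤ wz a b ε s := by
    intro s
    rw [wz]
    split_ifs
    · linarith
    · norm_num
  have hcm : CMul f := lwt_cmul hz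
  have hf32 : ∀ r : ℕ, r.Prime → f r ≤ 3 / 2 := by
    intro r hr
    rw [hf, lwt_prime _ hr, wz]
    split_ifs
    · linarith
    · norm_num
  have hA := h1 Y Y {1} f hY (by linarith) le_rfl (by simp) (by
    intro A hA
    rw [Finset.mem_singleton] at hA
    subst hA
    refine ⟨le_rfl, ?_⟩
    push_cast
    linarith) hcm hf32
  rw [Finset.card_singleton] at hA
  have hB := h2 a b Y ε (by linarith) hab hb hε hε'
  set F := (Finset.Icc 1 ⌊Y⌋₊).filter (fun q => q.Prime ∧ P q) with hF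
  have hmap : ∑ q ∈ F, f (q - 1) ≤
      ∑ d ∈ (Finset.Icc 1 ⌊Y⌋₊).filter (fun d : ℕ => ∀ A ∈ ({1} : Finset ℕ),
        (A * d + 1).Prime), f d := by
    have hinj : Set.InjOn (fun q : ℕ => q - 1) (F : Set ℕ) := by
      intro q hq q' hq' h
      rw [Finset.mem_coe, hF, Finset.mem_filter, Finset.mem_Icc] at hq hq'
      simp only at h
      omega
    rw [← Finset.sum_image (f := f) hinj]
    apply Finset.sum_le_sum_of_subset_of_nonneg
    · intro d hd
      rw [Finset.mem_image] at hd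
      obtain ⟨q, hq, rfl⟩ := hd
      rw [hF, Finset.mem_filter, Finset.mem_Icc] at hq
      have h2 := hq.2.1.two_le
      rw [Finset.mem_filter, Finset.mem_Icc]
      refine ⟨⟨by omega, by omega⟩, ?_⟩
      intro A hA
      rw [Finset.mem_singleton] at hA
      subst hA
      rw [one_mul, Nat.sub_add_cancel (by omega)]
      exact hq.2.1
    · intro d _ _
      exact hcm.2.2 d
  have hlow : Real.exp l * (F.card : ℝ) ≤ ∑ q ∈ F, f (q - 1) := by
    rw [mul_comm, ← nsmul_eq_mul, ← Finset.sum_const]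
    apply Finset.sum_le_sum
    intro q hq
    rw [hF, Finset.mem_filter, Finset.mem_Icc] at hq
    have h2 := hq.2.1.two_le
    rw [hf, lwt_wz _ _ _ (by omega)]
    exact hP q hq.2.2
  have hexp : Real.exp (∑ r ∈ (Finset.Icc 1 ⌊Y⌋₊).filter Nat.Prime, f r / (r : ℝ)) ≤
      Real.log Y * Real.exp (ε * ((b : ℝ) - a)) * Real.exp C2 := by
    calc _ ≤ Real.exp (LL Y + ε * ((b : ℝ) - a) + C2) := Real.exp_le_exp.2 hB
      _ = _ := by
        rw [Real.exp_add, Real.exp_add, LL, Real.exp_log hlogY]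
  have hpos1 : 0 ≤ C1 * (1 + LL Y) ^ C1 * Y / Real.log Y ^ (1 + 1) := by positivity
  have hall : Real.exp l * (F.card : ℝ) ≤ C1 * (1 + LL Y) ^ C1 * Y / Real.log Y ^ (1 + 1) *
      (Real.log Y * Real.exp (ε * ((b : ℝ) - a)) * Real.exp C2) :=
    hlow.trans (hmap.trans (hA.trans (mul_le_mul_of_nonneg_left hexp hpos1)))
  have h7 : (F.card : ℝ) ≤ C1 * Real.exp C2 * (1 + LL Y) ^ C1 * (Y / Real.log Y) *
      Real.exp (ε * ((b : ℝ) - a) - l) := by
    rw [Real.exp_sub, mul_div_assoc', le_div_iff₀ (Real.exp_pos _), mul_comm (F.card : ℝ)]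
    refine hall.trans (le_of_eq ?_)
    field_simp
  refine h7.trans ?_
  have h8 : C1 * Real.exp C2 * (1 + LL Y) ^ C1 ≤ C * (1 + LL Y) ^ C := by
    apply mul_le_mul (le_max_right _ _) _ (by positivity) (by positivity)
    exact Real.rpow_le_rpow_of_exponent_le (by linarith) (le_max_left _ _)
  have h9 : 0 ≤ Y / Real.log Y := by positivity
  exact mul_le_mul_of_nonneg_right (mul_le_mul_of_nonneg_right h8 h9) (Real.exp_pos _).le


theorem n1_params (C : ℝ) (hC : 0 < C) : ∃ U₀ : ℕ, ∀ U : ℕ, U₀ ≤ U → 16 ≤ U ∧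
    EE U + 8 ≤ U ∧ (U : ℝ) ^ ((1 : ℝ) / 10) / 50 ≤ 2 * SS U ∧
    (6 * (U : ℝ) + 20) * (C * (3 * U + 7) ^ C) * Real.exp (-((U : ℝ) ^ ((1 : ℝ) / 10) / 50)) ≤
      Real.exp (-2 * (U : ℝ) ^ ((1 : ℝ) / 20)) := by
  have t1 : ∀ᶠ U : ℕ in Filter.atTop, (2 : ℝ) ≤ (U : ℝ) ^ ((9 : ℝ) / 20) :=
    ((tendsto_rpow_atTop (by norm_num)).comp tendsto_natCast_atTop_atTop).eventually_ge_atTop 2
  have t2 : ∀ᶠ U : ℕ in Filter.atTop, (200 : ℝ) ≤ (U : ℝ) ^ ((1 : ℝ) / 20) :=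
    ((tendsto_rpow_atTop (by norm_num)).comp tendsto_natCast_atTop_atTop).eventually_ge_atTop 200
  have t3 : ∀ᶠ U : ℕ in Filter.atTop, ‖Real.log (U : ℝ)‖ ≤
      (1 / (100 * (3 + 2 * C))) * ‖(U : ℝ) ^ ((1 : ℝ) / 10)‖ :=
    tendsto_natCast_atTop_atTop.eventually
      ((isLittleO_log_rpow_atTop (by norm_num : (0 : ℝ) < 1 / 10)).def (by positivity))
  have t4 : ∀ᶠ U : ℕ in Filter.atTop, C ≤ (U : ℝ) :=
    tendsto_natCast_atTop_atTop.eventually_ge_atTop C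
  have t5 : ∀ᶠ U : ℕ in Filter.atTop, 16 ≤ U := Filter.eventually_ge_atTop 16
  obtain ⟨U₀, hU₀⟩ := Filter.eventually_atTop.1 (t1.and (t2.and (t3.and (t4.and t5))))
  refine ⟨U₀, ?_⟩
  intro U hU
  obtain ⟨h1, h2, h3, h4, h5⟩ := hU₀ U hU
  have hU16 : (16 : ℝ) ≤ U := by exact_mod_cast h5
  have hU0 : (0 : ℝ) < U := by linarith
  refine ⟨h5, ?_, ?_, ?_⟩
  · have e1 : (U : ℝ) ^ ((11 : ℝ) / 20) * (U : ℝ) ^ ((9 : ℝ) / 20) = U := by
      rw [← Real.rpow_add hU0]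
      norm_num
    have e2 : 0 < (U : ℝ) ^ ((11 : ℝ) / 20) := Real.rpow_pos_of_pos hU0 _
    rw [EE]
    nlinarith
  · have e1 : (U : ℝ) ^ ((1 : ℝ) / 10) ≤ Real.sqrt U := by
      rw [Real.sqrt_eq_rpow]
      exact Real.rpow_le_rpow_of_exponent_le (by linarith) (by norm_num)
    have e2 : Real.sqrt U ≤ (SS U : ℝ) + 1 := Real.real_sqrt_lt_nat_sqrt_succ.le
    have e3 : (4 : ℝ) ≤ Real.sqrt U := by
      rw [show (4 : ℝ) = Real.sqrt 16 by
        rw [show (16 : ℝ) = 4 ^ 2 by norm_num]; exact (Real.sqrt_sq (by norm_num)).symm]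
      exact Real.sqrt_le_sqrt hU16
    linarith
  · have hlog : 0 ≤ Real.log U := Real.log_nonneg (by linarith)
    have hr0 : 0 < (U : ℝ) ^ ((1 : ℝ) / 10) := Real.rpow_pos_of_pos hU0 _
    rw [Real.norm_of_nonneg hlog, Real.norm_of_nonneg hr0.le] at h3
    have h3' : (3 + 2 * C) * Real.log U ≤ (U : ℝ) ^ ((1 : ℝ) / 10) / 100 := by
      have hpos : 0 < 3 + 2 * C := by positivity
      calc (3 + 2 * C) * Real.log U ≤ (3 + 2 * C) *
          ((1 / (100 * (3 + 2 * C))) * (U : ℝ) ^ ((1 : ℝ) / 10)) :=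
            mul_le_mul_of_nonneg_left h3 hpos.le
        _ = _ := by field_simp
    have e1 : (U : ℝ) ^ ((1 : ℝ) / 10) = (U : ℝ) ^ ((1 : ℝ) / 20) * (U : ℝ) ^ ((1 : ℝ) / 20) := by
      rw [← Real.rpow_add hU0]
      norm_num
    have e2 : 2 * (U : ℝ) ^ ((1 : ℝ) / 20) ≤ (U : ℝ) ^ ((1 : ℝ) / 10) / 100 := by
      rw [e1]
      nlinarith
    have e3 : (6 * (U : ℝ) + 20) * (C * (3 * U + 7) ^ C) ≤ (U : ℝ) ^ (3 + 2 * C) := by
      have f1 : (6 * (U : ℝ) + 20) ≤ (U : ℝ) ^ (2 : ℝ) := by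
        rw [Real.rpow_two]
        nlinarith
      have f2 : (3 * (U : ℝ) + 7) ^ C ≤ (U : ℝ) ^ (2 * C) := by
        rw [Real.rpow_mul hU0.le]
        apply Real.rpow_le_rpow (by positivity) _ hC.le
        have f0 : (U : ℝ) ^ (2 : ℝ) = U * U := by rw [Real.rpow_two, sq]
        have f00 : (16 : ℝ) * U ≤ U * U := mul_le_mul_of_nonneg_right hU16 hU0.le
        rw [f0]
        linarith
      have f3 : (U : ℝ) ^ (3 + 2 * C) = (U : ℝ) ^ (2 : ℝ) * ((U : ℝ) * (U : ℝ) ^ (2 * C)) := by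
        rw [show (3 + 2 * C) = 2 + (1 + 2 * C) by ring, Real.rpow_add hU0, Real.rpow_add hU0,
          Real.rpow_one]
      rw [f3]
      apply mul_le_mul f1 _ (by positivity) (by positivity)
      exact mul_le_mul h4 f2 (by positivity) (by positivity)
    calc _ ≤ (U : ℝ) ^ (3 + 2 * C) * Real.exp (-((U : ℝ) ^ ((1 : ℝ) / 10) / 50)) :=
          mul_le_mul_of_nonneg_right e3 (Real.exp_pos _).le
      _ = Real.exp (Real.log U * (3 + 2 * C) + -((U : ℝ) ^ ((1 : ℝ) / 10) / 50)) := by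
          rw [Real.rpow_def_of_pos hU0, Real.exp_add]
      _ ≤ _ := by
          apply Real.exp_le_exp.2
          linarith

theorem n1_pow {x : ℝ} (hx : 0 < x) (n : ℕ) : x ^ n = Real.exp (n * Real.log x) := by
  rw [Real.exp_nat_mul, Real.exp_log hx]

theorem n1_lev_le {Y : ℝ} (hY : 16 ≤ Y) : (lev ⌊Y⌋₊ : ℝ) ≤ LL Y := by
  rcases Nat.eq_zero_or_pos (lev ⌊Y⌋₊) with h | h
  · rw [h]
    have := SieveAux.LL_pos hY
    push_cast
    linarith
  · have h1 := (le_lev_iff (s := lev ⌊Y⌋₊) (r := ⌊Y⌋₊) h).1 le_rfl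
    have h2 : ((⌊Y⌋₊ : ℕ) : ℝ) ≤ Y := Nat.floor_le (by linarith)
    have h3 : Real.exp (Real.exp (lev ⌊Y⌋₊)) ≤ Y := h1.trans h2
    rw [LL, Real.le_log_iff_exp_le (Real.log_pos (by linarith)),
      Real.le_log_iff_exp_le (by linarith)]
    exact h3

theorem n1_le_lev {Y : ℝ} {S : ℕ} (hY : 16 ≤ Y) (hS : (S : ℝ) ≤ LL Y) : S ≤ lev ⌊Y⌋₊ + 1 := by
  rcases Nat.lt_or_ge S 2 with h | h
  · omega
  · obtain ⟨T, rfl⟩ : ∃ T, S = T + 1 := ⟨S - 1, by omega⟩
    have hT : 1 ≤ T := by omega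
    apply Nat.succ_le_succ
    rw [le_lev_iff hT]
    rw [LL, Real.le_log_iff_exp_le (Real.log_pos (by linarith)),
      Real.le_log_iff_exp_le (by linarith)] at hS
    push_cast at hS
    have h1 : Real.exp T + 1 ≤ Real.exp (T + 1) := by
      rw [Real.exp_add]
      have h2 : (2 : ℝ) ≤ Real.exp 1 := by
        have := Real.add_one_le_exp (1 : ℝ)
        linarith
      have h3 : (1 : ℝ) ≤ Real.exp T := Real.one_le_exp (by positivity)
      nlinarith
    have h4 : Real.exp (Real.exp T) + 1 ≤ Real.exp (Real.exp T + 1) := by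
      rw [Real.exp_add]
      have h2 : (2 : ℝ) ≤ Real.exp 1 := by
        have := Real.add_one_le_exp (1 : ℝ)
        linarith
      have h3 : (1 : ℝ) ≤ Real.exp (Real.exp T) := Real.one_le_exp (by positivity)
      nlinarith
    have h5 := Real.exp_le_exp.2 h1
    have h6 := Nat.sub_one_lt_floor Y
    linarith

theorem n1_exp1 {a δ E U x : ℝ} (hδE : E * δ = x / 20) (hδδ : δ * δ * U = x / 400)
    (hx : 0 < x) (ha : a + E ≤ 4 * U) (hδ : 0 < δ) :
    δ * a - (a + E) * (δ - δ * δ) ≤ -(x / 50) := by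
  have h1 : (a + E) * (δ * δ) ≤ 4 * U * (δ * δ) :=
    mul_le_mul_of_nonneg_right ha (by positivity)
  have h2 : δ * a - (a + E) * (δ - δ * δ) = -(E * δ) + (a + E) * (δ * δ) := by ring
  have h3 : 4 * U * (δ * δ) = 4 * (δ * δ * U) := by ring
  rw [h2, hδE]
  rw [h3, hδδ] at h1
  linarith

theorem n1_exp2 {a δ E U x : ℝ} (hδE : E * δ = x / 20) (hδδ : δ * δ * U = x / 400)
    (hx : 0 < x) (ha : a - E ≤ 4 * U) (hδ : 0 < δ) :
    -δ * a - -((a - E) * (δ + 2 * (δ * δ))) ≤ -(x / 50) := by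
  have h1 : (a - E) * (δ * δ) ≤ 4 * U * (δ * δ) :=
    mul_le_mul_of_nonneg_right ha (by positivity)
  have h2 : -δ * a - -((a - E) * (δ + 2 * (δ * δ))) = -(E * δ) + 2 * ((a - E) * (δ * δ)) := by
    ring
  have h3 : 4 * U * (δ * δ) = 4 * (δ * δ * U) := by ring
  rw [h2, hδE]
  rw [h3, hδδ] at h1
  linarith

theorem n1_log1 {δ : ℝ} (h0 : 0 < δ) (h1 : δ ≤ 1 / 20) : δ - δ * δ ≤ Real.log (1 + δ) := by
  have h2 := Real.one_sub_inv_le_log_of_pos (show 0 < 1 + δ by linarith)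
  have h4 : (1 + δ)⁻¹ ≤ 1 - (δ - δ * δ) := by
    rw [inv_le_iff_one_le_mul₀ (by linarith)]
    nlinarith [mul_pos (mul_pos h0 h0) h0]
  linarith

theorem n1_log2 {δ : ℝ} (h0 : 0 < δ) (h1 : δ ≤ 1 / 20) :
    -(δ + 2 * (δ * δ)) ≤ Real.log (1 + -δ) := by
  have h2 := Real.one_sub_inv_le_log_of_pos (show 0 < 1 + -δ by linarith)
  have h3 : (1 + -δ)⁻¹ ≤ 1 + (δ + 2 * (δ * δ)) := by
    rw [inv_le_iff_one_le_mul₀ (by linarith)]
    have h4 : (1 + (δ + 2 * (δ * δ))) * (1 + -δ) = 1 + δ * δ * (1 - 2 * δ) := by ring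
    rw [h4]
    have : 0 ≤ δ * δ * (1 - 2 * δ) := mul_nonneg (by positivity) (by linarith)
    linarith
  linarith

theorem n1_sixteen {Y : ℝ} (hY : 1 ≤ Y) (h : 4 ≤ LL Y) : 16 ≤ Y := by
  have h0 : 0 ≤ Real.log Y := Real.log_nonneg hY
  have h1 : 0 < Real.log Y := by
    rcases h0.lt_or_eq with h1 | h1
    · exact h1
    · rw [LL, ← h1, Real.log_zero] at h
      linarith
  have h2 : Real.exp 4 ≤ Real.log Y := by
    rwa [LL, Real.le_log_iff_exp_le h1] at h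
  have h3 : (4 : ℝ) + 1 ≤ Real.exp 4 := Real.add_one_le_exp 4
  have h4 : Real.exp (Real.exp 4) ≤ Y := by
    rwa [Real.le_log_iff_exp_le (by linarith)] at h2
  have h5 : Real.exp 4 = Real.exp 1 ^ 4 := by
    rw [← Real.exp_nat_mul]; norm_num
  have h6 : (2 : ℝ) ≤ Real.exp 1 := by
    have := Real.add_one_le_exp (1 : ℝ)
    linarith
  have h7 : (2 : ℝ) ^ 4 ≤ Real.exp 1 ^ 4 := pow_le_pow_left₀ (by norm_num) h6 4
  have h8 := Real.add_one_le_exp (Real.exp 4)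
  norm_num at h7
  linarith

theorem abn_count : ∃ U₀ : ℕ, ∀ U : ℕ, U₀ ≤ U → ∀ Y : ℝ, 1 ≤ Y → (SS U : ℝ) ≤ LL Y →
    LL Y ≤ 3 * U + 6 →
    (cnt Y (Abn U) : ℝ) ≤ Y / Real.log Y * Real.exp (-2 * (U : ℝ) ^ ((1 : ℝ) / 20)) := by
  obtain ⟨C, hC, hR⟩ := rankin_gen
  obtain ⟨U₀, hU₀⟩ := n1_params C hC
  refine ⟨U₀, ?_⟩
  intro U hU Y hY1 hS hY3
  obtain ⟨hU16, hE8, hSS, hfin⟩ := hU₀ U hU
  have hY : 16 ≤ Y := by
    apply n1_sixteen hY1
    have h1 : 4 ≤ SS U := Nat.le_sqrt.2 (by omega)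
    have h2 : (4 : ℝ) ≤ SS U := by exact_mod_cast h1
    linarith
  have hU16' : (16 : ℝ) ≤ U := by exact_mod_cast hU16
  have hU0 : (0 : ℝ) < U := by linarith
  set S := SS U with hSdef
  set E := EE U with hEdef
  set x := (U : ℝ) ^ ((1 : ℝ) / 10) with hx
  have hx0 : 0 < x := Real.rpow_pos_of_pos hU0 _
  have hE0 : 0 < E := Real.rpow_pos_of_pos hU0 _
  have hEE : E * E = x * U := by
    rw [hEdef, EE, hx, ← Real.rpow_add hU0]
    nth_rewrite 3 [← Real.rpow_one (U : ℝ)]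
    rw [← Real.rpow_add hU0]
    norm_num
  set δ := E / (20 * U) with hδ
  have hδ0 : 0 < δ := by positivity
  have hδ1 : δ ≤ 1 / 20 := by
    rw [hδ, div_le_div_iff₀ (by positivity) (by norm_num)]
    linarith
  have hδE : E * δ = x / 20 := by
    rw [hδ]
    field_simp
    nlinarith
  have hδδ : δ * δ * U = x / 400 := by
    rw [hδ]
    field_simp
    nlinarith
  set N := ⌊Y⌋₊ with hN
  set M := lev N + 1 with hM
  have hlogY : 0 < Real.log Y := Real.log_pos (by linarith)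
  have hLL1 : 1 ≤ LL Y := SieveAux.LL_pos hY
  have hlevN : (lev N : ℝ) ≤ 3 * U + 6 := (n1_lev_le hY).trans hY3
  have hM' : (M : ℝ) ≤ 3 * U + 7 := by
    rw [hM]
    push_cast
    linarith
  set G := C * (1 + LL Y) ^ C * (Y / Real.log Y) with hG
  have hG0 : 0 ≤ G := by positivity
  set F1 : ℕ → Finset ℕ := fun s => (Finset.Icc 1 N).filter
    (fun q => q.Prime ∧ ((s : ℝ) - S + E < Lv S s (q - 1))) with hF1
  set F2 : ℕ → Finset ℕ := fun s => (Finset.Icc 1 N).filter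
    (fun q => q.Prime ∧ ((Lv S s (q - 1) : ℝ) < (s : ℝ) - S - E)) with hF2
  set F3 : Finset ℕ := (Finset.Icc 1 N).filter
    (fun q => q.Prime ∧ (10 * S < Lv 0 S (q - 1))) with hF3
  have b1 : ∀ s ∈ Finset.Icc S M, ((F1 s).card : ℝ) ≤ G * Real.exp (-(x / 50)) := by
    intro s hs
    rw [Finset.mem_Icc] at hs
    have hs' : (s : ℝ) ≤ M := by exact_mod_cast hs.2
    have hSs : (S : ℝ) ≤ s := by exact_mod_cast hs.1
    have hS0 : (0 : ℝ) ≤ S := by positivity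
    refine (hR Y S s δ (((s : ℝ) - S + E) * (δ - δ * δ))
      (fun q => (s : ℝ) - S + E < Lv S s (q - 1)) hY hs.1 hs.2 (by linarith) (by linarith)
      ?_).trans ?_
    · intro q hq
      rw [n1_pow (by linarith)]
      apply Real.exp_le_exp.2
      have h1 : δ - δ * δ ≤ Real.log (1 + δ) := n1_log1 hδ0 hδ1
      have h5 : 0 ≤ δ - δ * δ := by
        have : 0 ≤ δ * (1 - δ) := mul_nonneg hδ0.le (by linarith)
        linarith
      calc ((s : ℝ) - S + E) * (δ - δ * δ) ≤ (Lv S s (q - 1) : ℝ) * (δ - δ * δ) :=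
            mul_le_mul_of_nonneg_right hq.le h5
        _ ≤ _ := mul_le_mul_of_nonneg_left h1 (by positivity)
    · apply mul_le_mul_of_nonneg_left _ hG0
      apply Real.exp_le_exp.2
      exact n1_exp1 hδE hδδ hx0 (by linarith) hδ0
  have b2 : ∀ s ∈ Finset.Icc S M, ((F2 s).card : ℝ) ≤ G * Real.exp (-(x / 50)) := by
    intro s hs
    rw [Finset.mem_Icc] at hs
    have hs' : (s : ℝ) ≤ M := by exact_mod_cast hs.2
    have hSs : (S : ℝ) ≤ s := by exact_mod_cast hs.1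
    have hS0 : (0 : ℝ) ≤ S := by positivity
    refine (hR Y S s (-δ) (-(((s : ℝ) - S - E) * (δ + 2 * (δ * δ))))
      (fun q => (Lv S s (q - 1) : ℝ) < (s : ℝ) - S - E) hY hs.1 hs.2 (by linarith) (by linarith)
      ?_).trans ?_
    · intro q hq
      rw [n1_pow (by linarith)]
      apply Real.exp_le_exp.2
      have h1 : -(δ + 2 * (δ * δ)) ≤ Real.log (1 + -δ) := n1_log2 hδ0 hδ1
      have h5 : 0 ≤ δ + 2 * (δ * δ) := by positivity
      calc -(((s : ℝ) - S - E) * (δ + 2 * (δ * δ)))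
          ≤ -((Lv S s (q - 1) : ℝ) * (δ + 2 * (δ * δ))) := by
            apply neg_le_neg
            exact mul_le_mul_of_nonneg_right hq.le h5
        _ = (Lv S s (q - 1) : ℝ) * (-(δ + 2 * (δ * δ))) := by ring
        _ ≤ _ := mul_le_mul_of_nonneg_left h1 (by positivity)
    · apply mul_le_mul_of_nonneg_left _ hG0
      apply Real.exp_le_exp.2
      exact n1_exp2 hδE hδδ hx0 (by linarith) hδ0
  have b3 : ((F3).card : ℝ) ≤ G * Real.exp (-(x / 50)) := by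
    refine (hR Y 0 S (1 / 2) ((10 * S) * (1 / 3))
      (fun q => 10 * S < Lv 0 S (q - 1)) hY (Nat.zero_le _) (n1_le_lev hY hS)
      (by norm_num) (by norm_num) ?_).trans ?_
    · intro q hq
      rw [n1_pow (by norm_num)]
      apply Real.exp_le_exp.2
      have h1 : (1 / 3 : ℝ) ≤ Real.log (1 + 1 / 2) := by
        have h2 := Real.one_sub_inv_le_log_of_pos (show (0 : ℝ) < 1 + 1 / 2 by norm_num)
        norm_num at h2 ⊢
        linarith
      have hq' : (10 * S : ℝ) ≤ Lv 0 S (q - 1) := by exact_mod_cast hq.le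
      exact mul_le_mul hq' h1 (by norm_num) (by positivity)
    · apply mul_le_mul_of_nonneg_left _ hG0
      apply Real.exp_le_exp.2
      push_cast
      have hS0 : (0 : ℝ) ≤ S := by positivity
      linarith
  have hsub : {v : ℕ | v ∈ Abn U ∧ (v : ℝ) ≤ Y} ⊆
      (((Finset.Icc S M).biUnion F1 ∪ (Finset.Icc S M).biUnion F2 ∪ F3 : Finset ℕ) : Set ℕ) := by
    rintro q ⟨⟨hq, hSq, hnn⟩, hqY⟩
    have hqN : q ≤ N := Nat.le_floor hqY
    have hqI : q ∈ Finset.Icc 1 N := Finset.mem_Icc.2 ⟨hq.one_le, hqN⟩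
    rw [Normal, not_and_or] at hnn
    rw [Finset.mem_coe, Finset.mem_union, Finset.mem_union, Finset.mem_biUnion,
      Finset.mem_biUnion]
    rcases hnn with h | h
    · left
      push Not at h
      obtain ⟨s, h1, h2, h3⟩ := h
      have hsM : s ∈ Finset.Icc S M := Finset.mem_Icc.2 ⟨h1, by
        have := lev_mono hqN
        omega⟩
      rcases lt_abs.1 h3 with h4 | h4
      · left
        refine ⟨s, hsM, ?_⟩
        rw [hF1, Finset.mem_filter]
        refine ⟨hqI, hq, by linarith⟩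
      · right
        refine ⟨s, hsM, ?_⟩
        rw [hF2, Finset.mem_filter]
        refine ⟨hqI, hq, by linarith⟩
    · right
      rw [hF3, Finset.mem_filter]
      rw [← hSdef] at h
      exact ⟨hqI, hq, by omega⟩
  have hcard : (cnt Y (Abn U) : ℝ) ≤ ∑ s ∈ Finset.Icc S M, ((F1 s).card : ℝ) +
      ∑ s ∈ Finset.Icc S M, ((F2 s).card : ℝ) + (F3.card : ℝ) := by
    have h1 : cnt Y (Abn U) ≤ ∑ s ∈ Finset.Icc S M, (F1 s).card +
        ∑ s ∈ Finset.Icc S M, (F2 s).card + F3.card := by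
      rw [cnt]
      refine (Set.ncard_le_ncard hsub (Finset.finite_toSet _)).trans ?_
      rw [Set.ncard_coe_finset]
      refine (Finset.card_union_le _ _).trans ?_
      apply Nat.add_le_add_right
      refine (Finset.card_union_le _ _).trans ?_
      exact Nat.add_le_add Finset.card_biUnion_le Finset.card_biUnion_le
    exact_mod_cast h1
  have hs1 := Finset.sum_le_sum b1
  have hs2 := Finset.sum_le_sum b2
  rw [Finset.sum_const, nsmul_eq_mul] at hs1 hs2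
  have hcI : ((Finset.Icc S M).card : ℝ) ≤ 3 * U + 8 := by
    rw [Nat.card_Icc]
    have : ((M + 1 - S : ℕ) : ℝ) ≤ ((M + 1 : ℕ) : ℝ) := by exact_mod_cast Nat.sub_le _ _
    push_cast at this
    linarith
  have hGe : 0 ≤ G * Real.exp (-(x / 50)) := by positivity
  have h5 : (cnt Y (Abn U) : ℝ) ≤ (6 * (U : ℝ) + 20) * (G * Real.exp (-(x / 50))) := by
    have h6 := mul_le_mul_of_nonneg_right hcI hGe
    linarith
  refine h5.trans ?_
  have h7 : G ≤ C * (3 * U + 7) ^ C * (Y / Real.log Y) := by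
    rw [hG]
    apply mul_le_mul_of_nonneg_right _ (by positivity)
    apply mul_le_mul_of_nonneg_left _ hC.le
    apply Real.rpow_le_rpow (by linarith) (by linarith) hC.le
  calc (6 * (U : ℝ) + 20) * (G * Real.exp (-(x / 50)))
      ≤ (6 * (U : ℝ) + 20) * (C * (3 * U + 7) ^ C * (Y / Real.log Y) *
        Real.exp (-(x / 50))) := by
        apply mul_le_mul_of_nonneg_left _ (by positivity)
        exact mul_le_mul_of_nonneg_right h7 (Real.exp_pos _).le
    _ = (Y / Real.log Y) * ((6 * (U : ℝ) + 20) * (C * (3 * U + 7) ^ C) *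
        Real.exp (-(x / 50))) := by ring
    _ ≤ _ := by
        apply mul_le_mul_of_nonneg_left hfin (by positivity)

end P031
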