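import Vale.Agent.P031.Prof
import Vale.Agent.P031.LemB

/-!
# P031, module OB1: few totients are over budget

PROOF.  Let `v = (p-1) φ(n) ≤ X` as in the statement and `J = prof U n` (on shifted levels
`1 ≤ s ≤ top`, top ≤ lam p ≤ 4U + 2).  `v` is divisible by `(p-1) ∏_{q ∈ bigs} (q-1)` (`totient_eq`).  Sum over
all possible profiles `J` (antitone functions on `[1, 4U+3]` with `J(1) = K ≤ C log U`, `card_bigs_le`):
at most `(4U+9)^K ≤ e^{C log² U}`.  For fixed `J` apply `lemB` to `f = lwt z`,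
`z(ℓ) = J(ℓ+1-S) + 1` for levels `ℓ ≥ S` and `1` for `ℓ < S`:
`#{v} ≤ ∑_{v ≤ X} f(v) · exp (- ∑_{big r ∣ v} log z(lev r))`, and
`∑_{big r ∣ v} log (J+1) = ∑_{k ≥ 1} log ((k+1)/k) Lv S (S+u_k) v`, `u_k = #{s ≥ 1: J(s) ≥ k}`,
`Lv S (S+u_k) v ≥ ∑_{q ∈ bigs ∪ {p}} (min (u_k, lam q) - E) = ∑_{s ≤ u_k} (J(s)+1) - (K+1) E`, so
`∑ ≥ ∑_s (J(s)+1) log (J(s)+1) - (K+1) log (K+1) E`.  With `∑_{r ≤ X} f(r)/r ≤ LL X + C + ∑_s J(s) (1 + C e^{-s})`
the bound is `C K (X/log X) exp (LL X + ∑_s J(s) - ∑_s (J+1) log (J+1) + U^{0.57})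
= C K X exp (- ∑_s Q(J(s)+1) + U^{0.57}) ≤ X exp (-b + H/10)`.
-/

namespace P031

open scoped BigOperators

/-- representations `v = (p-1) φ(n)` with a normal top prime -/
def Rep (U : ℕ) (p n v : ℕ) : Prop :=
  p.Prime ∧ Normal U p ∧ SS U ≤ lev p ∧ Good U n ∧ (∀ q ∈ bigs U n, lev q ≤ lev p) ∧
    v = (p - 1) * Nat.totient n

/-! ### Abel summation -/

theorem ob_abel (h : ℕ → ℝ) (S : ℕ) (M : ℕ) (hM : S ≤ M) :
    h M * ((M : ℝ) - S) + ∑ t ∈ Finset.Ico S M, (h t - h (t + 1)) * ((t : ℝ) + 1 - S) =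
      ∑ l ∈ Finset.Ico S M, h l := by
  induction M, hM using Nat.le_induction with
  | base => simp
  | succ M hM ih =>
    rw [Finset.sum_Ico_succ_top hM, Finset.sum_Ico_succ_top hM, ← ih]
    push_cast
    ring

theorem ob_tel (h : ℕ → ℝ) (a : ℕ) (M : ℕ) (hM : a ≤ M) :
    ∑ t ∈ Finset.Ico a M, (h t - h (t + 1)) = h a - h M := by
  induction M, hM using Nat.le_induction with
  | base => simp
  | succ M hM ih =>
    rw [Finset.sum_Ico_succ_top hM, ih]
    ring

theorem ob_point (h : ℕ → ℝ) {S a M : ℕ} (hS : S ≤ a) (haM : a < M) :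
    h a = h M + ∑ t ∈ Finset.Ico S M, (h t - h (t + 1)) * (if a < t + 1 then 1 else 0) := by
  have h1 : ∑ t ∈ Finset.Ico S M, (h t - h (t + 1)) * (if a < t + 1 then (1 : ℝ) else 0) =
      ∑ t ∈ Finset.Ico a M, (h t - h (t + 1)) := by
    symm
    rw [← Finset.sum_subset (s₁ := Finset.Ico a M) (s₂ := Finset.Ico S M)]
    · apply Finset.sum_congr rfl
      intro t ht
      rw [Finset.mem_Ico] at ht
      rw [if_pos (by omega), mul_one]
    · intro t ht
      rw [Finset.mem_Ico] at ht ⊢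
      omega
    · intro t ht ht'
      rw [Finset.mem_Ico] at ht ht'
      rw [if_neg (by omega), mul_zero]
  rw [h1, ob_tel h a M haM.le]
  ring

theorem ob_list (h : ℕ → ℝ) (S M : ℕ) (l : List ℕ) (hl : ∀ r ∈ l, lev r < M) :
    (l.map (fun r => if S ≤ lev r then h (lev r) else 0)).sum =
      h M * (l.countP (fun r => decide (S ≤ lev r ∧ lev r < M)) : ℝ) +
        ∑ t ∈ Finset.Ico S M,
          (h t - h (t + 1)) * (l.countP (fun r => decide (S ≤ lev r ∧ lev r < t + 1)) : ℝ) := by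
  induction l with
  | nil => simp
  | cons r l ih =>
    rw [List.map_cons, List.sum_cons, ih (fun r' hr' => hl r' (List.mem_cons_of_mem _ hr'))]
    have hr := hl r List.mem_cons_self
    simp only [List.countP_cons, decide_eq_true_eq]
    by_cases hS : S ≤ lev r
    · rw [if_pos hS, if_pos ⟨hS, hr⟩]
      have h1 := ob_point h hS hr
      have h2 : ∑ t ∈ Finset.Ico S M, (h t - h (t + 1)) *
          ((l.countP (fun r => decide (S ≤ lev r ∧ lev r < t + 1)) +
            (if S ≤ lev r ∧ lev r < t + 1 then 1 else 0) : ℕ) : ℝ) =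
          ∑ t ∈ Finset.Ico S M, (h t - h (t + 1)) *
            (l.countP (fun r => decide (S ≤ lev r ∧ lev r < t + 1)) : ℝ) +
          ∑ t ∈ Finset.Ico S M, (h t - h (t + 1)) * (if lev r < t + 1 then 1 else 0) := by
        rw [← Finset.sum_add_distrib]
        apply Finset.sum_congr rfl
        intro t _
        by_cases ht : lev r < t + 1
        · rw [if_pos ⟨hS, ht⟩, if_pos ht]; push_cast; ring
        · rw [if_neg (by tauto), if_neg ht]; push_cast; ring
      rw [h2]
      push_cast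
      linarith
    · have h2 : ∀ t, (if S ≤ lev r ∧ lev r < t then 1 else 0) = 0 := fun t => if_neg (by tauto)
      simp only [h2, add_zero]
      rw [if_neg hS, zero_add]

theorem ob_lower {U q : ℕ} (hq : q.Prime) (hN : Normal U q) (hlev : SS U ≤ lev q) (h : ℕ → ℝ)
    (hanti : ∀ t, SS U ≤ t → h (t + 1) ≤ h t) (hpos : ∀ t, 0 ≤ h t) :
    ∑ l ∈ Finset.Ico (SS U) (lev q + 1), h l - EE U * h (SS U) ≤
      ((q - 1).primeFactorsList.map (fun r => if SS U ≤ lev r then h (lev r) else 0)).sum := by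
  have hq2 := hq.two_le
  rw [ob_list h (SS U) (lev q + 1)]
  · rw [← ob_abel h (SS U) (lev q + 1) (by omega)]
    have h1 : (((lev q + 1 : ℕ) : ℝ) - SS U) - EE U ≤ (Lv (SS U) (lev q + 1) (q - 1) : ℝ) := by
      have := (abs_le.mp (hN.1 (lev q + 1) (by omega) le_rfl)).1
      linarith
    have h2 : ∀ t ∈ Finset.Ico (SS U) (lev q + 1), (h t - h (t + 1)) * (((t : ℝ) + 1 - SS U) - EE U) ≤
        (h t - h (t + 1)) * (Lv (SS U) (t + 1) (q - 1) : ℝ) := by
      intro t ht
      rw [Finset.mem_Ico] at ht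
      apply mul_le_mul_of_nonneg_left
      · have := (abs_le.mp (hN.1 (t + 1) (by omega) (by omega))).1
        push_cast at this
        linarith
      · linarith [hanti t ht.1]
    have h3 := Finset.sum_le_sum h2
    have h4 := mul_le_mul_of_nonneg_left h1 (hpos (lev q + 1))
    have h5 := ob_tel h (SS U) (lev q + 1) (by omega)
    have h6 : ∑ t ∈ Finset.Ico (SS U) (lev q + 1), (h t - h (t + 1)) * (((t : ℝ) + 1 - SS U) - EE U) =
        ∑ t ∈ Finset.Ico (SS U) (lev q + 1), (h t - h (t + 1)) * ((t : ℝ) + 1 - SS U) -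
          EE U * ∑ t ∈ Finset.Ico (SS U) (lev q + 1), (h t - h (t + 1)) := by
      rw [Finset.mul_sum, ← Finset.sum_sub_distrib]
      apply Finset.sum_congr rfl
      intro t _
      ring
    rw [h6, h5] at h3
    unfold Lv at h3 h4
    linarith
  · intro r hr
    have hr1 : r ≤ q - 1 := Nat.le_of_mem_primeFactorsList hr
    have := lev_mono (show r ≤ q by omega)
    omega

/-! ### the weight -/

/-- the weight by levels -/
noncomputable def obz (S : ℕ) (J : ℕ → ℕ) (l : ℕ) : ℝ := if S ≤ l then (J (l + 1 - S) : ℝ) + 1 else 1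

theorem obz_one_le (S : ℕ) (J : ℕ → ℕ) (l : ℕ) : 1 ≤ obz S J l := by
  unfold obz
  split_ifs
  · have : (0 : ℝ) ≤ (J (l + 1 - S) : ℝ) := Nat.cast_nonneg _
    linarith
  · exact le_rfl

theorem ob_cmul {z : ℕ → ℝ} (hz : ∀ s, 0 ≤ z s) : CMul (lwt z) := by
  refine ⟨lwt_one z, lwt_mul z, ?_⟩
  intro n
  unfold lwt
  split_ifs
  · exact le_rfl
  · apply List.prod_nonneg
    intro a ha
    rw [List.mem_map] at ha
    obtain ⟨r, _, rfl⟩ := ha
    exact hz _

theorem ob_lwt_eq (S : ℕ) (J : ℕ → ℕ) {m : ℕ} (hm : m ≠ 0) :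
    lwt (obz S J) m = Real.exp
      (m.primeFactorsList.map (fun r => if S ≤ lev r then Real.log (J (lev r + 1 - S) + 1) else 0)).sum := by
  rw [Real.exp_list_sum, List.map_map]
  unfold lwt
  rw [if_neg hm]
  congr 1
  apply List.map_congr_left
  intro r _
  simp only [Function.comp_apply, obz]
  split_ifs
  · rw [Real.exp_log (by positivity)]
  · rw [Real.exp_zero]

theorem ob_lwt_one_le (S : ℕ) (J : ℕ → ℕ) {m : ℕ} (hm : m ≠ 0) : 1 ≤ lwt (obz S J) m := by
  rw [ob_lwt_eq S J hm]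
  apply Real.one_le_exp
  apply List.sum_nonneg
  intro a ha
  rw [List.mem_map] at ha
  obtain ⟨r, _, rfl⟩ := ha
  split_ifs
  · apply Real.log_nonneg
    have : (0 : ℝ) ≤ (J (lev r + 1 - S) : ℝ) := Nat.cast_nonneg _
    linarith
  · exact le_rfl

theorem ob_lwt_prod (z : ℕ → ℝ) {ι : Type*} (s : Finset ι) (f : ι → ℕ) :
    lwt z (∏ i ∈ s, f i) = ∏ i ∈ s, lwt z (f i) := by
  classical
  induction s using Finset.induction_on with
  | empty => simp [lwt_one]
  | insert a s ha ih => rw [Finset.prod_insert ha, Finset.prod_insert ha, lwt_mul, ih]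

theorem ob_shift (g : ℕ → ℝ) {S M : ℕ} (hM : S ≤ M) :
    ∑ l ∈ Finset.Ico S M, g (l + 1 - S) = ∑ s ∈ Finset.Icc 1 (M - S), g s := by
  induction M, hM using Nat.le_induction with
  | base => simp
  | succ M hM ih =>
    rw [Finset.sum_Ico_succ_top hM, ih, show M + 1 - S = (M - S) + 1 by omega,
      Finset.sum_Icc_succ_top (by omega)]

/-- the value of the weight at `q - 1` for a big normal prime -/
theorem ob_lwt_prime {U q : ℕ} (J : ℕ → ℕ) (hJ : ∀ s, J (s + 1) ≤ J s) (hq : q.Prime)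
    (hN : Normal U q) (hlev : SS U ≤ lev q) :
    Real.exp (∑ s ∈ Finset.Icc 1 (lam U q), Real.log (J s + 1) - EE U * Real.log (J 1 + 1)) ≤
      lwt (obz (SS U) J) (q - 1) := by
  have hq2 := hq.two_le
  rw [ob_lwt_eq (SS U) J (by omega)]
  apply Real.exp_le_exp.mpr
  have h := ob_lower hq hN hlev (fun l => Real.log (J (l + 1 - SS U) + 1)) ?_ ?_
  · have h1 := ob_shift (fun s => Real.log (J s + 1)) (S := SS U) (M := lev q + 1) (by omega)
    beta_reduce at h h1
    rw [h1, show SS U + 1 - SS U = 1 by omega] at h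
    exact h
  · intro t ht
    apply Real.log_le_log (by positivity)
    have : J (t + 1 + 1 - SS U) ≤ J (t + 1 - SS U) := by
      rw [show t + 1 + 1 - SS U = (t + 1 - SS U) + 1 by omega]
      exact hJ _
    have : (J (t + 1 + 1 - SS U) : ℝ) ≤ (J (t + 1 - SS U) : ℝ) := by exact_mod_cast this
    linarith
  · intro t
    apply Real.log_nonneg
    have : (0 : ℝ) ≤ (J (t + 1 - SS U) : ℝ) := Nat.cast_nonneg _
    linarith

theorem ob_double (U n : ℕ) (g : ℕ → ℝ) {L : ℕ} (hL : top U n ≤ L) :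
    ∑ q ∈ bigs U n, ∑ s ∈ Finset.Icc 1 (lam U q), g s =
      ∑ s ∈ Finset.Icc 1 L, (prof U n s : ℝ) * g s := by
  have h1 : ∀ q ∈ bigs U n, ∑ s ∈ Finset.Icc 1 (lam U q), g s =
      ∑ s ∈ Finset.Icc 1 L, if s ≤ lam U q then g s else 0 := by
    intro q hq
    have hq' : lam U q ≤ L := (lam_le_top hq).trans hL
    rw [← Finset.sum_filter]
    congr 1
    ext s
    simp only [Finset.mem_Icc, Finset.mem_filter]
    omega
  rw [Finset.sum_congr rfl h1, Finset.sum_comm]
  apply Finset.sum_congr rfl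
  intro s _
  rw [← Finset.sum_filter, Finset.sum_const, nsmul_eq_mul]
  rfl

theorem ob_beta (U n : ℕ) {L : ℕ} (hL : top U n ≤ L) :
    beta U n 0 = ∑ s ∈ Finset.Icc 1 L, QQ (prof U n s + 1) := by
  unfold beta
  simp only [add_zero, zero_add, QQ_one, sub_zero]
  apply Finset.sum_subset
  · intro s hs
    rw [Finset.mem_Icc] at hs ⊢
    omega
  · intro s hs hs'
    rw [Finset.mem_Icc] at hs hs'
    rw [prof_zero (show top U n < s by omega), zero_add, QQ_one]

/-- the value of the weight at `v` -/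
theorem ob_lwt_rep {U p n v L K : ℕ} (J : ℕ → ℕ) (hJ : ∀ s, J (s + 1) ≤ J s) (hR : Rep U p n v)
    (hL : lam U p ≤ L) (hK : (bigs U n).card ≤ K) (hJp : ∀ s, 1 ≤ s → J s = prof U n s) :
    Real.exp (∑ s ∈ Finset.Icc 1 L, ((J s : ℝ) + 1) * Real.log (J s + 1) -
      (K + 1) * EE U * Real.log (K + 1)) ≤ lwt (obz (SS U) J) v := by
  obtain ⟨hp, hpN, hpS, hG, hle, rfl⟩ := hR
  have hn0 : n ≠ 0 := by have := hG.pos; omega
  have htop : top U n ≤ lam U p := by
    unfold top
    apply Finset.sup_le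
    intro q hq
    have := hle q hq
    unfold lam
    omega
  rw [lwt_mul, totient_eq hn0 hG.sqf, lwt_mul, ob_lwt_prod]
  have hlow : 1 ≤ lwt (obz (SS U) J) (Nat.totient (lowPart (SS U) n)) := by
    apply ob_lwt_one_le
    have := Nat.totient_pos.mpr (lowPart_pos (SS U) n)
    omega
  have hp1 := ob_lwt_prime J hJ hp hpN hpS
  set g : ℕ → ℝ := fun s => Real.log (J s + 1) with hg
  have hgpos : ∀ s, 0 ≤ g s := by
    intro s
    apply Real.log_nonneg
    have : (0 : ℝ) ≤ (J s : ℝ) := Nat.cast_nonneg _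
    linarith
  have hprod : Real.exp (∑ q ∈ bigs U n, (∑ s ∈ Finset.Icc 1 (lam U q), g s - EE U * g 1)) ≤
      ∏ q ∈ bigs U n, lwt (obz (SS U) J) (q - 1) := by
    rw [Real.exp_sum]
    apply Finset.prod_le_prod
    · intro q _
      exact (Real.exp_pos _).le
    · intro q hq
      have hq' := mem_bigs.mp hq
      exact ob_lwt_prime J hJ hq'.1 (hG.nrm q hq) hq'.2.2.2
  have hexp : ∑ s ∈ Finset.Icc 1 L, ((J s : ℝ) + 1) * Real.log (J s + 1) -
      (K + 1) * EE U * Real.log (K + 1) ≤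
      (∑ s ∈ Finset.Icc 1 (lam U p), g s - EE U * g 1) +
        ∑ q ∈ bigs U n, (∑ s ∈ Finset.Icc 1 (lam U q), g s - EE U * g 1) := by
    rw [Finset.sum_sub_distrib, ob_double U n g (htop.trans hL), Finset.sum_const, nsmul_eq_mul]
    have h1 : ∑ s ∈ Finset.Icc 1 (lam U p), g s = ∑ s ∈ Finset.Icc 1 L, g s := by
      apply Finset.sum_subset
      · intro s hs
        rw [Finset.mem_Icc] at hs ⊢
        omega
      · intro s hs hs'
        rw [Finset.mem_Icc] at hs hs'
        have h0 : J s = 0 := by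
          rw [hJp s hs.1]
          exact prof_zero (by omega)
        simp [hg, h0]
    have h2 : ∑ s ∈ Finset.Icc 1 L, ((J s : ℝ) + 1) * Real.log (J s + 1) =
        ∑ s ∈ Finset.Icc 1 L, (prof U n s : ℝ) * g s + ∑ s ∈ Finset.Icc 1 L, g s := by
      rw [← Finset.sum_add_distrib]
      apply Finset.sum_congr rfl
      intro s hs
      rw [Finset.mem_Icc] at hs
      rw [← hJp s hs.1]
      simp only [hg]
      ring
    have hJ1 : J 1 ≤ K := by
      rw [hJp 1 le_rfl]
      exact (Finset.card_filter_le _ _).trans hK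
    have h3 : g 1 ≤ Real.log (K + 1) := by
      apply Real.log_le_log (by positivity)
      have : (J 1 : ℝ) ≤ K := by exact_mod_cast hJ1
      linarith
    have hE : 0 ≤ EE U := by unfold EE; positivity
    have hK' : ((bigs U n).card : ℝ) ≤ K := by exact_mod_cast hK
    have h4 : (((bigs U n).card : ℝ) + 1) * (EE U * g 1) ≤ (K + 1) * (EE U * Real.log (K + 1)) := by
      apply mul_le_mul (by linarith) (mul_le_mul_of_nonneg_left h3 hE)
        (mul_nonneg hE (hgpos 1)) (by positivity)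
    rw [h1, h2]
    linarith
  calc _ ≤ _ := Real.exp_le_exp.mpr hexp
    _ = Real.exp (∑ s ∈ Finset.Icc 1 (lam U p), g s - EE U * g 1) *
        (1 * Real.exp (∑ q ∈ bigs U n, (∑ s ∈ Finset.Icc 1 (lam U q), g s - EE U * g 1))) := by
        rw [Real.exp_add, one_mul]
    _ ≤ _ := by
        apply mul_le_mul hp1 _ (by positivity) (le_trans (Real.exp_pos _).le hp1)
        apply mul_le_mul hlow hprod (Real.exp_pos _).le (by linarith)

/-! ### the upper bound for the weighted sum -/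

theorem ob_geom (L : ℕ) : ∑ s ∈ Finset.Icc 1 L, Real.exp (-(s : ℝ)) ≤ 2 := by
  have h1 : ∀ s : ℕ, Real.exp (-(s : ℝ)) ≤ (1 / 2 : ℝ) ^ s := by
    intro s
    have h2 : (2 : ℝ) ≤ Real.exp 1 := by
      have := Real.add_one_le_exp (1 : ℝ)
      linarith
    rw [Real.exp_neg, one_div, inv_pow]
    apply inv_anti₀ (by positivity)
    calc (2 : ℝ) ^ s ≤ (Real.exp 1) ^ s := pow_le_pow_left₀ (by norm_num) h2 s
      _ = Real.exp s := by rw [← Real.exp_nat_mul, mul_one]
  calc ∑ s ∈ Finset.Icc 1 L, Real.exp (-(s : ℝ)) ≤ ∑ s ∈ Finset.Icc 1 L, (1 / 2 : ℝ) ^ s :=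
        Finset.sum_le_sum fun s _ => h1 s
    _ ≤ ∑ s ∈ Finset.range (L + 1), (1 / 2 : ℝ) ^ s := by
        apply Finset.sum_le_sum_of_subset_of_nonneg
        · intro s hs
          rw [Finset.mem_Icc] at hs
          rw [Finset.mem_range]
          omega
        · intro s _ _
          positivity
    _ ≤ 2 := sum_geometric_two_le _

theorem ob_upper : ∃ C : ℝ, 0 < C ∧ ∀ (S K L : ℕ) (X : ℝ) (J : ℕ → ℕ), 1 ≤ S →
    64 * ((K : ℝ) + 1) ^ 2 ≤ Real.exp (Real.exp S) → 16 ≤ X → LL X < L + S → (∀ s, J s ≤ K) →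
    ∑ v ∈ Finset.Icc 1 ⌊X⌋₊, lwt (obz S J) v ≤
      X * Real.exp (C * (K + 1) + ∑ s ∈ Finset.Icc 1 L, (J s : ℝ)) := by
  obtain ⟨C₃, hC₃, hB⟩ := lemB
  obtain ⟨C₁, hC₁, hP⟩ := prime_recip
  obtain ⟨C₂, hC₂, hM⟩ := level_mass
  refine ⟨C₃ + C₁ + 2 * C₂, by positivity, ?_⟩
  intro S K L X J hS hKS hX hLL hJK
  have hK0 : (0 : ℝ) ≤ K := Nat.cast_nonneg _
  have h1 := hB ((K : ℝ) + 1) (4 * ((K : ℝ) + 1) ^ 2) X (lwt (obz S J)) (by linarith) le_rfl
    (by linarith) (ob_cmul fun s => zero_le_one.trans (obz_one_le S J s)) ?_ ?_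
  rotate_left
  · intro r hr
    rw [lwt_prime _ hr]
    unfold obz
    have hJr : (J (lev r + 1 - S) : ℝ) ≤ K := by exact_mod_cast hJK _
    split_ifs <;> linarith
  · intro r hr hr'
    rw [lwt_prime _ hr]
    have : lev r < S := by
      rw [lev_lt_iff hS]
      calc (r : ℝ) < 16 * (4 * ((K : ℝ) + 1) ^ 2) := hr'
        _ = 64 * ((K : ℝ) + 1) ^ 2 := by ring
        _ ≤ _ := hKS
    unfold obz
    rw [if_neg (by omega)]
    norm_num
  -- the prime sum
  have hsum : ∑ r ∈ (Finset.Icc 1 ⌊X⌋₊).filter Nat.Prime, lwt (obz S J) r / (r : ℝ) ≤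
      LL X + C₁ + 2 * C₂ * K + ∑ s ∈ Finset.Icc 1 L, (J s : ℝ) := by
    have h2 := (abs_le.mp (hP X (by linarith))).2
    have h3 : ∀ r ∈ (Finset.Icc 1 ⌊X⌋₊).filter Nat.Prime, lwt (obz S J) r / (r : ℝ) ≤
        1 / (r : ℝ) + ∑ s ∈ Finset.Icc 1 L, if r ∈ prLev (s + S - 1) then (J s : ℝ) * (1 / (r : ℝ)) else 0 := by
      intro r hr
      rw [Finset.mem_filter, Finset.mem_Icc] at hr
      obtain ⟨⟨hr1, hrX⟩, hrp⟩ := hr
      have hr0 : (0 : ℝ) < r := by exact_mod_cast hr1
      rw [lwt_prime _ hrp]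
      have hnn : ∀ s ∈ Finset.Icc 1 L,
          (0 : ℝ) ≤ if r ∈ prLev (s + S - 1) then (J s : ℝ) * (1 / (r : ℝ)) else 0 := by
        intro s _
        split_ifs <;> positivity
      unfold obz
      split_ifs with hlev
      · have hlev1 : 1 ≤ lev r := by omega
        have h4 : Real.exp (Real.exp (lev r)) ≤ X :=
          ((le_lev_iff hlev1).mp le_rfl).trans ((Nat.le_floor_iff (by linarith)).mp hrX)
        have h5 : (lev r : ℝ) ≤ LL X := by
          unfold LL
          have h6 : Real.exp (lev r) ≤ Real.log X := by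
            rw [Real.le_log_iff_exp_le (by linarith)]
            exact h4
          rw [Real.le_log_iff_exp_le (lt_of_lt_of_le (Real.exp_pos _) h6)]
          exact h6
        have h6 : lev r < L + S := by
          have : (lev r : ℝ) < (L + S : ℕ) := by push_cast; linarith
          exact_mod_cast this
        have h7 : lev r + 1 - S ∈ Finset.Icc 1 L := by
          rw [Finset.mem_Icc]
          omega
        have h8 := Finset.single_le_sum hnn h7
        rw [if_pos (mem_prLev.mpr ⟨hrp, by omega⟩)] at h8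
        have h9 : ((J (lev r + 1 - S) : ℝ) + 1) / r = 1 / r + (J (lev r + 1 - S) : ℝ) * (1 / r) := by
          field_simp
          ring
        rw [h9]
        linarith
      · have := Finset.sum_nonneg hnn
        linarith
    have h10 := Finset.sum_le_sum h3
    rw [Finset.sum_add_distrib, Finset.sum_comm] at h10
    have h11 : ∀ s ∈ Finset.Icc 1 L, ∑ r ∈ (Finset.Icc 1 ⌊X⌋₊).filter Nat.Prime,
        (if r ∈ prLev (s + S - 1) then (J s : ℝ) * (1 / (r : ℝ)) else 0) ≤
          (J s : ℝ) + C₂ * K * Real.exp (-(s : ℝ)) := by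
      intro s hs
      rw [Finset.mem_Icc] at hs
      rw [← Finset.sum_filter]
      have h12 : ∑ r ∈ ((Finset.Icc 1 ⌊X⌋₊).filter Nat.Prime).filter (fun r => r ∈ prLev (s + S - 1)),
          (J s : ℝ) * (1 / (r : ℝ)) ≤ ∑ r ∈ prLev (s + S - 1), (J s : ℝ) * (1 / (r : ℝ)) := by
        apply Finset.sum_le_sum_of_subset_of_nonneg
        · intro r hr
          exact (Finset.mem_filter.mp hr).2
        · intro r _ _
          positivity
      have h13 := (abs_le.mp (hM (s + S - 1))).2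
      have h14 : Real.exp (-((s + S - 1 : ℕ) : ℝ)) ≤ Real.exp (-(s : ℝ)) := by
        apply Real.exp_le_exp.mpr
        have : s ≤ s + S - 1 := by omega
        have : (s : ℝ) ≤ ((s + S - 1 : ℕ) : ℝ) := by exact_mod_cast this
        linarith
      have h15 : (J s : ℝ) ≤ K := by exact_mod_cast hJK s
      have h16 : (0 : ℝ) ≤ J s := Nat.cast_nonneg _
      calc _ ≤ _ := h12
        _ = (J s : ℝ) * ∑ r ∈ prLev (s + S - 1), 1 / (r : ℝ) := by rw [Finset.mul_sum]
        _ ≤ (J s : ℝ) * (1 + C₂ * Real.exp (-(s : ℝ))) := by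
            apply mul_le_mul_of_nonneg_left _ h16
            have := mul_le_mul_of_nonneg_left h14 hC₂.le
            linarith
        _ = (J s : ℝ) + C₂ * J s * Real.exp (-(s : ℝ)) := by ring
        _ ≤ _ := by
            have := mul_le_mul_of_nonneg_right (mul_le_mul_of_nonneg_left h15 hC₂.le)
              (Real.exp_pos (-(s : ℝ))).le
            linarith
    have h17 := Finset.sum_le_sum h11
    rw [Finset.sum_add_distrib, ← Finset.mul_sum] at h17
    have h18 := mul_le_mul_of_nonneg_left (ob_geom L) (by positivity : 0 ≤ C₂ * K)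
    linarith
  have hlogX : 0 < Real.log X := Real.log_pos (by linarith)
  have h19 : Real.exp (LL X) = Real.log X := by
    unfold LL
    rw [Real.exp_log hlogX]
  calc _ ≤ _ := h1
    _ ≤ C₃ * (K + 1) * X / Real.log X *
        Real.exp (LL X + C₁ + 2 * C₂ * K + ∑ s ∈ Finset.Icc 1 L, (J s : ℝ)) := by
        apply mul_le_mul_of_nonneg_left (Real.exp_le_exp.mpr hsum) (by positivity)
    _ = X * (C₃ * (K + 1) * Real.exp (C₁ + 2 * C₂ * K + ∑ s ∈ Finset.Icc 1 L, (J s : ℝ))) := by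
        rw [show LL X + C₁ + 2 * C₂ * K + ∑ s ∈ Finset.Icc 1 L, (J s : ℝ) =
          LL X + (C₁ + 2 * C₂ * K + ∑ s ∈ Finset.Icc 1 L, (J s : ℝ)) by ring, Real.exp_add, h19]
        field_simp
    _ ≤ X * (Real.exp (C₃ * (K + 1)) *
          Real.exp (C₁ + 2 * C₂ * K + ∑ s ∈ Finset.Icc 1 L, (J s : ℝ))) := by
        apply mul_le_mul_of_nonneg_left _ (by linarith)
        apply mul_le_mul_of_nonneg_right _ (Real.exp_pos _).le
        have := Real.add_one_le_exp (C₃ * ((K : ℝ) + 1))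
        linarith
    _ ≤ _ := by
        rw [← Real.exp_add]
        apply mul_le_mul_of_nonneg_left _ (by linarith)
        apply Real.exp_le_exp.mpr
        have : 0 ≤ C₁ * K := by positivity
        nlinarith

theorem ob_count : ∃ C : ℝ, 0 < C ∧ ∀ (S K L : ℕ) (X R : ℝ) (J : ℕ → ℕ), 1 ≤ S →
    64 * ((K : ℝ) + 1) ^ 2 ≤ Real.exp (Real.exp S) → 16 ≤ X → LL X < L + S → (∀ s, J s ≤ K) →
    (((Finset.Icc 1 ⌊X⌋₊).filter (fun v => Real.exp R ≤ lwt (obz S J) v)).card : ℝ) ≤
      X * Real.exp (C * (K + 1) + ∑ s ∈ Finset.Icc 1 L, (J s : ℝ) - R) := by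
  obtain ⟨C, hC, h⟩ := ob_upper
  refine ⟨C, hC, ?_⟩
  intro S K L X R J hS hKS hX hLL hJK
  have h1 := h S K L X J hS hKS hX hLL hJK
  have h2 : (((Finset.Icc 1 ⌊X⌋₊).filter (fun v => Real.exp R ≤ lwt (obz S J) v)).card : ℝ) *
      Real.exp R ≤ ∑ v ∈ Finset.Icc 1 ⌊X⌋₊, lwt (obz S J) v := by
    rw [← nsmul_eq_mul, ← Finset.sum_const]
    calc _ ≤ ∑ v ∈ (Finset.Icc 1 ⌊X⌋₊).filter (fun v => Real.exp R ≤ lwt (obz S J) v),
          lwt (obz S J) v := Finset.sum_le_sum fun v hv => (Finset.mem_filter.mp hv).2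
      _ ≤ _ := by
          apply Finset.sum_le_sum_of_subset_of_nonneg (Finset.filter_subset _ _)
          intro v _ _
          exact (ob_cmul fun s => zero_le_one.trans (obz_one_le S J s)).2.2 v
  rw [Real.exp_sub, ← mul_div_assoc, le_div_iff₀ (Real.exp_pos R)]
  exact h2.trans h1

/-! ### profiles -/

/-- profile of a tuple of levels -/
def obJ {K : ℕ} (u : Fin K → ℕ) (s : ℕ) : ℕ := ∑ k, if s ≤ u k then 1 else 0

theorem obJ_le {K : ℕ} (u : Fin K → ℕ) (s : ℕ) : obJ u s ≤ K := by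
  unfold obJ
  calc _ ≤ ∑ _k : Fin K, 1 := Finset.sum_le_sum fun k _ => by split_ifs <;> omega
    _ = K := by simp

theorem obJ_anti {K : ℕ} (u : Fin K → ℕ) (s : ℕ) : obJ u (s + 1) ≤ obJ u s := by
  apply Finset.sum_le_sum
  intro k _
  split_ifs <;> omega

theorem obJ_exists (f : ℕ → ℕ) (L : ℕ) : ∀ (K : ℕ) (A : Finset ℕ), A.card ≤ K → (∀ q ∈ A, f q ≤ L) →
    ∃ u ∈ Fintype.piFinset (fun _ : Fin K => Finset.range (L + 1)),
      ∀ s, 1 ≤ s → obJ u s = (A.filter (fun q => s ≤ f q)).card := by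
  intro K
  induction K with
  | zero =>
    intro A hA hf
    have : A = ∅ := Finset.card_eq_zero.mp (by omega)
    subst this
    refine ⟨Fin.elim0, ?_, ?_⟩
    · rw [Fintype.mem_piFinset]
      intro k
      exact k.elim0
    · intro s _
      simp [obJ]
  | succ K ih =>
    intro A hA hf
    rcases A.eq_empty_or_nonempty with rfl | ⟨a, ha⟩
    · refine ⟨fun _ => 0, ?_, ?_⟩
      · rw [Fintype.mem_piFinset]
        intro k
        simp
      · intro s hs
        simp only [obJ, Finset.filter_empty, Finset.card_empty]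
        apply Finset.sum_eq_zero
        intro k _
        rw [if_neg (by omega)]
    · obtain ⟨u, hu, hu'⟩ := ih (A.erase a) (by rw [Finset.card_erase_of_mem ha]; omega)
        (fun q hq => hf q (Finset.mem_of_mem_erase hq))
      refine ⟨Fin.cons (f a) u, ?_, ?_⟩
      · rw [Fintype.mem_piFinset] at hu ⊢
        intro k
        refine Fin.cases ?_ ?_ k
        · rw [Fin.cons_zero, Finset.mem_range]
          have := hf a ha
          omega
        · intro i
          rw [Fin.cons_succ]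
          exact hu i
      · intro s hs
        have h1 := hu' s hs
        unfold obJ at h1 ⊢
        rw [Fin.sum_univ_succ, Fin.cons_zero]
        simp only [Fin.cons_succ]
        rw [h1, Finset.filter_erase]
        split_ifs with hfa
        · rw [Finset.card_erase_of_mem (Finset.mem_filter.mpr ⟨ha, hfa⟩)]
          have : 0 < (A.filter (fun q => s ≤ f q)).card :=
            Finset.card_pos.mpr ⟨a, Finset.mem_filter.mpr ⟨ha, hfa⟩⟩
          omega
        · rw [Finset.erase_eq_of_notMem, zero_add]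
          rw [Finset.mem_filter]
          tauto

/-- sums over all profiles -/
theorem ob_union : ∃ C : ℝ, 0 < C ∧ ∀ (U K L : ℕ) (X b : ℝ), 1 ≤ U →
    64 * ((K : ℝ) + 1) ^ 2 ≤ Real.exp (Real.exp (SS U)) → 16 ≤ X → LL X < L + SS U →
    (∀ n p v : ℕ, Rep U p n v → (v : ℝ) ≤ X → (bigs U n).card ≤ K ∧ lam U p ≤ L) →
    (cnt X {v | ∃ p n : ℕ, Rep U p n v ∧ b ≤ beta U n 0} : ℝ) ≤
      ((L : ℝ) + 1) ^ K * (X * Real.exp (C * (K + 1) + (K + 1) * EE U * Real.log (K + 1) - b)) := by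
  obtain ⟨C, hC, h⟩ := ob_count
  refine ⟨C, hC, ?_⟩
  intro U K L X b hU hKS hX hLL hrep
  have hS : 1 ≤ SS U := Nat.sqrt_pos.mpr hU
  set P := (Fintype.piFinset (fun _ : Fin K => Finset.range (L + 1))).filter
    (fun u => b ≤ ∑ s ∈ Finset.Icc 1 L, QQ (obJ u s + 1)) with hP
  set RR : (Fin K → ℕ) → ℝ := fun u =>
    ∑ s ∈ Finset.Icc 1 L, ((obJ u s : ℝ) + 1) * Real.log (obJ u s + 1) -
      (K + 1) * EE U * Real.log (K + 1) with hRR
  set B := P.biUnion (fun u =>
    (Finset.Icc 1 ⌊X⌋₊).filter (fun v => Real.exp (RR u) ≤ lwt (obz (SS U) (obJ u)) v)) with hB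
  have hsub : {v : ℕ | v ∈ {v | ∃ p n : ℕ, Rep U p n v ∧ b ≤ beta U n 0} ∧ (v : ℝ) ≤ X} ⊆ (B : Set ℕ) := by
    rintro v ⟨⟨p, n, hR, hb⟩, hvX⟩
    obtain ⟨hcard, hlam⟩ := hrep n p v hR hvX
    have htop : top U n ≤ L := by
      unfold top
      apply Finset.sup_le
      intro q hq
      have := hR.2.2.2.2.1 q hq
      have h2 : lam U q ≤ lam U p := by unfold lam; omega
      omega
    obtain ⟨u, hu, hu'⟩ := obJ_exists (lam U) L K (bigs U n) hcard (fun q hq => (lam_le_top hq).trans htop)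
    have hu'' : ∀ s, 1 ≤ s → obJ u s = prof U n s := hu'
    rw [hB, Finset.coe_biUnion, Set.mem_iUnion₂]
    refine ⟨u, ?_, ?_⟩
    · rw [hP, Finset.mem_coe, Finset.mem_filter]
      refine ⟨hu, ?_⟩
      rw [ob_beta U n htop] at hb
      calc b ≤ _ := hb
        _ = _ := Finset.sum_congr rfl fun s hs => by rw [hu'' s (Finset.mem_Icc.mp hs).1]
    · rw [Finset.mem_coe, Finset.mem_filter, Finset.mem_Icc]
      refine ⟨⟨?_, Nat.le_floor hvX⟩, ?_⟩
      · have h1 := hR.2.2.2.2.2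
        have h2 := hR.1.two_le
        have h3 := Nat.totient_pos.mpr hR.2.2.2.1.pos
        rw [h1]
        exact Nat.mul_pos (by omega) h3
      · exact ob_lwt_rep (obJ u) (obJ_anti u) hR hlam hcard hu''
  have hcnt : (cnt X {v | ∃ p n : ℕ, Rep U p n v ∧ b ≤ beta U n 0} : ℝ) ≤ (B.card : ℝ) := by
    unfold cnt
    have := Set.ncard_le_ncard hsub (Finset.finite_toSet B)
    rw [Set.ncard_coe_finset] at this
    exact_mod_cast this
  have hBcard : (B.card : ℝ) ≤ ∑ u ∈ P,
      (((Finset.Icc 1 ⌊X⌋₊).filter (fun v => Real.exp (RR u) ≤ lwt (obz (SS U) (obJ u)) v)).card : ℝ) := by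
    have := Finset.card_biUnion_le (s := P) (t := fun u =>
      (Finset.Icc 1 ⌊X⌋₊).filter (fun v => Real.exp (RR u) ≤ lwt (obz (SS U) (obJ u)) v))
    calc (B.card : ℝ) ≤ ((∑ u ∈ P, ((Finset.Icc 1 ⌊X⌋₊).filter
          (fun v => Real.exp (RR u) ≤ lwt (obz (SS U) (obJ u)) v)).card : ℕ) : ℝ) := by
          exact_mod_cast this
      _ = _ := by push_cast; rfl
  have heach : ∀ u ∈ P,
      (((Finset.Icc 1 ⌊X⌋₊).filter (fun v => Real.exp (RR u) ≤ lwt (obz (SS U) (obJ u)) v)).card : ℝ) ≤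
        X * Real.exp (C * (K + 1) + (K + 1) * EE U * Real.log (K + 1) - b) := by
    intro u hu
    have h1 := h (SS U) K L X (RR u) (obJ u) hS hKS hX hLL (obJ_le u)
    refine h1.trans ?_
    apply mul_le_mul_of_nonneg_left _ (by linarith)
    apply Real.exp_le_exp.mpr
    have h2 := (Finset.mem_filter.mp hu).2
    have h3 : ∑ s ∈ Finset.Icc 1 L, QQ (obJ u s + 1) =
        ∑ s ∈ Finset.Icc 1 L, ((obJ u s : ℝ) + 1) * Real.log (obJ u s + 1) -
          ∑ s ∈ Finset.Icc 1 L, (obJ u s : ℝ) := by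
      rw [← Finset.sum_sub_distrib]
      apply Finset.sum_congr rfl
      intro s _
      unfold QQ
      push_cast
      ring
    simp only [hRR]
    linarith
  have hPcard : (P.card : ℝ) ≤ ((L : ℝ) + 1) ^ K := by
    have h1 : P.card ≤ (Fintype.piFinset (fun _ : Fin K => Finset.range (L + 1))).card :=
      Finset.card_filter_le _ _
    rw [Fintype.card_piFinset_const, Finset.card_range] at h1
    exact_mod_cast h1
  calc _ ≤ _ := hcnt
    _ ≤ _ := hBcard
    _ ≤ ∑ _u ∈ P, X * Real.exp (C * (K + 1) + (K + 1) * EE U * Real.log (K + 1) - b) :=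
        Finset.sum_le_sum heach
    _ = (P.card : ℝ) * (X * Real.exp (C * (K + 1) + (K + 1) * EE U * Real.log (K + 1) - b)) := by
        rw [Finset.sum_const, nsmul_eq_mul]
    _ ≤ _ := by
        apply mul_le_mul_of_nonneg_right hPcard
        have : 0 ≤ X := by linarith
        positivity

theorem ob : ∃ U₀ : ℕ, ∀ U : ℕ, U₀ ≤ U → ∀ X : ℝ, 16 ≤ X → LL X ≤ 4 * U → ∀ b : ℝ,
    (cnt X {v | ∃ p n : ℕ, Rep U p n v ∧ b ≤ beta U n 0} : ℝ) ≤ X * Real.exp (-b + HH U / 8) := by
  obtain ⟨C, hC, h⟩ := ob_union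
  obtain ⟨C₁, U₁, hC₁, hcard⟩ := card_bigs_le
  -- asymptotics
  have hev : ∀ᶠ U : ℕ in Filter.atTop,
      (C₁ + 1) * Real.log U + (C + 8) ≤ (U : ℝ) ^ ((1 : ℝ) / 100) := by
    have h1 : (fun x : ℝ => (C₁ + 1) * Real.log x + (C + 8)) =o[Filter.atTop]
        (fun x : ℝ => x ^ ((1 : ℝ) / 100)) := by
      apply Asymptotics.IsLittleO.add
      · exact (isLittleO_log_rpow_atTop (by norm_num)).const_mul_left _
      · apply Asymptotics.isLittleO_const_left.mpr
        right
        apply Filter.tendsto_abs_atTop_atTop.comp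
        exact tendsto_rpow_atTop (by norm_num)
    have h2 := h1.bound (zero_lt_one)
    have h3 := (tendsto_natCast_atTop_atTop (R := ℝ)).eventually h2
    filter_upwards [h3] with U hU
    rw [one_mul, Real.norm_of_nonneg (by positivity : (0 : ℝ) ≤ (U : ℝ) ^ ((1 : ℝ) / 100))] at hU
    exact (le_abs_self _).trans hU
  obtain ⟨U₂, hU₂⟩ := Filter.eventually_atTop.mp hev
  refine ⟨max (max U₁ U₂) 1, ?_⟩
  intro U hU X hX hLL b
  have hUU₁ : U₁ ≤ U := le_trans (le_trans (le_max_left _ _) (le_max_left _ _)) hU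
  have hUU₂ : U₂ ≤ U := le_trans (le_trans (le_max_right _ _) (le_max_left _ _)) hU
  have hU1 : 1 ≤ U := le_trans (le_max_right _ _) hU
  have hU1' : (1 : ℝ) ≤ U := by exact_mod_cast hU1
  have hw := hU₂ U hUU₂
  set w : ℝ := (U : ℝ) ^ ((1 : ℝ) / 100) with hwdef
  have hlogU : 0 ≤ Real.log U := Real.log_nonneg hU1'
  have hCl : 0 ≤ C₁ * Real.log U := by positivity
  have hw8 : 8 ≤ w := by nlinarith
  have hwC : C ≤ w := by nlinarith
  set K := ⌊C₁ * Real.log U⌋₊ with hKdef
  have hK : (K : ℝ) ≤ C₁ * Real.log U := Nat.floor_le hCl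
  have hK1 : (K : ℝ) + 1 ≤ w := by nlinarith
  have hK0 : (0 : ℝ) ≤ K := Nat.cast_nonneg _
  have hEE : EE U = w ^ 55 := by
    unfold EE
    rw [hwdef, ← Real.rpow_natCast, ← Real.rpow_mul (by positivity)]
    norm_num
  have hHH : HH U = w ^ 60 := by
    unfold HH
    rw [hwdef, ← Real.rpow_natCast, ← Real.rpow_mul (by positivity)]
    norm_num
  have hw100 : (U : ℝ) = w ^ 100 := by
    rw [hwdef, ← Real.rpow_natCast, ← Real.rpow_mul (by positivity)]
    norm_num
  have hlogL : Real.log (4 * U + 3) ≤ w := by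
    have h1 : Real.log (4 * U + 3) ≤ Real.log (Real.exp 2 * U) := by
      apply Real.log_le_log (by positivity)
      have : (7 : ℝ) ≤ Real.exp 2 := by
        have h2 : (2.7 : ℝ) ≤ Real.exp 1 := by
          have := Real.exp_one_gt_d9
          linarith
        have h3 : Real.exp 2 = Real.exp 1 * Real.exp 1 := by rw [← Real.exp_add]; norm_num
        nlinarith
      nlinarith
    rw [Real.log_mul (Real.exp_pos _).ne' (by positivity), Real.log_exp] at h1
    nlinarith
  have hSS : w ^ 50 < (SS U : ℝ) + 1 := by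
    have h1 : U < (SS U + 1) ^ 2 := by
      have := Nat.lt_succ_sqrt U
      unfold SS
      rw [pow_two]
      exact this
    have h2 : (U : ℝ) < ((SS U : ℝ) + 1) ^ 2 := by exact_mod_cast h1
    apply lt_of_pow_lt_pow_left₀ 2 (by positivity)
    rw [← pow_mul]
    exact hw100 ▸ h2
  have hKS : 64 * ((K : ℝ) + 1) ^ 2 ≤ Real.exp (Real.exp (SS U)) := by
    have h1 := Real.add_one_le_exp (SS U : ℝ)
    have h2 := Real.add_one_le_exp (Real.exp (SS U))
    have h3 : ((K : ℝ) + 1) ^ 2 ≤ w ^ 2 := pow_le_pow_left₀ (by linarith) hK1 2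
    have h4 : w ^ 4 ≤ w ^ 50 := pow_le_pow_right₀ (by linarith) (by norm_num)
    have h5 : 64 * w ^ 2 ≤ w ^ 4 := by
      have : 64 ≤ w ^ 2 := by nlinarith
      calc 64 * w ^ 2 ≤ w ^ 2 * w ^ 2 := mul_le_mul_of_nonneg_right this (by positivity)
        _ = w ^ 4 := by ring
    linarith
  have hmain := h U K (4 * U + 2) X b hU1 hKS hX (by
    push_cast
    have : (0 : ℝ) ≤ SS U := Nat.cast_nonneg _
    linarith) ?_
  rotate_left
  · intro n p v hR hvX
    have hlev : lev p ≤ 4 * U + 1 := by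
      rcases Nat.eq_zero_or_pos (lev p) with h0 | h0
      · omega
      · have h1 := (le_lev_iff (s := lev p) (r := p) h0).mp le_rfl
        have h2 : (p : ℝ) ≤ X + 1 := by
          have h3 := hR.2.2.2.2.2
          have h4 := Nat.totient_pos.mpr hR.2.2.2.1.pos
          have h5 : p - 1 ≤ v := by rw [h3]; exact Nat.le_mul_of_pos_right _ h4
          have h6 : p ≤ v + 1 := by omega
          have h7 : (p : ℝ) ≤ v + 1 := by exact_mod_cast h6
          linarith
        have h3 : Real.exp (Real.exp (lev p)) ≤ X ^ 2 := by nlinarith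
        have h4 : Real.exp (lev p) ≤ 2 * Real.log X := by
          rw [← Real.le_log_iff_exp_le (by positivity)] at h3
          rw [Real.log_pow] at h3
          exact_mod_cast h3
        have hlX : 0 < Real.log X := Real.log_pos (by linarith)
        have h5 : (lev p : ℝ) ≤ Real.log 2 + LL X := by
          rw [← Real.le_log_iff_exp_le (by positivity), Real.log_mul (by norm_num) hlX.ne'] at h4
          exact h4
        have h6 := Real.log_two_lt_d9
        have h7 : (lev p : ℝ) < (4 * U + 1 + 1 : ℕ) := by push_cast; linarith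
        have h8 : lev p < 4 * U + 1 + 1 := by exact_mod_cast h7
        omega
    have hlam : lam U p ≤ 4 * U + 2 := by unfold lam; omega
    refine ⟨?_, hlam⟩
    have htop : top U n ≤ 8 * U := by
      unfold top
      apply Finset.sup_le
      intro q hq
      have h1 := hR.2.2.2.2.1 q hq
      have h2 : lam U q ≤ lam U p := by unfold lam; omega
      omega
    exact Nat.le_floor (hcard U hUU₁ n hR.2.2.2.1 htop)
  refine hmain.trans ?_
  have hpow : (((4 * U + 2 : ℕ) : ℝ) + 1) ^ K = Real.exp (K * Real.log (4 * U + 3)) := by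
    rw [Real.exp_nat_mul, Real.exp_log (by positivity)]
    push_cast
    ring
  rw [hpow, mul_left_comm, ← Real.exp_add]
  apply mul_le_mul_of_nonneg_left _ (by linarith)
  apply Real.exp_le_exp.mpr
  have hlogK : Real.log (K + 1) ≤ w := by
    have := Real.log_le_sub_one_of_pos (show (0 : ℝ) < K + 1 by linarith)
    linarith
  have hlogK0 : 0 ≤ Real.log ((K : ℝ) + 1) := Real.log_nonneg (by linarith)
  have e1 : (K : ℝ) * Real.log (4 * U + 3) ≤ w * w :=
    mul_le_mul (by linarith) hlogL (Real.log_nonneg (by linarith)) (by linarith)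
  have e2 : C * ((K : ℝ) + 1) ≤ w * w := mul_le_mul hwC hK1 (by linarith) (by linarith)
  have e3 : ((K : ℝ) + 1) * EE U * Real.log (K + 1) ≤ w * w ^ 55 * w := by
    rw [hEE]
    apply mul_le_mul _ hlogK hlogK0 (by positivity)
    exact mul_le_mul_of_nonneg_right hK1 (by positivity)
  have e4 : w * w ≤ w ^ 57 := by
    rw [← pow_two]
    exact pow_le_pow_right₀ (by linarith) (by norm_num)
  have e5 : w * w ^ 55 * w = w ^ 57 := by ring
  have e6 : 3 * w ^ 57 ≤ w ^ 60 / 8 := by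
    have h1 : w ^ 60 = w ^ 57 * w ^ 3 := by ring
    have h2 : (24 : ℝ) ≤ w ^ 3 := by
      calc (24 : ℝ) ≤ 8 ^ 3 := by norm_num
        _ ≤ w ^ 3 := pow_le_pow_left₀ (by norm_num) hw8 3
    rw [h1]
    have h3 : 0 < w ^ 57 := by positivity
    nlinarith
  rw [hHH]
  linarith

end P031
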