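import Vale.Agent.P031.Defs
import Vale.Agent.P021.PNT

/-!
# P031, module PNT: the prime number theorem
-/

namespace P031

open Filter Topology Asymptotics

theorem pnt : Tendsto (fun x : ℝ => (Nat.primeCounting ⌊x⌋₊ : ℝ) * Real.log x / x) atTop (𝓝 1) := by
  have h1 := Vale.Agent.P021.pnt_theta
  have h2 := Chebyshev.primeCounting_sub_theta_div_log_isBigO
  have h3 : Tendsto (fun x : ℝ => ((Nat.primeCounting ⌊x⌋₊ : ℝ) - Chebyshev.theta x / Real.log x) *
      (Real.log x / x)) atTop (𝓝 0) := by
    have h4 : (fun x : ℝ => ((Nat.primeCounting ⌊x⌋₊ : ℝ) - Chebyshev.theta x / Real.log x) *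
        (Real.log x / x)) =O[atTop] (fun x : ℝ => (x / Real.log x ^ 2) * (Real.log x / x)) :=
      h2.mul (isBigO_refl _ _)
    refine h4.trans_tendsto ?_
    have h5 : Tendsto (fun x : ℝ => (Real.log x)⁻¹) atTop (𝓝 0) :=
      Real.tendsto_log_atTop.inv_tendsto_atTop
    refine h5.congr' ?_
    filter_upwards [eventually_gt_atTop 1] with x hx
    have : 0 < Real.log x := Real.log_pos hx
    have hx0 : x ≠ 0 := by linarith
    field_simp
  have h6 := h1.add h3
  rw [add_zero] at h6
  refine h6.congr' ?_
  filter_upwards [eventually_gt_atTop 1] with x hx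
  have : 0 < Real.log x := Real.log_pos hx
  have hx0 : x ≠ 0 := by linarith
  field_simp
  ring

end P031
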