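import Vale.Agent.P031.Prof4

/-!
# P031, module PROF: collects `Prof1` to `Prof4`
-/
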