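import Vale.Agent.P031.Basic

/-!
# P031, module PROF1: calculus of profiles: `QQ`, `aa`, `prof`, `beta`

Everything here is elementary.  `Q(k) = k log k - k + 1`, `a_k = Q(k+1) - Q(k)` is increasing in `k ≥ 1`
(convexity), `a_1 = 2 log 2 - 1 = 0.386…`, `a_1 + a_2 = Q(3) = 3 log 3 - 2 = 1.2958…`, `a_k ≤ log (k+1)`.
`prof U n s = #{q ∈ bigs : s ≤ lam q}` is antitone in `s`; it is `≥ 1` for `1 ≤ s ≤ top` and `0` above.
`beta_le_beta_zero`: `Q(J+k+1) - Q(k+1) = ∑_{i=1}^J a_{k+i} ≤ J log (J+k+1) ≤ C_k Q(J+1)`.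
-/

namespace P031

open scoped BigOperators

theorem QQ_one : QQ 1 = 0 := by
  unfold QQ
  simp

theorem QQ_nonneg (k : ℕ) : 0 ≤ QQ k := by
  unfold QQ
  rcases Nat.eq_zero_or_pos k with h | h
  · subst h
    simp
  · have hk : (0 : ℝ) < k := by exact_mod_cast h
    have h1 := Real.one_sub_inv_le_log_of_pos hk
    have h2 : (k : ℝ) * (1 - (k : ℝ)⁻¹) ≤ k * Real.log k := mul_le_mul_of_nonneg_left h1 hk.le
    have h3 : (k : ℝ) * (1 - (k : ℝ)⁻¹) = k - 1 := by
      field_simp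
    linarith

theorem aa_le (k : ℕ) : aa k ≤ Real.log (k + 1) := by
  unfold aa QQ
  rcases Nat.eq_zero_or_pos k with h | h
  · subst h
    simp
  · have hk : (0 : ℝ) < k := by exact_mod_cast h
    have h1 : Real.log (((k : ℝ) + 1) / k) ≤ ((k : ℝ) + 1) / k - 1 :=
      Real.log_le_sub_one_of_pos (by positivity)
    rw [Real.log_div (by positivity) hk.ne'] at h1
    have h2 : (k : ℝ) * (Real.log (k + 1) - Real.log k) ≤ k * (((k : ℝ) + 1) / k - 1) :=
      mul_le_mul_of_nonneg_left h1 hk.le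
    have h3 : (k : ℝ) * (((k : ℝ) + 1) / k - 1) = 1 := by
      field_simp
      ring
    push_cast
    nlinarith

theorem aa_nonneg {k : ℕ} (hk : 1 ≤ k) : 0 ≤ aa k := by
  unfold aa QQ
  have hk0 : (1 : ℝ) ≤ k := by exact_mod_cast hk
  have h1 : 1 - (((k : ℝ) + 1) / k)⁻¹ ≤ Real.log (((k : ℝ) + 1) / k) :=
    Real.one_sub_inv_le_log_of_pos (by positivity)
  rw [Real.log_div (by positivity) (by positivity)] at h1
  have h2 : (k : ℝ) * (1 - (((k : ℝ) + 1) / k)⁻¹) ≤ k * (Real.log (k + 1) - Real.log k) :=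
    mul_le_mul_of_nonneg_left h1 (by linarith)
  have h3 : (k : ℝ) * (1 - (((k : ℝ) + 1) / k)⁻¹) = k / (k + 1) := by
    field_simp
    ring
  have h4 : 1 - ((k : ℝ) + 1)⁻¹ ≤ Real.log ((k : ℝ) + 1) :=
    Real.one_sub_inv_le_log_of_pos (by positivity)
  have h5 : (k : ℝ) / (k + 1) = 1 - ((k : ℝ) + 1)⁻¹ := by
    field_simp
    ring
  have h6 : ((k : ℝ) + 1)⁻¹ ≤ 1 / 2 := by
    rw [inv_eq_one_div]
    exact one_div_le_one_div_of_le (by norm_num) (by linarith)
  push_cast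
  nlinarith

theorem QQ_mono {k l : ℕ} (hk : 1 ≤ k) (h : k ≤ l) : QQ k ≤ QQ l := by
  induction l, h using Nat.le_induction with
  | base => exact le_refl _
  | succ l hl ih =>
    have := aa_nonneg (le_trans hk hl)
    unfold aa at this
    linarith

theorem aa_mono {k l : ℕ} (hk : 1 ≤ k) (h : k ≤ l) : aa k ≤ aa l := by
  induction l, h using Nat.le_induction with
  | base => exact le_refl _
  | succ l hl ih =>
    refine le_trans ih ?_
    unfold aa QQ
    have hl0 : (1 : ℝ) ≤ l := by exact_mod_cast le_trans hk hl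
    have m1 : (l : ℝ) ∈ Set.Ici (0 : ℝ) := by simp only [Set.mem_Ici]; linarith
    have m2 : (l : ℝ) + 2 ∈ Set.Ici (0 : ℝ) := by simp only [Set.mem_Ici]; linarith
    have m3 : (0 : ℝ) ≤ 1 / 2 := by norm_num
    have m4 : (1 / 2 : ℝ) + 1 / 2 = 1 := by norm_num
    have hc := Real.convexOn_mul_log.2 m1 m2 m3 m3 m4
    simp only [smul_eq_mul] at hc
    have e1 : (1 : ℝ) / 2 * l + 1 / 2 * (l + 2) = l + 1 := by ring
    rw [e1] at hc
    push_cast
    have e2 : (l : ℝ) + 1 + 1 = l + 2 := by ring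
    rw [e2]
    linarith

theorem aa_one : (38 : ℝ) / 100 ≤ aa 1 ∧ aa 1 ≤ 39 / 100 := by
  unfold aa QQ
  have h1 := Real.log_two_gt_d9
  have h2 := Real.log_two_lt_d9
  norm_num
  constructor <;> linarith

private theorem log_three : (1.098 : ℝ) ≤ Real.log 3 ∧ Real.log 3 ≤ 1.099 := by
  have h1 := Real.log_two_gt_d9
  have h2 := Real.log_two_lt_d9
  have e1 : (5 : ℝ) * Real.log 3 = 8 * Real.log 2 + Real.log (243 / 256) := by
    have a1 : (5 : ℝ) * Real.log 3 = Real.log (3 ^ 5) := by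
      rw [Real.log_pow]; norm_num
    have a2 : (8 : ℝ) * Real.log 2 = Real.log (2 ^ 8) := by
      rw [Real.log_pow]; norm_num
    rw [a1, a2, ← Real.log_mul (by norm_num) (by norm_num)]
    norm_num
  have h3 : Real.log (243 / 256) ≤ 243 / 256 - 1 := Real.log_le_sub_one_of_pos (by norm_num)
  have h4 : 1 - (243 / 256 : ℝ)⁻¹ ≤ Real.log (243 / 256) :=
    Real.one_sub_inv_le_log_of_pos (by norm_num)
  constructor
  · norm_num at h4 ⊢
    linarith
  · norm_num at h3 ⊢
    linarith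

theorem aa_one_two : (129 : ℝ) / 100 ≤ aa 1 + aa 2 ∧ aa 1 + aa 2 ≤ 130 / 100 := by
  obtain ⟨h1, h2⟩ := log_three
  have e : aa 1 + aa 2 = 3 * Real.log 3 - 2 := by
    unfold aa QQ
    norm_num
    ring
  rw [e]
  norm_num at h1 h2 ⊢
  constructor <;> linarith

theorem prof_anti (U n : ℕ) : Antitone (prof U n) := by
  intro s t h
  unfold prof
  refine Finset.card_le_card ?_
  intro q hq
  rw [Finset.mem_filter] at hq ⊢
  exact ⟨hq.1, le_trans h hq.2⟩

theorem prof_pos {U n s : ℕ} (h1 : 1 ≤ s) (h : s ≤ top U n) : 1 ≤ prof U n s := by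
  unfold top at h
  rw [Finset.le_sup_iff (show (⊥ : ℕ) < s from Nat.lt_of_lt_of_le Nat.zero_lt_one h1)] at h
  obtain ⟨q, hq, hs⟩ := h
  unfold prof
  rw [Nat.one_le_iff_ne_zero, ← Nat.pos_iff_ne_zero, Finset.card_pos]
  exact ⟨q, Finset.mem_filter.2 ⟨hq, hs⟩⟩

theorem lam_le_top {U n q : ℕ} (h : q ∈ bigs U n) : lam U q ≤ top U n := by
  unfold top
  exact Finset.le_sup (f := lam U) h

theorem prof_zero {U n s : ℕ} (h : top U n < s) : prof U n s = 0 := by
  unfold prof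
  rw [Finset.card_eq_zero, Finset.filter_eq_empty_iff]
  intro q hq hs
  exact absurd (le_trans hs (lam_le_top hq)) (not_le.2 h)

theorem beta_nonneg (U n k : ℕ) : 0 ≤ beta U n k := by
  unfold beta
  refine Finset.sum_nonneg fun s _ => ?_
  have := QQ_mono (k := k + 1) (l := prof U n s + k + 1) (by omega) (by omega)
  linarith

theorem beta_mono (U n : ℕ) : Monotone (beta U n) := by
  refine monotone_nat_of_le_succ fun k => ?_
  unfold beta
  refine Finset.sum_le_sum fun s _ => ?_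
  have := aa_mono (k := k + 1) (l := prof U n s + k + 1) (by omega) (by omega)
  unfold aa at this
  have e1 : prof U n s + (k + 1) + 1 = prof U n s + k + 1 + 1 := by omega
  rw [e1]
  linarith

theorem top_le_beta (U n k : ℕ) : aa (k + 1) * top U n ≤ beta U n k := by
  unfold beta
  have h : ∀ s ∈ Finset.Icc 1 (top U n),
      aa (k + 1) ≤ QQ (prof U n s + k + 1) - QQ (k + 1) := by
    intro s hs
    rw [Finset.mem_Icc] at hs
    have h1 := prof_pos hs.1 hs.2
    have := QQ_mono (k := k + 1 + 1) (l := prof U n s + k + 1) (by omega) (by omega)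
    unfold aa
    linarith
  have := Finset.card_nsmul_le_sum _ _ _ h
  rw [Nat.card_Icc, nsmul_eq_mul] at this
  simp only [Nat.add_sub_cancel] at this
  linarith

private theorem QQ_growth (a J : ℕ) (ha : 1 ≤ a) :
    QQ (J + a) - QQ a ≤ J * Real.log ((J : ℝ) + a) := by
  induction J with
  | zero => simp
  | succ J ih =>
    have h1 := aa_le (J + a)
    unfold aa at h1
    have e1 : J + 1 + a = J + a + 1 := by omega
    rw [e1]
    have ha' : (1 : ℝ) ≤ a := by exact_mod_cast ha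
    have hJ : (0 : ℝ) ≤ J := Nat.cast_nonneg J
    have h2 : Real.log ((J : ℝ) + a) ≤ Real.log (((J + 1 : ℕ) : ℝ) + a) := by
      refine Real.log_le_log (by linarith) ?_
      push_cast
      linarith
    have h3 : ((J + a : ℕ) : ℝ) + 1 = ((J + 1 : ℕ) : ℝ) + a := by
      push_cast
      ring
    rw [h3] at h1
    have h4 : (J : ℝ) * Real.log ((J : ℝ) + a) ≤ J * Real.log (((J + 1 : ℕ) : ℝ) + a) :=
      mul_le_mul_of_nonneg_left h2 hJ
    have h5 : (((J + 1 : ℕ) : ℝ)) * Real.log (((J + 1 : ℕ) : ℝ) + a) =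
        J * Real.log (((J + 1 : ℕ) : ℝ) + a) + Real.log (((J + 1 : ℕ) : ℝ) + a) := by
      push_cast
      ring
    rw [h5]
    linarith

private theorem QQ_lower (J : ℕ) : (J : ℝ) / 2 * Real.log ((J : ℝ) + 1) ≤ QQ (J + 1) := by
  have hJ : (0 : ℝ) ≤ J := Nat.cast_nonneg J
  have h1 := Real.le_log_one_add_of_nonneg hJ
  have h2 : ((J : ℝ) / 2 + 1) * (2 * J / (J + 2)) ≤ ((J : ℝ) / 2 + 1) * Real.log (1 + J) :=
    mul_le_mul_of_nonneg_left h1 (by linarith)
  have h3 : ((J : ℝ) / 2 + 1) * (2 * J / (J + 2)) = J := by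
    field_simp
  rw [h3, add_comm (1 : ℝ) J] at h2
  unfold QQ
  push_cast
  nlinarith

theorem beta_le_beta_zero (k : ℕ) : ∃ C : ℝ, 0 < C ∧ ∀ U n : ℕ, beta U n k ≤ C * beta U n 0 := by
  have hlk : 0 ≤ Real.log ((k : ℝ) + 1) := Real.log_nonneg (by linarith [Nat.cast_nonneg (α := ℝ) k])
  refine ⟨2 + 3 * Real.log ((k : ℝ) + 1), by linarith, fun U n => ?_⟩
  unfold beta
  rw [Finset.mul_sum]
  refine Finset.sum_le_sum fun s _ => ?_
  set J := prof U n s with hJ
  have hJ0 : (0 : ℝ) ≤ J := Nat.cast_nonneg J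
  have hk0 : (0 : ℝ) ≤ k := Nat.cast_nonneg k
  have h1 := QQ_growth (k + 1) J (by omega)
  have e1 : J + (k + 1) = J + k + 1 := by omega
  rw [e1] at h1
  have h2 := QQ_lower J
  have e2 : QQ (J + 0 + 1) - QQ (0 + 1) = QQ (J + 1) := by
    simp only [add_zero, zero_add, QQ_one, sub_zero]
  rw [e2]
  have h3 : Real.log ((J : ℝ) + ((k + 1 : ℕ) : ℝ)) ≤
      Real.log ((J : ℝ) + 1) + Real.log ((k : ℝ) + 1) := by
    rw [← Real.log_mul (by linarith) (by linarith)]
    refine Real.log_le_log (by push_cast; linarith) ?_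
    push_cast
    nlinarith
  have h4 : (J : ℝ) * Real.log ((J : ℝ) + ((k + 1 : ℕ) : ℝ)) ≤
      J * (Real.log ((J : ℝ) + 1) + Real.log ((k : ℝ) + 1)) :=
    mul_le_mul_of_nonneg_left h3 hJ0
  -- `J ≤ 3 QQ (J+1)`
  have h5 : (J : ℝ) ≤ 3 * QQ (J + 1) := by
    rcases Nat.eq_zero_or_pos J with h | h
    · rw [h]
      have := QQ_nonneg (0 + 1)
      push_cast
      linarith
    · have hJ1 : (1 : ℝ) ≤ J := by exact_mod_cast h
      have h6 : Real.log 2 ≤ Real.log ((J : ℝ) + 1) :=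
        Real.log_le_log (by norm_num) (by linarith)
      have h7 := Real.log_two_gt_d9
      have h8 : (J : ℝ) / 2 * 0.69 ≤ (J : ℝ) / 2 * Real.log ((J : ℝ) + 1) :=
        mul_le_mul_of_nonneg_left (by linarith) (by linarith)
      norm_num at h8
      linarith
  have h6 : (J : ℝ) * Real.log ((k : ℝ) + 1) ≤ 3 * QQ (J + 1) * Real.log ((k : ℝ) + 1) :=
    mul_le_mul_of_nonneg_right h5 hlk
  nlinarith

end P031
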