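import Vale.Agent.P031.Prof1

/-!
# P031, module PROF2: the functionals `Phi`, `FF`

* `beta_cons`: with `n = q n'`, `lam q ≥ top n'`: `prof (q n') s = prof n' s + 1` for `1 ≤ s ≤ lam q`.
* `Phi_growth`.  If `Φ_j = Φ_{j-1}` (resp. `= top` for `j = 0`) then
  `Φ_{j+1} ≥ a_1 Φ_j + a_2 Φ_{j-1} + β_{j+1} ≥ (a_1+a_2) Φ_j` (for `j = 0` use
  `β_1 ≥ a_2 top`, `top_le_beta`); otherwise `Φ_j = β_j + ∑_{i<j} a_{j-i} Φ_i` and
  `Φ_{j+1} ≥ a_1 Φ_j + β_{j+1} + ∑_{i<j} a_{j+1-i} Φ_i ≥ (1 + a_1) Φ_j`.
* `FF_Phi`: by induction `PhiS t b' i = Φ_{i+1}` for `b' k = β_{k+1} + a_{k+1} t`, `t = Φ_0`.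
* `FF_slope`: induction on `j`, upper slope `10^(j+1)`, lower slope `a_1` (`a_k ≤ log (k+1)`).
-/

namespace P031

open scoped BigOperators

theorem bigs_mul {U q n : ℕ} (hq : q.Prime) (hS : SS U ≤ lev q) (hn : n ≠ 0) :
    bigs U (q * n) = insert q (bigs U n) := by
  unfold bigs
  ext r
  simp only [Finset.mem_filter, Finset.mem_insert, Nat.mem_primeFactors, ne_eq]
  constructor
  · rintro ⟨⟨hr, hd, h0⟩, hl⟩
    rcases (Nat.Prime.dvd_mul hr).1 hd with h | h
    · left
      exact (Nat.prime_dvd_prime_iff_eq hr hq).1 h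
    · right
      exact ⟨⟨hr, h, hn⟩, hl⟩
  · rintro (h | ⟨⟨hr, hd, h0⟩, hl⟩)
    · subst h
      exact ⟨⟨hq, dvd_mul_right _ _, mul_ne_zero hq.ne_zero hn⟩, hS⟩
    · exact ⟨⟨hr, hd.mul_left q, mul_ne_zero hq.ne_zero hn⟩, hl⟩

theorem beta_cons {U q n : ℕ} (hU : 1 ≤ U) (hq : q.Prime) (hS : SS U ≤ lev q) (hn : n ≠ 0)
    (hqn : ¬ q ∣ n) (htop : top U n ≤ lam U q) (k : ℕ) :
    beta U (q * n) k = beta U n (k + 1) + aa (k + 1) * lam U q ∧ top U (q * n) = lam U q := by
  have hb := bigs_mul hq hS hn
  have hqb : q ∉ bigs U n := by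
    unfold bigs
    simp only [Finset.mem_filter, Nat.mem_primeFactors, not_and]
    intro h
    exact absurd h.2.1 hqn
  have ht : top U (q * n) = lam U q := by
    unfold top
    rw [hb, Finset.sup_insert]
    exact sup_eq_left.2 htop
  refine ⟨?_, ht⟩
  have hp : ∀ s ∈ Finset.Icc 1 (lam U q), prof U (q * n) s = prof U n s + 1 := by
    intro s hs
    unfold prof
    rw [hb, Finset.filter_insert, if_pos (Finset.mem_Icc.1 hs).2, Finset.card_insert_of_notMem]
    simp [hqb]
  unfold beta
  rw [ht]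
  have h1 : ∀ s ∈ Finset.Icc 1 (lam U q),
      QQ (prof U (q * n) s + k + 1) - QQ (k + 1) =
        (QQ (prof U n s + (k + 1) + 1) - QQ (k + 1 + 1)) + aa (k + 1) := by
    intro s hs
    rw [hp s hs]
    unfold aa
    rw [show prof U n s + 1 + k + 1 = prof U n s + (k + 1) + 1 from by ring]
    ring
  rw [Finset.sum_congr rfl h1, Finset.sum_add_distrib]
  congr 1
  · symm
    apply Finset.sum_subset
    · exact Finset.Icc_subset_Icc le_rfl htop
    · intro s hs hs'
      have : top U n < s := by
        rw [Finset.mem_Icc] at hs hs'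
        by_contra hcon
        exact hs' ⟨hs.1, not_lt.1 hcon⟩
      rw [prof_zero this]
      simp
  · rw [Finset.sum_const, Nat.card_Icc]
    simp [mul_comm]

theorem Phi_cons {U q n : ℕ} (hU : 1 ≤ U) (hq : q.Prime) (hS : SS U ≤ lev q) (hn : n ≠ 0)
    (hqn : ¬ q ∣ n) (htop : top U n ≤ lam U q) (j : ℕ) :
    Phi U (q * n) j = FF U n j (lam U q) := by
  unfold Phi FF
  rw [(beta_cons hU hq hS hn hqn htop 0).2]
  congr 1
  funext k
  exact (beta_cons hU hq hS hn hqn htop k).1

theorem PhiS_zero (tp : ℝ) (b : ℕ → ℝ) : PhiS tp b 0 = max tp (b 0) := by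
  rw [PhiS]

theorem PhiS_succ (tp : ℝ) (b : ℕ → ℝ) (j : ℕ) : PhiS tp b (j + 1) =
    max (PhiS tp b j) (b (j + 1) + ∑ i ∈ Finset.range (j + 1), aa (j + 1 - i) * PhiS tp b i) := by
  rw [PhiS, ← Fin.sum_univ_eq_sum_range (fun i => aa (j + 1 - i) * PhiS tp b i)]

theorem PhiS_shift (tp : ℝ) (b : ℕ → ℝ) (j : ℕ) :
    PhiS (PhiS tp b 0) (fun k => b (k + 1) + aa (k + 1) * PhiS tp b 0) j = PhiS tp b (j + 1) := by
  induction j using Nat.strong_induction_on with
  | _ j ih =>
    rcases j with _ | j
    · rw [PhiS_zero, PhiS_succ]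
      simp
    · rw [PhiS_succ, ih j (Nat.lt_succ_self j), PhiS_succ _ _ (j + 1)]
      congr 1
      rw [Finset.sum_range_succ' _ (j + 1)]
      have : ∑ i ∈ Finset.range (j + 1), aa (j + 1 - i) *
          PhiS (PhiS tp b 0) (fun k => b (k + 1) + aa (k + 1) * PhiS tp b 0) i =
          ∑ i ∈ Finset.range (j + 1), aa (j + 1 + 1 - (i + 1)) * PhiS tp b (i + 1) := by
        apply Finset.sum_congr rfl
        intro i hi
        rw [ih i (by have := Finset.mem_range.1 hi; omega)]
        congr 2
        omega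
      rw [this]
      simp only [Nat.sub_zero]
      ring

theorem FF_Phi (U n j : ℕ) : FF U n j (Phi U n 0) = Phi U n (j + 1) :=
  PhiS_shift _ _ _

theorem aa_one_le_one : aa 1 ≤ 1 := le_trans aa_one.2 (by norm_num)

theorem aa_le_two_pow (k : ℕ) : aa k ≤ 2 ^ k := by
  refine (aa_le k).trans ?_
  have h1 : Real.log ((k : ℝ) + 1) ≤ k := by
    have := Real.log_le_sub_one_of_pos (show (0 : ℝ) < k + 1 by positivity)
    linarith
  have h2 : (k : ℝ) ≤ 2 ^ k := by
    have := (Nat.lt_two_pow_self (n := k)).le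
    exact_mod_cast this
  linarith

theorem geo_bound (j : ℕ) :
    ∑ i ∈ Finset.range (j + 1), (2 : ℝ) ^ (j + 1 - i) * 10 ^ (i + 1) ≤ 10 ^ (j + 2) / 4 := by
  induction j with
  | zero => norm_num
  | succ j ih =>
    rw [Finset.sum_range_succ]
    have : ∑ i ∈ Finset.range (j + 1), (2 : ℝ) ^ (j + 1 + 1 - i) * 10 ^ (i + 1) =
        2 * ∑ i ∈ Finset.range (j + 1), (2 : ℝ) ^ (j + 1 - i) * 10 ^ (i + 1) := by
      rw [Finset.mul_sum]
      apply Finset.sum_congr rfl
      intro i hi
      have : j + 1 + 1 - i = (j + 1 - i) + 1 := by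
        have := Finset.mem_range.1 hi
        omega
      rw [this, pow_succ]
      ring
    rw [this]
    have h2 : j + 1 + 1 - (j + 1) = 1 := by omega
    rw [h2]
    have h3 : (10 : ℝ) ^ (j + 1 + 2) = 10 * 10 ^ (j + 2) := by
      rw [show j + 1 + 2 = (j + 2) + 1 from by ring, pow_succ]; ring
    have h4 : (10 : ℝ) ^ (j + 1 + 1) = 10 ^ (j + 2) := rfl
    rw [h3, h4]
    nlinarith [ih, pow_pos (show (0 : ℝ) < 10 by norm_num) (j + 2)]

theorem PhiS_slope (b : ℕ → ℝ) {t t' : ℝ} (h : t ≤ t') (j : ℕ) :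
    aa 1 * (t' - t) ≤ PhiS t' (fun k => b k + aa (k + 1) * t') j -
        PhiS t (fun k => b k + aa (k + 1) * t) j ∧
      PhiS t' (fun k => b k + aa (k + 1) * t') j - PhiS t (fun k => b k + aa (k + 1) * t) j ≤
        10 ^ (j + 1) * (t' - t) := by
  have hd : 0 ≤ t' - t := sub_nonneg.2 h
  have h1 := aa_one_le_one
  have h1' := aa_one.1
  induction j using Nat.strong_induction_on with
  | _ j ih =>
    rcases j with _ | j
    · rw [PhiS_zero, PhiS_zero]
      simp only [zero_add, pow_one]
      constructor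
      · rw [le_sub_iff_add_le]
        rcases le_total t (b 0 + aa 1 * t) with hc | hc
        · rw [max_eq_right hc]
          apply le_max_of_le_right
          linarith
        · rw [max_eq_left hc]
          apply le_max_of_le_left
          nlinarith
      · rw [sub_le_iff_le_add]
        apply max_le
        · have := le_max_left t (b 0 + aa 1 * t)
          nlinarith
        · have := le_max_right t (b 0 + aa 1 * t)
          nlinarith
    · rw [PhiS_succ, PhiS_succ]
      set P' := fun i => PhiS t' (fun k => b k + aa (k + 1) * t') i with hP'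
      set P := fun i => PhiS t (fun k => b k + aa (k + 1) * t) i with hP
      have hPj : aa 1 * (t' - t) ≤ P' j - P j ∧ P' j - P j ≤ 10 ^ (j + 1) * (t' - t) :=
        ih j (Nat.lt_succ_self j)
      have hsum : (∑ i ∈ Finset.range (j + 1), aa (j + 1 - i) * P' i) -
          ∑ i ∈ Finset.range (j + 1), aa (j + 1 - i) * P i =
          ∑ i ∈ Finset.range (j + 1), aa (j + 1 - i) * (P' i - P i) := by
        rw [← Finset.sum_sub_distrib]
        apply Finset.sum_congr rfl
        intro i _
        ring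
      have hlow : 0 ≤ ∑ i ∈ Finset.range (j + 1), aa (j + 1 - i) * (P' i - P i) := by
        apply Finset.sum_nonneg
        intro i hi
        have hi' := Finset.mem_range.1 hi
        apply mul_nonneg (aa_nonneg (by omega))
        have := (ih i (by omega)).1
        have h5 : 0 ≤ aa 1 * (t' - t) := mul_nonneg (by linarith) hd
        exact h5.trans this
      have hup : ∑ i ∈ Finset.range (j + 1), aa (j + 1 - i) * (P' i - P i) ≤
          10 ^ (j + 2) / 4 * (t' - t) := by
        calc ∑ i ∈ Finset.range (j + 1), aa (j + 1 - i) * (P' i - P i)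
            ≤ ∑ i ∈ Finset.range (j + 1), (2 : ℝ) ^ (j + 1 - i) * 10 ^ (i + 1) * (t' - t) := by
              apply Finset.sum_le_sum
              intro i hi
              have hi' := Finset.mem_range.1 hi
              have h6 := ih i (by omega)
              have h7 : 0 ≤ P' i - P i := le_trans (mul_nonneg (by linarith) hd) h6.1
              calc aa (j + 1 - i) * (P' i - P i) ≤ 2 ^ (j + 1 - i) * (P' i - P i) :=
                    mul_le_mul_of_nonneg_right (aa_le_two_pow _) h7
                _ ≤ 2 ^ (j + 1 - i) * (10 ^ (i + 1) * (t' - t)) :=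
                    mul_le_mul_of_nonneg_left h6.2 (by positivity)
                _ = _ := by ring
          _ = (∑ i ∈ Finset.range (j + 1), (2 : ℝ) ^ (j + 1 - i) * 10 ^ (i + 1)) * (t' - t) := by
              rw [Finset.sum_mul]
          _ ≤ _ := mul_le_mul_of_nonneg_right (geo_bound j) hd
      have haj1 : aa 1 ≤ aa (j + 1 + 1) := aa_mono le_rfl (by omega)
      have haj2 : aa (j + 1 + 1) ≤ 10 ^ (j + 2) / 4 := by
        refine (aa_le_two_pow _).trans ?_
        have : (2 : ℝ) ^ (j + 1 + 1) = 4 * 2 ^ j := by ring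
        have h8 : (10 : ℝ) ^ (j + 2) = 100 * 10 ^ j := by ring
        have h9 : (2 : ℝ) ^ j ≤ 10 ^ j := pow_le_pow_left₀ (by norm_num) (by norm_num) j
        rw [this, h8]
        have : (0 : ℝ) < 10 ^ j := by positivity
        linarith
      have hpow : (10 : ℝ) ^ (j + 1) ≤ 10 ^ (j + 2) :=
        pow_le_pow_right₀ (by norm_num) (by omega)
      have hpos : (0 : ℝ) < 10 ^ (j + 2) := by positivity
      constructor
      · rw [le_sub_iff_add_le]
        rcases le_total (P j) ((b (j + 1) + aa (j + 1 + 1) * t) +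
            ∑ i ∈ Finset.range (j + 1), aa (j + 1 - i) * P i) with hc | hc
        · rw [max_eq_right hc]
          apply le_max_of_le_right
          have : aa 1 * (t' - t) ≤ aa (j + 1 + 1) * (t' - t) := mul_le_mul_of_nonneg_right haj1 hd
          linarith
        · rw [max_eq_left hc]
          apply le_max_of_le_left
          linarith [hPj.1]
      · rw [sub_le_iff_le_add]
        apply max_le
        · have := le_max_left (P j) ((b (j + 1) + aa (j + 1 + 1) * t) +
            ∑ i ∈ Finset.range (j + 1), aa (j + 1 - i) * P i)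
          have h10 : (10 : ℝ) ^ (j + 1) * (t' - t) ≤ 10 ^ (j + 1 + 1) * (t' - t) :=
            mul_le_mul_of_nonneg_right hpow hd
          linarith [hPj.2]
        · have := le_max_right (P j) ((b (j + 1) + aa (j + 1 + 1) * t) +
            ∑ i ∈ Finset.range (j + 1), aa (j + 1 - i) * P i)
          have h10 : aa (j + 1 + 1) * (t' - t) ≤ 10 ^ (j + 2) / 4 * (t' - t) :=
            mul_le_mul_of_nonneg_right haj2 hd
          have h11 : (10 : ℝ) ^ (j + 2) / 4 * (t' - t) + 10 ^ (j + 2) / 4 * (t' - t) ≤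
              10 ^ (j + 2) * (t' - t) := by nlinarith
          have h12 : (10 : ℝ) ^ (j + 1 + 1) = 10 ^ (j + 2) := rfl
          rw [h12]
          linarith

theorem FF_slope (U n j : ℕ) {t t' : ℝ} (h : t ≤ t') :
    aa 1 * (t' - t) ≤ FF U n j t' - FF U n j t ∧
      FF U n j t' - FF U n j t ≤ 10 ^ (j + 1) * (t' - t) :=
  PhiS_slope (fun k => beta U n (k + 1)) h j

theorem Phi_zero (U n : ℕ) : Phi U n 0 = max (top U n : ℝ) (beta U n 0) :=
  PhiS_zero _ _

theorem Phi_succ (U n j : ℕ) : Phi U n (j + 1) =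
    max (Phi U n j) (beta U n (j + 1) +
      ∑ i ∈ Finset.range (j + 1), aa (j + 1 - i) * Phi U n i) :=
  PhiS_succ _ _ _

theorem Phi_mono (U n : ℕ) : Monotone (Phi U n) := by
  apply monotone_nat_of_le_succ
  intro j
  rw [Phi_succ]
  exact le_max_left _ _

theorem Phi_nonneg (U n j : ℕ) : 0 ≤ Phi U n j := by
  have h0 : 0 ≤ Phi U n 0 := by
    rw [Phi_zero]
    exact le_max_of_le_left (Nat.cast_nonneg _)
  exact h0.trans (Phi_mono U n (Nat.zero_le j))

theorem Phi_growth (U n j : ℕ) : (129 : ℝ) / 100 * Phi U n j ≤ Phi U n (j + 1) := by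
  have h1 := aa_one.1
  have h12 := aa_one_two.1
  rcases j with _ | j
  · have hP0 := Phi_zero U n
    have hP1 := Phi_succ U n 0
    simp only [zero_add, Finset.range_one, Finset.sum_singleton, Nat.sub_zero] at hP1
    have hge : beta U n 1 + aa 1 * Phi U n 0 ≤ Phi U n 1 := by
      rw [hP1]
      exact le_max_right _ _
    have hb0 := beta_nonneg U n 0
    rcases le_total (top U n : ℝ) (beta U n 0) with hc | hc
    · rw [max_eq_right hc] at hP0
      have hb : beta U n 0 ≤ beta U n 1 := beta_mono U n (by norm_num)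
      rw [hP0] at hge ⊢
      simp only [zero_add]
      nlinarith
    · rw [max_eq_left hc] at hP0
      have hb := top_le_beta U n 1
      rw [hP0] at hge ⊢
      simp only [zero_add]
      have ht : (0 : ℝ) ≤ top U n := Nat.cast_nonneg _
      norm_num at hb
      nlinarith
  · have hPj := Phi_succ U n j
    have hPj1 := Phi_succ U n (j + 1)
    have hge : beta U n (j + 1 + 1) +
      ∑ i ∈ Finset.range (j + 1 + 1), aa (j + 1 + 1 - i) * Phi U n i ≤ Phi U n (j + 1 + 1) := by
      rw [hPj1]
      exact le_max_right _ _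
    rw [Finset.sum_range_succ] at hge
    have e1 : j + 1 + 1 - (j + 1) = 1 := by omega
    rw [e1] at hge
    have hn1 := Phi_nonneg U n (j + 1)
    rcases le_total (Phi U n j) (beta U n (j + 1) +
      ∑ i ∈ Finset.range (j + 1), aa (j + 1 - i) * Phi U n i) with hc | hc
    · rw [max_eq_right hc] at hPj
      have hb : beta U n (j + 1) ≤ beta U n (j + 1 + 1) := beta_mono U n (by omega)
      have hs : ∑ i ∈ Finset.range (j + 1), aa (j + 1 - i) * Phi U n i ≤
          ∑ i ∈ Finset.range (j + 1), aa (j + 1 + 1 - i) * Phi U n i := by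
        apply Finset.sum_le_sum
        intro i hi
        have := Finset.mem_range.1 hi
        apply mul_le_mul_of_nonneg_right _ (Phi_nonneg U n i)
        exact aa_mono (by omega) (by omega)
      nlinarith
    · rw [max_eq_left hc] at hPj
      rw [Finset.sum_range_succ] at hge
      have e2 : j + 1 + 1 - j = 2 := by omega
      rw [e2] at hge
      have hs : 0 ≤ ∑ i ∈ Finset.range j, aa (j + 1 + 1 - i) * Phi U n i := by
        apply Finset.sum_nonneg
        intro i hi
        have := Finset.mem_range.1 hi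
        exact mul_nonneg (aa_nonneg (by omega)) (Phi_nonneg U n i)
      have hb := beta_nonneg U n (j + 1 + 1)
      rw [← hPj] at hge
      nlinarith

theorem Phi_le_zero (j : ℕ) : ∃ C : ℝ, 0 < C ∧ ∀ U n : ℕ, Phi U n j ≤ C * Phi U n 0 := by
  induction j with
  | zero => exact ⟨1, one_pos, fun U n => by simp⟩
  | succ j ih =>
    obtain ⟨C, hC, h⟩ := ih
    obtain ⟨C', hC', h'⟩ := beta_le_beta_zero (j + 1)
    have hsn : 0 ≤ ∑ i ∈ Finset.range (j + 1), aa (j + 1 - i) := by
      apply Finset.sum_nonneg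
      intro i hi
      have := Finset.mem_range.1 hi
      exact aa_nonneg (by omega)
    refine ⟨C + (C' + (∑ i ∈ Finset.range (j + 1), aa (j + 1 - i)) * C), by positivity, ?_⟩
    intro U n
    have h0 := Phi_nonneg U n 0
    rw [Phi_succ]
    apply max_le
    · have : 0 ≤ (C' + (∑ i ∈ Finset.range (j + 1), aa (j + 1 - i)) * C) * Phi U n 0 := by
        positivity
      have := h U n
      linarith
    · have hb : beta U n (j + 1) ≤ C' * Phi U n 0 := by
        refine (h' U n).trans ?_
        apply mul_le_mul_of_nonneg_left _ hC'.le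
        rw [Phi_zero]
        exact le_max_right _ _
      have hs : ∑ i ∈ Finset.range (j + 1), aa (j + 1 - i) * Phi U n i ≤
          (∑ i ∈ Finset.range (j + 1), aa (j + 1 - i)) * (C * Phi U n 0) := by
        rw [Finset.sum_mul]
        apply Finset.sum_le_sum
        intro i hi
        have hi' := Finset.mem_range.1 hi
        apply mul_le_mul_of_nonneg_left _ (aa_nonneg (by omega))
        exact (Phi_mono U n (by omega : i ≤ j)).trans (h U n)
      have : 0 ≤ C * Phi U n 0 := by positivity
      nlinarith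

end P031
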