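import Vale.Agent.P031.Prof2

/-!
# P031, module PROF3: size of the profile of good integers

* `prof_le` (from `Good.dec`): start with the largest big prime: at most `60` big primes have level
  `≥ (lev q)/10`; continue with the largest one of level `< (lev q)/10`.  In shifted levels,
  `prof U n s ≤ 60 (2 + log ((top+1)/s))` (note `(top + S)/(s + S - 1) ≤ (top+1)/s`).
* `card_bigs_le`: `s = 1`.
* `Phi_le_top`: `∑_{s ≤ T} (1 + log ((T+1)/s))^2 ≤ C T`, then induction on `j` through `PhiS`.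
* `log_le_of_good`: `Good.siz` at `t = top + S`, there `lowPart t n = n`.
-/

namespace P031

open scoped BigOperators

private theorem SS_pos {U : ℕ} (hU : 1 ≤ U) : 1 ≤ SS U := by
  unfold SS
  exact Nat.sqrt_pos.2 hU

private theorem mem_bigs_lev {U n q : ℕ} (h : q ∈ bigs U n) : SS U ≤ lev q := by
  unfold bigs at h
  exact (Finset.mem_filter.1 h).2

/-- number of big primes with level in `[a, b]` -/
private theorem card_lev_le {U n : ℕ} (hn : Good U n) (a : ℕ) (ha : 1 ≤ a) (b : ℕ) :
    a ≤ b → (((bigs U n).filter (fun q => a ≤ lev q ∧ lev q ≤ b)).card : ℝ) ≤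
      60 * (1 + Real.log ((b : ℝ) / a)) := by
  induction b using Nat.strong_induction_on with
  | _ b ih =>
    intro hab
    have ha0 : (0 : ℝ) < a := by exact_mod_cast ha
    have hab' : (a : ℝ) ≤ b := by exact_mod_cast hab
    have hlog : 0 ≤ Real.log ((b : ℝ) / a) :=
      Real.log_nonneg ((one_le_div ha0).2 hab')
    set B := (bigs U n).filter (fun q => a ≤ lev q ∧ lev q ≤ b) with hB
    rcases B.eq_empty_or_nonempty with he | hne
    · rw [he]
      simp only [Finset.card_empty, Nat.cast_zero]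
      positivity
    · obtain ⟨q, hq, hmax⟩ := Finset.exists_max_image B id hne
      simp only [id] at hmax
      have hqb := Finset.mem_filter.1 hq
      have hsub : B ⊆ ((bigs U n).filter (fun q' => q' ≤ q ∧ lev q ≤ 10 * lev q')) ∪
          ((bigs U n).filter (fun q' => a ≤ lev q' ∧ lev q' ≤ b / 10)) := by
        intro r hr
        have hrb := Finset.mem_filter.1 hr
        rw [Finset.mem_union, Finset.mem_filter, Finset.mem_filter]
        by_cases h : lev q ≤ 10 * lev r
        · exact Or.inl ⟨hrb.1, hmax r hr, h⟩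
        · right
          refine ⟨hrb.1, hrb.2.1, ?_⟩
          have := hqb.2.2
          omega
      have h1 : (B.card : ℝ) ≤ 60 +
          (((bigs U n).filter (fun q' => a ≤ lev q' ∧ lev q' ≤ b / 10)).card : ℝ) := by
        have h2 := Finset.card_le_card hsub
        have h3 := Finset.card_union_le
          ((bigs U n).filter (fun q' => q' ≤ q ∧ lev q ≤ 10 * lev q'))
          ((bigs U n).filter (fun q' => a ≤ lev q' ∧ lev q' ≤ b / 10))
        have h4 := hn.dec q hqb.1
        have h5 : B.card ≤ 60 +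
          ((bigs U n).filter (fun q' => a ≤ lev q' ∧ lev q' ≤ b / 10)).card := by omega
        exact_mod_cast h5
      by_cases hb10 : a ≤ b / 10
      · have hb1 : b / 10 < b := Nat.div_lt_self (by omega) (by norm_num)
        have h2 := ih (b / 10) hb1 hb10
        have h3 : Real.log (((b / 10 : ℕ) : ℝ) / a) ≤ Real.log ((b : ℝ) / a) - 1 := by
          have h4 : ((b / 10 : ℕ) : ℝ) ≤ (b : ℝ) / 10 := Nat.cast_div_le
          have h5 : (0 : ℝ) < ((b / 10 : ℕ) : ℝ) := by
            have : 0 < b / 10 := by omega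
            exact_mod_cast this
          have h6 : Real.log (((b / 10 : ℕ) : ℝ) / a) ≤ Real.log ((b : ℝ) / a / 10) := by
            refine Real.log_le_log (by positivity) ?_
            rw [div_right_comm]
            exact div_le_div_of_nonneg_right h4 ha0.le
          have hb0 : (0 : ℝ) < b := lt_of_lt_of_le ha0 hab'
          have e10 : Real.log ((b : ℝ) / a / 10) = Real.log ((b : ℝ) / a) - Real.log 10 :=
            Real.log_div (by positivity) (by norm_num)
          rw [e10] at h6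
          have h7 : (1 : ℝ) ≤ Real.log 10 := by
            rw [Real.le_log_iff_exp_le (by norm_num)]
            have := Real.exp_one_lt_d9
            linarith
          linarith
        linarith
      · have h2 : ((bigs U n).filter (fun q' => a ≤ lev q' ∧ lev q' ≤ b / 10)) = ∅ := by
          rw [Finset.filter_eq_empty_iff]
          rintro r _ ⟨h3, h4⟩
          exact hb10 (le_trans h3 h4)
        rw [h2] at h1
        simp only [Finset.card_empty, Nat.cast_zero, add_zero] at h1
        linarith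

/-- number of big primes above a level, from `Good.dec` -/
theorem prof_le {U n s : ℕ} (hU : 1 ≤ U) (hn : Good U n) (hs : 1 ≤ s) (hst : s ≤ top U n) :
    (prof U n s : ℝ) ≤ 60 * (2 + Real.log ((top U n + 1) / s)) := by
  have hS := SS_pos hU
  have h1 := card_lev_le hn (s + SS U - 1) (by omega) (top U n + SS U - 1) (by omega)
  have h2 : prof U n s ≤ ((bigs U n).filter
      (fun q => s + SS U - 1 ≤ lev q ∧ lev q ≤ top U n + SS U - 1)).card := by
    unfold prof
    refine Finset.card_le_card ?_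
    intro q hq
    rw [Finset.mem_filter] at hq ⊢
    have h3 := mem_bigs_lev hq.1
    have h4 := lam_le_top hq.1
    have h5 := hq.2
    unfold lam at h4 h5
    exact ⟨hq.1, by omega, by omega⟩
  have h2' : (prof U n s : ℝ) ≤ (((bigs U n).filter
      (fun q => s + SS U - 1 ≤ lev q ∧ lev q ≤ top U n + SS U - 1)).card : ℝ) := by
    exact_mod_cast h2
  have hs0 : (1 : ℝ) ≤ s := by exact_mod_cast hs
  have hS0 : (1 : ℝ) ≤ SS U := by exact_mod_cast hS
  have hst' : (s : ℝ) ≤ top U n := by exact_mod_cast hst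
  have e1 : ((s + SS U - 1 : ℕ) : ℝ) = (s : ℝ) + SS U - 1 := by
    rw [Nat.cast_sub (by omega)]
    push_cast
    ring
  have e2 : ((top U n + SS U - 1 : ℕ) : ℝ) = (top U n : ℝ) + SS U - 1 := by
    rw [Nat.cast_sub (by omega)]
    push_cast
    ring
  have h3 : Real.log (((top U n + SS U - 1 : ℕ) : ℝ) / ((s + SS U - 1 : ℕ) : ℝ)) ≤
      Real.log ((top U n + 1) / s) := by
    rw [e1, e2]
    refine Real.log_le_log (div_pos (by linarith) (by linarith)) ?_
    rw [div_le_div_iff₀ (by linarith) (by linarith)]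
    nlinarith [mul_nonneg (sub_nonneg.2 hS0) (sub_nonneg.2 hst')]
  linarith

theorem card_bigs_le : ∃ (C : ℝ) (U₀ : ℕ), 0 < C ∧ ∀ U : ℕ, U₀ ≤ U → ∀ n : ℕ, Good U n →
    top U n ≤ 8 * U → ((bigs U n).card : ℝ) ≤ C * Real.log U := by
  refine ⟨360, 3, by norm_num, fun U hU n hn htop => ?_⟩
  have hU0 : (3 : ℝ) ≤ U := by exact_mod_cast hU
  have hlog : 1 ≤ Real.log U := by
    rw [Real.le_log_iff_exp_le (by linarith)]
    have := Real.exp_one_lt_d9
    linarith
  rcases (bigs U n).eq_empty_or_nonempty with he | ⟨q, hq⟩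
  · rw [he]
    simp only [Finset.card_empty, Nat.cast_zero]
    linarith
  · have hlam : ∀ r ∈ bigs U n, 1 ≤ lam U r := by
      intro r hr
      have := mem_bigs_lev hr
      unfold lam
      omega
    have h1 : 1 ≤ top U n := le_trans (hlam q hq) (lam_le_top hq)
    have h2 := prof_le (by omega : 1 ≤ U) hn (le_refl 1) h1
    have h3 : prof U n 1 = (bigs U n).card := by
      unfold prof
      rw [Finset.filter_true_of_mem hlam]
    rw [h3] at h2
    have h4 : Real.log ((top U n + 1) / ((1 : ℕ) : ℝ)) ≤ 3 + Real.log U := by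
      have h5 : ((top U n : ℝ) + 1) / ((1 : ℕ) : ℝ) ≤ 9 * U := by
        have : (top U n : ℝ) ≤ 8 * U := by exact_mod_cast htop
        simp only [Nat.cast_one, div_one]
        linarith
      have h6 : Real.log (((top U n : ℝ) + 1) / ((1 : ℕ) : ℝ)) ≤ Real.log (9 * U) :=
        Real.log_le_log (by positivity) h5
      rw [Real.log_mul (by norm_num) (by linarith)] at h6
      have h7 : Real.log 9 ≤ 3 := by
        rw [Real.log_le_iff_le_exp (by norm_num)]
        have h8 := Real.exp_one_gt_d9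
        have h9 : Real.exp 3 = Real.exp 1 ^ 3 := by
          rw [← Real.exp_nat_mul]; norm_num
        rw [h9]
        have h10 : (2.7 : ℝ) ^ 3 ≤ Real.exp 1 ^ 3 :=
          pow_le_pow_left₀ (by norm_num) (by linarith) 3
        norm_num at h10 ⊢
        linarith
      linarith
    linarith

private theorem sum_inv_sqrt (T : ℕ) :
    ∑ s ∈ Finset.Icc 1 T, 1 / Real.sqrt s ≤ 2 * Real.sqrt T := by
  induction T with
  | zero => simp
  | succ T ih =>
    rw [Finset.sum_Icc_succ_top (by omega)]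
    have h1 : 0 ≤ Real.sqrt (T : ℝ) := Real.sqrt_nonneg _
    have h2 : 0 < Real.sqrt ((T + 1 : ℕ) : ℝ) := Real.sqrt_pos.2 (by positivity)
    have h3 : Real.sqrt (T : ℝ) ≤ Real.sqrt ((T + 1 : ℕ) : ℝ) :=
      Real.sqrt_le_sqrt (by push_cast; linarith)
    have h4 : Real.sqrt (T : ℝ) ^ 2 = T := Real.sq_sqrt (Nat.cast_nonneg _)
    have h5 : Real.sqrt ((T + 1 : ℕ) : ℝ) ^ 2 = T + 1 := by
      rw [Real.sq_sqrt (Nat.cast_nonneg _)]
      push_cast
      ring
    have h6 : 1 / Real.sqrt ((T + 1 : ℕ) : ℝ) ≤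
        2 * (Real.sqrt ((T + 1 : ℕ) : ℝ) - Real.sqrt (T : ℝ)) := by
      rw [div_le_iff₀ h2]
      nlinarith
    linarith

private theorem two_add_log_sq {x : ℝ} (hx : 1 ≤ x) : (2 + Real.log x) ^ 2 ≤ 16 * Real.sqrt x := by
  have h0 : 0 < x := by linarith
  set y := Real.sqrt (Real.sqrt x) with hy
  have hs : 1 ≤ Real.sqrt x := Real.one_le_sqrt.2 hx
  have hy1 : 1 ≤ y := Real.one_le_sqrt.2 hs
  have hy2 : y ^ 2 = Real.sqrt x := Real.sq_sqrt (Real.sqrt_nonneg x)
  have hx2 : Real.sqrt x ^ 2 = x := Real.sq_sqrt h0.le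
  have h1 : Real.log x = 4 * Real.log y := by
    have : x = y ^ 4 := by
      calc x = (y ^ 2) ^ 2 := by rw [hy2, hx2]
        _ = y ^ 4 := by ring
    rw [this, Real.log_pow]
    norm_num
  have h2 : Real.log y ≤ y - 1 := Real.log_le_sub_one_of_pos (by linarith)
  have h3 : 0 ≤ Real.log x := Real.log_nonneg hx
  have h4 : 2 + Real.log x ≤ 4 * y := by
    rw [h1]
    linarith
  calc (2 + Real.log x) ^ 2 ≤ (4 * y) ^ 2 := pow_le_pow_left₀ (by linarith) h4 2
    _ = 16 * y ^ 2 := by ring
    _ = 16 * Real.sqrt x := by rw [hy2]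

private theorem QQ_le_sq (J : ℕ) : QQ (J + 1) ≤ (J : ℝ) ^ 2 := by
  have hJ : (0 : ℝ) ≤ J := Nat.cast_nonneg J
  have h1 : Real.log ((J : ℝ) + 1) ≤ (J : ℝ) + 1 - 1 :=
    Real.log_le_sub_one_of_pos (by linarith)
  unfold QQ
  push_cast
  nlinarith

private theorem beta_zero_le_top : ∃ C : ℝ, 0 < C ∧ ∀ U n : ℕ, 1 ≤ U → Good U n →
    beta U n 0 ≤ C * top U n := by
  refine ⟨3600 * 16 * 4, by norm_num, fun U n hU hn => ?_⟩
  unfold beta
  set T := top U n with hT
  rcases Nat.eq_zero_or_pos T with h0 | h0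
  · rw [h0]
    simp
  have hT1 : (1 : ℝ) ≤ T := by exact_mod_cast h0
  have hterm : ∀ s ∈ Finset.Icc 1 T, QQ (prof U n s + 0 + 1) - QQ (0 + 1) ≤
      3600 * 16 * (Real.sqrt ((T : ℝ) + 1) * (1 / Real.sqrt s)) := by
    intro s hs
    rw [Finset.mem_Icc] at hs
    have hs1 : (1 : ℝ) ≤ s := by exact_mod_cast hs.1
    have hsT : (s : ℝ) ≤ T := by exact_mod_cast hs.2
    have h1 := prof_le hU hn hs.1 hs.2
    have h2 := QQ_le_sq (prof U n s)
    have hx : 1 ≤ ((T : ℝ) + 1) / s := by
      rw [one_le_div (by linarith)]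
      linarith
    have h3 := two_add_log_sq hx
    have h4 : (prof U n s : ℝ) ^ 2 ≤ (60 * (2 + Real.log (((T : ℝ) + 1) / s))) ^ 2 :=
      pow_le_pow_left₀ (Nat.cast_nonneg _) h1 2
    have h5 : Real.sqrt (((T : ℝ) + 1) / s) = Real.sqrt ((T : ℝ) + 1) * (1 / Real.sqrt s) := by
      rw [Real.sqrt_div (by linarith)]
      ring
    simp only [add_zero, zero_add, QQ_one, sub_zero]
    rw [← h5]
    nlinarith
  refine le_trans (Finset.sum_le_sum hterm) ?_
  rw [← Finset.mul_sum, ← Finset.mul_sum]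
  have h1 := sum_inv_sqrt T
  have h2 : Real.sqrt ((T : ℝ) + 1) * ∑ s ∈ Finset.Icc 1 T, 1 / Real.sqrt s ≤
      Real.sqrt ((T : ℝ) + 1) * (2 * Real.sqrt T) :=
    mul_le_mul_of_nonneg_left h1 (Real.sqrt_nonneg _)
  have h3 : Real.sqrt T ≤ Real.sqrt ((T : ℝ) + 1) := Real.sqrt_le_sqrt (by linarith)
  have h4 : Real.sqrt ((T : ℝ) + 1) * Real.sqrt ((T : ℝ) + 1) = T + 1 :=
    Real.mul_self_sqrt (by linarith)
  have h5 : Real.sqrt ((T : ℝ) + 1) * (2 * Real.sqrt T) ≤ 2 * (T + 1) := by
    nlinarith [Real.sqrt_nonneg ((T : ℝ) + 1)]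
  nlinarith

theorem Phi_le_top (j : ℕ) : ∃ C : ℝ, 0 < C ∧ ∀ U n : ℕ, 1 ≤ U → Good U n →
    Phi U n j ≤ C * top U n := by
  obtain ⟨C₁, hC₁, h1⟩ := Phi_le_zero j
  obtain ⟨C₂, hC₂, h2⟩ := beta_zero_le_top
  refine ⟨C₁ * (1 + C₂), by positivity, fun U n hU hn => ?_⟩
  have h3 := h1 U n
  have h4 := h2 U n hU hn
  have hT : (0 : ℝ) ≤ top U n := Nat.cast_nonneg _
  have h5 : Phi U n 0 ≤ (1 + C₂) * top U n := by
    rw [Phi_zero]
    refine max_le ?_ ?_
    · nlinarith [mul_nonneg hC₂.le hT]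
    · nlinarith
  calc Phi U n j ≤ C₁ * Phi U n 0 := h3
    _ ≤ C₁ * ((1 + C₂) * top U n) := mul_le_mul_of_nonneg_left h5 hC₁.le
    _ = C₁ * (1 + C₂) * top U n := by ring

/-- sizes -/
theorem log_le_of_good {U n : ℕ} (hU : 1 ≤ U) (hn : Good U n) :
    Real.log n ≤ (U : ℝ) ^ 2 * Real.exp (top U n + SS U) := by
  have h1 := hn.siz (top U n + SS U) (by omega)
  have hn0 : n ≠ 0 := by
    have := hn.pos
    omega
  have h2 : lowPart (top U n + SS U) n = n := by
    unfold lowPart
    rw [Finset.filter_true_of_mem]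
    · exact prod_factorization hn0
    · intro q hq
      by_cases h : SS U ≤ lev q
      · have hb : q ∈ bigs U n := by
          unfold bigs
          exact Finset.mem_filter.2 ⟨hq, h⟩
        have h3 := lam_le_top hb
        unfold lam at h3
        omega
      · omega
  rw [h2] at h1
  push_cast at h1
  exact h1

end P031
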