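import Vale.Agent.P031.Prof3

/-!
# P031, module PROF4: adding and removing the top prime, elementary facts on `GG`

* `good_cons`.  Condition `dec` for the new prime `q`: otherwise at least `60` big primes `q'` of `n` have
  `lev q' ≥ lev q / 10`, so `lam q' ≥ lev q / 10 + 1 - S ≥ 0.09 lam q` (because `lam q ≥ H`, `S ≤ H/1000`),
  hence `beta U n 0 ≥ 0.09 lam q · QQ 61 > 17 lam q`, a contradiction (`lam q > 0`).
  Condition `siz` for `t > lev q`: `lowPart t (q n) = q · lowPart t n`,
  `log q + log n ≤ e^(lev q + 1) + U² e^(top + S) ≤ e^t + U² e^(t - H + 1) ≤ U² e^t` (`log_le_of_good`); for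
  `t ≤ lev q` nothing changes.
* `Gset_le`: `top ≤ Φ_j ≤ 3U`, `log_le_of_good`.
-/

namespace P031

open scoped BigOperators

private theorem lowPart_one (t : ℕ) : lowPart t 1 = 1 := by
  simp [lowPart]

private theorem bigs_one (U : ℕ) : bigs U 1 = ∅ := by
  simp [bigs]

private theorem top_one (U : ℕ) : top U 1 = 0 := by
  simp [top, bigs_one]

theorem good_one (U : ℕ) : Good U 1 where
  pos := le_rfl
  sqf := by
    intro q hq _ h
    have h1 := Nat.dvd_one.1 h
    have h2 := hq.one_lt
    have h3 : 1 < q ^ 2 := Nat.one_lt_pow (by norm_num) h2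
    omega
  nrm := by
    intro q hq
    rw [bigs_one] at hq
    exact absurd hq (Finset.notMem_empty _)
  dec := by
    intro q hq
    rw [bigs_one] at hq
    exact absurd hq (Finset.notMem_empty _)
  sml := by
    rw [lowPart_one]
    simp
  siz := by
    intro t _
    rw [lowPart_one, Nat.cast_one, Real.log_one]
    positivity

private theorem PhiS_zero_zero (j : ℕ) : PhiS 0 (fun _ => 0) j = 0 := by
  induction j using Nat.strong_induction_on with
  | _ j ih =>
    cases j with
    | zero => rw [PhiS]; simp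
    | succ j =>
      rw [PhiS, ih j (Nat.lt_succ_self j)]
      have h1 : ∑ i : Fin (j + 1), aa (j + 1 - i) * PhiS 0 (fun _ => 0) i = 0 := by
        apply Finset.sum_eq_zero
        intro i _
        rw [ih i.1 i.2, mul_zero]
      rw [h1]
      simp

theorem Phi_one (U j : ℕ) : Phi U 1 j = 0 := by
  have h1 : beta U 1 = fun _ => 0 := by
    funext k
    rw [beta, top_one]
    simp
  rw [Phi, top_one, h1, Nat.cast_zero]
  exact PhiS_zero_zero j

private theorem lowPart_prime_of_le {t q : ℕ} (hq : q.Prime) (h : t ≤ lev q) : lowPart t q = 1 := by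
  have h1 : q.primeFactors.filter (fun q => lev q < t) = ∅ := by
    rw [hq.primeFactors, Finset.filter_singleton, if_neg (by omega)]
  rw [lowPart, h1, Finset.prod_empty]

private theorem lowPart_prime_of_lt {t q : ℕ} (hq : q.Prime) (h : lev q < t) : lowPart t q = q := by
  apply lowPart_eq hq.ne_zero
  intro q' hq'
  rw [hq.primeFactors, Finset.mem_singleton] at hq'
  rw [hq']; exact h

private theorem lowPart_cons_of_le {t q n : ℕ} (hq : q.Prime) (hqn : ¬ q ∣ n) (h : t ≤ lev q) :
    lowPart t (q * n) = lowPart t n := by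
  rw [lowPart_mul_coprime ((Nat.Prime.coprime_iff_not_dvd hq).2 hqn), lowPart_prime_of_le hq h,
    one_mul]

private theorem lowPart_cons_of_lt {t q n : ℕ} (hq : q.Prime) (hqn : ¬ q ∣ n) (h : lev q < t) :
    lowPart t (q * n) = q * lowPart t n := by
  rw [lowPart_mul_coprime ((Nat.Prime.coprime_iff_not_dvd hq).2 hqn), lowPart_prime_of_lt hq h]

private theorem lowPart_le_cons {t q n : ℕ} (hq : q.Prime) (hqn : ¬ q ∣ n) :
    lowPart t n ≤ lowPart t (q * n) := by
  rcases Nat.lt_or_ge (lev q) t with h | h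
  · rw [lowPart_cons_of_lt hq hqn h]
    exact Nat.le_mul_of_pos_left _ hq.pos
  · rw [lowPart_cons_of_le hq hqn h]

/-- removing the largest big prime -/
theorem good_uncons {U n : ℕ} (hn : Good U n) (hb : (bigs U n).Nonempty) :
    ∃ q n' : ℕ, q.Prime ∧ SS U ≤ lev q ∧ Normal U q ∧ n = q * n' ∧ ¬ q ∣ n' ∧ Good U n' ∧
      (∀ q' ∈ bigs U n', q' < q) ∧ top U n' ≤ lam U q := by
  obtain ⟨q, hqm, hmax⟩ := (bigs U n).exists_max_image id hb
  obtain ⟨hq, ⟨n', rfl⟩, hn0, hS⟩ := mem_bigs.1 hqm
  have hn'0 : n' ≠ 0 := fun h => hn0 (by rw [h, mul_zero])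
  have hqn : ¬ q ∣ n' := by
    rintro ⟨k, rfl⟩
    exact hn.sqf q hq hS ⟨k, by ring⟩
  have hsub : ∀ q' ∈ bigs U n', q' ∈ bigs U (q * n') := by
    intro q' hq'
    obtain ⟨h1, h2, _, h4⟩ := mem_bigs.1 hq'
    exact mem_bigs.2 ⟨h1, h2.mul_left q, hn0, h4⟩
  have hlt : ∀ q' ∈ bigs U n', q' < q := by
    intro q' hq'
    have h1 : q' ≤ q := hmax q' (hsub q' hq')
    refine lt_of_le_of_ne h1 ?_
    rintro rfl
    exact hqn (mem_bigs.1 hq').2.1
  refine ⟨q, n', hq, hS, hn.nrm q hqm, rfl, hqn, ?_, hlt, ?_⟩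
  · refine ⟨Nat.one_le_iff_ne_zero.2 hn'0, ?_, ?_, ?_, ?_, ?_⟩
    · intro q' h1 h2 h3
      exact hn.sqf q' h1 h2 (h3.mul_left q)
    · intro q' hq'
      exact hn.nrm q' (hsub q' hq')
    · intro q' hq'
      refine (Finset.card_le_card ?_).trans (hn.dec q' (hsub q' hq'))
      intro x hx
      rw [Finset.mem_filter] at hx ⊢
      exact ⟨hsub x hx.1, hx.2⟩
    · have h1 := hn.sml
      rwa [lowPart_cons_of_le hq hqn hS] at h1
    · intro t ht
      refine le_trans ?_ (hn.siz t ht)
      apply Real.log_le_log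
      · exact_mod_cast lowPart_pos t n'
      · exact_mod_cast lowPart_le_cons hq hqn
  · unfold top
    apply Finset.sup_le
    intro q' hq'
    have h1 := lev_mono (hlt q' hq').le
    unfold lam
    omega

private theorem HH_large {U : ℕ} (hU : 10 ^ 30 ≤ U) : 1000 * (SS U : ℝ) ≤ HH U ∧ 1 ≤ HH U := by
  have hU1 : (10 : ℝ) ^ 30 ≤ U := by exact_mod_cast hU
  have hU0 : (0 : ℝ) < U := lt_of_lt_of_le (by norm_num) hU1
  have h1 : (1000 : ℝ) ≤ (U : ℝ) ^ ((1 : ℝ) / 10) := by
    have h2 : ((1000 : ℝ) ^ 10) ^ ((1 : ℝ) / 10) = 1000 := by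
      rw [← Real.rpow_natCast, ← Real.rpow_mul (by norm_num)]
      norm_num
    rw [← h2]
    apply Real.rpow_le_rpow (by norm_num)
    · refine le_trans (le_of_eq ?_) hU1
      norm_num
    · norm_num
  have h3 : (SS U : ℝ) ≤ (U : ℝ) ^ ((1 : ℝ) / 2) := by
    rw [← Real.sqrt_eq_rpow]
    apply Real.le_sqrt_of_sq_le
    have := Nat.sqrt_le' U
    unfold SS
    exact_mod_cast this
  have h4 : HH U = (U : ℝ) ^ ((1 : ℝ) / 10) * (U : ℝ) ^ ((1 : ℝ) / 2) := by
    rw [HH, ← Real.rpow_add hU0]
    norm_num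
  constructor
  · rw [h4]
    exact mul_le_mul h1 h3 (by positivity) (by positivity)
  · rw [HH]
    apply Real.one_le_rpow
    · exact le_trans (by norm_num) hU1
    · norm_num

private theorem log_lt_exp_lev {q : ℕ} (hq : q.Prime) : Real.log q < Real.exp (lev q + 1) := by
  have h1 : (1 : ℝ) < q := by exact_mod_cast hq.one_lt
  have h2 : 0 < Real.log q := Real.log_pos h1
  have h3 : Real.log (Real.log q) < (lev q : ℝ) + 1 := Nat.lt_floor_add_one _
  calc Real.log q = Real.exp (Real.log (Real.log q)) := (Real.exp_log h2).symm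
    _ < Real.exp (lev q + 1) := Real.exp_lt_exp.2 h3

private theorem QQ_61 : 62 ≤ QQ 61 := by
  have h1 : (2 : ℝ) ≤ Real.log 61 := by
    rw [Real.le_log_iff_exp_le (by norm_num)]
    have h2 : Real.exp 2 = Real.exp 1 * Real.exp 1 := by
      rw [← Real.exp_add]; norm_num
    have h3 := Real.exp_one_lt_d9
    have h4 := Real.exp_pos 1
    rw [h2]
    nlinarith
  unfold QQ
  push_cast
  nlinarith

/-- adding a prime on top -/
theorem good_cons : ∃ U₀ : ℕ, ∀ U : ℕ, U₀ ≤ U → ∀ q n : ℕ, q.Prime → SS U ≤ lev q → Normal U q →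
    Good U n → (top U n : ℝ) + HH U ≤ lam U q → beta U n 0 ≤ lam U q →
    Good U (q * n) ∧ ¬ q ∣ n := by
  refine ⟨10 ^ 30, ?_⟩
  intro U hU q n hq hS hN hn htop hbeta
  obtain ⟨hH1, hH2⟩ := HH_large hU
  have hU1 : 1 ≤ U := le_trans (by norm_num) hU
  have hn0 : n ≠ 0 := Nat.one_le_iff_ne_zero.1 hn.pos
  have htop' : top U n < lam U q := by
    have : (top U n : ℝ) < lam U q := by linarith
    exact_mod_cast this
  have hqn : ¬ q ∣ n := by
    intro h
    have h1 : q ∈ bigs U n := mem_bigs.2 ⟨hq, h, hn0, hS⟩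
    have h2 := lam_le_top h1
    omega
  have hbig : bigs U (q * n) = insert q (bigs U n) := bigs_mul hq hS hn0
  have hlt : ∀ q' ∈ bigs U n, q' < q := by
    intro q' hq'
    by_contra hcon
    have h1 := lev_mono (not_lt.1 hcon)
    have h2 := lam_le_top hq'
    unfold lam at h2 htop'
    omega
  refine ⟨⟨Nat.mul_pos hq.pos hn.pos, ?_, ?_, ?_, ?_, ?_⟩, hqn⟩
  · -- squarefree
    intro q' hq' hS' hd
    by_cases h : q' = q
    · subst h
      apply hqn
      rw [pow_two] at hd
      exact Nat.dvd_of_mul_dvd_mul_left hq.pos hd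
    · have h1 : Nat.Coprime (q' ^ 2) q := Nat.Coprime.pow_left 2 ((Nat.coprime_primes hq' hq).2 h)
      exact hn.sqf q' hq' hS' (h1.dvd_of_dvd_mul_left hd)
  · -- normal
    intro q' hq'
    rw [hbig, Finset.mem_insert] at hq'
    rcases hq' with rfl | hq'
    · exact hN
    · exact hn.nrm q' hq'
  · -- decay
    intro q₁ hq₁
    rw [hbig, Finset.mem_insert] at hq₁
    rw [hbig]
    rcases hq₁ with rfl | hq₁
    · rw [Finset.filter_insert, if_pos ⟨le_rfl, by omega⟩]
      refine (Finset.card_insert_le _ _).trans ?_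
      by_contra hcon
      set B := (bigs U n).filter (fun q' => q' ≤ q₁ ∧ lev q₁ ≤ 10 * lev q') with hB
      have hB60 : 60 ≤ B.card := by omega
      have hBne : B.Nonempty := Finset.card_pos.1 (by omega)
      obtain ⟨r, hrB, hr⟩ := B.exists_min_image (lam U) hBne
      rw [hB, Finset.mem_filter] at hrB
      have hr1 : lam U r ≤ top U n := lam_le_top hrB.1
      -- many big primes up to level `lam r`
      have hprof : ∀ s, s ≤ lam U r → 60 ≤ prof U n s := by
        intro s hs
        refine hB60.trans (Finset.card_le_card ?_)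
        intro x hx
        have hx1 := hr x hx
        rw [hB, Finset.mem_filter] at hx
        rw [Finset.mem_filter]
        exact ⟨hx.1, hs.trans hx1⟩
      have hsum : (lam U r : ℝ) * 62 ≤ beta U n 0 := by
        have h1 : ∀ s ∈ Finset.Icc 1 (lam U r),
            (62 : ℝ) ≤ QQ (prof U n s + 0 + 1) - QQ (0 + 1) := by
          intro s hs
          rw [Finset.mem_Icc] at hs
          have h2 := hprof s hs.2
          have h3 : QQ 61 ≤ QQ (prof U n s + 0 + 1) := QQ_mono (by norm_num) (by omega)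
          have h4 := QQ_61
          rw [zero_add, QQ_one]
          linarith
        have h2 : ∑ _s ∈ Finset.Icc 1 (lam U r), (62 : ℝ) ≤
            ∑ s ∈ Finset.Icc 1 (lam U r), (QQ (prof U n s + 0 + 1) - QQ (0 + 1)) :=
          Finset.sum_le_sum h1
        rw [Finset.sum_const, Nat.card_Icc, nsmul_eq_mul, Nat.add_sub_cancel] at h2
        refine h2.trans ?_
        unfold beta
        apply Finset.sum_le_sum_of_subset_of_nonneg
        · exact Finset.Icc_subset_Icc le_rfl hr1
        · intro s _ _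
          have h5 : QQ (0 + 1) ≤ QQ (prof U n s + 0 + 1) := QQ_mono (by norm_num) (by omega)
          linarith
      have hlr : (lam U q₁ : ℝ) ≤ 10 * lam U r + 9 * SS U := by
        have h6 : lam U q₁ ≤ 10 * lam U r + 9 * SS U := by
          unfold lam
          omega
        exact_mod_cast h6
      have h7 : (0 : ℝ) ≤ top U n := Nat.cast_nonneg _
      nlinarith
    · have h1 : ¬ (q ≤ q₁ ∧ lev q₁ ≤ 10 * lev q) := by
        have := hlt q₁ hq₁
        omega
      rw [Finset.filter_insert, if_neg h1]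
      exact hn.dec q₁ hq₁
  · rw [lowPart_cons_of_le hq hqn hS]
    exact hn.sml
  · intro t ht
    rcases Nat.lt_or_ge (lev q) t with h | h
    · rw [lowPart_cons_of_lt hq hqn h]
      have hlp : 0 < lowPart t n := lowPart_pos t n
      have h1 : Real.log ((q * lowPart t n : ℕ) : ℝ) = Real.log q + Real.log (lowPart t n) := by
        rw [Nat.cast_mul, Real.log_mul]
        · exact_mod_cast hq.ne_zero
        · exact_mod_cast hlp.ne'
      have h2 : Real.log (lowPart t n) ≤ Real.log n := by
        apply Real.log_le_log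
        · exact_mod_cast hlp
        · exact_mod_cast Nat.le_of_dvd hn.pos (lowPart_dvd t n hn0)
      have h3 := log_le_of_good hU1 hn
      have h4 := log_lt_exp_lev hq
      have h5 : Real.exp ((lev q : ℝ) + 1) ≤ Real.exp t := by
        apply Real.exp_le_exp.2
        have : lev q + 1 ≤ t := h
        exact_mod_cast this
      have h6 : Real.exp ((top U n : ℝ) + SS U) ≤ Real.exp t * (1 / 2) := by
        have h7 : (lam U q : ℝ) + SS U ≤ t := by
          have h8 : lam U q + SS U ≤ t := by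
            unfold lam
            omega
          exact_mod_cast h8
        have h9 : Real.exp ((top U n : ℝ) + SS U) ≤ Real.exp (t + (-1)) := by
          apply Real.exp_le_exp.2
          linarith
        rw [Real.exp_add (t : ℝ) (-1)] at h9
        have h10 : Real.exp (-1 : ℝ) ≤ 1 / 2 := by
          rw [Real.exp_neg, inv_eq_one_div]
          apply one_div_le_one_div_of_le (by norm_num)
          have := Real.add_one_le_exp (1 : ℝ)
          linarith
        refine h9.trans ?_
        exact mul_le_mul_of_nonneg_left h10 (Real.exp_pos _).le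
      have hU2 : (2 : ℝ) ≤ (U : ℝ) ^ 2 := by
        have h11 : (10 : ℝ) ^ 30 ≤ U := by exact_mod_cast hU
        have h12 : (2 : ℝ) ≤ U := le_trans (by norm_num) h11
        nlinarith
      have h13 : 0 < Real.exp (t : ℝ) := Real.exp_pos _
      rw [h1]
      have h14 : (U : ℝ) ^ 2 * Real.exp ((top U n : ℝ) + SS U) ≤
          (U : ℝ) ^ 2 * (Real.exp t * (1 / 2)) := mul_le_mul_of_nonneg_left h6 (by positivity)
      nlinarith
    · rw [lowPart_cons_of_le hq hqn h]
      exact hn.siz t ht

/-- `GG` is monotone, at least one, and bounded members of `Gset` are below `NN` -/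
theorem GG_mono (U j : ℕ) {T T' : ℝ} (h : T ≤ T') : GG U j T ≤ GG U j T' := by
  unfold GG
  apply mass_mono
  rintro m ⟨n, h1, h2, h3⟩
  exact ⟨n, h1, h2, h3.trans h⟩

theorem one_le_GG (U j : ℕ) {T : ℝ} (h : 0 ≤ T) : 1 ≤ GG U j T := by
  have h1 : (1 : ℕ) ∈ Gset U j T := ⟨1, good_one U, by simp, by rw [Phi_one]; exact h⟩
  have h2 : 1 ≤ NN U := by
    unfold NN
    exact Nat.one_le_iff_ne_zero.2 (Nat.ceil_pos.2 (Real.exp_pos _)).ne'
  unfold GG mass
  have h3 : Set.indicator (Gset U j T) (fun m : ℕ => 1 / (m : ℝ)) 1 = 1 := by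
    rw [Set.indicator_of_mem h1]
    norm_num
  calc (1 : ℝ) = Set.indicator (Gset U j T) (fun m : ℕ => 1 / (m : ℝ)) 1 := h3.symm
    _ ≤ _ := Finset.single_le_sum
        (f := fun m => Set.indicator (Gset U j T) (fun m : ℕ => 1 / (m : ℝ)) m)
        (fun i _ => Set.indicator_nonneg (fun m _ => by positivity) i)
        (Finset.mem_Icc.2 ⟨le_rfl, h2⟩)

theorem Gset_le : ∃ U₀ : ℕ, ∀ U : ℕ, U₀ ≤ U → ∀ (j m : ℕ) (T : ℝ), T ≤ 3 * U → m ∈ Gset U j T →
    1 ≤ m ∧ m ≤ NN U := by
  refine ⟨25, ?_⟩
  rintro U hU j m T hT ⟨n, hn, rfl, hPhi⟩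
  refine ⟨Nat.totient_pos.2 hn.pos, ?_⟩
  have hU1 : 1 ≤ U := le_trans (by norm_num) hU
  have hUr : (25 : ℝ) ≤ U := by exact_mod_cast hU
  have h1 : (top U n : ℝ) ≤ 3 * U := by
    have h2 : Phi U n 0 ≤ Phi U n j := Phi_mono U n (Nat.zero_le j)
    have h3 : (top U n : ℝ) ≤ Phi U n 0 := by
      rw [Phi_zero]; exact le_max_left _ _
    linarith
  have h4 := log_le_of_good hU1 hn
  set w := Real.sqrt U with hw
  have hw5 : 5 ≤ w := by
    rw [hw]
    apply Real.le_sqrt_of_sq_le
    linarith
  have hww : w * w = U := Real.mul_self_sqrt (by positivity)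
  have hS : (SS U : ℝ) ≤ w := by
    rw [hw]
    apply Real.le_sqrt_of_sq_le
    have := Nat.sqrt_le' U
    unfold SS
    exact_mod_cast this
  have hU2 : (U : ℝ) ^ 2 ≤ Real.exp (4 * w) := by
    have h5 : w ≤ Real.exp w := by
      have := Real.add_one_le_exp w
      linarith
    have h6 : Real.exp (4 * w) = Real.exp w ^ 4 := by
      rw [← Real.exp_nat_mul]
      norm_num
    rw [h6, ← hww]
    have h7 : (w * w) ^ 2 = w ^ 4 := by ring
    rw [h7]
    exact pow_le_pow_left₀ (by linarith) h5 4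
  have h8 : Real.log n ≤ Real.exp (4 * U) := by
    refine h4.trans ?_
    calc (U : ℝ) ^ 2 * Real.exp (top U n + SS U)
        ≤ Real.exp (4 * w) * Real.exp (top U n + SS U) :=
          mul_le_mul_of_nonneg_right hU2 (Real.exp_pos _).le
      _ = Real.exp (4 * w + (top U n + SS U)) := (Real.exp_add _ _).symm
      _ ≤ Real.exp (4 * U) := by
          apply Real.exp_le_exp.2
          nlinarith
  have hnpos : (0 : ℝ) < n := by exact_mod_cast hn.pos
  have h9 : (n : ℝ) ≤ Real.exp (Real.exp (4 * U)) := by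
    rw [← Real.exp_log hnpos]
    exact Real.exp_le_exp.2 h8
  have h10 : n ≤ NN U := by
    unfold NN
    exact_mod_cast h9.trans (Nat.le_ceil _)
  exact (Nat.totient_le n).trans h10

end P031
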