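import Vale.Agent.P031.Rigid
import Vale.Agent.P031.OB
import Vale.Agent.P031.Normal

/-!
# P031, module REC0: removing the top prime, double counting

Write `S = SS U`, `H = HH U`.

PROOF of `peel`.  `good_uncons`: `n = q n'`; `totient (q n') = (q-1) totient n'`; `Phi_cons`: `Phi U n j = FF U n' j (lam q)`;
`lam U q = top U n ≤ Phi U n j ≤ T` (`beta_cons`, `Phi_zero`, `Phi_mono`), so `lev q ≤ lam q + S ≤ 3U`.  If `totient n` is
not in `obSet U` then `β₀(n') < lam q + H` (`Rep U q n' (totient n)` holds), so `Φ₀(n') ≤ lam q + H`.  By `FF_Phi`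
`Φ_{j+1}(n') = FF U n' j (Φ₀(n'))`.  If `lam q < Φ₀(n')`, then `FF_slope` gives `Φ_{j+1}(n') ≤ T + 10^{j+1} H` and the
last inequality has nonpositive left side.  If `lam q ≥ Φ₀(n')`, `FF_slope` gives
`a_1 (lam q - Φ₀(n')) ≤ FF U n' j (lam q) - Φ_{j+1}(n') ≤ T - Φ_{j+1}(n')`.

PROOF of `pair_mass`.  `∑_{m ∈ 𝒮} 1/m ≤ ∑_{m'} (1/m') ∑_{t ∈ 𝓡 m'} ∑_{q : lam q = t} 1/(q-1)` and the inner sum is
`≤ 2` by `normal_level` (second part).
-/

namespace P031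

open scoped BigOperators

/-- the exceptional set of `ob_mass` -/
def obSet (U : ℕ) : Set ℕ :=
  {m | ∃ q n' : ℕ, Rep U q n' m ∧ Good U (q * n') ∧ ¬ q ∣ n' ∧ top U n' ≤ lam U q ∧
      lam U q ≤ 3 * U ∧ (lam U q : ℝ) + HH U ≤ beta U n' 0}

theorem peel (j : ℕ) : ∃ U₀ : ℕ, ∀ U : ℕ, U₀ ≤ U → ∀ (T : ℝ) (n : ℕ), T ≤ 2 * U → Good U n →
    Phi U n j ≤ T → (bigs U n).Nonempty →
    ∃ q n' : ℕ, q.Prime ∧ SS U ≤ lev q ∧ lev q ≤ 3 * U ∧ Normal U q ∧ n = q * n' ∧ ¬ q ∣ n' ∧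
      Good U n' ∧ top U n' ≤ lam U q ∧ Nat.totient n = (q - 1) * Nat.totient n' ∧
      FF U n' j (lam U q) = Phi U n j ∧
      (Nat.totient n ∈ obSet U ∨
        (Phi U n' 0 ≤ lam U q + HH U ∧ Phi U n' (j + 1) ≤ T + 10 ^ (j + 1) * HH U ∧
          aa 1 * (lam U q - Phi U n' 0) ≤ T + 10 ^ (j + 1) * HH U - Phi U n' (j + 1))) := by
  refine ⟨1, ?_⟩
  intro U hU T n hT hn hPhi hb
  obtain ⟨q, n', hq, hS, hN, rfl, hqn, hn', hlt, htop⟩ := good_uncons hn hb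
  have hn'0 : n' ≠ 0 := Nat.one_le_iff_ne_zero.1 hn'.pos
  have htot : Nat.totient (q * n') = (q - 1) * Nat.totient n' := by
    rw [Nat.totient_mul ((Nat.Prime.coprime_iff_not_dvd hq).2 hqn), Nat.totient_prime hq]
  have hPc := Phi_cons hU hq hS hn'0 hqn htop j
  have hlamT : (lam U q : ℝ) ≤ T := by
    have h1 : (top U (q * n') : ℝ) ≤ Phi U (q * n') 0 := by
      rw [Phi_zero]
      exact le_max_left _ _
    have h2 := (beta_cons hU hq hS hn'0 hqn htop 0).2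
    rw [h2] at h1
    exact h1.trans ((Phi_mono U _ (Nat.zero_le j)).trans hPhi)
  have hlam2 : lam U q ≤ 2 * U := by
    have h1 : (lam U q : ℝ) ≤ 2 * U := hlamT.trans hT
    exact_mod_cast h1
  have hlev : lev q ≤ 3 * U := by
    have h1 : SS U ≤ U := Nat.sqrt_le_self U
    unfold lam at hlam2
    omega
  refine ⟨q, n', hq, hS, hlev, hN, rfl, hqn, hn', htop, htot, hPc.symm, ?_⟩
  by_cases hob : Nat.totient (q * n') ∈ obSet U
  · exact Or.inl hob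
  right
  have hbeta : beta U n' 0 < lam U q + HH U := by
    by_contra hcon
    apply hob
    exact ⟨q, n', ⟨hq, hN, hS, hn', fun q' hq' => lev_mono (hlt q' hq').le, htot⟩, hn, hqn, htop,
      by omega, not_lt.1 hcon⟩
  have hH : 0 ≤ HH U := by
    unfold HH
    positivity
  have hP0 : Phi U n' 0 ≤ lam U q + HH U := by
    rw [Phi_zero]
    apply max_le
    · have h1 : (top U n' : ℝ) ≤ lam U q := by exact_mod_cast htop
      linarith
    · exact hbeta.le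
  have hFF := FF_Phi U n' j
  have ha := aa_one.1
  have hpow : (0 : ℝ) ≤ 10 ^ (j + 1) := by positivity
  have hFT : FF U n' j (lam U q) ≤ T := by
    rw [← hPc]
    exact hPhi
  rcases lt_or_ge (lam U q : ℝ) (Phi U n' 0) with h | h
  · have h1 := (FF_slope U n' j h.le).2
    rw [hFF] at h1
    have h4 : (10 : ℝ) ^ (j + 1) * (Phi U n' 0 - lam U q) ≤ 10 ^ (j + 1) * HH U :=
      mul_le_mul_of_nonneg_left (by linarith) hpow
    have h5 : aa 1 * (lam U q - Phi U n' 0) ≤ 0 :=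
      mul_nonpos_of_nonneg_of_nonpos (by linarith) (by linarith)
    exact ⟨hP0, by linarith, by linarith⟩
  · have h1 := (FF_slope U n' j h).1
    rw [hFF] at h1
    have h0 : 0 ≤ aa 1 * (lam U q - Phi U n' 0) := mul_nonneg (by linarith) (by linarith)
    have h4 : (0 : ℝ) ≤ 10 ^ (j + 1) * HH U := mul_nonneg hpow hH
    exact ⟨hP0, by linarith, by linarith⟩

theorem pair_mass : ∃ U₀ : ℕ, ∀ U : ℕ, U₀ ≤ U → ∀ (N : ℕ) (𝒮 W : Set ℕ) (𝓡 : ℕ → Finset ℕ),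
    (∀ m ∈ 𝒮, 1 ≤ m → m ≤ N → ∃ q m' : ℕ, q.Prime ∧ SS U ≤ lev q ∧ lev q ≤ 3 * U ∧ m' ∈ W ∧
      lam U q ∈ 𝓡 m' ∧ m = (q - 1) * m') →
    mass N 𝒮 ≤
      2 * ∑ m' ∈ Finset.Icc 1 N, Set.indicator W (fun m' : ℕ => ((𝓡 m').card : ℝ) / (m' : ℝ)) m' := by
  classical
  obtain ⟨U₀, hU₀⟩ := normal_level
  refine ⟨U₀, ?_⟩
  intro U hU N 𝒮 W 𝓡 h
  have h' : ∀ m : ℕ, ∃ p : ℕ × ℕ, m ∈ 𝒮 → 1 ≤ m → m ≤ N →
      p.1.Prime ∧ SS U ≤ lev p.1 ∧ lev p.1 ≤ 3 * U ∧ p.2 ∈ W ∧ lam U p.1 ∈ 𝓡 p.2 ∧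
        m = (p.1 - 1) * p.2 := by
    intro m
    by_cases hm : m ∈ 𝒮 ∧ 1 ≤ m ∧ m ≤ N
    · obtain ⟨q, m', h1, h2, h3, h4, h5, h6⟩ := h m hm.1 hm.2.1 hm.2.2
      exact ⟨(q, m'), fun _ _ _ => ⟨h1, h2, h3, h4, h5, h6⟩⟩
    · exact ⟨(0, 0), fun a b c => absurd ⟨a, b, c⟩ hm⟩
  choose f hf using h'
  set F := (Finset.Icc 1 N).filter (fun m => m ∈ 𝒮) with hF
  set G := (Finset.Icc 1 N).filter (fun m => m ∈ W) with hG
  have hFm : ∀ m ∈ F, (f m).1.Prime ∧ SS U ≤ lev (f m).1 ∧ lev (f m).1 ≤ 3 * U ∧ (f m).2 ∈ W ∧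
      lam U (f m).1 ∈ 𝓡 (f m).2 ∧ m = ((f m).1 - 1) * (f m).2 := by
    intro m hm
    rw [hF, Finset.mem_filter, Finset.mem_Icc] at hm
    exact hf m hm.2 hm.1.1 hm.1.2
  have hmaps : ∀ m ∈ F, (f m).2 ∈ G := by
    intro m hm
    obtain ⟨h1, h2, h3, h4, h5, h6⟩ := hFm m hm
    rw [hF, Finset.mem_filter, Finset.mem_Icc] at hm
    rw [hG, Finset.mem_filter, Finset.mem_Icc]
    have h7 : 1 ≤ (f m).2 := by
      rcases Nat.eq_zero_or_pos (f m).2 with h8 | h8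
      · rw [h8, mul_zero] at h6
        omega
      · exact h8
    have h9 : (f m).2 ≤ m := by
      have h10 : 1 ≤ (f m).1 - 1 := by
        have := h1.two_le
        omega
      calc (f m).2 = 1 * (f m).2 := (one_mul _).symm
        _ ≤ ((f m).1 - 1) * (f m).2 := Nat.mul_le_mul_right _ h10
        _ = m := h6.symm
    exact ⟨⟨h7, h9.trans hm.1.2⟩, h4⟩
  have hmass : mass N 𝒮 = ∑ m ∈ F, 1 / (m : ℝ) := by
    unfold mass
    rw [hF, Finset.sum_filter]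
    apply Finset.sum_congr rfl
    intro m _
    rw [Set.indicator_apply]
  have hR : 2 * ∑ m' ∈ Finset.Icc 1 N,
        Set.indicator W (fun m' : ℕ => ((𝓡 m').card : ℝ) / (m' : ℝ)) m' =
      ∑ m' ∈ G, 2 * (((𝓡 m').card : ℝ) / (m' : ℝ)) := by
    rw [Finset.mul_sum, hG, Finset.sum_filter]
    apply Finset.sum_congr rfl
    intro m _
    rw [Set.indicator_apply]
    split_ifs <;> simp
  rw [hmass, hR, ← Finset.sum_fiberwise_of_maps_to hmaps]
  apply Finset.sum_le_sum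
  intro m' hm'
  rw [hG, Finset.mem_filter, Finset.mem_Icc] at hm'
  have hm'0 : (0 : ℝ) < m' := by exact_mod_cast hm'.1.1
  set A := F.filter (fun m => (f m).2 = m') with hA
  have hAm : ∀ m ∈ A, (f m).1.Prime ∧ SS U ≤ lev (f m).1 ∧ lev (f m).1 ≤ 3 * U ∧
      lam U (f m).1 ∈ 𝓡 m' ∧ m = ((f m).1 - 1) * m' := by
    intro m hm
    rw [hA, Finset.mem_filter] at hm
    obtain ⟨h1, h2, h3, _, h5, h6⟩ := hFm m hm.1
    rw [hm.2] at h5 h6
    exact ⟨h1, h2, h3, h5, h6⟩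
  have hsum : ∑ m ∈ A, 1 / (m : ℝ) = (∑ m ∈ A, 1 / (((f m).1 : ℝ) - 1)) * (1 / (m' : ℝ)) := by
    rw [Finset.sum_mul]
    apply Finset.sum_congr rfl
    intro m hm
    obtain ⟨h1, _, _, _, h6⟩ := hAm m hm
    have h7 : (m : ℝ) = (((f m).1 : ℝ) - 1) * m' := by
      have h8 : (m : ℝ) = ((((f m).1 - 1) * m' : ℕ) : ℝ) := by exact_mod_cast h6
      rw [h8, Nat.cast_mul, Nat.cast_sub h1.one_le, Nat.cast_one]
    rw [h7, one_div_mul_one_div]
  have hinj : Set.InjOn (fun m => (f m).1) (A : Set ℕ) := by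
    intro a ha b hb hab
    have h1 := (hAm a ha).2.2.2.2
    have h2 := (hAm b hb).2.2.2.2
    simp only at hab
    rw [h1, h2, hab]
  have himg : ∑ m ∈ A, 1 / (((f m).1 : ℝ) - 1) =
      ∑ q ∈ A.image (fun m => (f m).1), 1 / ((q : ℝ) - 1) := by
    rw [Finset.sum_image]
    intro a ha b hb hab
    exact hinj ha hb hab
  set R' := (𝓡 m').filter (fun t => 1 ≤ t ∧ t + SS U - 1 ≤ 3 * U) with hR'
  have hsub : A.image (fun m => (f m).1) ⊆ R'.biUnion (fun t => prLev (t + SS U - 1)) := by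
    intro q hq
    rw [Finset.mem_image] at hq
    obtain ⟨m, hm, rfl⟩ := hq
    obtain ⟨h1, h2, h3, h4, h6⟩ := hAm m hm
    have h7 : 1 ≤ lam U (f m).1 ∧ lam U (f m).1 + SS U - 1 = lev (f m).1 := by
      unfold lam
      omega
    rw [Finset.mem_biUnion]
    refine ⟨lam U (f m).1, ?_, ?_⟩
    · rw [hR', Finset.mem_filter]
      exact ⟨h4, h7.1, by omega⟩
    · rw [mem_prLev]
      exact ⟨h1, h7.2.symm⟩
  have hnn : ∀ q : ℕ, 0 < q → 0 ≤ 1 / ((q : ℝ) - 1) := by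
    intro q hq
    apply div_nonneg zero_le_one
    have : (1 : ℝ) ≤ q := by exact_mod_cast hq
    linarith
  have hbi : ∑ q ∈ R'.biUnion (fun t => prLev (t + SS U - 1)), 1 / ((q : ℝ) - 1) ≤
      ∑ t ∈ R', ∑ q ∈ prLev (t + SS U - 1), 1 / ((q : ℝ) - 1) := by
    rw [Finset.sum_biUnion]
    intro a ha b hb hab
    rw [Function.onFun, Finset.disjoint_left]
    intro q hqa hqb
    rw [mem_prLev] at hqa hqb
    rw [Finset.mem_coe, hR', Finset.mem_filter] at ha hb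
    omega
  have hlevel : ∑ t ∈ R', ∑ q ∈ prLev (t + SS U - 1), 1 / ((q : ℝ) - 1) ≤ 2 * (𝓡 m').card := by
    calc ∑ t ∈ R', ∑ q ∈ prLev (t + SS U - 1), 1 / ((q : ℝ) - 1) ≤ ∑ _t ∈ R', (2 : ℝ) := by
          apply Finset.sum_le_sum
          intro t ht
          rw [hR', Finset.mem_filter] at ht
          exact (hU₀ U hU (t + SS U - 1) (by omega) ht.2.2).2
      _ = 2 * (R'.card : ℝ) := by rw [Finset.sum_const, nsmul_eq_mul, mul_comm]
      _ ≤ 2 * (𝓡 m').card := by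
          have h1 : (R'.card : ℝ) ≤ (𝓡 m').card := by
            exact_mod_cast Finset.card_le_card (Finset.filter_subset _ _)
          linarith
  have htot : ∑ m ∈ A, 1 / (((f m).1 : ℝ) - 1) ≤ 2 * (𝓡 m').card := by
    rw [himg]
    refine (Finset.sum_le_sum_of_subset_of_nonneg hsub ?_).trans (hbi.trans hlevel)
    intro q hq _
    rw [Finset.mem_biUnion] at hq
    obtain ⟨t, _, hq⟩ := hq
    exact hnn q (mem_prLev.1 hq).1.pos
  rw [hsum]
  have h8 : (0 : ℝ) ≤ 1 / (m' : ℝ) := by positivity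
  calc (∑ m ∈ A, 1 / (((f m).1 : ℝ) - 1)) * (1 / (m' : ℝ)) ≤ 2 * (𝓡 m').card * (1 / (m' : ℝ)) :=
        mul_le_mul_of_nonneg_right htot h8
    _ = 2 * (((𝓡 m').card : ℝ) / (m' : ℝ)) := by ring

private theorem PhiS_null (j : ℕ) : PhiS 0 (fun _ => 0) j = 0 := by
  induction j using Nat.strong_induction_on with
  | _ j ih =>
    cases j with
    | zero => rw [PhiS]; simp
    | succ j =>
      rw [PhiS, ih j (Nat.lt_succ_self j)]
      have h1 : ∑ i : Fin (j + 1), aa (j + 1 - i) * PhiS 0 (fun _ => 0) i = 0 := by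
        apply Finset.sum_eq_zero
        intro i _
        rw [ih i.1 i.2, mul_zero]
      rw [h1]
      simp

/-- totients of good integers without big primes belong to all `Gset` -/
theorem nobig_mem {U n : ℕ} (hn : Good U n) (hb : ¬ (bigs U n).Nonempty) (i : ℕ) {T : ℝ} (hT : 0 ≤ T) :
    Nat.totient n ∈ Gset U i T := by
  refine ⟨n, hn, rfl, ?_⟩
  have h0 : bigs U n = ∅ := Finset.not_nonempty_iff_eq_empty.1 hb
  have h1 : top U n = 0 := by
    rw [top, h0]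
    simp
  have h2 : beta U n = fun _ => 0 := by
    funext k
    rw [beta, h1]
    simp
  rw [Phi, h1, h2, Nat.cast_zero, PhiS_null]
  exact hT

end P031
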