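import Vale.Agent.P031.Rec0

/-!
# P031, module RECU: upper recursion

PROOF.  `T₁ = T + 10^{j+1} H`.  `Gset U j T ⊆ {no big prime} ∪ obSet U ∪ 𝒮` (`peel`), the first two have mass
`≤ GG U (j+1) 0` (`nobig_mem`) and `≤ e^{-H/2} ≤ 1 ≤ GG U (j+1) 0` (`ob_mass`, `one_le_GG`).  For `𝒮` use `pair_mass`
with `W = Gset U (j+1) T₁`: for `m' ∈ W` choose a good `n*` with `φ(n*) = m'`, `Φ_{j+1}(n*) ≤ T₁` and let
`𝓡 m'` be the naturals in `[Φ₀(n*) - 2H, Φ₀(n*) + H + (T₁ + H - Φ_{j+1}(n*))/a_1 ]` — by `rigid` (for `0` and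
`j+1`; all tops are `≤ Φ ≤ 3U`) `Φ₀(n')`, `Φ_{j+1}(n')` differ from those of `n*` by at most `H`, so
`lam q ∈ 𝓡 m'` (adjust constants).  `#𝓡 m' ≤ C (T₁ + H - Φ_{j+1}(n*)) + C H ≤
C' #{t ∈ ℕ : Φ_{j+1}(n*) ≤ t ≤ T + C'' H}`, and `Φ_{j+1}(n*) ≤ t` implies `m' ∈ Gset U (j+1) t`; exchange the sums.
-/

namespace P031

open scoped BigOperators

private theorem recU_HH (K : ℝ) : ∃ U₀ : ℕ, ∀ U : ℕ, U₀ ≤ U → K * HH U ≤ U ∧ 1 ≤ HH U := by
  have htend : Filter.Tendsto (fun U : ℕ => ((U : ℝ)) ^ ((2 : ℝ) / 5)) Filter.atTop Filter.atTop :=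
    (tendsto_rpow_atTop (by norm_num)).comp tendsto_natCast_atTop_atTop
  obtain ⟨U₁, h1⟩ := Filter.eventually_atTop.1 (htend.eventually_ge_atTop K)
  refine ⟨max U₁ 1, fun U hU => ?_⟩
  have hU1 : 1 ≤ U := le_trans (le_max_right _ _) hU
  have hUr : (1 : ℝ) ≤ U := by exact_mod_cast hU1
  have hK := h1 U (le_trans (le_max_left _ _) hU)
  have hH : (0 : ℝ) ≤ HH U := by unfold HH; positivity
  constructor
  · have h2 : (U : ℝ) ^ ((2 : ℝ) / 5) * HH U = U := by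
      unfold HH
      rw [← Real.rpow_add (by linarith)]
      norm_num
    calc K * HH U ≤ (U : ℝ) ^ ((2 : ℝ) / 5) * HH U := mul_le_mul_of_nonneg_right hK hH
      _ = U := h2
  · unfold HH
    exact Real.one_le_rpow hUr (by norm_num)

/-- counting naturals in an interval, upper bound -/
private theorem recU_card_le {a b : ℝ} (h : a ≤ b) :
    ((Finset.Icc ⌈a⌉₊ ⌊b⌋₊).card : ℝ) ≤ b - a + 1 := by
  rw [Nat.card_Icc]
  rcases le_total (⌊b⌋₊ + 1) ⌈a⌉₊ with h1 | h1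
  · rw [Nat.sub_eq_zero_of_le h1, Nat.cast_zero]
    linarith
  · rw [Nat.cast_sub h1]
    push_cast
    have h2 := Nat.le_ceil a
    rcases le_or_gt 0 b with hb | hb
    · have h3 := Nat.floor_le hb
      linarith
    · rw [Nat.floor_eq_zero.2 (by linarith)] at h1 ⊢
      have ha : ⌈a⌉₊ = 0 := Nat.ceil_eq_zero.2 (by linarith)
      rw [ha]
      push_cast
      linarith

/-- counting naturals in an interval, lower bound -/
private theorem recU_le_card {a b : ℝ} (ha : 0 ≤ a) :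
    b - a - 1 ≤ (((Finset.range (⌊b⌋₊ + 1)).filter (fun t : ℕ => a ≤ (t : ℝ))).card : ℝ) := by
  have h0 : Finset.Icc ⌈a⌉₊ ⌊b⌋₊ ⊆ (Finset.range (⌊b⌋₊ + 1)).filter (fun t : ℕ => a ≤ (t : ℝ)) := by
    intro t ht
    rw [Finset.mem_Icc] at ht
    rw [Finset.mem_filter, Finset.mem_range]
    exact ⟨by omega, Nat.ceil_le.1 ht.1⟩
  have h1 : ((Finset.Icc ⌈a⌉₊ ⌊b⌋₊).card : ℝ) ≤
      (((Finset.range (⌊b⌋₊ + 1)).filter (fun t : ℕ => a ≤ (t : ℝ))).card : ℝ) := by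
    exact_mod_cast Finset.card_le_card h0
  refine le_trans ?_ h1
  rw [Nat.card_Icc]
  have h2 := Nat.ceil_lt_add_one ha
  have h3 := Nat.lt_floor_add_one b
  have h4 : ((⌊b⌋₊ + 1 : ℕ) : ℝ) - (⌈a⌉₊ : ℝ) ≤ ((⌊b⌋₊ + 1 - ⌈a⌉₊ : ℕ) : ℝ) := by
    have : (⌊b⌋₊ + 1 : ℕ) ≤ (⌊b⌋₊ + 1 - ⌈a⌉₊) + ⌈a⌉₊ := by omega
    have h5 : ((⌊b⌋₊ + 1 : ℕ) : ℝ) ≤ ((⌊b⌋₊ + 1 - ⌈a⌉₊ : ℕ) : ℝ) + (⌈a⌉₊ : ℝ) := by exact_mod_cast this
    linarith
  push_cast at h4
  linarith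

theorem upper_rec (j : ℕ) : ∃ (C : ℝ) (U₀ : ℕ), 0 < C ∧ ∀ U : ℕ, U₀ ≤ U → ∀ T : ℝ,
    (U : ℝ) / 2 ≤ T → T ≤ 2 * U →
    GG U j T ≤ C * ∑ t ∈ Finset.range (⌊T + C * HH U⌋₊ + 1), GG U (j + 1) t := by
  classical
  obtain ⟨U₁, hpeel⟩ := peel j
  obtain ⟨U₂, hpair⟩ := pair_mass
  obtain ⟨U₃, hrig0⟩ := rigid 0
  obtain ⟨U₄, hrig⟩ := rigid (j + 1)
  obtain ⟨U₅, hob⟩ := ob_mass
  set K : ℝ := 10 ^ (j + 1) with hKdef
  have hK0 : 0 < K := by positivity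
  obtain ⟨U₆, hHH⟩ := recU_HH K
  refine ⟨K + 10, U₁ + U₂ + U₃ + U₄ + U₅ + U₆, by positivity, ?_⟩
  intro U hU T hT1 hT2
  obtain ⟨hKH, hH1⟩ := hHH U (by omega)
  set H := HH U with hHdef
  have hU0 : (0 : ℝ) ≤ U := Nat.cast_nonneg U
  have hT0 : 0 ≤ T := by linarith
  set T₁ := T + K * H with hT₁def
  have hT₁ : T₁ ≤ 3 * U := by linarith
  have ha1 := aa_one.1
  have ha2 := aa_one.2
  have ha0 : 0 < aa 1 := by linarith
  set W : Set ℕ := Gset U (j + 1) T₁ with hW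
  have hWex : ∀ m' ∈ W, ∃ n : ℕ, Good U n ∧ Nat.totient n = m' ∧ Phi U n (j + 1) ≤ T₁ := fun m' h => h
  choose! g hg1 hg2 hg3 using hWex
  set 𝓡 : ℕ → Finset ℕ := fun m' => Finset.Icc ⌈Phi U (g m') 0 - 2 * H⌉₊
    ⌊Phi U (g m') 0 + H + (T₁ + H - Phi U (g m') (j + 1)) / aa 1⌋₊ with h𝓡
  set 𝒮 : Set ℕ := {m | ∃ q n' : ℕ, q.Prime ∧ SS U ≤ lev q ∧ lev q ≤ 3 * U ∧ Good U n' ∧
    m = (q - 1) * Nat.totient n' ∧ Phi U n' 0 ≤ lam U q + H ∧ Phi U n' (j + 1) ≤ T₁ ∧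
      aa 1 * (lam U q - Phi U n' 0) ≤ T₁ - Phi U n' (j + 1)} with h𝒮
  -- the decomposition
  have hsub : Gset U j T ⊆ (Gset U (j + 1) 0 ∪ obSet U) ∪ 𝒮 := by
    rintro m ⟨n, hn, rfl, hPhi⟩
    by_cases hb : (bigs U n).Nonempty
    · obtain ⟨q, n', hq, hS, hl, _, _, _, hn', _, htot, _, hor⟩ :=
        hpeel U (by omega) T n hT2 hn hPhi hb
      rcases hor with hor | ⟨h1, h2, h3⟩
      · exact Or.inl (Or.inr hor)
      · exact Or.inr ⟨q, n', hq, hS, hl, hn', htot, h1, h2, h3⟩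
    · exact Or.inl (Or.inl (nobig_mem hn hb (j + 1) le_rfl))
  have hm1 : GG U j T ≤ (GG U (j + 1) 0 + mass (NN U) (obSet U)) + mass (NN U) 𝒮 := by
    unfold GG
    refine (mass_mono hsub).trans (mass_union.trans ?_)
    have := mass_union (N := NN U) (A := Gset U (j + 1) 0) (B := obSet U)
    linarith
  have hm2 : mass (NN U) (obSet U) ≤ 1 := by
    refine (hob U (by omega)).trans ?_
    rw [Real.exp_le_one_iff]
    linarith
  have hm3 := one_le_GG U (j + 1) (le_refl (0 : ℝ))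
  -- the pairs
  have hR : ∀ m ∈ 𝒮, 1 ≤ m → m ≤ NN U → ∃ q m' : ℕ, q.Prime ∧ SS U ≤ lev q ∧ lev q ≤ 3 * U ∧ m' ∈ W ∧
      lam U q ∈ 𝓡 m' ∧ m = (q - 1) * m' := by
    rintro m ⟨q, n', hq, hS, hl, hn', hm, h1, h2, h3⟩ _ _
    have hmem : Nat.totient n' ∈ W := ⟨n', hn', rfl, h2⟩
    refine ⟨q, Nat.totient n', hq, hS, hl, hmem, ?_, hm⟩
    have hg1' := hg1 _ hmem
    have hg2' := hg2 _ hmem
    have hg3' := hg3 _ hmem
    have htop : ∀ k : ℕ, Phi U k (j + 1) ≤ T₁ → top U k ≤ 8 * U := by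
      intro k hk
      have h4 : (top U k : ℝ) ≤ Phi U k 0 := by
        rw [Phi_zero]; exact le_max_left _ _
      have h5 := Phi_mono U k (Nat.zero_le (j + 1))
      have h6 : (top U k : ℝ) ≤ ((8 * U : ℕ) : ℝ) := by push_cast; linarith
      exact_mod_cast h6
    have hr0 := (hrig0 U (by omega) n' (g (Nat.totient n')) hn' hg1' hg2'.symm
      (htop n' h2) (htop _ hg3')).1
    have hr1 := (hrig U (by omega) n' (g (Nat.totient n')) hn' hg1' hg2'.symm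
      (htop n' h2) (htop _ hg3')).1
    rw [abs_le] at hr0 hr1
    simp only [h𝓡, Finset.mem_Icc]
    constructor
    · rw [Nat.ceil_le]
      linarith [hr0.1]
    · apply Nat.le_floor
      have h4 : aa 1 * (lam U q - Phi U (g (Nat.totient n')) 0 - H) ≤
          T₁ + H - Phi U (g (Nat.totient n')) (j + 1) := by
        have h5 : aa 1 * (lam U q - Phi U (g (Nat.totient n')) 0 - H) ≤
            aa 1 * (lam U q - Phi U n' 0) :=
          mul_le_mul_of_nonneg_left (by linarith [hr0.2]) ha0.le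
        linarith [hr1.1]
      have h6 : (lam U q : ℝ) - Phi U (g (Nat.totient n')) 0 - H ≤
          (T₁ + H - Phi U (g (Nat.totient n')) (j + 1)) / aa 1 := by
        rw [le_div_iff₀ ha0]
        linarith
      linarith
  have hp := hpair U (by omega) (NN U) 𝒮 W 𝓡 hR
  -- the number of levels
  set b := T + (K + 10) * H with hb
  have hcard : ∀ m' ∈ W, ((𝓡 m').card : ℝ) ≤
      4 * (((Finset.range (⌊b⌋₊ + 1)).filter (fun t : ℕ => Phi U (g m') (j + 1) ≤ (t : ℝ))).card : ℝ) := by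
    intro m' hm'
    have h1 := hg3 m' hm'
    have h2 := Phi_nonneg U (g m') (j + 1)
    have h3 : (T₁ + H - Phi U (g m') (j + 1)) / aa 1 ≤ 3 * (T₁ + H - Phi U (g m') (j + 1)) := by
      rw [div_le_iff₀ ha0]
      nlinarith
    have h3' : 0 ≤ (T₁ + H - Phi U (g m') (j + 1)) / aa 1 :=
      div_nonneg (by linarith) ha0.le
    have h4 := recU_card_le (a := Phi U (g m') 0 - 2 * H)
      (b := Phi U (g m') 0 + H + (T₁ + H - Phi U (g m') (j + 1)) / aa 1) (by linarith)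
    have h5 := recU_le_card (a := Phi U (g m') (j + 1)) (b := b) h2
    have h6 : b = T₁ + 10 * H := by rw [hb, hT₁def]; ring
    simp only [h𝓡]
    refine h4.trans ?_
    refine le_trans ?_ (mul_le_mul_of_nonneg_left h5 (by norm_num : (0 : ℝ) ≤ 4))
    rw [h6]
    linarith
  have hfin : ∑ m' ∈ Finset.Icc 1 (NN U),
      Set.indicator W (fun m' : ℕ => ((𝓡 m').card : ℝ) / (m' : ℝ)) m' ≤
      4 * ∑ t ∈ Finset.range (⌊b⌋₊ + 1), GG U (j + 1) t := by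
    calc ∑ m' ∈ Finset.Icc 1 (NN U), Set.indicator W (fun m' : ℕ => ((𝓡 m').card : ℝ) / (m' : ℝ)) m'
        ≤ ∑ m' ∈ Finset.Icc 1 (NN U), 4 * ∑ t ∈ Finset.range (⌊b⌋₊ + 1),
            Set.indicator (Gset U (j + 1) t) (fun m : ℕ => 1 / (m : ℝ)) m' := by
          refine Finset.sum_le_sum fun m' _ => ?_
          by_cases hm' : m' ∈ W
          · rw [Set.indicator_of_mem hm']
            have h1 : ((((Finset.range (⌊b⌋₊ + 1)).filter
                (fun t : ℕ => Phi U (g m') (j + 1) ≤ (t : ℝ))).card : ℝ)) * (1 / (m' : ℝ)) ≤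
                ∑ t ∈ Finset.range (⌊b⌋₊ + 1),
                  Set.indicator (Gset U (j + 1) t) (fun m : ℕ => 1 / (m : ℝ)) m' := by
              rw [← nsmul_eq_mul, ← Finset.sum_const, Finset.sum_filter]
              refine Finset.sum_le_sum fun t _ => ?_
              split_ifs with h
              · have hmem : m' ∈ Gset U (j + 1) t := ⟨g m', hg1 m' hm', hg2 m' hm', h⟩
                rw [Set.indicator_of_mem hmem]
              · exact Set.indicator_nonneg (fun m _ => by positivity) m'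
            have h2 := hcard m' hm'
            have h3 : (0 : ℝ) ≤ 1 / (m' : ℝ) := by positivity
            calc ((𝓡 m').card : ℝ) / (m' : ℝ) = ((𝓡 m').card : ℝ) * (1 / (m' : ℝ)) := by ring
              _ ≤ (4 * (((Finset.range (⌊b⌋₊ + 1)).filter
                (fun t : ℕ => Phi U (g m') (j + 1) ≤ (t : ℝ))).card : ℝ)) * (1 / (m' : ℝ)) :=
                  mul_le_mul_of_nonneg_right h2 h3
              _ ≤ _ := by rw [mul_assoc]; exact mul_le_mul_of_nonneg_left h1 (by norm_num)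
          · rw [Set.indicator_of_notMem hm']
            refine mul_nonneg (by norm_num) (Finset.sum_nonneg fun t _ => ?_)
            exact Set.indicator_nonneg (fun m _ => by positivity) m'
      _ = 4 * ∑ t ∈ Finset.range (⌊b⌋₊ + 1), GG U (j + 1) t := by
          rw [← Finset.mul_sum, Finset.sum_comm]
          rfl
  have hsum0 : GG U (j + 1) 0 ≤ ∑ t ∈ Finset.range (⌊b⌋₊ + 1), GG U (j + 1) t := by
    have h1 : GG U (j + 1) ((0 : ℕ) : ℝ) ≤ ∑ t ∈ Finset.range (⌊b⌋₊ + 1), GG U (j + 1) t :=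
      Finset.single_le_sum (f := fun t : ℕ => GG U (j + 1) t)
        (fun t _ => mass_nonneg) (Finset.mem_range.2 (Nat.succ_pos _))
    simpa using h1
  have hSnn : 0 ≤ ∑ t ∈ Finset.range (⌊b⌋₊ + 1), GG U (j + 1) t :=
    Finset.sum_nonneg fun t _ => mass_nonneg
  have hK1 : 10 * ∑ t ∈ Finset.range (⌊b⌋₊ + 1), GG U (j + 1) t ≤
      (K + 10) * ∑ t ∈ Finset.range (⌊b⌋₊ + 1), GG U (j + 1) t :=
    mul_le_mul_of_nonneg_right (by linarith) hSnn
  refine le_trans ?_ hK1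
  linarith

end P031
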