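import Vale.Agent.P031.Prof

/-!
# P031, module RIGID: good integers with the same totient have nearly the same profile

PROOF.  Let `m = φ(n) = φ(n')`.  By `Lv_totient` and normality, for `0 ≤ x` (shifted levels)
`Lv S (S+x) m = ∑_{q ∈ bigs n} Lv S (min (S+x) (lev q + 1)) (q-1) = ∑_{s=1}^{x} prof n s ± K E`
(`q - 1` has no prime factors of level `> lev q`: `Lv_top`; `min (x, lam q) = ∑_{s ≤ x} 1[s ≤ lam q]`),
`K ≤ C log U` by `card_bigs_le`.  So `|∑_{s ≤ x} (prof n s - prof n' s)| ≤ 2 C log U · E =: Δ` for all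
`x`.  Let `u_i = #{s ≥ 1 : prof n s ≥ i}`, `u'_i` likewise.  If `u_i > u'_i` then `prof n - prof n' ≥ 1` on
`(u'_i, u_i]`, so `u_i - u'_i ≤ 2 Δ`.  Hence `|u_i - u'_i| ≤ 2Δ` for all `i ≤ C log U` (`i = 1`: `top`), and
`beta U n k = ∑_{i ≥ 1} a_{k+i} u_i`, `a_{k+i} ≤ log (k+i+1)`, so
`|beta U n k - beta U n' k| ≤ C log U · log (C log U + k) · 2Δ ≤ U^(0.57)`; then induct on `j` through the
definition of `PhiS` (maximum of two functions each Lipschitz).  `E = U^(11/20)`, `H = U^(3/5)`.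
-/

namespace P031

open scoped BigOperators

/-- normality, in all ranges of levels -/
theorem rigid_Lv_one {U q : ℕ} (hN : Normal U q) (hq : SS U ≤ lev q) (x : ℕ) :
    |(Lv (SS U) (SS U + x) (q - 1) : ℝ) - ((min x (lam U q) : ℕ) : ℝ)| ≤ EE U := by
  have hlam : lam U q = lev q + 1 - SS U := rfl
  rcases le_total (SS U + x) (lev q + 1) with h | h
  · have h1 := hN.1 (SS U + x) (by omega) h
    have h2 : min x (lam U q) = x := by omega
    rw [h2]
    push_cast at h1
    have h3 : ((SS U : ℝ) + (x : ℝ) - (SS U : ℝ)) = x := by ring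
    rwa [h3] at h1
  · have h1 := hN.1 (lev q + 1) (by omega) le_rfl
    have h2 : min x (lam U q) = lev q + 1 - SS U := by omega
    have hl : lev (q - 1) ≤ lev q := lev_mono (Nat.sub_le _ _)
    rw [h2, Lv_top (a := SS U) (b := SS U + x) (m := q - 1) (by omega),
      ← Lv_top (a := SS U) (b := lev q + 1) (m := q - 1) (by omega),
      Nat.cast_sub (by omega)]
    push_cast at h1 ⊢
    exact h1

theorem rigid_min (x l : ℕ) :
    ∑ s ∈ Finset.Icc 1 x, (if s ≤ l then 1 else 0 : ℕ) = min x l := by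
  rw [← Finset.card_filter]
  have h : (Finset.Icc 1 x).filter (fun s => s ≤ l) = Finset.Icc 1 (min x l) := by
    ext s
    simp only [Finset.mem_filter, Finset.mem_Icc, le_min_iff]
    tauto
  rw [h, Nat.card_Icc]
  omega

theorem rigid_prof_sum (U n x : ℕ) :
    ∑ s ∈ Finset.Icc 1 x, prof U n s = ∑ q ∈ bigs U n, min x (lam U q) := by
  have h : ∀ s ∈ Finset.Icc 1 x, prof U n s = ∑ q ∈ bigs U n, (if s ≤ lam U q then 1 else 0 : ℕ) :=
    fun s _ => Finset.card_filter _ _
  rw [Finset.sum_congr rfl h, Finset.sum_comm]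
  exact Finset.sum_congr rfl fun q _ => rigid_min x (lam U q)

theorem rigid_Lv_sum {U n : ℕ} (hn : Good U n) (x : ℕ) :
    |(Lv (SS U) (SS U + x) (Nat.totient n) : ℝ) - ∑ s ∈ Finset.Icc 1 x, (prof U n s : ℝ)| ≤
      (bigs U n).card * EE U := by
  have hn0 : n ≠ 0 := by
    have := hn.pos
    omega
  rw [Lv_totient hn0 le_rfl hn.sqf, ← Nat.cast_sum, rigid_prof_sum]
  push_cast
  rw [← Finset.sum_sub_distrib]
  refine (Finset.abs_sum_le_sum_abs _ _).trans ?_
  rw [← nsmul_eq_mul]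
  refine Finset.sum_le_card_nsmul _ _ _ (fun q hq => ?_)
  have h := rigid_Lv_one (hn.nrm q hq) (mem_bigs.1 hq).2.2.2 x
  push_cast at h
  exact h

theorem rigid_filter {J : ℕ → ℕ} (hJ : Antitone J) (i N : ℕ) :
    (Finset.Icc 1 N).filter (fun s => i ≤ J s) =
      Finset.Icc 1 ((Finset.Icc 1 N).filter (fun s => i ≤ J s)).card := by
  induction N with
  | zero => simp
  | succ N ih =>
    by_cases h : i ≤ J (N + 1)
    · have h1 : (Finset.Icc 1 (N + 1)).filter (fun s => i ≤ J s) = Finset.Icc 1 (N + 1) := by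
        refine Finset.filter_true_of_mem (fun s hs => ?_)
        exact h.trans (hJ (Finset.mem_Icc.1 hs).2)
      rw [h1, Nat.card_Icc]
      simp
    · have h1 : (Finset.Icc 1 (N + 1)).filter (fun s => i ≤ J s) =
          (Finset.Icc 1 N).filter (fun s => i ≤ J s) := by
        ext s
        simp only [Finset.mem_filter, Finset.mem_Icc]
        constructor
        · rintro ⟨⟨h2, h3⟩, h4⟩
          refine ⟨⟨h2, ?_⟩, h4⟩
          rcases Nat.lt_or_ge N s with h5 | h5
          · exfalso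
            have : s = N + 1 := by omega
            exact h (this ▸ h4)
          · exact h5
        · rintro ⟨⟨h2, h3⟩, h4⟩
          exact ⟨⟨h2, by omega⟩, h4⟩
      rw [h1]
      exact ih

/-- number of `s ∈ [1, N]` with `J s ≥ i` -/
def ucount (J : ℕ → ℕ) (i N : ℕ) : ℕ := ((Finset.Icc 1 N).filter (fun s => i ≤ J s)).card

theorem ucount_le (J : ℕ → ℕ) (i N : ℕ) : ucount J i N ≤ N := by
  refine (Finset.card_filter_le _ _).trans ?_
  simp

theorem le_ucount_iff {J : ℕ → ℕ} (hJ : Antitone J) {i N s : ℕ} (h1 : 1 ≤ s) (h2 : s ≤ N) :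
    i ≤ J s ↔ s ≤ ucount J i N := by
  have h := rigid_filter hJ i N
  have h3 : s ∈ (Finset.Icc 1 N).filter (fun s => i ≤ J s) ↔ i ≤ J s := by
    simp only [Finset.mem_filter, Finset.mem_Icc]
    tauto
  rw [h] at h3
  rw [← h3, Finset.mem_Icc]
  unfold ucount
  tauto

theorem ucount_sub {J J' : ℕ → ℕ} (hJ : Antitone J) (hJ' : Antitone J') {Δ : ℝ} (hΔ : 0 ≤ Δ)
    (h : ∀ x : ℕ, |∑ s ∈ Finset.Icc 1 x, (J s : ℝ) - ∑ s ∈ Finset.Icc 1 x, (J' s : ℝ)| ≤ Δ)
    (i N : ℕ) : (ucount J i N : ℝ) - ucount J' i N ≤ 2 * Δ := by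
  rcases le_total (ucount J i N) (ucount J' i N) with hle | hle
  · have : (ucount J i N : ℝ) ≤ ucount J' i N := by exact_mod_cast hle
    linarith
  · have h1 := (abs_le.1 (h (ucount J i N))).2
    have h2 := (abs_le.1 (h (ucount J' i N))).1
    have e : ∀ g : ℕ → ℝ, ∑ s ∈ Finset.Icc 1 (ucount J i N), g s =
        ∑ s ∈ Finset.Icc 1 (ucount J' i N), g s +
          ∑ s ∈ Finset.Ioc (ucount J' i N) (ucount J i N), g s := by
      intro g
      exact (Finset.sum_Ioc_consecutive g (Nat.zero_le _) hle).symm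
    rw [e, e] at h1
    have h3 : ((ucount J i N : ℝ) - ucount J' i N) ≤
        ∑ s ∈ Finset.Ioc (ucount J' i N) (ucount J i N), (J s : ℝ) -
          ∑ s ∈ Finset.Ioc (ucount J' i N) (ucount J i N), (J' s : ℝ) := by
      rw [← Finset.sum_sub_distrib]
      have h4 : ∀ s ∈ Finset.Ioc (ucount J' i N) (ucount J i N), (1 : ℝ) ≤ (J s : ℝ) - J' s := by
        intro s hs
        rw [Finset.mem_Ioc] at hs
        have hs1 : 1 ≤ s := by omega
        have hs2 : s ≤ N := hs.2.trans (ucount_le J i N)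
        have a1 := (le_ucount_iff hJ (i := i) hs1 hs2).2 hs.2
        have a2 : ¬ i ≤ J' s := fun hc => by
          have := (le_ucount_iff hJ' (i := i) hs1 hs2).1 hc
          omega
        have a3 : J' s + 1 ≤ J s := by omega
        have a4 : ((J' s + 1 : ℕ) : ℝ) ≤ J s := by exact_mod_cast a3
        push_cast at a4
        linarith
      have h5 := Finset.card_nsmul_le_sum _ _ _ h4
      rw [Nat.card_Ioc, nsmul_eq_mul, mul_one, Nat.cast_sub hle] at h5
      exact h5
    linarith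

theorem abs_ucount_sub {J J' : ℕ → ℕ} (hJ : Antitone J) (hJ' : Antitone J') {Δ : ℝ} (hΔ : 0 ≤ Δ)
    (h : ∀ x : ℕ, |∑ s ∈ Finset.Icc 1 x, (J s : ℝ) - ∑ s ∈ Finset.Icc 1 x, (J' s : ℝ)| ≤ Δ)
    (i N : ℕ) : |(ucount J i N : ℝ) - ucount J' i N| ≤ 2 * Δ := by
  rw [abs_sub_le_iff]
  refine ⟨ucount_sub hJ hJ' hΔ h i N, ucount_sub hJ' hJ hΔ (fun x => ?_) i N⟩
  rw [abs_sub_comm]
  exact h x

theorem rigid_QQ (k J : ℕ) :
    QQ (J + k + 1) - QQ (k + 1) = ∑ i ∈ Finset.Icc 1 J, aa (k + i) := by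
  induction J with
  | zero => simp
  | succ J ih =>
    rw [Finset.sum_Icc_succ_top (by omega), ← ih]
    have h : aa (k + (J + 1)) = QQ (J + 1 + k + 1) - QQ (J + k + 1) := by
      unfold aa
      congr 2 <;> ring
    rw [h]
    ring

theorem rigid_beta {U n M N : ℕ} (hM : ∀ s, 1 ≤ s → prof U n s ≤ M) (hN : top U n ≤ N) (k : ℕ) :
    beta U n k = ∑ i ∈ Finset.Icc 1 M, aa (k + i) * ucount (prof U n) i N := by
  have h1 : beta U n k =
      ∑ s ∈ Finset.Icc 1 N, (QQ (prof U n s + k + 1) - QQ (k + 1)) := by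
    unfold beta
    refine Finset.sum_subset (Finset.Icc_subset_Icc_right hN) (fun s hs hs' => ?_)
    rw [Finset.mem_Icc] at hs hs'
    rw [prof_zero (by omega)]
    simp
  have h2 : ∀ s ∈ Finset.Icc 1 N, (QQ (prof U n s + k + 1) - QQ (k + 1)) =
      ∑ i ∈ Finset.Icc 1 M, (if i ≤ prof U n s then aa (k + i) else 0) := by
    intro s hs
    rw [Finset.mem_Icc] at hs
    rw [rigid_QQ, ← Finset.sum_filter]
    refine Finset.sum_congr ?_ (fun _ _ => rfl)
    ext i
    have := hM s hs.1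
    simp only [Finset.mem_filter, Finset.mem_Icc]
    omega
  rw [h1, Finset.sum_congr rfl h2, Finset.sum_comm]
  refine Finset.sum_congr rfl (fun i _ => ?_)
  rw [← Finset.sum_filter, Finset.sum_const, nsmul_eq_mul, mul_comm]
  rfl

theorem rigid_top {U n N : ℕ} (hN : top U n ≤ N) : ucount (prof U n) 1 N = top U n := by
  unfold ucount
  have h : (Finset.Icc 1 N).filter (fun s => 1 ≤ prof U n s) = Finset.Icc 1 (top U n) := by
    ext s
    simp only [Finset.mem_filter, Finset.mem_Icc]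
    constructor
    · rintro ⟨⟨h1, h2⟩, h3⟩
      refine ⟨h1, ?_⟩
      by_contra hc
      rw [prof_zero (by omega)] at h3
      omega
    · rintro ⟨h1, h2⟩
      exact ⟨⟨h1, by omega⟩, prof_pos h1 h2⟩
  rw [h, Nat.card_Icc]
  omega

theorem rigid_PhiS (j : ℕ) : ∃ L : ℝ, 0 ≤ L ∧ ∀ (tp tp' δ : ℝ) (b b' : ℕ → ℝ), 0 ≤ δ →
    |tp - tp'| ≤ δ → (∀ k ≤ j, |b k - b' k| ≤ δ) → |PhiS tp b j - PhiS tp' b' j| ≤ L * δ := by
  induction j using Nat.strong_induction_on with
  | _ j ih =>
    rcases j with _ | j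
    · refine ⟨1, zero_le_one, fun tp tp' δ b b' hδ h1 h2 => ?_⟩
      rw [PhiS, PhiS, one_mul]
      refine (abs_max_sub_max_le_max _ _ _ _).trans ?_
      exact max_le h1 (h2 0 le_rfl)
    · choose! L hL0 hL using ih
      have hs : 0 ≤ ∑ i : Fin (j + 1), aa (j + 1 - i) * L i :=
        Finset.sum_nonneg fun i _ => mul_nonneg (aa_nonneg (by omega)) (hL0 i i.2)
      refine ⟨L j + (1 + ∑ i : Fin (j + 1), aa (j + 1 - i) * L i), by
        have := hL0 j (by omega)
        positivity, fun tp tp' δ b b' hδ h1 h2 => ?_⟩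
      rw [PhiS, PhiS]
      refine (abs_max_sub_max_le_max _ _ _ _).trans ?_
      have hA := hL j (by omega) tp tp' δ b b' hδ h1 (fun k hk => h2 k (by omega))
      have hB : |b (j + 1) + ∑ i : Fin (j + 1), aa (j + 1 - i) * PhiS tp b i -
          (b' (j + 1) + ∑ i : Fin (j + 1), aa (j + 1 - i) * PhiS tp' b' i)| ≤
          (1 + ∑ i : Fin (j + 1), aa (j + 1 - i) * L i) * δ := by
        have e : b (j + 1) + ∑ i : Fin (j + 1), aa (j + 1 - i) * PhiS tp b i -
          (b' (j + 1) + ∑ i : Fin (j + 1), aa (j + 1 - i) * PhiS tp' b' i) =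
          (b (j + 1) - b' (j + 1)) +
            ∑ i : Fin (j + 1), aa (j + 1 - i) * (PhiS tp b i - PhiS tp' b' i) := by
          simp only [mul_sub, Finset.sum_sub_distrib]
          ring
        rw [e, add_mul, one_mul, Finset.sum_mul]
        refine (abs_add_le _ _).trans (add_le_add (h2 _ le_rfl) ?_)
        refine (Finset.abs_sum_le_sum_abs _ _).trans (Finset.sum_le_sum fun i _ => ?_)
        rw [abs_mul, abs_of_nonneg (aa_nonneg (by omega : 1 ≤ j + 1 - (i : ℕ))), mul_assoc]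
        exact mul_le_mul_of_nonneg_left
          (hL i i.2 tp tp' δ b b' hδ h1 (fun k hk => h2 k (by omega))) (aa_nonneg (by omega))
      refine max_le (hA.trans ?_) (hB.trans ?_)
      · have : 0 ≤ (1 + ∑ i : Fin (j + 1), aa (j + 1 - i) * L i) * δ := by positivity
        linarith
      · have : 0 ≤ L j * δ := mul_nonneg (hL0 j (by omega)) hδ
        linarith

theorem rigid_delta {U n n' M : ℕ} (hn : Good U n) (hn' : Good U n')
    (h : Nat.totient n = Nat.totient n') (hM : (bigs U n).card ≤ M) (hM' : (bigs U n').card ≤ M)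
    (x : ℕ) :
    |∑ s ∈ Finset.Icc 1 x, (prof U n s : ℝ) - ∑ s ∈ Finset.Icc 1 x, (prof U n' s : ℝ)| ≤
      2 * (M * EE U) := by
  have hE : 0 ≤ EE U := Real.rpow_nonneg (Nat.cast_nonneg _) _
  have h1 := rigid_Lv_sum hn x
  have h2 := rigid_Lv_sum hn' x
  rw [← h] at h2
  have h3 : ((bigs U n).card : ℝ) * EE U ≤ M * EE U :=
    mul_le_mul_of_nonneg_right (by exact_mod_cast hM) hE
  have h4 : ((bigs U n').card : ℝ) * EE U ≤ M * EE U :=
    mul_le_mul_of_nonneg_right (by exact_mod_cast hM') hE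
  rw [abs_le] at h1 h2 ⊢
  constructor <;> linarith [h1.1, h1.2, h2.1, h2.2]

theorem prof_le_card (U n s : ℕ) : prof U n s ≤ (bigs U n).card := Finset.card_filter_le _ _

theorem rigid_core {U n n' M : ℕ} (hn : Good U n) (hn' : Good U n')
    (h : Nat.totient n = Nat.totient n') (hM : (bigs U n).card ≤ M) (hM' : (bigs U n').card ≤ M)
    (k : ℕ) :
    |(top U n : ℝ) - top U n'| ≤ 4 * (M * EE U) ∧
      |beta U n k - beta U n' k| ≤ M * ((k + M + 1) * (4 * (M * EE U))) := by
  have hE : 0 ≤ EE U := Real.rpow_nonneg (Nat.cast_nonneg _) _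
  have hΔ : 0 ≤ 2 * (M * EE U) := by positivity
  have hu := fun i N => abs_ucount_sub (prof_anti U n) (prof_anti U n') hΔ
    (rigid_delta hn hn' h hM hM') i N
  have e4 : 2 * (2 * (M * EE U)) = 4 * (M * EE U) := by ring
  simp only [e4] at hu
  constructor
  · have h1 := hu 1 (max (top U n) (top U n'))
    rwa [rigid_top (le_max_left _ _), rigid_top (le_max_right _ _)] at h1
  · rw [rigid_beta (M := M) (N := max (top U n) (top U n'))
      (fun s _ => (prof_le_card U n s).trans hM) (le_max_left _ _) k,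
      rigid_beta (n := n') (M := M) (N := max (top U n) (top U n'))
      (fun s _ => (prof_le_card U n' s).trans hM') (le_max_right _ _) k,
      ← Finset.sum_sub_distrib]
    refine (Finset.abs_sum_le_sum_abs _ _).trans ?_
    have h2 : ∀ i ∈ Finset.Icc 1 M,
        |aa (k + i) * (ucount (prof U n) i (max (top U n) (top U n')) : ℝ) -
          aa (k + i) * ucount (prof U n') i (max (top U n) (top U n'))| ≤
        (k + M + 1) * (4 * (M * EE U)) := by
      intro i hi
      rw [Finset.mem_Icc] at hi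
      rw [← mul_sub, abs_mul, abs_of_nonneg (aa_nonneg (by omega))]
      refine mul_le_mul ?_ (hu _ _) (abs_nonneg _) (by positivity)
      refine (aa_le (k + i)).trans ((Real.log_le_sub_one_of_pos (by positivity)).trans ?_)
      have : (i : ℝ) ≤ M := by exact_mod_cast hi.2
      push_cast
      linarith
    refine (Finset.sum_le_card_nsmul _ _ _ h2).trans ?_
    rw [Nat.card_Icc, nsmul_eq_mul]
    simp

theorem rigid (j : ℕ) : ∃ U₀ : ℕ, ∀ U : ℕ, U₀ ≤ U → ∀ n n' : ℕ, Good U n → Good U n' →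
    Nat.totient n = Nat.totient n' → top U n ≤ 8 * U → top U n' ≤ 8 * U →
    |Phi U n j - Phi U n' j| ≤ HH U ∧ |(top U n : ℝ) - top U n'| ≤ HH U ∧
      |beta U n j - beta U n' j| ≤ HH U := by
  obtain ⟨C, U₁, hC, hK⟩ := card_bigs_le
  obtain ⟨L, hL0, hL⟩ := rigid_PhiS j
  let A : ℝ := 100 * C
  have hA : 0 < A := by positivity
  let D : ℝ := 4 * A + A * ((j + A + 1) * (4 * A))
  have hD : 0 < D := by positivity
  have htend : Filter.Tendsto (fun U : ℕ => ((U : ℝ)) ^ ((1 : ℝ) / 100)) Filter.atTop Filter.atTop :=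
    (tendsto_rpow_atTop (by norm_num)).comp tendsto_natCast_atTop_atTop
  obtain ⟨U₂, hU₂⟩ := Filter.eventually_atTop.1
    (htend.eventually_ge_atTop ((L + 1) * D + 1))
  refine ⟨max (max U₁ U₂) 1, fun U hU n n' hn hn' hφ ht ht' => ?_⟩
  have hU1 : U₁ ≤ U := (le_max_left _ _).trans ((le_max_left _ _).trans hU)
  have hU2 : U₂ ≤ U := (le_max_right _ _).trans ((le_max_left _ _).trans hU)
  have hU3 : 1 ≤ U := (le_max_right _ _).trans hU
  have hY := hU₂ U hU2
  set Y : ℝ := (U : ℝ) ^ ((1 : ℝ) / 100) with hYdef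
  have hU0 : (0 : ℝ) < U := by exact_mod_cast hU3
  have hLD : 0 ≤ (L + 1) * D := by positivity
  have hY1 : 1 ≤ Y := by linarith
  have hlog : C * Real.log U ≤ A * Y := by
    have h1 := Real.log_le_rpow_div hU0.le (show (0 : ℝ) < 1 / 100 by norm_num)
    rw [← hYdef] at h1
    have h2 : Y / (1 / 100) = 100 * Y := by ring
    rw [h2] at h1
    calc C * Real.log U ≤ C * (100 * Y) := mul_le_mul_of_nonneg_left h1 hC.le
      _ = A * Y := by simp only [A]; ring
  let M : ℕ := max (bigs U n).card (bigs U n').card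
  have hM1 : (bigs U n).card ≤ M := le_max_left _ _
  have hM2 : (bigs U n').card ≤ M := le_max_right _ _
  have hMY : (M : ℝ) ≤ A * Y := by
    have h1 := (hK U hU1 n hn ht).trans hlog
    have h2 := (hK U hU1 n' hn' ht').trans hlog
    simp only [M]
    push_cast
    exact max_le h1 h2
  have hE : 0 ≤ EE U := Real.rpow_nonneg hU0.le _
  have hcore := rigid_core hn hn' hφ hM1 hM2
  clear_value M
  have hM0 : (0 : ℝ) ≤ M := Nat.cast_nonneg _
  let δ : ℝ := 4 * (M * EE U) + M * ((j + M + 1) * (4 * (M * EE U)))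
  have hδ0 : 0 ≤ δ := by positivity
  have htop : |(top U n : ℝ) - top U n'| ≤ δ := by
    refine (hcore 0).1.trans ?_
    have : 0 ≤ M * ((j + M + 1) * (4 * (M * EE U))) := by positivity
    simp only [δ]
    linarith
  have hbeta : ∀ k ≤ j, |beta U n k - beta U n' k| ≤ δ := by
    intro k hk
    refine (hcore k).2.trans ?_
    have h1 : (k : ℝ) ≤ j := by exact_mod_cast hk
    have h2 : M * ((k + M + 1) * (4 * (M * EE U))) ≤ M * ((j + M + 1) * (4 * (M * EE U))) := by
      gcongr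
    have h3 : 0 ≤ 4 * (M * EE U) := by positivity
    simp only [δ]
    linarith
  have hδ : δ ≤ D * (EE U * Y ^ 3) := by
    have hYY : Y ≤ Y ^ 3 := by
      calc Y = Y ^ 1 := (pow_one _).symm
        _ ≤ Y ^ 3 := pow_le_pow_right₀ hY1 (by norm_num)
    have h1 : 4 * (M * EE U) ≤ 4 * A * (EE U * Y ^ 3) := by
      calc 4 * (M * EE U) ≤ 4 * ((A * Y) * EE U) := by gcongr
        _ = 4 * A * (EE U * Y) := by ring
        _ ≤ 4 * A * (EE U * Y ^ 3) := by gcongr
    have h2 : M * ((j + M + 1) * (4 * (M * EE U))) ≤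
        A * ((j + A + 1) * (4 * A)) * (EE U * Y ^ 3) := by
      have h3 : (j + M + 1 : ℝ) ≤ (j + A + 1) * Y := by
        have : (j : ℝ) + 1 ≤ (j + 1) * Y := by
          have := mul_le_mul_of_nonneg_left hY1 (show (0 : ℝ) ≤ j + 1 by positivity)
          linarith
        linarith
      calc M * ((j + M + 1) * (4 * (M * EE U)))
          ≤ (A * Y) * (((j + A + 1) * Y) * (4 * ((A * Y) * EE U))) := by gcongr
        _ = A * ((j + A + 1) * (4 * A)) * (EE U * Y ^ 3) := by ring
    calc δ ≤ 4 * A * (EE U * Y ^ 3) + A * ((j + A + 1) * (4 * A)) * (EE U * Y ^ 3) :=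
          add_le_add h1 h2
      _ = D * (EE U * Y ^ 3) := by simp only [D]; ring
  have hHH : (L + 1) * δ ≤ HH U := by
    have h1 : HH U = EE U * Y ^ 5 := by
      rw [hYdef, HH, EE, ← Real.rpow_natCast, ← Real.rpow_mul hU0.le, ← Real.rpow_add hU0]
      norm_num
    have h2 : (L + 1) * D ≤ Y ^ 2 := by nlinarith
    have hE3 : 0 ≤ EE U * Y ^ 3 := by positivity
    calc (L + 1) * δ ≤ (L + 1) * (D * (EE U * Y ^ 3)) := by gcongr
      _ = ((L + 1) * D) * (EE U * Y ^ 3) := by ring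
      _ ≤ Y ^ 2 * (EE U * Y ^ 3) := by gcongr
      _ = HH U := by rw [h1]; ring
  have hLδ : 0 ≤ L * δ := mul_nonneg hL0 hδ0
  refine ⟨?_, htop.trans (by linarith), (hbeta j le_rfl).trans (by linarith)⟩
  have h1 := hL (top U n) (top U n') δ (beta U n) (beta U n') hδ0 htop hbeta
  exact h1.trans (by linarith)

end P031
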