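import Vale.Agent.P031.Mertens
import Vale.Agent.P031.SieveBase

/-!
# P031, module SIEVE: Brun's pure sieve for `r, A₁ r + 1, …` all prime

Losing powers of `log log Z` is allowed, so the pure sieve (inclusion–exclusion truncated at
`≈ C log log Y` prime factors, sifting by the primes `≤ Y^(1/(C log log Y))`) suffices.  Sift only
by primes not dividing `∏ A · ∏ (A - A')`; the omitted ones cost
`exp (O (∑_{p ∣ E} 1/p)) ≤ (log log Z)^C`, because `∑_{p ∣ E} 1/p ≤ log log log E + O(1)`.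
-/

namespace P031

open scoped BigOperators

namespace SieveAux

open Finset

/-- residues to sift -/
def W (𝒜 : Finset ℕ) (p : ℕ) : Finset ℕ :=
  (range p).filter (fun a => p ∣ a ∨ ∃ A ∈ 𝒜, p ∣ A * a + 1)

lemma W_sub (𝒜 : Finset ℕ) (p : ℕ) : W 𝒜 p ⊆ range p := filter_subset _ _

lemma mem_W {𝒜 : Finset ℕ} {p r : ℕ} (hp : 0 < p) :
    r % p ∈ W 𝒜 p ↔ (p ∣ r ∨ ∃ A ∈ 𝒜, p ∣ A * r + 1) := by
  have h1 : p ∣ r % p ↔ p ∣ r := (Nat.dvd_mod_iff (dvd_refl p))
  have h2 : ∀ A, p ∣ A * (r % p) + 1 ↔ p ∣ A * r + 1 := by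
    intro A
    have : A * (r % p) + 1 ≡ A * r + 1 [MOD p] :=
      Nat.ModEq.add_right 1 (Nat.ModEq.mul_left A (Nat.mod_modEq r p))
    exact this.dvd_iff (dvd_refl p)
  simp only [W, mem_filter, mem_range, Nat.mod_lt _ hp, true_and, h1, h2]

/-- good primes -/
def GoodP (𝒜 : Finset ℕ) (p : ℕ) : Prop :=
  (∀ A ∈ 𝒜, ¬ p ∣ A) ∧ ∀ A ∈ 𝒜, ∀ A' ∈ 𝒜, A < A' → ¬ p ∣ (A' - A)

noncomputable instance (𝒜 : Finset ℕ) : DecidablePred (GoodP 𝒜) :=
  fun _ => Classical.propDecidable _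

lemma card_W {𝒜 : Finset ℕ} {p : ℕ} (hp : p.Prime) (hg : GoodP 𝒜 p) :
    (W 𝒜 p).card = 1 + 𝒜.card := by
  classical
  have hex : ∀ A ∈ 𝒜, ∃ a, a < p ∧ p ∣ A * a + 1 ∧ ¬ p ∣ a := by
    intro A hA
    have hcop : A.Coprime p := (Nat.Prime.coprime_iff_not_dvd hp).mpr (hg.1 A hA) |>.symm
    obtain ⟨b, hb⟩ := Nat.exists_mul_mod_eq_one_of_coprime hcop hp.one_lt
    refine ⟨((p - 1) * b) % p, Nat.mod_lt _ hp.pos, ?_, ?_⟩
    · have h1 : A * (((p - 1) * b) % p) + 1 ≡ (p - 1) * (A * b) + 1 [MOD p] := by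
        refine Nat.ModEq.add_right 1 ?_
        have := Nat.ModEq.mul_left A (Nat.mod_modEq ((p - 1) * b) p)
        refine this.trans ?_
        rw [show A * ((p - 1) * b) = (p - 1) * (A * b) by ring]
      have h2 : (p - 1) * (A * b) + 1 ≡ (p - 1) * 1 + 1 [MOD p] := by
        refine Nat.ModEq.add_right 1 (Nat.ModEq.mul_left _ ?_)
        rw [Nat.ModEq, hb.2, Nat.mod_eq_of_lt hp.one_lt]
      have h3 : (p - 1) * 1 + 1 = p := by have := hp.pos; omega
      have h4 := h1.trans h2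
      rw [h3] at h4
      exact (h4.dvd_iff (dvd_refl p)).mpr (dvd_refl p)
    · intro hdvd
      have h1 : p ∣ (p - 1) * b := (Nat.dvd_mod_iff (dvd_refl p)).mp hdvd
      rcases (Nat.Prime.dvd_mul hp).mp h1 with h | h
      · have := Nat.le_of_dvd (by have := hp.one_lt; omega) h
        have := hp.one_lt
        omega
      · have : A * b % p = 0 := Nat.mod_eq_zero_of_dvd (dvd_mul_of_dvd_right h A)
        rw [this] at hb
        exact absurd hb.2 (by norm_num)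
  choose! f hf1 hf2 hf3 using hex
  have hinj : Set.InjOn f (𝒜 : Set ℕ) := by
    intro A hA A' hA' h
    by_contra hne
    have key : ∀ B ∈ 𝒜, ∀ B' ∈ 𝒜, f B = f B' → ¬ B < B' := by
      intro B hB B' hB' hff hlt
      have h1 := hf2 B hB
      have h2 := hf2 B' hB'
      rw [← hff] at h2
      have h3 : p ∣ (B' * f B + 1) - (B * f B + 1) := Nat.dvd_sub h2 h1
      have h4 : (B' * f B + 1) - (B * f B + 1) = (B' - B) * f B := by
        rw [Nat.sub_mul]; omega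
      rw [h4] at h3
      rcases (Nat.Prime.dvd_mul hp).mp h3 with h | h
      · exact hg.2 B hB B' hB' hlt h
      · exact hf3 B hB h
    rcases lt_or_gt_of_ne hne with hlt | hlt
    · exact key A hA A' hA' h hlt
    · exact key A' hA' A hA h.symm hlt
  have hW : W 𝒜 p = insert 0 (𝒜.image f) := by
    ext a
    simp only [W, mem_filter, mem_range, mem_insert, mem_image]
    constructor
    · rintro ⟨hap, h | ⟨A, hA, h⟩⟩
      · left
        exact Nat.eq_zero_of_dvd_of_lt h hap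
      · right
        refine ⟨A, hA, ?_⟩
        -- uniqueness
        have h1 := hf2 A hA
        have hmod : A * f A + 1 ≡ A * a + 1 [MOD p] := by
          rw [Nat.ModEq, Nat.mod_eq_zero_of_dvd h1, Nat.mod_eq_zero_of_dvd h]
        have h2 : A * f A ≡ A * a [MOD p] := Nat.ModEq.add_right_cancel' 1 hmod
        have hcop : Nat.gcd p A = 1 := (Nat.Prime.coprime_iff_not_dvd hp).mpr (hg.1 A hA)
        have h3 := Nat.ModEq.cancel_left_of_coprime hcop h2
        rw [Nat.ModEq, Nat.mod_eq_of_lt (hf1 A hA), Nat.mod_eq_of_lt hap] at h3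
        exact h3
    · rintro (rfl | ⟨A, hA, rfl⟩)
      · exact ⟨hp.pos, Or.inl (dvd_zero _)⟩
      · exact ⟨hf1 A hA, Or.inr ⟨A, hA, hf2 A hA⟩⟩
  rw [hW, card_insert_of_notMem, card_image_of_injOn hinj, add_comm]
  simp only [mem_image, not_exists, not_and]
  intro A hA h0
  have := hf3 A hA
  rw [h0] at this
  exact this (dvd_zero _)

lemma LL_pos {Z : ℝ} (hZ : 16 ≤ Z) : 1 ≤ LL Z := by
  unfold LL
  have h1 : Real.exp 1 ≤ Real.log Z := by
    have h2 : Real.log (2 ^ 4) ≤ Real.log Z := Real.log_le_log (by norm_num) (by linarith)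
    rw [Real.log_pow] at h2
    have := Real.log_two_gt_d9
    have := Real.exp_one_lt_d9
    push_cast at h2
    linarith
  calc (1 : ℝ) = Real.log (Real.exp 1) := (Real.log_exp 1).symm
    _ ≤ Real.log (Real.log Z) := Real.log_le_log (Real.exp_pos _) h1

lemma pow_card_le (n : ℕ) (hn : n ≠ 0) : 2 ^ n.primeFactors.card ≤ n := by
  calc 2 ^ n.primeFactors.card = ∏ p ∈ n.primeFactors, 2 := by rw [Finset.prod_const]
    _ ≤ ∏ p ∈ n.primeFactors, p :=
        Finset.prod_le_prod' (fun p hp => (Nat.prime_of_mem_primeFactors hp).two_le)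
    _ ≤ n := Nat.le_of_dvd (Nat.pos_of_ne_zero hn) (Nat.prod_primeFactors_dvd n)

lemma recipPF : ∃ C1 : ℝ, 0 ≤ C1 ∧ ∀ (Z : ℝ) (n : ℕ), 16 ≤ Z → (n : ℝ) ≤ Z →
    ∑ p ∈ n.primeFactors, 1 / (p : ℝ) ≤ Real.log (1 + LL Z) + C1 := by
  classical
  obtain ⟨C, hCpos, hC⟩ := prime_recip
  have hC0 : 0 ≤ C := hCpos.le
  refine ⟨C + 3, by linarith, ?_⟩
  intro Z n hZ hn
  have hLL := LL_pos hZ
  have hlog0 : 0 ≤ Real.log (1 + LL Z) := Real.log_nonneg (by linarith)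
  rcases Nat.eq_zero_or_pos n with rfl | hn0
  · simp; linarith
  have hZ0 : 0 < Z := by linarith
  set y := Real.log Z with hy
  have hy1 : 1 < y := by
    have h2 : Real.log (2 ^ 4) ≤ Real.log Z := Real.log_le_log (by norm_num) (by linarith)
    rw [Real.log_pow] at h2
    have := Real.log_two_gt_d9
    push_cast at h2
    linarith
  have hLLy : LL Z = Real.log y := rfl
  rw [← Finset.sum_filter_add_sum_filter_not n.primeFactors (fun p : ℕ => (p : ℝ) ≤ y)]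
  have hA : ∑ p ∈ n.primeFactors.filter (fun p : ℕ => (p : ℝ) ≤ y), 1 / (p : ℝ)
      ≤ Real.log (1 + LL Z) + 1 + C := by
    have hsub : n.primeFactors.filter (fun p : ℕ => (p : ℝ) ≤ y)
        ⊆ (Finset.Icc 1 ⌊max y 3⌋₊).filter Nat.Prime := by
      intro p hp
      rw [Finset.mem_filter] at hp ⊢
      have hpp := Nat.prime_of_mem_primeFactors hp.1
      refine ⟨Finset.mem_Icc.mpr ⟨hpp.one_lt.le, Nat.le_floor (hp.2.trans (le_max_left _ _))⟩, hpp⟩
    have h1 := Finset.sum_le_sum_of_subset_of_nonneg (f := fun p : ℕ => 1 / (p : ℝ)) hsub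
      (fun p _ _ => by positivity)
    have h2 := (abs_le.mp (hC (max y 3) (le_max_right _ _))).2
    have h3 : LL (max y 3) ≤ Real.log (1 + LL Z) + 1 := by
      rcases le_total y 3 with h | h
      · rw [max_eq_right h]
        unfold LL
        have : Real.log 3 ≤ 3 - 1 := Real.log_le_sub_one_of_pos (by norm_num)
        have hl3 : 0 < Real.log 3 := Real.log_pos (by norm_num)
        have := Real.log_le_sub_one_of_pos hl3
        unfold LL at hlog0
        linarith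
      · rw [max_eq_left h]
        have : LL y = Real.log (LL Z) := rfl
        rw [this]
        have := Real.log_le_log (by linarith : (0:ℝ) < LL Z) (by linarith : LL Z ≤ 1 + LL Z)
        linarith
    linarith
  have hB : ∑ p ∈ n.primeFactors.filter (fun p : ℕ => ¬ (p : ℝ) ≤ y), 1 / (p : ℝ) ≤ 2 := by
    have hcard : (n.primeFactors.card : ℝ) * Real.log 2 ≤ y := by
      have h1 := pow_card_le n hn0.ne'
      have h2 : ((2 : ℝ)) ^ n.primeFactors.card ≤ Z := by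
        calc ((2 : ℝ)) ^ n.primeFactors.card ≤ (n : ℝ) := by exact_mod_cast h1
          _ ≤ Z := hn
      have h3 := Real.log_le_log (by positivity) h2
      rw [Real.log_pow] at h3
      exact h3
    have h2 := Real.log_two_gt_d9
    have hcard2 : (n.primeFactors.card : ℝ) ≤ 2 * y := by nlinarith [Nat.cast_nonneg (α := ℝ) n.primeFactors.card]
    calc ∑ p ∈ n.primeFactors.filter (fun p : ℕ => ¬ (p : ℝ) ≤ y), 1 / (p : ℝ)
        ≤ ∑ p ∈ n.primeFactors.filter (fun p : ℕ => ¬ (p : ℝ) ≤ y), 1 / y := by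
          refine Finset.sum_le_sum fun p hp => ?_
          rw [Finset.mem_filter, not_le] at hp
          exact one_div_le_one_div_of_le (by linarith) hp.2.le
      _ = ((n.primeFactors.filter (fun p : ℕ => ¬ (p : ℝ) ≤ y)).card : ℝ) * (1 / y) := by
          rw [Finset.sum_const, nsmul_eq_mul]
      _ ≤ (n.primeFactors.card : ℝ) * (1 / y) := by
          refine mul_le_mul_of_nonneg_right ?_ (by positivity)
          exact_mod_cast Finset.card_filter_le _ _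
      _ ≤ 2 * y * (1 / y) := by
          refine mul_le_mul_of_nonneg_right hcard2 (by positivity)
      _ = 2 := by field_simp
  linarith

lemma sum_biUnion_le' {ι : Type*} [DecidableEq ι] (s : Finset ι) (t : ι → Finset ℕ) (f : ℕ → ℝ)
    (hf : ∀ p, 0 ≤ f p) : ∑ p ∈ s.biUnion t, f p ≤ ∑ i ∈ s, ∑ p ∈ t i, f p := by
  induction s using Finset.induction_on with
  | empty => simp
  | insert i s hi ih =>
    rw [Finset.biUnion_insert, Finset.sum_insert hi]
    have h1 : ∑ p ∈ t i ∪ s.biUnion t, f p ≤ ∑ p ∈ t i, f p + ∑ p ∈ s.biUnion t, f p := by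
      rw [← Finset.sum_union_inter]
      have : 0 ≤ ∑ p ∈ t i ∩ s.biUnion t, f p := Finset.sum_nonneg fun p _ => hf p
      linarith
    linarith

lemma eventually_params : ∃ L1 : ℝ, 1 ≤ L1 ∧ ∀ L : ℝ, L1 ≤ L → 1000 * Real.log L ≤ L := by
  have h := Real.isLittleO_log_id_atTop.bound (show (0:ℝ) < 1/1000 by norm_num)
  rw [Filter.eventually_atTop] at h
  obtain ⟨a, ha⟩ := h
  refine ⟨max a 1, le_max_right _ _, ?_⟩
  intro L hL
  have h1 := ha L ((le_max_left _ _).trans hL)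
  have hL1 : 1 ≤ L := (le_max_right _ _).trans hL
  simp only [id, Real.norm_eq_abs] at h1
  rw [abs_of_nonneg (by linarith : (0:ℝ) ≤ L), abs_of_nonneg (Real.log_nonneg hL1)] at h1
  linarith

lemma bad_sum {Z : ℝ} {B : ℝ} (hB0 : 0 ≤ B)
    (hC1 : ∀ n : ℕ, (n : ℝ) ≤ Z → ∑ p ∈ n.primeFactors, 1 / (p : ℝ) ≤ B)
    (𝒜 : Finset ℕ) (hcard : 𝒜.card ≤ 2) (hA : ∀ A ∈ 𝒜, 1 ≤ A ∧ (A : ℝ) ≤ Z) (T : Finset ℕ)
    (hT : ∀ p ∈ T, p.Prime) :
    ∑ p ∈ T.filter (fun p => ¬ GoodP 𝒜 p), 1 / (p : ℝ) ≤ 6 * B := by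
  classical
  have hsub : T.filter (fun p => ¬ GoodP 𝒜 p)
      ⊆ (𝒜.biUnion fun A => A.primeFactors) ∪
        ((𝒜 ×ˢ 𝒜).biUnion fun x => (x.2 - x.1).primeFactors) := by
    intro p hp
    rw [Finset.mem_filter] at hp
    obtain ⟨hpT, hng⟩ := hp
    have hpp := hT p hpT
    unfold GoodP at hng
    rw [not_and_or] at hng
    rw [Finset.mem_union]
    rcases hng with h | h
    · left
      push Not at h
      obtain ⟨A, hAm, hd⟩ := h
      rw [Finset.mem_biUnion]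
      exact ⟨A, hAm, Nat.mem_primeFactors.mpr ⟨hpp, hd, by have := (hA A hAm).1; omega⟩⟩
    · right
      push Not at h
      obtain ⟨A, hAm, A', hAm', hlt, hd⟩ := h
      rw [Finset.mem_biUnion]
      exact ⟨(A, A'), Finset.mk_mem_product hAm hAm',
        Nat.mem_primeFactors.mpr ⟨hpp, hd, by simp only; omega⟩⟩
  have h1 := Finset.sum_le_sum_of_subset_of_nonneg (f := fun p : ℕ => 1 / (p : ℝ)) hsub
    (fun p _ _ => by positivity)
  refine h1.trans ?_
  have h3 : ∑ p ∈ (𝒜.biUnion fun A => A.primeFactors) ∪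
        ((𝒜 ×ˢ 𝒜).biUnion fun x => (x.2 - x.1).primeFactors), 1 / (p : ℝ)
      ≤ ∑ p ∈ (𝒜.biUnion fun A => A.primeFactors), 1 / (p : ℝ)
        + ∑ p ∈ ((𝒜 ×ˢ 𝒜).biUnion fun x => (x.2 - x.1).primeFactors), 1 / (p : ℝ) := by
    rw [← Finset.sum_union_inter]
    have : 0 ≤ ∑ p ∈ (𝒜.biUnion fun A => A.primeFactors) ∩
        ((𝒜 ×ˢ 𝒜).biUnion fun x => (x.2 - x.1).primeFactors), 1 / (p : ℝ) :=
      Finset.sum_nonneg fun p _ => by positivity
    linarith
  refine h3.trans ?_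
  have h4 : ∑ p ∈ (𝒜.biUnion fun A => A.primeFactors), 1 / (p : ℝ) ≤ 2 * B := by
    calc ∑ p ∈ (𝒜.biUnion fun A => A.primeFactors), 1 / (p : ℝ)
        ≤ ∑ A ∈ 𝒜, ∑ p ∈ A.primeFactors, 1 / (p : ℝ) :=
          sum_biUnion_le' _ _ _ (fun p => by positivity)
      _ ≤ ∑ A ∈ 𝒜, B := Finset.sum_le_sum fun A hAm => hC1 A (hA A hAm).2
      _ = 𝒜.card * B := by rw [Finset.sum_const, nsmul_eq_mul]
      _ ≤ 2 * B := by
          refine mul_le_mul_of_nonneg_right ?_ hB0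
          exact_mod_cast hcard
  have h5 : ∑ p ∈ ((𝒜 ×ˢ 𝒜).biUnion fun x => (x.2 - x.1).primeFactors), 1 / (p : ℝ)
      ≤ 4 * B := by
    calc ∑ p ∈ ((𝒜 ×ˢ 𝒜).biUnion fun x => (x.2 - x.1).primeFactors), 1 / (p : ℝ)
        ≤ ∑ x ∈ 𝒜 ×ˢ 𝒜, ∑ p ∈ (x.2 - x.1).primeFactors, 1 / (p : ℝ) :=
          sum_biUnion_le' _ _ _ (fun p => by positivity)
      _ ≤ ∑ x ∈ 𝒜 ×ˢ 𝒜, B := by
          refine Finset.sum_le_sum fun x hx => ?_
          refine hC1 (x.2 - x.1) ?_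
          have h6 := (hA x.2 (Finset.mem_product.mp hx).2).2
          have h7 : ((x.2 - x.1 : ℕ) : ℝ) ≤ (x.2 : ℝ) := by
            exact_mod_cast Nat.sub_le _ _
          linarith
      _ = (𝒜.card * 𝒜.card : ℕ) * B := by
          rw [Finset.sum_const, nsmul_eq_mul, Finset.card_product]
      _ ≤ 4 * B := by
          refine mul_le_mul_of_nonneg_right ?_ hB0
          have : 𝒜.card * 𝒜.card ≤ 2 * 2 := Nat.mul_le_mul hcard hcard
          exact_mod_cast this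
  linarith

lemma count_le {𝒜 : Finset ℕ} {Z z : ℝ} (hz : 0 ≤ z) (N : ℕ)
    (hA : ∀ A ∈ 𝒜, 1 ≤ A ∧ (A : ℝ) ≤ Z) (P : Finset ℕ) (hP : ∀ p ∈ P, p.Prime)
    (hPz : ∀ p ∈ P, p ≤ ⌊z⌋₊) :
    ((((Finset.Icc 1 N).filter
        (fun r => r.Prime ∧ ∀ A ∈ 𝒜, (A * r + 1).Prime)).card : ℕ) : ℝ)
        ≤ z + ((((Finset.Ioc 0 N).filter (fun r => ∀ p ∈ P, r % p ∉ W 𝒜 p)).card : ℕ) : ℝ) := by
  classical
  have hsub : (Finset.Icc 1 N).filter (fun r => r.Prime ∧ ∀ A ∈ 𝒜, (A * r + 1).Prime)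
      ⊆ Finset.Icc 1 ⌊z⌋₊ ∪
        (Finset.Ioc 0 N).filter (fun r => ∀ p ∈ P, r % p ∉ W 𝒜 p) := by
    intro r hr
    rw [Finset.mem_filter, Finset.mem_Icc] at hr
    obtain ⟨⟨hr1, hr2⟩, hrp, hrA⟩ := hr
    rw [Finset.mem_union]
    rcases le_or_gt r ⌊z⌋₊ with h | h
    · left; exact Finset.mem_Icc.mpr ⟨hr1, h⟩
    · right
      rw [Finset.mem_filter, Finset.mem_Ioc]
      refine ⟨⟨hr1, hr2⟩, ?_⟩
      intro p hp hmem
      have hpp := hP p hp
      rw [mem_W hpp.pos] at hmem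
      have hple : p ≤ ⌊z⌋₊ := hPz p hp
      rcases hmem with hd | ⟨A, hAm, hd⟩
      · have := (Nat.prime_dvd_prime_iff_eq hpp hrp).mp hd
        omega
      · have h8 := (Nat.prime_dvd_prime_iff_eq hpp (hrA A hAm)).mp hd
        have h9 : r ≤ A * r := Nat.le_mul_of_pos_left r (by have := (hA A hAm).1; omega)
        omega
  have h1 := (Finset.card_le_card hsub).trans (Finset.card_union_le _ _)
  rw [Nat.card_Icc, Nat.add_sub_cancel] at h1
  have h2 : ((⌊z⌋₊ : ℕ) : ℝ) ≤ z := Nat.floor_le hz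
  have h3 : ((((Finset.Icc 1 N).filter
    (fun r => r.Prime ∧ ∀ A ∈ 𝒜, (A * r + 1).Prime)).card : ℕ) : ℝ) ≤ ((⌊z⌋₊ : ℕ) : ℝ) +
    ((((Finset.Ioc 0 N).filter (fun r => ∀ p ∈ P, r % p ∉ W 𝒜 p)).card : ℕ) : ℝ) := by
    exact_mod_cast h1
  linarith

lemma term3 {w m : ℕ} {Pc z u ℓ L : ℝ} (hw3' : (w : ℝ) ≤ 3) (hPc0 : 0 ≤ Pc) (hPc : Pc ≤ z)
    (hz3 : 3 ≤ z) (hz : z = Real.exp u) (hℓ1 : 1 ≤ ℓ) (hu : u = L / (88 * ℓ)) (hu11 : 11 ≤ u)
    (h1000 : 1000 * ℓ ≤ L) (hm2 : (m : ℝ) ≤ 11 * ℓ) :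
    (1 + (w : ℝ) * Pc) ^ (2 * m) ≤ Real.exp (L / 2) := by
  have h1 : 1 + (w : ℝ) * Pc ≤ 4 * z := by
    have : (w : ℝ) * Pc ≤ 3 * z := mul_le_mul hw3' hPc hPc0 (by norm_num)
    linarith
  have h4z : 4 * z ≤ Real.exp (2 + u) := by
    rw [Real.exp_add, ← hz]
    have : (4 : ℝ) ≤ Real.exp 2 := by
      have h5 : Real.exp 2 = Real.exp 1 * Real.exp 1 := by rw [← Real.exp_add]; norm_num
      have h6 := Real.exp_one_gt_d9
      rw [h5]; nlinarith
    refine mul_le_mul_of_nonneg_right this (by linarith)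
  calc (1 + (w : ℝ) * Pc) ^ (2 * m) ≤ (Real.exp (2 + u)) ^ (2 * m) := by
        refine pow_le_pow_left₀ (by positivity) (h1.trans h4z) _
    _ = Real.exp (((2 * m : ℕ) : ℝ) * (2 + u)) := by rw [← Real.exp_nat_mul]
    _ ≤ Real.exp (L / 2) := by
        refine Real.exp_le_exp.mpr ?_
        push_cast
        have h2u : 0 ≤ 2 + u := by linarith
        have e1 : ℓ * u = L / 88 := by
          rw [hu]; field_simp
        calc 2 * (m : ℝ) * (2 + u) ≤ 2 * (11 * ℓ) * (2 + u) := by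
              refine mul_le_mul_of_nonneg_right ?_ h2u
              linarith
          _ = 44 * ℓ + 22 * (ℓ * u) := by ring
          _ = 44 * ℓ + L / 4 := by rw [e1]; ring
          _ ≤ L / 2 := by linarith

lemma term1 {w : ℕ} {ℓ L X C0 C1 B S : ℝ} (hw3 : w ≤ 3) (hX : 1 ≤ X) (hℓ1 : 1 ≤ ℓ)
    (hℓX : ℓ ≤ X) (hexpℓ : Real.exp ℓ = L) (hC0 : 0 ≤ C0) (hC1 : 0 ≤ C1)
    (hB : B = Real.log X + C1)
    (hSlow : ℓ - Real.log (88 * ℓ) - C0 - 6 * B ≤ S) :
    Real.exp (-((w : ℝ) * S))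
      ≤ (88 * Real.exp (C0 + 6 * C1)) ^ 3 * X ^ (21 : ℝ) * (1 / L ^ w) := by
  have hLpos : 0 < L := hexpℓ ▸ Real.exp_pos ℓ
  have h1 : (w : ℝ) * (ℓ - Real.log (88 * ℓ) - C0 - 6 * B) ≤ w * S :=
    mul_le_mul_of_nonneg_left hSlow (by positivity)
  have h2 : Real.exp (-((w : ℝ) * S)) ≤ Real.exp (w * (Real.log (88 * ℓ) + C0 + 6 * B))
      * Real.exp (-(w * ℓ)) := by
    rw [← Real.exp_add]
    refine Real.exp_le_exp.mpr ?_
    linarith
  have h3 : Real.exp (-((w : ℝ) * ℓ)) = 1 / L ^ w := by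
    rw [Real.exp_neg, Real.exp_nat_mul, hexpℓ, one_div]
  rw [h3] at h2
  refine h2.trans ?_
  refine mul_le_mul_of_nonneg_right ?_ (by positivity)
  have h4 : Real.exp (w * (Real.log (88 * ℓ) + C0 + 6 * B))
      = (88 * ℓ * Real.exp (C0 + 6 * C1) * X ^ 6) ^ w := by
    rw [Real.exp_nat_mul]
    congr 1
    have e1 : Real.log (88 * ℓ) + C0 + 6 * B
        = Real.log (88 * ℓ) + (C0 + 6 * C1) + ((6 : ℕ) : ℝ) * Real.log X := by
      rw [hB]; push_cast; ring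
    rw [e1, Real.exp_add, Real.exp_add, Real.exp_log (by positivity), Real.exp_nat_mul,
      Real.exp_log (by linarith)]
  rw [h4]
  have hE : 1 ≤ Real.exp (C0 + 6 * C1) := Real.one_le_exp (by linarith)
  have h5 : 88 * ℓ * Real.exp (C0 + 6 * C1) * X ^ 6
      ≤ 88 * Real.exp (C0 + 6 * C1) * X ^ 7 := by
    calc 88 * ℓ * Real.exp (C0 + 6 * C1) * X ^ 6
        = 88 * Real.exp (C0 + 6 * C1) * (ℓ * X ^ 6) := by ring
      _ ≤ 88 * Real.exp (C0 + 6 * C1) * (X * X ^ 6) := by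
          refine mul_le_mul_of_nonneg_left ?_ (by positivity)
          exact mul_le_mul_of_nonneg_right hℓX (by positivity)
      _ = _ := by ring
  have h6 : 1 ≤ 88 * Real.exp (C0 + 6 * C1) * X ^ 7 := by
    have h7 : 1 ≤ X ^ 7 := one_le_pow₀ hX
    have h8 : 1 ≤ 88 * Real.exp (C0 + 6 * C1) := by linarith
    calc (1 : ℝ) = 1 * 1 := by ring
      _ ≤ 88 * Real.exp (C0 + 6 * C1) * X ^ 7 := mul_le_mul h8 h7 (by norm_num) (by positivity)
  calc (88 * ℓ * Real.exp (C0 + 6 * C1) * X ^ 6) ^ w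
      ≤ (88 * Real.exp (C0 + 6 * C1) * X ^ 7) ^ w :=
        pow_le_pow_left₀ (by positivity) h5 _
    _ ≤ (88 * Real.exp (C0 + 6 * C1) * X ^ 7) ^ 3 := pow_le_pow_right₀ h6 hw3
    _ = (88 * Real.exp (C0 + 6 * C1)) ^ 3 * X ^ 21 := by ring
    _ = (88 * Real.exp (C0 + 6 * C1)) ^ 3 * X ^ (21 : ℝ) := by
        congr 1
        rw [← Real.rpow_natCast]; norm_num

end SieveAux

open SieveAux in
theorem prime_tuple_bound : ∃ C : ℝ, 0 < C ∧ ∀ (Z Y : ℝ) (𝒜 : Finset ℕ), 16 ≤ Z → 2 ≤ Y → Y ≤ Z →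
    𝒜.card ≤ 2 → (∀ A ∈ 𝒜, 1 ≤ A ∧ (A : ℝ) ≤ Z) →
    ((((Finset.Icc 1 ⌊Y⌋₊).filter (fun r => r.Prime ∧ ∀ A ∈ 𝒜, (A * r + 1).Prime)).card : ℕ) : ℝ)
      ≤ C * (1 + LL Z) ^ C * Y / Real.log Y ^ (1 + 𝒜.card) := by
  classical
  obtain ⟨C0, hC0pos, hC0⟩ := prime_recip
  have hC0' : 0 ≤ C0 := hC0pos.le
  obtain ⟨C1, hC1', hC1⟩ := recipPF
  obtain ⟨L1, hL1', hL1⟩ := eventually_params
  set L0 : ℝ := max L1 (Real.exp (9 * C0 + 1)) with hL0
  have hL0_1 : 1 ≤ L0 := hL1'.trans (le_max_left _ _)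
  set K1 : ℝ := (88 * Real.exp (C0 + 6 * C1)) ^ 3 with hK1
  have hK1_1 : 1 ≤ K1 := by
    rw [hK1]
    refine one_le_pow₀ ?_
    have := Real.one_le_exp (show 0 ≤ C0 + 6 * C1 by linarith)
    linarith
  set C : ℝ := max (max (K1 + 3) 21) (L0 ^ 3) with hC
  have hCa : K1 + 3 ≤ C := (le_max_left _ _).trans (le_max_left _ _)
  have hCb : 21 ≤ C := (le_max_right _ _).trans (le_max_left _ _)
  have hCc : L0 ^ 3 ≤ C := le_max_right _ _
  refine ⟨C, by linarith, ?_⟩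
  intro Z Y 𝒜 hZ hY hYZ hcard hA
  have hLLZ := LL_pos hZ
  have hY0 : 0 < Y := by linarith
  set L : ℝ := Real.log Y with hL
  have hLpos : 0 < L := Real.log_pos (by linarith)
  set w : ℕ := 1 + 𝒜.card with hw
  have hw3 : w ≤ 3 := by omega
  have hfac : 1 ≤ (1 + LL Z) ^ C := Real.one_le_rpow (by linarith) (by linarith)
  have hYdiv : 0 < Y / L ^ w := by positivity
  rcases lt_or_ge L L0 with hsmall | hbig
  · -- trivial bound
    have h1 : ((((Finset.Icc 1 ⌊Y⌋₊).filter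
        (fun r => r.Prime ∧ ∀ A ∈ 𝒜, (A * r + 1).Prime)).card : ℕ) : ℝ) ≤ Y := by
      have h2 := Finset.card_filter_le (Finset.Icc 1 ⌊Y⌋₊)
        (fun r => r.Prime ∧ ∀ A ∈ 𝒜, (A * r + 1).Prime)
      rw [Nat.card_Icc, Nat.add_sub_cancel] at h2
      calc _ ≤ ((⌊Y⌋₊ : ℕ) : ℝ) := by exact_mod_cast h2
        _ ≤ Y := Nat.floor_le hY0.le
    refine h1.trans ?_
    have h3 : L ^ w ≤ L0 ^ 3 := by
      calc L ^ w ≤ L0 ^ w := by gcongr
        _ ≤ L0 ^ 3 := pow_le_pow_right₀ hL0_1 hw3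
    have h4 : L ^ w ≤ C * (1 + LL Z) ^ C := by
      calc L ^ w ≤ C := h3.trans hCc
        _ = C * 1 := by ring
        _ ≤ C * (1 + LL Z) ^ C := by gcongr
    rw [le_div_iff₀ (by positivity)]
    nlinarith
  · -- main case
    have hL1L : L1 ≤ L := (le_max_left _ _).trans hbig
    have hL_1 : 1 ≤ L := hL0_1.trans hbig
    set ℓ : ℝ := Real.log L with hℓ
    have hℓC : 9 * C0 + 1 ≤ ℓ := by
      have : Real.exp (9 * C0 + 1) ≤ L := (le_max_right _ _).trans hbig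
      calc 9 * C0 + 1 = Real.log (Real.exp (9 * C0 + 1)) := (Real.log_exp _).symm
        _ ≤ ℓ := Real.log_le_log (Real.exp_pos _) this
    have hℓ1 : 1 ≤ ℓ := by linarith
    have h1000 : 1000 * ℓ ≤ L := hL1 L hL1L
    have hℓZ : ℓ ≤ LL Z := by
      unfold LL
      refine Real.log_le_log hLpos (Real.log_le_log hY0 hYZ)
    have hexpℓ : Real.exp ℓ = L := Real.exp_log hLpos
    have hexpL : Real.exp L = Y := Real.exp_log hY0
    -- sifting limit
    set u : ℝ := L / (88 * ℓ) with hu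
    have hu11 : 11 ≤ u := by
      rw [hu, le_div_iff₀ (by positivity)]
      linarith
    set z : ℝ := Real.exp u with hz
    have hz3 : 3 ≤ z := by
      have := Real.add_one_le_exp u
      linarith
    have hlogz : Real.log z = u := Real.log_exp u
    have hLLz : LL z = ℓ - Real.log (88 * ℓ) := by
      unfold LL
      rw [hlogz, hu, Real.log_div hLpos.ne' (by positivity)]
    set P : Finset ℕ := ((Finset.Icc 1 ⌊z⌋₊).filter Nat.Prime).filter (fun p => GoodP 𝒜 p) with hP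
    have hPprime : ∀ p ∈ P, p.Prime := fun p hp =>
      (Finset.mem_filter.mp (Finset.mem_filter.mp hp).1).2
    have hPgood : ∀ p ∈ P, GoodP 𝒜 p := fun p hp => (Finset.mem_filter.mp hp).2
    have hPle : ∀ p ∈ P, (p : ℝ) ≤ z := by
      intro p hp
      have h1 := (Finset.mem_Icc.mp (Finset.mem_filter.mp (Finset.mem_filter.mp hp).1).1).2
      exact (Nat.cast_le.mpr h1).trans (Nat.floor_le (by positivity))
    have hPW : ∀ p ∈ P, (W 𝒜 p).card = w := fun p hp => card_W (hPprime p hp) (hPgood p hp)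
    -- sum over P
    have hSup : ∑ p ∈ P, 1 / (p : ℝ) ≤ ℓ + C0 := by
      have h1 := Finset.sum_le_sum_of_subset_of_nonneg (f := fun p : ℕ => 1 / (p : ℝ))
        (Finset.filter_subset (fun p => GoodP 𝒜 p) ((Finset.Icc 1 ⌊z⌋₊).filter Nat.Prime))
        (fun p _ _ => by positivity)
      have h2 := (abs_le.mp (hC0 z hz3)).2
      have h3 : 0 ≤ Real.log (88 * ℓ) := Real.log_nonneg (by linarith)
      rw [hLLz] at h2
      calc ∑ p ∈ P, 1 / (p : ℝ) ≤ _ := h1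
        _ ≤ ℓ + C0 := by linarith
    set B : ℝ := Real.log (1 + LL Z) + C1 with hB
    have hB0 : 0 ≤ B := by
      have := Real.log_nonneg (show (1:ℝ) ≤ 1 + LL Z by linarith)
      linarith
    have hSlow : ℓ - Real.log (88 * ℓ) - C0 - 6 * B ≤ ∑ p ∈ P, 1 / (p : ℝ) := by
      have h2 := (abs_le.mp (hC0 z hz3)).1
      rw [hLLz] at h2
      have hsplit := Finset.sum_filter_add_sum_filter_not
        ((Finset.Icc 1 ⌊z⌋₊).filter Nat.Prime) (fun p => GoodP 𝒜 p) (fun p : ℕ => 1 / (p : ℝ))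
      have hbad := bad_sum (Z := Z) hB0 (fun n hn => hC1 Z n hZ hn) 𝒜 hcard hA
        ((Finset.Icc 1 ⌊z⌋₊).filter Nat.Prime) (fun p hp => (Finset.mem_filter.mp hp).2)
      linarith
    -- apply the sieve
    set m : ℕ := ⌈10 * ℓ⌉₊ with hm
    have hm1 : 10 * ℓ ≤ m := Nat.le_ceil _
    have hm2 : (m : ℝ) ≤ 11 * ℓ := by
      have := (Nat.ceil_lt_add_one (show 0 ≤ 10 * ℓ by linarith)).le
      linarith
    have hsieve := Pure.pure_sieve (W 𝒜) ⌊Y⌋₊ P w m hPprime (fun p _ => W_sub 𝒜 p)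
      (fun p hp => (hPW p hp).le)
    have hsumW : ∑ p ∈ P, ((W 𝒜 p).card : ℝ) / p = w * ∑ p ∈ P, 1 / (p : ℝ) := by
      rw [Finset.mul_sum]
      refine Finset.sum_congr rfl fun p hp => ?_
      rw [hPW p hp]
      ring
    rw [hsumW] at hsieve
    set S : ℝ := ∑ p ∈ P, 1 / (p : ℝ) with hS
    have hS0 : 0 ≤ S := Finset.sum_nonneg fun p _ => by positivity
    have hw3' : (w : ℝ) ≤ 3 := by exact_mod_cast hw3
    have hw1' : (1 : ℝ) ≤ w := by
      have : 1 ≤ w := by omega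
      exact_mod_cast this
    -- the count
    have hcount := count_le (Z := Z) (z := z) (by positivity) ⌊Y⌋₊ hA P hPprime
      (fun p hp => (Finset.mem_Icc.mp
        (Finset.mem_filter.mp (Finset.mem_filter.mp hp).1).1).2)
    -- the four error terms
    have hLw : Real.exp (-(3 * ℓ)) ≤ 1 / L ^ w := by
      rw [Real.exp_neg, show 3 * ℓ = ((3 : ℕ) : ℝ) * ℓ by push_cast; ring, Real.exp_nat_mul, hexpℓ,
        ← one_div]
      exact one_div_le_one_div_of_le (by positivity) (pow_le_pow_right₀ hL_1 hw3)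
    have hhalf : Real.exp (L / 2) ≤ Y * (1 / L ^ w) := by
      calc Real.exp (L / 2) = Real.exp L * Real.exp (-(L / 2)) := by
            rw [← Real.exp_add]; congr 1; ring
        _ ≤ Y * Real.exp (-(3 * ℓ)) := by
            rw [hexpL]
            refine mul_le_mul_of_nonneg_left (Real.exp_le_exp.mpr ?_) hY0.le
            linarith
        _ ≤ Y * (1 / L ^ w) := by gcongr
    have hT4 : z ≤ Y * (1 / L ^ w) := by
      refine le_trans (Real.exp_le_exp.mpr ?_) hhalf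
      rw [hu]
      apply div_le_div_of_nonneg_left hLpos.le (by norm_num)
      linarith
    have hT3 : (1 + (w : ℝ) * P.card) ^ (2 * m) ≤ Y * (1 / L ^ w) := by
      refine le_trans ?_ hhalf
      have hPc : (P.card : ℝ) ≤ z := by
        have h1 : P.card ≤ ⌊z⌋₊ := by
          calc P.card ≤ ((Finset.Icc 1 ⌊z⌋₊).filter Nat.Prime).card := Finset.card_filter_le _ _
            _ ≤ (Finset.Icc 1 ⌊z⌋₊).card := Finset.card_filter_le _ _
            _ = ⌊z⌋₊ := by simp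
        exact (Nat.cast_le.mpr h1).trans (Nat.floor_le (by positivity))
      exact term3 hw3' (by positivity) hPc hz3 hz hℓ1 hu hu11 h1000 hm2
    have hT2 : Real.exp (3 * ((w : ℝ) * S) - ((2 * m : ℕ) : ℝ)) ≤ 1 / L ^ w := by
      refine le_trans (Real.exp_le_exp.mpr ?_) hLw
      push_cast
      have : (w : ℝ) * S ≤ 3 * (ℓ + C0) := mul_le_mul hw3' hSup hS0 (by norm_num)
      linarith
    have hT1 : Real.exp (-((w : ℝ) * S)) ≤ K1 * (1 + LL Z) ^ (21 : ℝ) * (1 / L ^ w) :=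
      term1 hw3 (by linarith) hℓ1 (by linarith) hexpℓ hC0' hC1' hB hSlow
    -- conclusion
    have hNY : ((⌊Y⌋₊ : ℕ) : ℝ) ≤ Y := Nat.floor_le hY0.le
    set R : ℝ := 1 / L ^ w with hR
    have hR0 : 0 < R := by positivity
    have hpow21 : 1 ≤ (1 + LL Z) ^ (21 : ℝ) := Real.one_le_rpow (by linarith) (by norm_num)
    calc ((((Finset.Icc 1 ⌊Y⌋₊).filter
        (fun r => r.Prime ∧ ∀ A ∈ 𝒜, (A * r + 1).Prime)).card : ℕ) : ℝ)
        ≤ z + (((⌊Y⌋₊ : ℕ) : ℝ) * (Real.exp (-((w : ℝ) * S))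
          + Real.exp (3 * ((w : ℝ) * S) - ((2 * m : ℕ) : ℝ))) + (1 + (w : ℝ) * P.card) ^ (2 * m)) := by
          linarith
      _ ≤ Y * R + (Y * (K1 * (1 + LL Z) ^ (21 : ℝ) * R + R) + Y * R) := by
          gcongr
      _ = (K1 * (1 + LL Z) ^ (21 : ℝ) + 3) * (Y * R) := by ring
      _ ≤ (C * (1 + LL Z) ^ C) * (Y * R) := by
          refine mul_le_mul_of_nonneg_right ?_ (by positivity)
          calc K1 * (1 + LL Z) ^ (21 : ℝ) + 3
              ≤ K1 * (1 + LL Z) ^ (21 : ℝ) + 3 * (1 + LL Z) ^ (21 : ℝ) := by linarith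
            _ = (K1 + 3) * (1 + LL Z) ^ (21 : ℝ) := by ring
            _ ≤ C * (1 + LL Z) ^ C := by
                refine mul_le_mul hCa ?_ (by positivity) (by linarith)
                exact Real.rpow_le_rpow_of_exponent_le (by linarith) hCb
      _ = C * (1 + LL Z) ^ C * Y / L ^ w := by rw [hR]; ring

end P031
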