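import Vale.Agent.P031.Smooth

/-!
# P031, module TOTIENT: lower bounds for `φ`

* `totient_omega`: with `q_1 < q_2 < … < q_k` the primes dividing `n`, `q_i ≥ i + 1`, so
  `n/φ(n) = ∏ q_i/(q_i - 1) ≤ ∏ (i+1)/i = k + 1`.
* `totient_lower`: moreover `2^{k-1} ≤ φ(n)` (each odd prime contributes a factor `≥ 2`).
* `totient_smooth`: `n/φ(n) = ∏_{q ∣ n} (1 - 1/q)⁻¹ ≤ exp (∑_{q ≤ z} (1/q + 2/q²)) ≤ C log z`.
-/

namespace P031

open scoped BigOperators

theorem tot_prod_le (S : Finset ℕ) : (∀ q ∈ S, 2 ≤ q) →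
    ∏ q ∈ S, q ≤ (∏ q ∈ S, (q - 1)) * (S.card + 1) ∧ ∀ a, (∀ q ∈ S, q < a) → 2 ≤ a → S.card + 2 ≤ a := by
  classical
  induction S using Finset.induction_on_max with
  | empty => intro _; refine ⟨by simp, fun a _ h => by simpa using h⟩
  | insert a s hlt ih =>
    intro h
    have hs : ∀ q ∈ s, 2 ≤ q := fun q hq => h q (Finset.mem_insert_of_mem hq)
    have ha : 2 ≤ a := h a (Finset.mem_insert_self _ _)
    obtain ⟨ih1, ih2⟩ := ih hs
    have has : a ∉ s := fun hm => lt_irrefl _ (hlt a hm)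
    have hc : s.card + 2 ≤ a := ih2 a hlt ha
    refine ⟨?_, ?_⟩
    · rw [Finset.prod_insert has, Finset.prod_insert has, Finset.card_insert_of_notMem has]
      obtain ⟨b, rfl⟩ : ∃ b, a = b + 1 := ⟨a - 1, by omega⟩
      have hb : b + 1 - 1 = b := by omega
      rw [hb]
      calc (b + 1) * ∏ q ∈ s, q ≤ (b + 1) * ((∏ q ∈ s, (q - 1)) * (s.card + 1)) :=
            Nat.mul_le_mul_left _ ih1
        _ = (∏ q ∈ s, (q - 1)) * ((b + 1) * (s.card + 1)) := by ring
        _ ≤ (∏ q ∈ s, (q - 1)) * (b * (s.card + 1 + 1)) := by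
            apply Nat.mul_le_mul_left
            nlinarith
        _ = b * (∏ q ∈ s, (q - 1)) * (s.card + 1 + 1) := by ring
    · intro c hc1 hc2
      rw [Finset.card_insert_of_notMem has]
      have := hc1 a (Finset.mem_insert_self _ _)
      omega

theorem tot_prod_pos (n : ℕ) : 0 < ∏ p ∈ n.primeFactors, (p - 1) := by
  refine Finset.prod_pos fun p hp => ?_
  have := (Nat.prime_of_mem_primeFactors hp).two_le
  omega

theorem totient_omega (n : ℕ) (hn : 1 ≤ n) : n ≤ Nat.totient n * (n.primeFactors.card + 1) := by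
  have h1 := Nat.totient_mul_prod_primeFactors n
  have h2 := (tot_prod_le n.primeFactors
    (fun q hq => (Nat.prime_of_mem_primeFactors hq).two_le)).1
  have h3 := tot_prod_pos n
  have h4 : n * ∏ p ∈ n.primeFactors, (p - 1) ≤
      (Nat.totient n * (n.primeFactors.card + 1)) * ∏ p ∈ n.primeFactors, (p - 1) := by
    rw [← h1]
    calc Nat.totient n * ∏ p ∈ n.primeFactors, p
        ≤ Nat.totient n * ((∏ q ∈ n.primeFactors, (q - 1)) * (n.primeFactors.card + 1)) :=
          Nat.mul_le_mul_left _ h2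
      _ = _ := by ring
  exact Nat.le_of_mul_le_mul_right h4 h3

theorem tot_two_pow (S : Finset ℕ) (h : ∀ q ∈ S, 2 ≤ q) :
    2 ^ S.card ≤ 2 * ∏ q ∈ S, (q - 1) := by
  classical
  have key : ∀ T : Finset ℕ, (∀ q ∈ T, 3 ≤ q) → 2 ^ T.card ≤ ∏ q ∈ T, (q - 1) := by
    intro T hT
    rw [← Finset.prod_const]
    refine Finset.prod_le_prod' fun q hq => ?_
    have := hT q hq
    omega
  by_cases h2 : 2 ∈ S
  · have h3 := key (S.erase 2) (fun q hq => by
      have h1 := h q (Finset.mem_of_mem_erase hq)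
      have h2 := Finset.ne_of_mem_erase hq
      omega)
    have h4 : ∏ q ∈ S, (q - 1) = ∏ q ∈ S.erase 2, (q - 1) := by
      rw [← Finset.mul_prod_erase S _ h2]
      simp
    have h5 : S.card = (S.erase 2).card + 1 := by
      rw [Finset.card_erase_of_mem h2]
      have := Finset.card_pos.mpr ⟨2, h2⟩
      omega
    rw [h4, h5, pow_succ]
    linarith
  · have h3 := key S (fun q hq => by
      have h1 := h q hq
      have h4 : q ≠ 2 := fun e => h2 (e ▸ hq)
      omega)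
    omega

/-- `n ≤ C φ(n) log (φ(n)+2)`, crude -/
theorem totient_lower : ∃ C : ℝ, 0 < C ∧ ∀ n : ℕ, 1 ≤ n →
    (n : ℝ) ≤ C * Nat.totient n * Real.log (Nat.totient n + 2) := by
  refine ⟨4, by norm_num, ?_⟩
  intro n hn
  have h1 := totient_omega n hn
  have h2 := tot_two_pow n.primeFactors (fun q hq => (Nat.prime_of_mem_primeFactors hq).two_le)
  have h3 : ∏ p ∈ n.primeFactors, (p - 1) ≤ Nat.totient n := by
    rw [Nat.totient_eq_div_primeFactors_mul]
    refine Nat.le_mul_of_pos_left _ ?_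
    refine Nat.div_pos ?_ ?_
    · exact Nat.le_of_dvd hn (Nat.prod_primeFactors_dvd n)
    · exact Finset.prod_pos fun p hp => (Nat.prime_of_mem_primeFactors hp).pos
  set k := n.primeFactors.card with hk
  set f := Nat.totient n with hf
  have hf0 : 0 < f := Nat.totient_pos.mpr hn
  have h4 : (2 : ℝ) ^ k ≤ 2 * f := by
    have : 2 ^ k ≤ 2 * f := h2.trans (Nat.mul_le_mul_left _ h3)
    exact_mod_cast this
  have hf1 : (1 : ℝ) ≤ f := by exact_mod_cast hf0
  have h5 : (k : ℝ) * Real.log 2 ≤ Real.log 2 + Real.log f := by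
    have := Real.log_le_log (by positivity) h4
    rw [Real.log_pow, Real.log_mul (by norm_num) (by positivity)] at this
    exact this
  have hl2 : (1 : ℝ) / 2 < Real.log 2 := by
    have := Real.log_two_gt_d9
    linarith
  have h6 : Real.log f ≤ Real.log (f + 2) := Real.log_le_log (by positivity) (by linarith)
  have h7 : 1 ≤ Real.log ((f : ℝ) + 2) := by
    rw [Real.le_log_iff_exp_le (by positivity)]
    have := Real.exp_one_lt_d9
    linarith
  have h8 : (k : ℝ) + 1 ≤ 4 * Real.log (f + 2) := by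
    have h9 : ((k : ℝ) - 1) * Real.log 2 ≤ Real.log (f + 2) := by linarith
    by_cases hk1 : (k : ℝ) - 1 ≤ 0
    · linarith
    · push Not at hk1
      have : ((k : ℝ) - 1) * (1 / 2) ≤ ((k : ℝ) - 1) * Real.log 2 :=
        mul_le_mul_of_nonneg_left hl2.le hk1.le
      linarith
  have h10 : (n : ℝ) ≤ f * (k + 1) := by exact_mod_cast h1
  calc (n : ℝ) ≤ f * (k + 1) := h10
    _ ≤ f * (4 * Real.log (f + 2)) := mul_le_mul_of_nonneg_left h8 (by positivity)
    _ = _ := by ring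

theorem tot_sum_sq (N : ℕ) :
    ∑ r ∈ (Finset.Icc 1 N).filter Nat.Prime, 1 / ((r : ℝ) * (r - 1)) ≤ 1 := by
  have h1 : ∑ r ∈ (Finset.Icc 1 N).filter Nat.Prime, 1 / ((r : ℝ) * (r - 1)) ≤
      ∑ r ∈ Finset.Icc 2 (N + 2), 1 / ((r : ℝ) * (r - 1)) := by
    refine Finset.sum_le_sum_of_subset_of_nonneg ?_ ?_
    · intro r hr
      rw [Finset.mem_filter, Finset.mem_Icc] at hr
      rw [Finset.mem_Icc]
      exact ⟨hr.2.two_le, by omega⟩
    · intro r hr _
      rw [Finset.mem_Icc] at hr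
      have : (2 : ℝ) ≤ r := by exact_mod_cast hr.1
      have h2 : (0 : ℝ) < r - 1 := by linarith
      positivity
  have h2 : ∀ M : ℕ, ∑ r ∈ Finset.Icc 2 (M + 2), 1 / ((r : ℝ) * (r - 1)) ≤ 1 - 1 / ((M : ℝ) + 2) := by
    intro M
    induction M with
    | zero => norm_num
    | succ M ih =>
      rw [show M + 1 + 2 = (M + 2) + 1 by ring, Finset.sum_Icc_succ_top (by omega)]
      have h3 : (1 : ℝ) / (((M + 2 + 1 : ℕ) : ℝ) * (((M + 2 + 1 : ℕ) : ℝ) - 1)) =
          1 / ((M : ℝ) + 2) - 1 / ((M : ℝ) + 1 + 2) := by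
        push_cast
        have h4 : (M : ℝ) + 2 ≠ 0 := by positivity
        have h5 : (M : ℝ) + 1 + 2 ≠ 0 := by positivity
        have h6 : (M : ℝ) + 2 + 1 ≠ 0 := by positivity
        have h7 : (M : ℝ) + 2 + 1 - 1 ≠ 0 := by
          have : (0:ℝ) < (M : ℝ) + 2 + 1 - 1 := by
            have : (0:ℝ) ≤ M := Nat.cast_nonneg M
            linarith
          exact this.ne'
        field_simp
        ring
      rw [h3]
      push_cast
      linarith
  have h3 := h2 N
  have h4 : (0 : ℝ) < 1 / ((N : ℝ) + 2) := by positivity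
  linarith

/-- `∑_{r ≤ z} 1/(r-1) ≤ LL z + C` -/
theorem tot_sum_inv : ∃ C : ℝ, 0 < C ∧ ∀ z : ℝ, 3 ≤ z →
    ∑ r ∈ (Finset.Icc 1 ⌊z⌋₊).filter Nat.Prime, 1 / ((r : ℝ) - 1) ≤ LL z + C := by
  obtain ⟨C, hC, h⟩ := prime_recip
  refine ⟨C + 1, by positivity, ?_⟩
  intro z hz
  have h1 := (abs_le.mp (h z hz)).2
  have h2 := tot_sum_sq ⌊z⌋₊
  have h3 : ∑ r ∈ (Finset.Icc 1 ⌊z⌋₊).filter Nat.Prime, 1 / ((r : ℝ) - 1) =
      ∑ r ∈ (Finset.Icc 1 ⌊z⌋₊).filter Nat.Prime, 1 / (r : ℝ) +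
      ∑ r ∈ (Finset.Icc 1 ⌊z⌋₊).filter Nat.Prime, 1 / ((r : ℝ) * (r - 1)) := by
    rw [← Finset.sum_add_distrib]
    refine Finset.sum_congr rfl fun r hr => ?_
    have : (2 : ℝ) ≤ r := by exact_mod_cast (Finset.mem_filter.mp hr).2.two_le
    have h5 : (r : ℝ) - 1 ≠ 0 := by
      have : (0:ℝ) < (r:ℝ) - 1 := by linarith
      exact this.ne'
    have h6 : (r : ℝ) ≠ 0 := by positivity
    field_simp
    ring
  rw [h3]
  linarith

theorem totient_smooth : ∃ C : ℝ, 0 < C ∧ ∀ (z : ℝ) (n : ℕ), 3 ≤ z → IsSm z n →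
    (n : ℝ) ≤ C * Real.log z * Nat.totient n := by
  obtain ⟨C, hC, h⟩ := tot_sum_inv
  refine ⟨Real.exp C, Real.exp_pos _, ?_⟩
  intro z n hz hn
  have hz0 : (0 : ℝ) < Real.log z := Real.log_pos (by linarith)
  have h1 : ((Nat.totient n : ℕ) : ℝ) * ∏ p ∈ n.primeFactors, (p : ℝ) =
      n * ∏ p ∈ n.primeFactors, ((p : ℝ) - 1) := by
    have := Nat.totient_mul_prod_primeFactors n
    have h2 : ((Nat.totient n * ∏ p ∈ n.primeFactors, p : ℕ) : ℝ) =
        ((n * ∏ p ∈ n.primeFactors, (p - 1) : ℕ) : ℝ) := by rw [this]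
    push_cast at h2
    rw [h2]
    congr 1
    refine Finset.prod_congr rfl fun p hp => ?_
    rw [Nat.cast_sub (Nat.prime_of_mem_primeFactors hp).one_le]
    simp
  have hp2 : ∀ p ∈ n.primeFactors, (2 : ℝ) ≤ p := fun p hp => by
    exact_mod_cast (Nat.prime_of_mem_primeFactors hp).two_le
  have hpos : 0 < ∏ p ∈ n.primeFactors, ((p : ℝ) - 1) :=
    Finset.prod_pos fun p hp => by have := hp2 p hp; linarith
  have h3 : ∏ p ∈ n.primeFactors, (p : ℝ) ≤
      (∏ p ∈ n.primeFactors, ((p : ℝ) - 1)) *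
        Real.exp (∑ p ∈ n.primeFactors, 1 / ((p : ℝ) - 1)) := by
    rw [Real.exp_sum, ← Finset.prod_mul_distrib]
    refine Finset.prod_le_prod (fun p hp => by have := hp2 p hp; linarith) fun p hp => ?_
    have h4 := hp2 p hp
    have h5 : (0 : ℝ) < (p : ℝ) - 1 := by linarith
    have h6 := Real.add_one_le_exp (1 / ((p : ℝ) - 1))
    calc (p : ℝ) = ((p : ℝ) - 1) * (1 / ((p : ℝ) - 1) + 1) := by field_simp; ring
      _ ≤ _ := mul_le_mul_of_nonneg_left h6 h5.le
  have h4 : ∑ p ∈ n.primeFactors, 1 / ((p : ℝ) - 1) ≤ LL z + C := by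
    refine le_trans ?_ (h z hz)
    refine Finset.sum_le_sum_of_subset_of_nonneg ?_ ?_
    · intro p hp
      have hpp := Nat.prime_of_mem_primeFactors hp
      rw [Finset.mem_filter, Finset.mem_Icc]
      exact ⟨⟨hpp.one_le, Nat.le_floor (hn.2 p hpp (Nat.dvd_of_mem_primeFactors hp))⟩, hpp⟩
    · intro r hr _
      have : (2 : ℝ) ≤ r := by exact_mod_cast (Finset.mem_filter.mp hr).2.two_le
      have h5 : (0 : ℝ) < (r : ℝ) - 1 := by linarith
      positivity
  have h5 : Real.exp (∑ p ∈ n.primeFactors, 1 / ((p : ℝ) - 1)) ≤ Real.exp C * Real.log z := by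
    calc _ ≤ Real.exp (LL z + C) := Real.exp_le_exp.mpr h4
      _ = Real.exp C * Real.log z := by
        rw [Real.exp_add, LL, Real.exp_log hz0, mul_comm]
  have hphi : (0 : ℝ) ≤ (Nat.totient n : ℝ) := Nat.cast_nonneg _
  have h6 : (n : ℝ) * ∏ p ∈ n.primeFactors, ((p : ℝ) - 1) ≤
      (Real.exp C * Real.log z * Nat.totient n) * ∏ p ∈ n.primeFactors, ((p : ℝ) - 1) := by
    rw [← h1]
    calc ((Nat.totient n : ℕ) : ℝ) * ∏ p ∈ n.primeFactors, (p : ℝ)
        ≤ (Nat.totient n : ℝ) * ((∏ p ∈ n.primeFactors, ((p : ℝ) - 1)) *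
          Real.exp (∑ p ∈ n.primeFactors, 1 / ((p : ℝ) - 1))) :=
          mul_le_mul_of_nonneg_left h3 hphi
      _ ≤ (Nat.totient n : ℝ) * ((∏ p ∈ n.primeFactors, ((p : ℝ) - 1)) *
          (Real.exp C * Real.log z)) := by
          gcongr
      _ = _ := by ring
  exact le_of_mul_le_mul_right h6 hpos

/-- the mass of smooth integers -/
theorem tot_smooth_recip : ∃ C : ℝ, 0 < C ∧ ∀ (z : ℝ) (N : ℕ), 3 ≤ z →
    ∑ n ∈ Finset.Icc 1 N, Set.indicator {n | IsSm z n} (fun n : ℕ => 1 / (n : ℝ)) n ≤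
      C * Real.log z := by
  obtain ⟨C, hC, h⟩ := euler_bound 1
  obtain ⟨C', hC', h'⟩ := prime_recip
  refine ⟨C * Real.exp C', by positivity, ?_⟩
  intro z N hz
  have hz0 : (0 : ℝ) < Real.log z := Real.log_pos (by linarith)
  have h1 := h (fun _ => 1) z N ⟨rfl, fun _ _ => by norm_num, fun _ => by norm_num⟩
    (by linarith) (fun r hr => by
      have : (2 : ℝ) ≤ r := by exact_mod_cast hr.two_le
      rw [div_le_iff₀ (by positivity)]
      linarith) (by
      refine le_trans (Finset.sum_le_sum fun r hr => ?_) (tot_sum_sq ⌊z⌋₊)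
      have : (2 : ℝ) ≤ r := by exact_mod_cast (Finset.mem_filter.mp hr).2.two_le
      have h5 : (0 : ℝ) < (r : ℝ) - 1 := by linarith
      rw [div_pow, one_pow]
      refine one_div_le_one_div_of_le (by positivity) ?_
      nlinarith)
  refine h1.trans ?_
  have h2 := (abs_le.mp (h' z hz)).2
  rw [mul_assoc]
  refine mul_le_mul_of_nonneg_left ?_ hC.le
  calc Real.exp (∑ r ∈ (Finset.Icc 1 ⌊z⌋₊).filter Nat.Prime, 1 / (r : ℝ))
      ≤ Real.exp (LL z + C') := Real.exp_le_exp.mpr (by linarith)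
    _ = _ := by rw [Real.exp_add, LL, Real.exp_log hz0, mul_comm]

/-- the mass of totients of smooth integers is finite -/
theorem totient_smooth_mass : ∃ C : ℝ, 0 < C ∧ ∀ (z : ℝ) (N : ℕ), 3 ≤ z →
    ∑ m ∈ Finset.Icc 1 N, Set.indicator {m | ∃ n : ℕ, IsSm z n ∧ Nat.totient n = m}
      (fun m : ℕ => 1 / (m : ℝ)) m ≤ C * Real.log z ^ 2 := by
  classical
  obtain ⟨C, hC, h⟩ := totient_smooth
  obtain ⟨C', hC', h'⟩ := tot_smooth_recip
  refine ⟨C * C', by positivity, ?_⟩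
  intro z N hz
  have hz0 : (0 : ℝ) < Real.log z := Real.log_pos (by linarith)
  set A : Set ℕ := {m | ∃ n : ℕ, IsSm z n ∧ Nat.totient n = m} with hA
  have hch : ∀ m : ℕ, ∃ n : ℕ, m ∈ A → IsSm z n ∧ Nat.totient n = m := by
    intro m
    by_cases hm : m ∈ A
    · obtain ⟨n, hn⟩ := hm
      exact ⟨n, fun _ => hn⟩
    · exact ⟨0, fun h => absurd h hm⟩
  choose g hg using hch
  set B := (Finset.Icc 1 N).filter (fun m => m ∈ A) with hB
  set M := B.sup g with hM
  have h1 : ∑ m ∈ Finset.Icc 1 N, Set.indicator A (fun m : ℕ => 1 / (m : ℝ)) m =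
      ∑ m ∈ B, 1 / (m : ℝ) := by
    rw [hB, Finset.sum_filter]
    refine Finset.sum_congr rfl fun m _ => ?_
    by_cases hm : m ∈ A
    · rw [Set.indicator_of_mem hm, if_pos hm]
    · rw [Set.indicator_of_notMem hm, if_neg hm]
  have h2 : ∀ m ∈ B, 1 / (m : ℝ) ≤ C * Real.log z * (1 / (g m : ℝ)) := by
    intro m hm
    rw [hB, Finset.mem_filter, Finset.mem_Icc] at hm
    obtain ⟨hs, ht⟩ := hg m hm.2
    have h3 := h z (g m) hz hs
    rw [ht] at h3
    have hm0 : (0 : ℝ) < m := by exact_mod_cast hm.1.1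
    have hg0 : (0 : ℝ) < g m := by exact_mod_cast hs.1
    rw [mul_one_div, div_le_div_iff₀ hm0 hg0]
    linarith
  have h3 : ∑ m ∈ B, (1 / (g m : ℝ)) ≤
      ∑ n ∈ Finset.Icc 1 M, Set.indicator {n | IsSm z n} (fun n : ℕ => 1 / (n : ℝ)) n := by
    have hinj : Set.InjOn g B := by
      intro a ha b hb hab
      have ha' := (Finset.mem_filter.mp ha).2
      have hb' := (Finset.mem_filter.mp hb).2
      rw [← (hg a ha').2, ← (hg b hb').2, hab]
    calc ∑ m ∈ B, (1 / (g m : ℝ)) = ∑ n ∈ B.image g, 1 / (n : ℝ) := by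
          rw [Finset.sum_image hinj]
      _ = ∑ n ∈ B.image g, Set.indicator {n | IsSm z n} (fun n : ℕ => 1 / (n : ℝ)) n := by
          refine Finset.sum_congr rfl fun n hn => ?_
          obtain ⟨m, hm, rfl⟩ := Finset.mem_image.mp hn
          rw [Set.indicator_of_mem (show g m ∈ {n | IsSm z n} from
            (hg m (Finset.mem_filter.mp hm).2).1)]
      _ ≤ _ := by
          refine Finset.sum_le_sum_of_subset_of_nonneg ?_ ?_
          · intro n hn
            obtain ⟨m, hm, rfl⟩ := Finset.mem_image.mp hn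
            rw [Finset.mem_Icc]
            exact ⟨(hg m (Finset.mem_filter.mp hm).2).1.1, Finset.le_sup hm⟩
          · intro n _ _
            exact Set.indicator_nonneg (fun _ _ => by positivity) _
  rw [h1]
  calc ∑ m ∈ B, 1 / (m : ℝ) ≤ ∑ m ∈ B, C * Real.log z * (1 / (g m : ℝ)) := Finset.sum_le_sum h2
    _ = C * Real.log z * ∑ m ∈ B, (1 / (g m : ℝ)) := by rw [Finset.mul_sum]
    _ ≤ C * Real.log z * (C' * Real.log z) :=
        mul_le_mul_of_nonneg_left (h3.trans (h' z M hz)) (by positivity)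
    _ = _ := by ring

end P031
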