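import Vale.Agent.P031.VBound1

/-!
# P031, module VB2: consequences of `vbound`

`gp`: for `a ≤ √X` the number of `v' ∈ Tot` with `v' ≤ X/a` is `V (X/a)`; `X/a ≥ √X ≥ 16`,
`log (X/a) ≥ (log X)/2`.  `tot_mass`: dyadic sum (`mass_le_of_cnt`).
-/

namespace P031

open scoped BigOperators

/-- `log log 16 > 0` in the form needed below -/
theorem LL_pos_of {Y : ℝ} (hY : 16 ≤ Y) : 0 < LL Y := by
  have h1 : (2 : ℝ) < Real.log Y := by
    have : Real.log (16 : ℝ) ≤ Real.log Y := Real.log_le_log (by norm_num) hY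
    have h2 : Real.log (16 : ℝ) = 4 * Real.log 2 := by
      rw [show (16 : ℝ) = 2 ^ 4 from by norm_num, Real.log_pow]; norm_num
    have := Real.log_two_gt_d9
    linarith
  exact Real.log_pos (by linarith)

theorem LL_mono' {Y Z : ℝ} (hY : 16 ≤ Y) (h : Y ≤ Z) : LL Y ≤ LL Z := by
  have h1 : (0 : ℝ) < Real.log Y := Real.log_pos (by linarith)
  exact Real.log_le_log h1 (Real.log_le_log (by linarith) h)

theorem one_le_logLL {Y : ℝ} (hY : 16 ≤ Y) : 1 ≤ Real.log (LL Y + 3) := by
  have h1 := LL_pos_of hY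
  rw [Real.le_log_iff_exp_le (by linarith)]
  have := Real.exp_one_lt_d9
  linarith

theorem gp : ∃ C : ℝ, 0 < C ∧ ∀ (X : ℝ) (A : Set ℕ), 1000 ≤ X → (∀ a ∈ A, (1 : ℝ) ≤ a ∧ (a : ℝ) ≤ √X) →
    (cnt X {v | ∃ a ∈ A, ∃ v' ∈ Tot, v = a * v'} : ℝ) ≤
      X / Real.log X * Real.exp (C * Real.log (LL X + 3) ^ 2) * mass ⌊X⌋₊ A := by
  classical
  obtain ⟨C₀, hC₀, hV⟩ := vbound
  refine ⟨C₀ + 1, by linarith, ?_⟩
  intro X A hX hA
  have hX0 : 0 < X := by linarith
  have hlogX : 0 < Real.log X := Real.log_pos (by linarith)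
  -- the finite set of relevant `a`
  set S : Finset ℕ := (Finset.Icc 1 ⌊X⌋₊).filter (fun a => a ∈ A) with hS
  have hsq : √X ≤ X := by
    rw [Real.sqrt_le_left (by linarith)]
    nlinarith
  have hsq16 : (16 : ℝ) ≤ √X := by
    apply Real.le_sqrt_of_sq_le
    linarith
  have hAS : ∀ a ∈ A, a ∈ S := by
    intro a ha
    obtain ⟨h1, h2⟩ := hA a ha
    rw [hS, Finset.mem_filter, Finset.mem_Icc]
    refine ⟨⟨by exact_mod_cast h1, Nat.le_floor (h2.trans hsq)⟩, ha⟩
  -- covering
  have hcov : {v : ℕ | v ∈ {v | ∃ a ∈ A, ∃ v' ∈ Tot, v = a * v'} ∧ (v : ℝ) ≤ X} ⊆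
      ⋃ a ∈ S, (fun v' => a * v') '' {v' : ℕ | v' ∈ Tot ∧ (v' : ℝ) ≤ X / a} := by
    rintro v ⟨⟨a, ha, v', hv', rfl⟩, hvX⟩
    simp only [Set.mem_iUnion, Set.mem_image]
    refine ⟨a, hAS a ha, v', ⟨hv', ?_⟩, rfl⟩
    have h1 := (hA a ha).1
    rw [le_div_iff₀ (by linarith)]
    push_cast at hvX
    linarith
  have hfin : ∀ Y : ℝ, {v' : ℕ | v' ∈ Tot ∧ (v' : ℝ) ≤ Y}.Finite := by
    intro Y
    apply (Set.finite_Iic ⌊Y⌋₊).subset
    rintro v ⟨_, hv⟩
    exact Nat.le_floor hv
  have hcard : (cnt X {v | ∃ a ∈ A, ∃ v' ∈ Tot, v = a * v'} : ℝ) ≤ ∑ a ∈ S, (V (X / a) : ℝ) := by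
    have h1 : cnt X {v | ∃ a ∈ A, ∃ v' ∈ Tot, v = a * v'} ≤ ∑ a ∈ S, V (X / a) := by
      unfold cnt
      refine (Set.ncard_le_ncard hcov ?_).trans ?_
      · exact Set.Finite.biUnion (Finset.finite_toSet S) (fun a _ => (hfin _).image _)
      · refine (Finset.set_ncard_biUnion_le S _).trans ?_
        apply Finset.sum_le_sum
        intro a _
        exact Set.ncard_image_le (hfin _)
    exact_mod_cast h1
  refine hcard.trans ?_
  have hterm : ∀ a ∈ S, (V (X / a) : ℝ) ≤
      X / Real.log X * Real.exp ((C₀ + 1) * Real.log (LL X + 3) ^ 2) * (1 / (a : ℝ)) := by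
    intro a ha
    rw [hS, Finset.mem_filter] at ha
    obtain ⟨h1, h2⟩ := hA a ha.2
    have ha0 : (0 : ℝ) < a := by linarith
    have hXa : √X ≤ X / a := by
      rw [le_div_iff₀ ha0]
      calc √X * a ≤ √X * √X := by gcongr
        _ = X := Real.mul_self_sqrt hX0.le
    have h16 : 16 ≤ X / a := hsq16.trans hXa
    have hle : X / a ≤ X := div_le_self hX0.le h1
    have hlog : Real.log X / 2 ≤ Real.log (X / a) := by
      rw [← Real.log_sqrt hX0.le]
      exact Real.log_le_log (by linarith) hXa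
    have hv := hV (X / a) h16
    have hL1 := one_le_logLL h16
    have hL2 : Real.log (LL (X / a) + 3) ≤ Real.log (LL X + 3) := by
      apply Real.log_le_log
      · have := LL_pos_of h16; linarith
      · have := LL_mono' h16 hle; linarith
    have hE : Real.exp (C₀ * Real.log (LL (X / a) + 3) ^ 2) ≤
        Real.exp (C₀ * Real.log (LL X + 3) ^ 2) := by
      apply Real.exp_le_exp.2
      apply mul_le_mul_of_nonneg_left _ hC₀.le
      exact pow_le_pow_left₀ (by linarith) hL2 2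
    have h2E : 2 * Real.exp (C₀ * Real.log (LL X + 3) ^ 2) ≤
        Real.exp ((C₀ + 1) * Real.log (LL X + 3) ^ 2) := by
      rw [add_mul, one_mul, Real.exp_add, mul_comm]
      apply mul_le_mul_of_nonneg_left _ (Real.exp_pos _).le
      have h3 : (1 : ℝ) ≤ Real.log (LL X + 3) ^ 2 := by nlinarith
      have h4 := Real.exp_one_gt_d9
      have h5 := Real.exp_le_exp.2 h3
      linarith
    calc (V (X / a) : ℝ) ≤ (X / a) / Real.log (X / a) * Real.exp (C₀ * Real.log (LL (X / a) + 3) ^ 2) := hv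
      _ ≤ (X / a) / (Real.log X / 2) * Real.exp (C₀ * Real.log (LL X + 3) ^ 2) := by
          gcongr
      _ = X / Real.log X * (2 * Real.exp (C₀ * Real.log (LL X + 3) ^ 2)) * (1 / (a : ℝ)) := by
          field_simp
      _ ≤ X / Real.log X * Real.exp ((C₀ + 1) * Real.log (LL X + 3) ^ 2) * (1 / (a : ℝ)) := by
          gcongr
  refine (Finset.sum_le_sum hterm).trans ?_
  rw [← Finset.mul_sum]
  apply mul_le_mul_of_nonneg_left _ (by positivity)
  unfold mass
  rw [hS, Finset.sum_filter]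
  apply Finset.sum_le_sum
  intro a _
  by_cases ha : a ∈ A
  · simp [ha]
  · simp [ha]

/-- the total mass of totients up to `N` -/
theorem tot_mass : ∃ C : ℝ, 0 < C ∧ ∀ N : ℕ, 16 ≤ N →
    mass N Tot ≤ Real.exp (C * Real.log (LL N + 3) ^ 2) := by
  classical
  obtain ⟨C₀, hC₀, hV⟩ := vbound
  refine ⟨4 * C₀ + 4, by linarith, ?_⟩
  intro N hN
  have hNr : (16 : ℝ) ≤ N := by exact_mod_cast hN
  have hLL := LL_pos_of hNr
  set L : ℝ := Real.log (LL N + 3) with hL
  have hL1 : 1 ≤ L := one_le_logLL hNr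
  have hlogN : (2 : ℝ) < Real.log N := by
    have : Real.log (16 : ℝ) ≤ Real.log N := Real.log_le_log (by norm_num) hNr
    have h2 : Real.log (16 : ℝ) = 4 * Real.log 2 := by
      rw [show (16 : ℝ) = 2 ^ 4 from by norm_num, Real.log_pow]; norm_num
    have := Real.log_two_gt_d9
    linarith
  have hlog2a := Real.log_two_gt_d9
  have hlog2b := Real.log_two_lt_d9
  set G : ℝ := Real.exp (4 * C₀ * L ^ 2) with hG
  have hG1 : 1 ≤ G := Real.one_le_exp (by positivity)
  -- bound for the logs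
  have hlogle : ∀ Y : ℝ, 16 ≤ Y → Y ≤ 4 * N → Real.exp (C₀ * Real.log (LL Y + 3) ^ 2) ≤ G := by
    intro Y hY hY4
    rw [hG]
    apply Real.exp_le_exp.2
    have h1 : LL Y ≤ LL N + 1 := by
      have h2 : LL Y ≤ LL (4 * N) := LL_mono' hY hY4
      have h3 : Real.log (4 * (N : ℝ)) ≤ 2 * Real.log N := by
        rw [Real.log_mul (by norm_num) (by linarith), show (4 : ℝ) = 2 ^ 2 from by norm_num, Real.log_pow]
        push_cast
        linarith
      have h4 : LL (4 * N) ≤ Real.log (2 * Real.log N) := by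
        apply Real.log_le_log _ h3
        exact Real.log_pos (by linarith)
      rw [Real.log_mul (by norm_num) (by linarith)] at h4
      have h5 : Real.log (Real.log N) = LL N := rfl
      rw [h5] at h4
      linarith
    have h2 : Real.log (LL Y + 3) ≤ 2 * L := by
      have h3 : 2 * L = Real.log ((LL N + 3) ^ 2) := by
        rw [Real.log_pow, hL]; norm_num
      rw [h3]
      apply Real.log_le_log
      · have := LL_pos_of hY; linarith
      · nlinarith
    have h3 := one_le_logLL hY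
    have h4 : Real.log (LL Y + 3) ^ 2 ≤ (2 * L) ^ 2 := pow_le_pow_left₀ (by linarith) h2 2
    nlinarith
  have hcntle : ∀ i : ℕ, cnt (2 ^ (i + 1)) {v | v ∈ Tot ∧ 2 ^ i ≤ v} ≤ V (2 ^ (i + 1)) := by
    intro i
    rw [V_eq_cnt]
    apply cnt_mono
    intro v hv
    exact hv.1
  have hmain := mass_le_of_cnt (N := N) (A := Tot)
    (fun i => (if i < 3 then 3 else 0) + 2 * G / Real.log 2 * (1 / ((i : ℝ) + 1))) (by
      intro i hi
      have h2i : (0 : ℝ) < 2 ^ i := by positivity
      by_cases h3 : i < 3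
      · rw [if_pos h3]
        have h4 := cnt_le (X := (2 : ℝ) ^ (i + 1)) (by positivity) {v | v ∈ Tot ∧ 2 ^ i ≤ v}
        have h5 : (1 : ℝ) ≤ 2 ^ i := one_le_pow₀ (by norm_num)
        have h6 : 0 ≤ 2 * G / Real.log 2 * (1 / ((i : ℝ) + 1)) := by positivity
        have h7 : (2 : ℝ) ^ (i + 1) + 1 ≤ 2 ^ i * 3 := by
          rw [pow_succ]
          linarith
        have h8 : 0 ≤ (2 : ℝ) ^ i * (2 * G / Real.log 2 * (1 / ((i : ℝ) + 1))) := by positivity
        rw [mul_add]
        linarith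
      · rw [if_neg h3, zero_add]
        push Not at h3
        have h4 : (cnt (2 ^ (i + 1)) {v | v ∈ Tot ∧ 2 ^ i ≤ v} : ℝ) ≤ V (2 ^ (i + 1)) := by
          exact_mod_cast hcntle i
        have h16 : (16 : ℝ) ≤ 2 ^ (i + 1) := by
          calc (16 : ℝ) = 2 ^ 4 := by norm_num
            _ ≤ 2 ^ (i + 1) := pow_le_pow_right₀ (by norm_num) (by omega)
        have h4N : (2 : ℝ) ^ (i + 1) ≤ 4 * N := by
          have : ((2 ^ i : ℕ) : ℝ) ≤ ((2 * N : ℕ) : ℝ) := by exact_mod_cast hi
          push_cast at this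
          rw [pow_succ]
          linarith
        have h5 := hV (2 ^ (i + 1)) h16
        have h6 := hlogle _ h16 h4N
        have h7 : Real.log ((2 : ℝ) ^ (i + 1)) = ((i : ℝ) + 1) * Real.log 2 := by
          rw [Real.log_pow]; push_cast; ring
        rw [h7] at h5
        calc (cnt (2 ^ (i + 1)) {v | v ∈ Tot ∧ 2 ^ i ≤ v} : ℝ) ≤ V (2 ^ (i + 1)) := h4
          _ ≤ _ := h5
          _ ≤ 2 ^ (i + 1) / (((i : ℝ) + 1) * Real.log 2) * G := by gcongr
          _ = 2 ^ i * (2 * G / Real.log 2 * (1 / ((i : ℝ) + 1))) := by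
              rw [pow_succ]
              field_simp)
  refine hmain.trans ?_
  -- harmonic sum
  set K : ℕ := Nat.log 2 N + 1 with hK
  have hsub : (Finset.range (N + 1)).filter (fun i => 2 ^ i ≤ N) ⊆ Finset.range K := by
    intro i hi
    rw [Finset.mem_filter] at hi
    rw [Finset.mem_range, hK]
    have := Nat.le_log_of_pow_le (by norm_num : 1 < 2) hi.2
    omega
  have hle1 : ∑ i ∈ (Finset.range (N + 1)).filter (fun i => 2 ^ i ≤ N),
      ((if i < 3 then (3 : ℝ) else 0) + 2 * G / Real.log 2 * (1 / ((i : ℝ) + 1))) ≤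
      ∑ i ∈ Finset.range K, ((if i < 3 then (3 : ℝ) else 0) + 2 * G / Real.log 2 * (1 / ((i : ℝ) + 1))) := by
    apply Finset.sum_le_sum_of_subset_of_nonneg hsub
    intro i _ _
    have : (0 : ℝ) ≤ if i < 3 then (3 : ℝ) else 0 := by split_ifs <;> norm_num
    positivity
  refine hle1.trans ?_
  rw [Finset.sum_add_distrib, ← Finset.mul_sum]
  have hsum3 : ∑ i ∈ Finset.range K, (if i < 3 then (3 : ℝ) else 0) ≤ 9 := by
    rw [← Finset.sum_filter, Finset.sum_const, nsmul_eq_mul]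
    have h1 : ((Finset.range K).filter (fun i => i < 3)).card ≤ 3 := by
      calc ((Finset.range K).filter (fun i => i < 3)).card ≤ (Finset.range 3).card := by
            apply Finset.card_le_card
            intro i hi
            rw [Finset.mem_filter] at hi
            exact Finset.mem_range.2 hi.2
        _ = 3 := by simp
    have h2 : (((Finset.range K).filter (fun i => i < 3)).card : ℝ) ≤ 3 := by exact_mod_cast h1
    linarith
  have hharm : ∑ i ∈ Finset.range K, (1 / ((i : ℝ) + 1)) ≤ 1 + Real.log K := by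
    have h1 := harmonic_le_one_add_log K
    have h2 : ((harmonic K : ℚ) : ℝ) = ∑ i ∈ Finset.range K, (1 / ((i : ℝ) + 1)) := by
      unfold harmonic
      push_cast
      apply Finset.sum_congr rfl
      intro i _
      rw [one_div]
    rw [← h2]
    exact h1
  have hKle : (K : ℝ) ≤ 2 * Real.log N := by
    have h1 : (2 : ℕ) ^ Nat.log 2 N ≤ N := Nat.pow_log_le_self 2 (by omega)
    have h2 : ((2 : ℝ)) ^ Nat.log 2 N ≤ N := by exact_mod_cast h1
    have h3 : Real.log ((2 : ℝ) ^ Nat.log 2 N) ≤ Real.log N := Real.log_le_log (by positivity) h2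
    rw [Real.log_pow] at h3
    rw [hK]
    push_cast
    have h4 : (0 : ℝ) ≤ (Nat.log 2 N : ℝ) := by positivity
    have h5 : (4 : ℝ) ≤ (Nat.log 2 N : ℝ) := by
      have : 4 ≤ Nat.log 2 N := Nat.le_log_of_pow_le (by norm_num) (by omega)
      exact_mod_cast this
    nlinarith
  have hlogK : Real.log K ≤ LL N + 1 := by
    have h1 : Real.log K ≤ Real.log (2 * Real.log N) := by
      apply Real.log_le_log _ hKle
      rw [hK]; positivity
    rw [Real.log_mul (by norm_num) (by linarith)] at h1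
    have h5 : Real.log (Real.log N) = LL N := rfl
    rw [h5] at h1
    linarith
  have hexpL : LL N + 3 ≤ Real.exp (L ^ 2) := by
    have h1 : LL N + 3 = Real.exp L := by
      rw [hL, Real.exp_log (by linarith)]
    rw [h1]
    apply Real.exp_le_exp.2
    nlinarith
  have h12 : (12 : ℝ) ≤ Real.exp (3 * L ^ 2) := by
    have h1 : Real.exp 3 ≤ Real.exp (3 * L ^ 2) := by
      apply Real.exp_le_exp.2
      nlinarith
    have h2 : Real.exp 3 = Real.exp 1 ^ 3 := by
      rw [← Real.exp_nat_mul]; norm_num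
    have h3 := Real.exp_one_gt_d9
    have h4 : (12 : ℝ) ≤ Real.exp 1 ^ 3 := by
      calc (12 : ℝ) ≤ 2.7182818283 ^ 3 := by norm_num
        _ ≤ Real.exp 1 ^ 3 := pow_le_pow_left₀ (by norm_num) h3.le 3
    linarith
  have hEL : 1 ≤ Real.exp (L ^ 2) := Real.one_le_exp (by positivity)
  have hstep : 2 * G / Real.log 2 * ∑ i ∈ Finset.range K, (1 / ((i : ℝ) + 1)) ≤ 3 * (G * Real.exp (L ^ 2)) := by
    have h1 : ∑ i ∈ Finset.range K, (1 / ((i : ℝ) + 1)) ≤ Real.exp (L ^ 2) := by linarith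
    calc 2 * G / Real.log 2 * ∑ i ∈ Finset.range K, (1 / ((i : ℝ) + 1))
        ≤ 2 * G / Real.log 2 * Real.exp (L ^ 2) := by gcongr
      _ = (2 / Real.log 2) * (G * Real.exp (L ^ 2)) := by ring
      _ ≤ 3 * (G * Real.exp (L ^ 2)) := by
          apply mul_le_mul_of_nonneg_right _ (by positivity)
          rw [div_le_iff₀ (by linarith)]
          linarith
  have hGE : 1 ≤ G * Real.exp (L ^ 2) := by nlinarith
  calc _ ≤ 9 + 3 * (G * Real.exp (L ^ 2)) := add_le_add hsum3 hstep
    _ ≤ 12 * (G * Real.exp (L ^ 2)) := by linarith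
    _ ≤ Real.exp (3 * L ^ 2) * (G * Real.exp (L ^ 2)) := by gcongr
    _ = Real.exp ((4 * C₀ + 4) * L ^ 2) := by
        rw [hG, ← Real.exp_add, ← Real.exp_add]
        congr 1
        ring

end P031
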