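import Vale.Agent.P031.WBound

/-!
# P031, module VB1: `V(Y) ≤ (Y / log Y) exp (C (log log log Y)²)`

PROOF of `vbound`.  Let `v = φ(n) ≤ Y`; then `n ≤ C Y log (Y+2)` (`totient_lower`).
`p = P⁺(n)`, `w = Y^{1/(20 (1 + LL Y))}` (for `Y` bounded everything is trivial).
(a) `p ≤ w`: the number of such `n` is `≤ C Y/(log Y)²` by `rankin_sum` (`f = 1`).
(b) `p > w`, `p² ∣ n`: `p (p-1) ∣ v`: `∑_{p > w} Y/(p(p-1)) ≤ 2Y/w`.
(c) `p > w`, `p ∥ n`: `v = (p-1) m`, `m = φ(n/p) ∈ Wset (⌊LL Y⌋ + 2)`, number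
`≤ ∑_m π(Y/m + 1) ≤ ∑_m C (Y/m) (1 + LL Y)/ log Y` (Chebyshev or `prime_tuple_bound` with `𝒜 = ∅`, as
`Y/m ≥ w - 1`), and use `wbound`.
-/

namespace P031

open scoped BigOperators

/-- totients with all primes small -/
theorem vb_rank : ∃ C : ℝ, 0 < C ∧ ∀ (z Y v : ℝ), Real.exp 4 ≤ z → 1 ≤ v → 2 ≤ Y →
    v * Real.log z ≤ Real.log Y → ∀ F : Finset ℕ, (∀ n ∈ F, IsSm z n ∧ (n : ℝ) ≤ Y) →
    (F.card : ℝ) ≤ C * Y * Real.exp (-v) * Real.log z ^ (5 : ℕ) := by
  classical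
  obtain ⟨C, hC, h⟩ := rankin_sum
  refine ⟨C, hC, ?_⟩
  intro z Y v hz hv hY hvY F hF
  have h1 := h (fun _ => 1) z Y v ⟨rfl, fun _ _ => by norm_num, fun _ => by norm_num⟩ (fun _ _ => by norm_num) hz hv
    hY hvY
  refine le_trans ?_ h1
  have hsub : F ⊆ (Finset.Icc 1 ⌊Y⌋₊).filter (fun n => n ∈ {n | IsSm z n}) := by
    intro n hn
    obtain ⟨h2, h3⟩ := hF n hn
    simp only [Finset.mem_filter, Finset.mem_Icc]
    exact ⟨⟨h2.1, Nat.le_floor h3⟩, h2⟩
  calc (F.card : ℝ) ≤ (((Finset.Icc 1 ⌊Y⌋₊).filter (fun n => n ∈ {n | IsSm z n})).card : ℝ) := by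
        exact_mod_cast Finset.card_le_card hsub
    _ = ∑ n ∈ Finset.Icc 1 ⌊Y⌋₊, Set.indicator {n | IsSm z n} (fun _ => (1 : ℝ)) n := by
        rw [Finset.card_filter]
        push_cast
        apply Finset.sum_congr rfl
        intro n _
        simp only [Set.indicator_apply]

/-- numbers divisible by `p (p - 1)` for a large `p` -/
theorem vb_sq (a b : ℕ) (ha : 1 ≤ a) (Y : ℝ) (hY : 0 ≤ Y) (F : Finset ℕ)
    (hF : ∀ v ∈ F, 1 ≤ v ∧ (v : ℝ) ≤ Y ∧ ∃ p ∈ Finset.Ioc a b, p * (p - 1) ∣ v) :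
    (F.card : ℝ) ≤ 2 * Y / a := by
  classical
  have hsub : F ⊆ (Finset.Ioc a b).biUnion (fun p =>
      (Finset.Icc 1 ⌊Y / ((p * (p - 1) : ℕ) : ℝ)⌋₊).image (fun k => p * (p - 1) * k)) := by
    intro v hv
    obtain ⟨h1, h2, p, hp, k, hk⟩ := hF v hv
    rw [Finset.mem_biUnion]
    refine ⟨p, hp, ?_⟩
    rw [Finset.mem_image]
    refine ⟨k, ?_, hk.symm⟩
    have hp2 : 2 ≤ p := by
      have := (Finset.mem_Ioc.mp hp).1
      omega
    have hpp : 0 < p * (p - 1) := Nat.mul_pos (by omega) (by omega)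
    rw [Finset.mem_Icc]
    refine ⟨?_, ?_⟩
    · rcases Nat.eq_zero_or_pos k with h | h
      · subst h; omega
      · exact h
    · apply Nat.le_floor
      rw [le_div_iff₀ (by exact_mod_cast hpp)]
      refine le_trans ?_ h2
      rw [hk]
      push_cast
      rw [mul_comm]
  have h1 : (F.card : ℝ) ≤ ∑ p ∈ Finset.Ioc a b, Y * (2 * ((p : ℝ) ^ 2)⁻¹) := by
    calc (F.card : ℝ) ≤ (((Finset.Ioc a b).biUnion (fun p =>
          (Finset.Icc 1 ⌊Y / ((p * (p - 1) : ℕ) : ℝ)⌋₊).image (fun k => p * (p - 1) * k))).card : ℝ) := by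
          exact_mod_cast Finset.card_le_card hsub
      _ ≤ ∑ p ∈ Finset.Ioc a b, (((Finset.Icc 1 ⌊Y / ((p * (p - 1) : ℕ) : ℝ)⌋₊).image
          (fun k => p * (p - 1) * k)).card : ℝ) := by
          exact_mod_cast Finset.card_biUnion_le
      _ ≤ ∑ p ∈ Finset.Ioc a b, Y * (2 * ((p : ℝ) ^ 2)⁻¹) := by
          apply Finset.sum_le_sum
          intro p hp
          have hp2 : 2 ≤ p := by
            have := (Finset.mem_Ioc.mp hp).1
            omega
          have hp2' : (2 : ℝ) ≤ p := by exact_mod_cast hp2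
          have hpp : ((p * (p - 1) : ℕ) : ℝ) = (p : ℝ) * (p - 1) := by
            rw [Nat.cast_mul, Nat.cast_sub (by omega)]
            simp
          have h3 : (((Finset.Icc 1 ⌊Y / ((p * (p - 1) : ℕ) : ℝ)⌋₊).image
              (fun k => p * (p - 1) * k)).card : ℝ) ≤ Y / ((p * (p - 1) : ℕ) : ℝ) := by
            refine le_trans ?_ (Nat.floor_le (by positivity))
            have := Finset.card_image_le (s := Finset.Icc 1 ⌊Y / ((p * (p - 1) : ℕ) : ℝ)⌋₊)
              (f := fun k => p * (p - 1) * k)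
            rw [Nat.card_Icc] at this
            exact_mod_cast this.trans (by omega)
          refine h3.trans ?_
          rw [hpp, div_eq_mul_inv]
          apply mul_le_mul_of_nonneg_left _ hY
          rw [← div_eq_mul_inv, inv_eq_one_div, div_le_div_iff₀ (by nlinarith) (by positivity)]
          nlinarith
  refine h1.trans ?_
  rw [← Finset.mul_sum, ← Finset.mul_sum]
  rcases le_total a b with hab | hab
  · have h2 := sum_Ioc_inv_sq_le_sub (α := ℝ) (k := a) (n := b) (by omega) hab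
    have h3 : (0 : ℝ) ≤ (b : ℝ)⁻¹ := by positivity
    have h4 : ∑ i ∈ Finset.Ioc a b, ((i : ℝ) ^ 2)⁻¹ ≤ (a : ℝ)⁻¹ := by linarith
    calc Y * (2 * ∑ i ∈ Finset.Ioc a b, ((i : ℝ) ^ 2)⁻¹) ≤ Y * (2 * (a : ℝ)⁻¹) := by gcongr
      _ = 2 * Y / a := by ring
  · rw [Finset.Ioc_eq_empty (by omega)]
    simp only [Finset.sum_empty, mul_zero]
    positivity

/-- products of a large prime minus one and an element of a set -/
theorem vb_pr : ∃ C : ℝ, 0 < C ∧ ∀ (Y w : ℝ) (N : ℕ) (W : Set ℕ), 16 ≤ Y → 2 ≤ w → Y ≤ N →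
    ∀ F : Finset ℕ, (∀ v ∈ F, (v : ℝ) ≤ Y ∧ ∃ p m : ℕ, p.Prime ∧ w < p ∧ 1 ≤ m ∧ m ∈ W ∧ v = (p - 1) * m) →
    (F.card : ℝ) ≤ C * (1 + LL (2 * Y)) ^ C * Y / Real.log w * mass N W := by
  classical
  obtain ⟨C, hC, h⟩ := prime_tuple_bound
  refine ⟨2 * C + 1, by linarith, ?_⟩
  intro Y w N W hY hw hN F hF
  have hlw : 0 < Real.log w := Real.log_pos (by linarith)
  have hLL : 0 ≤ LL (2 * Y) := by
    unfold LL
    apply Real.log_nonneg
    rw [Real.le_log_iff_exp_le (by linarith)]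
    have := Real.exp_one_lt_d9
    linarith
  set G : ℕ → Finset ℕ := fun m => (Finset.Icc 1 ⌊Y / m + 1⌋₊).filter (fun p => p.Prime ∧ w < (p : ℝ)) with hG
  have hsub : F ⊆ ((Finset.Icc 1 N).filter (fun m => m ∈ W)).biUnion (fun m => (G m).image (fun p => (p - 1) * m)) := by
    intro v hv
    obtain ⟨h1, p, m, hp, hwp, hm, hmW, rfl⟩ := hF v hv
    rw [Finset.mem_biUnion]
    have hm' : (1 : ℝ) ≤ m := by exact_mod_cast hm
    have hp1 : (1 : ℝ) ≤ p - 1 := by
      have := hp.two_le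
      have : (2 : ℝ) ≤ p := by exact_mod_cast this
      linarith
    have h1' : ((p : ℝ) - 1) * m ≤ Y := by
      have : (((p - 1) * m : ℕ) : ℝ) = ((p : ℝ) - 1) * m := by
        rw [Nat.cast_mul, Nat.cast_sub hp.one_le]
        simp
      rw [← this]
      exact h1
    refine ⟨m, ?_, ?_⟩
    · rw [Finset.mem_filter, Finset.mem_Icc]
      refine ⟨⟨hm, ?_⟩, hmW⟩
      have : (m : ℝ) ≤ N := by nlinarith
      exact_mod_cast this
    · rw [Finset.mem_image]
      refine ⟨p, ?_, rfl⟩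
      rw [hG, Finset.mem_filter, Finset.mem_Icc]
      refine ⟨⟨hp.one_le, ?_⟩, hp, hwp⟩
      apply Nat.le_floor
      have : (p : ℝ) - 1 ≤ Y / m := by
        rw [le_div_iff₀ (by linarith)]
        exact h1'
      linarith
  have hGm : ∀ m ∈ (Finset.Icc 1 N).filter (fun m => m ∈ W), (((G m).image (fun p => (p - 1) * m)).card : ℝ) ≤
      (2 * C + 1) * (1 + LL (2 * Y)) ^ (2 * C + 1) * Y / Real.log w * (1 / (m : ℝ)) := by
    intro m hm
    rw [Finset.mem_filter, Finset.mem_Icc] at hm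
    have hm' : (1 : ℝ) ≤ m := by exact_mod_cast hm.1.1
    have hci : (((G m).image (fun p => (p - 1) * m)).card : ℝ) ≤ (G m).card := by
      exact_mod_cast Finset.card_image_le
    refine hci.trans ?_
    by_cases hwm : w ≤ Y / m + 1
    · have hYm : 1 ≤ Y / m := by linarith
      have hYm2 : Y / m ≤ Y := div_le_self (by linarith) hm'
      have h1 := h (2 * Y) (Y / m + 1) ∅ (by linarith) (by linarith) (by linarith) (by simp) (by simp)
      have h2 : (G m).card ≤ ((Finset.Icc 1 ⌊Y / m + 1⌋₊).filter (fun r => r.Prime ∧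
          ∀ A ∈ (∅ : Finset ℕ), (A * r + 1).Prime)).card := by
        apply Finset.card_le_card
        intro p hp
        rw [hG, Finset.mem_filter] at hp
        rw [Finset.mem_filter]
        exact ⟨hp.1, hp.2.1, by simp⟩
      have h3 : ((G m).card : ℝ) ≤ C * (1 + LL (2 * Y)) ^ C * (Y / m + 1) / Real.log (Y / m + 1) := by
        refine le_trans (by exact_mod_cast h2) (h1.trans (le_of_eq ?_))
        simp
      refine h3.trans ?_
      have h4 : Real.log w ≤ Real.log (Y / m + 1) := Real.log_le_log (by linarith) hwm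
      have h5 : (1 + LL (2 * Y)) ^ C ≤ (1 + LL (2 * Y)) ^ (2 * C + 1) :=
        Real.rpow_le_rpow_of_exponent_le (by linarith) (by linarith)
      have h6 : (0 : ℝ) < (1 + LL (2 * Y)) ^ C := Real.rpow_pos_of_pos (by linarith) _
      calc C * (1 + LL (2 * Y)) ^ C * (Y / m + 1) / Real.log (Y / m + 1)
          ≤ C * (1 + LL (2 * Y)) ^ C * (2 * (Y / m)) / Real.log w := by
            apply div_le_div₀ (by positivity) _ hlw h4
            apply mul_le_mul_of_nonneg_left (by linarith) (by positivity)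
        _ = (2 * C) * (1 + LL (2 * Y)) ^ C * Y / Real.log w * (1 / (m : ℝ)) := by
            field_simp
        _ ≤ (2 * C + 1) * (1 + LL (2 * Y)) ^ (2 * C + 1) * Y / Real.log w * (1 / (m : ℝ)) := by
            gcongr
            linarith
    · have : G m = ∅ := by
        rw [Finset.eq_empty_iff_forall_notMem]
        intro p hp
        rw [hG, Finset.mem_filter, Finset.mem_Icc] at hp
        apply hwm
        have h1 : (p : ℝ) ≤ Y / m + 1 := by
          refine le_trans ?_ (Nat.floor_le (by positivity))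
          exact_mod_cast hp.1.2
        linarith [hp.2.2]
      rw [this]
      simp only [Finset.card_empty, Nat.cast_zero]
      have : (0 : ℝ) ≤ (1 + LL (2 * Y)) ^ (2 * C + 1) := Real.rpow_nonneg (by linarith) _
      positivity
  calc (F.card : ℝ) ≤ ((((Finset.Icc 1 N).filter (fun m => m ∈ W)).biUnion
        (fun m => (G m).image (fun p => (p - 1) * m))).card : ℝ) := by
        exact_mod_cast Finset.card_le_card hsub
    _ ≤ ∑ m ∈ (Finset.Icc 1 N).filter (fun m => m ∈ W), (((G m).image (fun p => (p - 1) * m)).card : ℝ) := by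
        exact_mod_cast Finset.card_biUnion_le
    _ ≤ ∑ m ∈ (Finset.Icc 1 N).filter (fun m => m ∈ W),
        (2 * C + 1) * (1 + LL (2 * Y)) ^ (2 * C + 1) * Y / Real.log w * (1 / (m : ℝ)) := Finset.sum_le_sum hGm
    _ = (2 * C + 1) * (1 + LL (2 * Y)) ^ (2 * C + 1) * Y / Real.log w * mass N W := by
        rw [← Finset.mul_sum, Finset.sum_filter]
        unfold mass
        congr 1

/-- growth -/
theorem vb_grow (B : ℝ) : ∃ x₀ : ℝ, 1 ≤ x₀ ∧ ∀ x : ℝ, x₀ ≤ x → B ≤ Real.log x ∧ Real.log x ^ 2 ≤ x / 100 := by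
  have h1 : ∀ᶠ x : ℝ in Filter.atTop, B ≤ Real.log x := Real.tendsto_log_atTop.eventually_ge_atTop B
  have h2 : ∀ᶠ x : ℝ in Filter.atTop, ‖Real.log x ^ 2‖ ≤ (1 / 100) * ‖(id x : ℝ)‖ :=
    (Real.isLittleO_pow_log_id_atTop (n := 2)).def (by norm_num)
  obtain ⟨x₀, hx₀⟩ := Filter.eventually_atTop.mp (h1.and (h2.and (Filter.eventually_ge_atTop (1 : ℝ))))
  refine ⟨max x₀ 1, le_max_right _ _, ?_⟩
  intro x hx
  obtain ⟨h3, h4, h5⟩ := hx₀ x (le_trans (le_max_left _ _) hx)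
  refine ⟨h3, ?_⟩
  rw [Real.norm_of_nonneg (sq_nonneg _), id, Real.norm_of_nonneg (by linarith)] at h4
  linarith

theorem vb_V (Y : ℝ) (F : Finset ℕ) (h : ∀ v : ℕ, v ∈ Tot → (v : ℝ) ≤ Y → v ∈ F) : V Y ≤ F.card := by
  unfold V
  have h1 : {v : ℕ | v ∈ Tot ∧ (v : ℝ) ≤ Y} ⊆ (F : Set ℕ) := fun v hv => h v hv.1 hv.2
  calc Set.ncard {v : ℕ | v ∈ Tot ∧ (v : ℝ) ≤ Y} ≤ Set.ncard (F : Set ℕ) :=
        Set.ncard_le_ncard h1 (Finset.finite_toSet F)
    _ = F.card := Set.ncard_coe_finset F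

/-- covering the totients by three sets -/
theorem vb_cover (Y X w : ℝ) (T : ℕ) (hY : 0 ≤ Y) (hw : 0 ≤ w) (hX0 : 0 ≤ X)
    (hnX : ∀ n : ℕ, 1 ≤ n → (Nat.totient n : ℝ) ≤ Y → (n : ℝ) ≤ X)
    (hlev : ∀ q : ℕ, q.Prime → (q : ℝ) ≤ X → lev q < T) :
    ∃ FA FB FC : Finset ℕ, V Y ≤ FA.card + (FB.card + FC.card) ∧ (∀ n ∈ FA, IsSm w n ∧ (n : ℝ) ≤ X) ∧
      (∀ v ∈ FB, 1 ≤ v ∧ (v : ℝ) ≤ Y ∧ ∃ p ∈ Finset.Ioc ⌊w⌋₊ ⌊X⌋₊, p * (p - 1) ∣ v) ∧
      (∀ v ∈ FC, (v : ℝ) ≤ Y ∧ ∃ p m : ℕ, p.Prime ∧ w < p ∧ 1 ≤ m ∧ m ∈ Wset T ∧ v = (p - 1) * m) := by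
  classical
  set FA : Finset ℕ := (Finset.Icc 1 ⌊X⌋₊).filter (fun n => IsSm w n) with hFA
  set FB : Finset ℕ := (Finset.Icc 1 ⌊Y⌋₊).filter (fun v => ∃ p ∈ Finset.Ioc ⌊w⌋₊ ⌊X⌋₊, p * (p - 1) ∣ v) with hFB
  set FC : Finset ℕ := (Finset.Icc 1 ⌊Y⌋₊).filter (fun v => ∃ p m : ℕ, p.Prime ∧ w < p ∧ 1 ≤ m ∧ m ∈ Wset T ∧
    v = (p - 1) * m) with hFC
  refine ⟨FA, FB, FC, ?_, ?_, ?_, ?_⟩
  · have hcov : V Y ≤ (FA.image Nat.totient ∪ (FB ∪ FC)).card := by
      apply vb_V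
      rintro v ⟨n, hn, rfl⟩ hv
      have hphi : 1 ≤ Nat.totient n := Nat.totient_pos.mpr hn
      have hvF : Nat.totient n ∈ Finset.Icc 1 ⌊Y⌋₊ := Finset.mem_Icc.mpr ⟨hphi, Nat.le_floor hv⟩
      have hnX' : (n : ℝ) ≤ X := hnX n hn hv
      by_cases hsm : IsSm w n
      · rw [Finset.mem_union]
        left
        rw [Finset.mem_image]
        refine ⟨n, ?_, rfl⟩
        rw [hFA, Finset.mem_filter, Finset.mem_Icc]
        exact ⟨⟨hn, Nat.le_floor hnX'⟩, hsm⟩
      · have : ∃ p : ℕ, p.Prime ∧ p ∣ n ∧ w < p := by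
          by_contra hcon
          push Not at hcon
          exact hsm ⟨hn, hcon⟩
        obtain ⟨p, hp, hpn, hwp⟩ := this
        have hpX : (p : ℝ) ≤ X := le_trans (by exact_mod_cast Nat.le_of_dvd hn hpn) hnX'
        rw [Finset.mem_union, Finset.mem_union]
        right
        by_cases hp2 : p ^ 2 ∣ n
        · left
          rw [hFB, Finset.mem_filter]
          refine ⟨hvF, p, ?_, ?_⟩
          · rw [Finset.mem_Ioc]
            exact ⟨(Nat.floor_lt hw).mpr hwp, Nat.le_floor hpX⟩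
          · have h1 := Nat.totient_dvd_of_dvd hp2
            rw [Nat.totient_prime_pow hp (by norm_num)] at h1
            simpa using h1
        · right
          obtain ⟨m, rfl⟩ := hpn
          have hcop : Nat.Coprime p m := by
            rw [Nat.Prime.coprime_iff_not_dvd hp]
            intro hpm
            apply hp2
            rw [sq]
            exact Nat.mul_dvd_mul_left p hpm
          have hm1 : 1 ≤ m := by
            rcases Nat.eq_zero_or_pos m with h | h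
            · subst h; simp at hn
            · exact h
          rw [hFC, Finset.mem_filter]
          refine ⟨hvF, p, Nat.totient m, hp, hwp, Nat.totient_pos.mpr hm1, ⟨m, hm1, rfl, ?_⟩, ?_⟩
          · intro q hq
            have hqm := Nat.dvd_of_mem_primeFactors hq
            apply hlev q (Nat.prime_of_mem_primeFactors hq)
            refine le_trans ?_ hnX'
            have h1 : q ≤ m := Nat.le_of_dvd hm1 hqm
            have h2 : m ≤ p * m := Nat.le_mul_of_pos_left m hp.pos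
            exact_mod_cast h1.trans h2
          · rw [Nat.totient_mul hcop, Nat.totient_prime hp]
    refine hcov.trans ((Finset.card_union_le _ _).trans ?_)
    exact Nat.add_le_add Finset.card_image_le (Finset.card_union_le _ _)
  · intro n hn
    rw [hFA, Finset.mem_filter, Finset.mem_Icc] at hn
    refine ⟨hn.2, ?_⟩
    refine le_trans ?_ (Nat.floor_le hX0)
    exact_mod_cast hn.1.2
  · intro v hv
    rw [hFB, Finset.mem_filter, Finset.mem_Icc] at hv
    refine ⟨hv.1.1, ?_, hv.2⟩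
    refine le_trans ?_ (Nat.floor_le hY)
    exact_mod_cast hv.1.2
  · intro v hv
    rw [hFC, Finset.mem_filter, Finset.mem_Icc] at hv
    refine ⟨?_, hv.2⟩
    refine le_trans ?_ (Nat.floor_le hY)
    exact_mod_cast hv.1.2

/-- the parameters -/
structure VbP (Ct Y x L V0 w X : ℝ) (T : ℕ) : Prop where
  Ct0 : 0 < Ct
  hx : x = Real.log Y
  hL : L = Real.log x
  hV0 : V0 = 20 * (1 + L)
  hw : w = Real.exp (x / V0)
  hX : X = (Ct + 1) * Y * Real.log (Y + 2)
  hT : T = ⌊L⌋₊ + 2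
  Y16 : 16 ≤ Y
  L10 : 10 ≤ L
  LC : Ct + 1 ≤ L
  Lx : L ^ 2 ≤ x / 100

namespace VbP

variable {Ct Y x L V0 w X : ℝ} {T : ℕ} (h : VbP Ct Y x L V0 w X T)
include h

theorem x1000 : 1000 * L ≤ x := by
  have h1 := h.L10
  have h2 := h.Lx
  nlinarith

theorem x1 : 10000 ≤ x := by
  have h1 := h.L10
  have h2 := h.x1000
  linarith

theorem V0pos : 0 < V0 := by
  rw [h.hV0]
  linarith [h.L10]

theorem expL : Real.exp L = x := by
  rw [h.hL, Real.exp_log (by linarith [h.x1])]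

theorem expx : Real.exp x = Y := by
  rw [h.hx, Real.exp_log (by linarith [h.Y16])]

theorem LLY : LL Y = L := by rw [LL, ← h.hx, ← h.hL]

theorem logw : Real.log w = x / V0 := by rw [h.hw, Real.log_exp]

theorem F1 : 4 ≤ x / V0 := by
  rw [le_div_iff₀ h.V0pos, h.hV0]
  linarith [h.x1000, h.L10]

theorem F2 : 2 + L ≤ x / V0 := by
  have h1 := h.L10
  have h2 := h.Lx
  rw [le_div_iff₀ h.V0pos, h.hV0]
  nlinarith

theorem w4 : Real.exp 4 ≤ w := by rw [h.hw]; exact Real.exp_le_exp.mpr h.F1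

theorem w4x : 4 * x ≤ w := by
  have h1 : Real.exp (2 + L) ≤ w := by rw [h.hw]; exact Real.exp_le_exp.mpr h.F2
  rw [Real.exp_add, h.expL] at h1
  have h2 : (4 : ℝ) ≤ Real.exp 2 := by
    have h3 := Real.add_one_le_exp (1 : ℝ)
    have h4 : Real.exp 2 = Real.exp 1 * Real.exp 1 := by rw [← Real.exp_add]; norm_num
    rw [h4]
    nlinarith
  have := h.x1
  nlinarith

theorem logY2 : Real.log (Y ^ 2) = 2 * x := by
  rw [Real.log_pow, ← h.hx]
  norm_num

theorem lY2 : Real.log (Y + 2) ≤ 2 * x := by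
  have := h.Y16
  rw [← h.logY2]
  exact Real.log_le_log (by linarith) (by nlinarith)

theorem lY2' : 1 ≤ Real.log (Y + 2) := by
  have h1 := h.Y16
  have h2 : x ≤ Real.log (Y + 2) := by
    rw [h.hx]
    exact Real.log_le_log (by linarith) (by linarith)
  linarith [h.x1]

theorem YX : Y ≤ X := by
  have h0 := h.Y16
  have hC := h.Ct0
  have hl := h.lY2'
  rw [h.hX]
  have h1 : Y ≤ (Ct + 1) * Y := by nlinarith
  have h2 : 0 ≤ (Ct + 1) * Y := by positivity
  nlinarith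

theorem X2 : X ≤ (Ct + 1) * Y * (2 * x) := by
  have h0 := h.Y16
  have hC := h.Ct0
  rw [h.hX]
  exact mul_le_mul_of_nonneg_left h.lY2 (by positivity)

theorem XYY : X ≤ Y ^ 2 := by
  have h0 := h.Y16
  have hx1 := h.x1
  have hxL := h.x1000
  have hLC := h.LC
  have hL10 := h.L10
  have h1 : (x / 2 + 1) ^ 2 ≤ Y := by
    have h2 := Real.add_one_le_exp (x / 2)
    have h3 : Y = Real.exp (x / 2) ^ 2 := by
      rw [← Real.exp_nat_mul, ← h.expx]
      congr 1
      push_cast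
      ring
    rw [h3]
    exact pow_le_pow_left₀ (by linarith) h2 2
  have h4 : (Ct + 1) * (2 * x) ≤ Y := by
    have : (Ct + 1) * (2 * x) ≤ L * (2 * x) := mul_le_mul_of_nonneg_right hLC (by linarith)
    nlinarith
  calc X ≤ (Ct + 1) * Y * (2 * x) := h.X2
    _ = Y * ((Ct + 1) * (2 * x)) := by ring
    _ ≤ Y * Y := mul_le_mul_of_nonneg_left h4 (by linarith)
    _ = Y ^ 2 := by ring

theorem lX : Real.log X ≤ 2 * x := by
  have h0 := h.Y16
  have h1 := h.YX
  rw [← h.logY2]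
  exact Real.log_le_log (by linarith) h.XYY

theorem ll2x : Real.log (2 * x) ≤ L + 1 := by
  have h1 := h.x1
  have hl2 : Real.log 2 ≤ 1 := by
    have := Real.log_two_lt_d9
    linarith
  rw [Real.log_mul (by norm_num) (by linarith), ← h.hL]
  linarith

theorem lev_lt (q : ℕ) (hq : q.Prime) (hqX : (q : ℝ) ≤ X) : lev q < T := by
  have hq2 : (2 : ℝ) ≤ q := by exact_mod_cast hq.two_le
  have hlq : 0 < Real.log q := Real.log_pos (by linarith)
  have h1 : Real.log (Real.log q) ≤ L + 1 := by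
    refine le_trans (Real.log_le_log hlq ?_) h.ll2x
    exact (Real.log_le_log (by linarith) hqX).trans h.lX
  have h2 : lev q ≤ ⌊L + 1⌋₊ := Nat.floor_mono h1
  rw [Nat.floor_add_one (by linarith [h.L10])] at h2
  rw [h.hT]
  omega

theorem le_X (ht : ∀ n : ℕ, 1 ≤ n → (n : ℝ) ≤ Ct * Nat.totient n * Real.log (Nat.totient n + 2)) (n : ℕ)
    (hn : 1 ≤ n) (hv : (Nat.totient n : ℝ) ≤ Y) : (n : ℝ) ≤ X := by
  have hY16 := h.Y16
  have hCt := h.Ct0
  refine (ht n hn).trans ?_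
  rw [h.hX]
  have h1 : (0 : ℝ) ≤ Real.log ((Nat.totient n : ℝ) + 2) := Real.log_nonneg (by
    have : (0 : ℝ) ≤ Nat.totient n := by positivity
    linarith)
  have h2 : Real.log ((Nat.totient n : ℝ) + 2) ≤ Real.log (Y + 2) := by
    apply Real.log_le_log
    · positivity
    · linarith
  have h3 : Ct * (Nat.totient n : ℝ) ≤ (Ct + 1) * Y := by
    have : (0 : ℝ) ≤ Nat.totient n := by positivity
    nlinarith
  exact mul_le_mul h3 h2 h1 (by positivity)

theorem boundA {Cr c : ℝ} (hCr : 0 < Cr) (hc : c ≤ Cr * X * Real.exp (-V0) * Real.log w ^ (5 : ℕ)) :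
    c ≤ 2 * Cr * (Ct + 1) * (Y / x) := by
  have hx1 := h.x1
  have hY16 := h.Y16
  have hCt := h.Ct0
  have hL10 := h.L10
  have hX := h.X2
  have hYX := h.YX
  have hV := h.V0pos
  refine hc.trans ?_
  rw [h.logw]
  have h2 : x / V0 ≤ x := div_le_self (by linarith) (by rw [h.hV0]; linarith)
  have h3 : (x / V0) ^ 5 ≤ x ^ 5 := pow_le_pow_left₀ (by positivity) h2 5
  have h4 : Real.exp (-V0) ≤ (x ^ 7)⁻¹ := by
    rw [Real.exp_neg]
    apply inv_anti₀ (by positivity)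
    rw [← h.expL, ← Real.exp_nat_mul]
    apply Real.exp_le_exp.mpr
    rw [h.hV0]
    push_cast
    linarith
  calc Cr * X * Real.exp (-V0) * (x / V0) ^ 5
      ≤ Cr * ((Ct + 1) * Y * (2 * x)) * (x ^ 7)⁻¹ * x ^ 5 := by
        have := Real.exp_pos (-V0)
        have hXpos : 0 < X := by linarith
        gcongr
    _ = 2 * Cr * (Ct + 1) * (Y / x) := by
        field_simp

theorem boundB {c : ℝ} (hc : c ≤ 2 * Y / ⌊w⌋₊) : c ≤ Y / x := by
  have hx1 := h.x1
  have hY16 := h.Y16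
  refine hc.trans ?_
  have h2 : w - 1 < ⌊w⌋₊ := Nat.sub_one_lt_floor w
  have h4 := h.w4x
  have h3 : 2 * x ≤ ⌊w⌋₊ := by linarith
  rw [div_le_div_iff₀ (by linarith) (by linarith)]
  nlinarith

theorem hΛ : 1 ≤ Real.log (L + 3) := by
  rw [Real.le_log_iff_exp_le (by linarith [h.L10])]
  have := Real.exp_one_lt_d9
  linarith [h.L10]

theorem boundC1 {Cp : ℝ} (hCp : 0 < Cp) : 0 ≤ (1 + LL (2 * Y)) ^ Cp ∧
    (1 + LL (2 * Y)) ^ Cp ≤ Real.exp (Cp * Real.log (L + 3) ^ 2) := by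
  have hx1 := h.x1
  have hY16 := h.Y16
  have hL10 := h.L10
  have hΛ := h.hΛ
  set Λ := Real.log (L + 3) with hΛdef
  have hexΛ : Real.exp Λ = L + 3 := by
    rw [hΛdef, Real.exp_log (by linarith)]
  have h3 : 1 + LL (2 * Y) ≤ L + 3 := by
    have : LL (2 * Y) ≤ L + 1 := by
      unfold LL
      refine le_trans (Real.log_le_log (Real.log_pos (by linarith)) ?_) h.ll2x
      rw [Real.log_mul (by norm_num) (by linarith), ← h.hx]
      have := Real.log_two_lt_d9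
      linarith
    linarith
  have h3' : 0 < 1 + LL (2 * Y) := by
    have : 0 ≤ LL (2 * Y) := by
      unfold LL
      apply Real.log_nonneg
      rw [Real.le_log_iff_exp_le (by linarith)]
      have := Real.exp_one_lt_d9
      linarith
    linarith
  refine ⟨Real.rpow_nonneg h3'.le _, ?_⟩
  calc (1 + LL (2 * Y)) ^ Cp ≤ (L + 3) ^ Cp := Real.rpow_le_rpow h3'.le h3 hCp.le
    _ = Real.exp (Cp * Λ) := by
        rw [← hexΛ, ← Real.exp_mul, mul_comm]
    _ ≤ Real.exp (Cp * Λ ^ 2) := by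
        apply Real.exp_le_exp.mpr
        apply mul_le_mul_of_nonneg_left _ hCp.le
        nlinarith

theorem boundC2 {Cw M : ℝ} (hCw : 0 < Cw) (hM : M ≤ Real.exp (Cw * Real.log (T + 2) ^ 2)) :
    M ≤ Real.exp (4 * Cw * Real.log (L + 3) ^ 2) := by
  have hL10 := h.L10
  have hΛ := h.hΛ
  set Λ := Real.log (L + 3) with hΛdef
  have hexΛ : Real.exp Λ = L + 3 := by
    rw [hΛdef, Real.exp_log (by linarith)]
  refine hM.trans ?_
  apply Real.exp_le_exp.mpr
  have h7 : Real.log ((T : ℝ) + 2) ≤ 2 * Λ := by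
    have h8 : (T : ℝ) + 2 ≤ (L + 3) ^ 2 := by
      have h9 : (T : ℝ) ≤ L + 2 := by
        rw [h.hT]
        push_cast
        have := Nat.floor_le (show 0 ≤ L by linarith)
        linarith
      nlinarith
    calc Real.log ((T : ℝ) + 2) ≤ Real.log ((L + 3) ^ 2) := Real.log_le_log (by positivity) h8
      _ = 2 * Λ := by
          rw [Real.log_pow, ← hexΛ, Real.log_exp]
          norm_num
  have h10 : 0 ≤ Real.log ((T : ℝ) + 2) := Real.log_nonneg (by
    have : (0 : ℝ) ≤ T := by positivity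
    linarith)
  have h11 : Real.log ((T : ℝ) + 2) ^ 2 ≤ (2 * Λ) ^ 2 := pow_le_pow_left₀ h10 h7 2
  calc Cw * Real.log ((T : ℝ) + 2) ^ 2 ≤ Cw * (2 * Λ) ^ 2 := mul_le_mul_of_nonneg_left h11 hCw.le
    _ = 4 * Cw * Λ ^ 2 := by ring

theorem boundC {Cp Cw c M : ℝ} (hCp : 0 < Cp) (hCw : 0 < Cw) (hM0 : 0 ≤ M)
    (hM : M ≤ Real.exp (Cw * Real.log (T + 2) ^ 2)) (hc : c ≤ Cp * (1 + LL (2 * Y)) ^ Cp * Y / Real.log w * M) :
    c ≤ 20 * Cp * Real.exp ((Cp + 1 + 4 * Cw) * Real.log (L + 3) ^ 2) * (Y / x) := by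
  obtain ⟨h3, h4⟩ := h.boundC1 hCp
  have h6 := h.boundC2 hCw hM
  have hx1 := h.x1
  have hY16 := h.Y16
  have hL10 := h.L10
  have hΛ := h.hΛ
  have hV := h.V0pos
  set Λ := Real.log (L + 3) with hΛdef
  have hexΛ : Real.exp Λ = L + 3 := by
    rw [hΛdef, Real.exp_log (by linarith)]
  refine hc.trans ?_
  have h5 : V0 ≤ 20 * Real.exp (Λ ^ 2) := by
    have : Real.exp Λ ≤ Real.exp (Λ ^ 2) := Real.exp_le_exp.mpr (by nlinarith)
    rw [h.hV0]
    linarith
  calc Cp * (1 + LL (2 * Y)) ^ Cp * Y / Real.log w * M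
      = Cp * (1 + LL (2 * Y)) ^ Cp * V0 * M * (Y / x) := by
        rw [h.logw]
        field_simp
    _ ≤ Cp * Real.exp (Cp * Λ ^ 2) * (20 * Real.exp (Λ ^ 2)) * Real.exp (4 * Cw * Λ ^ 2) * (Y / x) := by
        gcongr
    _ = 20 * Cp * Real.exp ((Cp + 1 + 4 * Cw) * Λ ^ 2) * (Y / x) := by
        have : Real.exp ((Cp + 1 + 4 * Cw) * Λ ^ 2) =
            Real.exp (Cp * Λ ^ 2) * Real.exp (Λ ^ 2) * Real.exp (4 * Cw * Λ ^ 2) := by
          rw [← Real.exp_add, ← Real.exp_add]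
          congr 1
          ring
        rw [this]
        ring

end VbP

/-- the bound for large `Y` -/
theorem vb_large : ∃ Y₀ C : ℝ, 16 ≤ Y₀ ∧ 0 < C ∧ ∀ Y : ℝ, Y₀ ≤ Y →
    (V Y : ℝ) ≤ Y / Real.log Y * Real.exp (C * Real.log (LL Y + 3) ^ 2) := by
  classical
  obtain ⟨Ct, hCt, ht⟩ := totient_lower
  obtain ⟨Cr, hCr, hr⟩ := vb_rank
  obtain ⟨Cp, hCp, hp⟩ := vb_pr
  obtain ⟨Cw, hCw, hw⟩ := wbound
  obtain ⟨x₀, hx₀, hx⟩ := vb_grow (max 10 (Ct + 1))
  obtain ⟨K, hK⟩ : ∃ K : ℝ, K = Cp + 1 + 4 * Cw := ⟨_, rfl⟩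
  obtain ⟨M, hM⟩ : ∃ M : ℝ, M = 2 * Cr * (Ct + 1) + 1 + 20 * Cp := ⟨_, rfl⟩
  have hM1 : 1 ≤ M := by
    have : 0 ≤ 2 * Cr * (Ct + 1) := by positivity
    linarith
  refine ⟨max 16 (Real.exp x₀), K + Real.log M, le_max_left _ _, ?_, ?_⟩
  · have : 0 ≤ Real.log M := Real.log_nonneg hM1
    linarith
  intro Y hY
  have hY16 : (16 : ℝ) ≤ Y := le_trans (le_max_left _ _) hY
  have hYx : Real.exp x₀ ≤ Y := le_trans (le_max_right _ _) hY
  have hY0 : 0 < Y := by linarith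
  obtain ⟨x, hxdef⟩ : ∃ x, x = Real.log Y := ⟨_, rfl⟩
  obtain ⟨L, hLdef⟩ : ∃ L, L = Real.log x := ⟨_, rfl⟩
  have hxx : x₀ ≤ x := by
    rw [hxdef, Real.le_log_iff_exp_le hY0]
    exact hYx
  obtain ⟨hLB, hLx⟩ := hx x hxx
  rw [← hLdef] at hLB hLx
  obtain ⟨V0, hV0⟩ : ∃ V0 : ℝ, V0 = 20 * (1 + L) := ⟨_, rfl⟩
  obtain ⟨w, hwdef⟩ : ∃ w : ℝ, w = Real.exp (x / V0) := ⟨_, rfl⟩
  obtain ⟨X, hX⟩ : ∃ X : ℝ, X = (Ct + 1) * Y * Real.log (Y + 2) := ⟨_, rfl⟩
  obtain ⟨T, hT⟩ : ∃ T : ℕ, T = ⌊L⌋₊ + 2 := ⟨_, rfl⟩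
  have P : VbP Ct Y x L V0 w X T := ⟨hCt, hxdef, hLdef, hV0, hwdef, hX, hT, hY16, le_trans (le_max_left _ _) hLB,
    le_trans (le_max_right _ _) hLB, hLx⟩
  have hL10 := P.L10
  have hx1 := P.x1
  have hw4x := P.w4x
  have hYX := P.YX
  obtain ⟨FA, FB, FC, hcov, hA, hB, hC⟩ := vb_cover Y X w T hY0.le (by linarith) (by linarith) (P.le_X ht) P.lev_lt
  have hbA := P.boundA hCr (hr w X V0 P.w4 (by rw [hV0]; linarith) (by linarith) (by
      rw [P.logw, mul_div_cancel₀ _ P.V0pos.ne', hxdef]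
      exact Real.log_le_log hY0 P.YX) FA hA)
  have hbB := P.boundB (vb_sq ⌊w⌋₊ ⌊X⌋₊ (Nat.floor_pos.mpr (by linarith)) Y hY0.le FB hB)
  have hbC := P.boundC hCp hCw mass_nonneg (hw T ⌈Y⌉₊)
    (hp Y w ⌈Y⌉₊ (Wset T) hY16 (by linarith) (Nat.le_ceil Y) FC hC)
  -- conclusion
  have hΛ := P.hΛ
  rw [P.LLY]
  obtain ⟨Λ, hΛdef⟩ : ∃ Λ, Λ = Real.log (L + 3) := ⟨_, rfl⟩
  rw [← hΛdef] at hΛ hbC ⊢
  rw [← hK] at hbC
  have hΛ2 : 1 ≤ Λ ^ 2 := by nlinarith
  have hcard : (V Y : ℝ) ≤ FA.card + (FB.card + FC.card) := by exact_mod_cast hcov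
  have hexp1 : 1 ≤ Real.exp (K * Λ ^ 2) := by
    apply Real.one_le_exp
    have : 0 < K := by rw [hK]; linarith
    positivity
  have hYx0 : 0 < Y / x := by positivity
  rw [← hxdef]
  calc (V Y : ℝ) ≤ FA.card + (FB.card + FC.card) := hcard
    _ ≤ 2 * Cr * (Ct + 1) * (Y / x) + (Y / x + 20 * Cp * Real.exp (K * Λ ^ 2) * (Y / x)) :=
        add_le_add hbA (add_le_add hbB hbC)
    _ = Y / x * (2 * Cr * (Ct + 1) + 1 + 20 * Cp * Real.exp (K * Λ ^ 2)) := by ring
    _ ≤ Y / x * (M * Real.exp (K * Λ ^ 2)) := by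
        apply mul_le_mul_of_nonneg_left _ hYx0.le
        rw [hM]
        have h1 : 0 ≤ 2 * Cr * (Ct + 1) + 1 := by positivity
        nlinarith
    _ ≤ Y / x * Real.exp ((K + Real.log M) * Λ ^ 2) := by
        apply mul_le_mul_of_nonneg_left _ hYx0.le
        have h2 : (K + Real.log M) * Λ ^ 2 = Real.log M * Λ ^ 2 + K * Λ ^ 2 := by ring
        rw [h2, Real.exp_add]
        apply mul_le_mul_of_nonneg_right _ (Real.exp_pos _).le
        have h3 : M = Real.exp (Real.log M) := (Real.exp_log (by linarith)).symm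
        have h4 : Real.log M ≤ Real.log M * Λ ^ 2 := by
          have := Real.log_nonneg hM1
          nlinarith
        calc M = Real.exp (Real.log M) := h3
          _ ≤ Real.exp (Real.log M * Λ ^ 2) := Real.exp_le_exp.mpr h4

theorem vbound : ∃ C : ℝ, 0 < C ∧ ∀ Y : ℝ, 16 ≤ Y →
    (V Y : ℝ) ≤ Y / Real.log Y * Real.exp (C * Real.log (LL Y + 3) ^ 2) := by
  obtain ⟨Y₀, C, hY₀, hC, h⟩ := vb_large
  refine ⟨C + Real.log (2 * Real.log Y₀), ?_, ?_⟩
  · have : 0 ≤ Real.log (2 * Real.log Y₀) := by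
      apply Real.log_nonneg
      have : 1 ≤ Real.log Y₀ := by
        rw [Real.le_log_iff_exp_le (by linarith)]
        have := Real.exp_one_lt_d9
        linarith
      linarith
    linarith
  · intro Y hY
    have hlY : 1 ≤ Real.log Y := by
      rw [Real.le_log_iff_exp_le (by linarith)]
      have := Real.exp_one_lt_d9
      linarith
    have hlY₀ : 1 ≤ Real.log Y₀ := by
      rw [Real.le_log_iff_exp_le (by linarith)]
      have := Real.exp_one_lt_d9
      linarith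
    have hk : 0 ≤ Real.log (2 * Real.log Y₀) := Real.log_nonneg (by linarith)
    have hLL : 0 ≤ LL Y := Real.log_nonneg hlY
    have hL3 : 1 ≤ Real.log (LL Y + 3) := by
      rw [Real.le_log_iff_exp_le (by linarith)]
      have := Real.exp_one_lt_d9
      linarith
    have hL32 : 1 ≤ Real.log (LL Y + 3) ^ 2 := by nlinarith
    rcases le_total Y₀ Y with hYY | hYY
    · refine (h Y hYY).trans ?_
      have : 0 < Y / Real.log Y := by positivity
      gcongr
      linarith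
    · have h1 : (V Y : ℝ) ≤ Y + 1 := by
        have := cnt_le (X := Y) (by linarith) Tot
        rwa [← V_eq_cnt] at this
      have h2 : Real.exp (Real.log (2 * Real.log Y₀)) ≤
          Real.exp ((C + Real.log (2 * Real.log Y₀)) * Real.log (LL Y + 3) ^ 2) := by
        apply Real.exp_le_exp.mpr
        nlinarith
      rw [Real.exp_log (by linarith)] at h2
      have h3 : Real.log Y ≤ Real.log Y₀ := Real.log_le_log (by linarith) hYY
      calc (V Y : ℝ) ≤ Y + 1 := h1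
        _ ≤ Y / Real.log Y * (2 * Real.log Y₀) := by
            rw [div_mul_eq_mul_div, le_div_iff₀ (by linarith)]
            nlinarith
        _ ≤ _ := by
            apply mul_le_mul_of_nonneg_left h2
            positivity

end P031
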