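import Vale.Agent.P031.WBound3

/-!
# P031, module WB4: `wbound`, `badDec_mass`

PROOF of `wbound`.  For given `N` let `W(T) = mass N (Wset T)`.  Let `n` have all levels `< T`.  If all levels
are `< t₀`, then `φ(n) ∈ Wset t₀`.  Otherwise let `t ≥ t₀` be the largest level of a prime of `n`.  Either
`φ(n) ∈ badDec t`, or at most `60` primes of `n` satisfy `t ≤ 10 lev q`; then split `n = n₁ n₂` into the part
`n₁` with `t ≤ 10 lev q` (at most 60 prime powers; `∑ 1/φ(q^e) ≤ C (T+1)` over all prime powers with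
`lev q < T`) and the part `n₂` with `10 lev q < t`, `φ(n₂) ∈ Wset (T/10 + 1)` (`mass_mul_le` repeatedly).
Hence `W(T) ≤ W(t₀) + (C (T+1))^60 W(T/10 + 1) + ∑_{t₀ ≤ t < T} (e^{-t} + e^{-t/300} W(t+1))`, and the last
sum is `≤ 1 + W(T)/2` for `t₀` large.  So `W(T) ≤ 2 W(t₀) + 2 + 2 (C (T+1))^60 W(T/10+1)`, `W(t₀) = O(1)` by
`totient_smooth_mass`; strong induction on `T` gives `W(T) ≤ exp (C log² (T+2))`.
-/

namespace P031

open scoped BigOperators

theorem wb_mass_cover {N : ℕ} {ι : Type*} (s : Finset ι) (B : ι → Set ℕ) (D : Set ℕ)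
    (h : ∀ d ∈ D, d ≤ N → 1 ≤ d → ∃ i ∈ s, d ∈ B i) : mass N D ≤ ∑ i ∈ s, mass N (B i) := by
  classical
  unfold mass
  rw [Finset.sum_comm]
  apply Finset.sum_le_sum
  intro m hm
  rw [Finset.mem_Icc] at hm
  by_cases hD : m ∈ D
  · obtain ⟨i, hi, hmi⟩ := h m hD hm.2 hm.1
    rw [Set.indicator_of_mem hD]
    calc 1 / (m : ℝ) = Set.indicator (B i) (fun m : ℕ => 1 / (m : ℝ)) m := by
          rw [Set.indicator_of_mem hmi]
      _ ≤ _ := Finset.single_le_sum
          (f := fun i => Set.indicator (B i) (fun m : ℕ => 1 / (m : ℝ)) m)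
          (fun j _ => Set.indicator_nonneg (fun x _ => by positivity) m) hi
  · rw [Set.indicator_of_notMem hD]
    exact Finset.sum_nonneg (fun j _ => Set.indicator_nonneg (fun x _ => by positivity) m)

theorem wb_mass_singleton {N a : ℕ} : mass N {a} ≤ 1 / (a : ℝ) := by
  classical
  unfold mass
  calc ∑ m ∈ Finset.Icc 1 N, Set.indicator {a} (fun m : ℕ => 1 / (m : ℝ)) m
      = ∑ m ∈ Finset.Icc 1 N, if m = a then 1 / (a : ℝ) else 0 := by
        apply Finset.sum_congr rfl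
        intro m _
        by_cases h : m = a
        · subst h; simp
        · simp [h]
    _ ≤ 1 / a := by
        rw [Finset.sum_ite_eq']
        split_ifs
        · exact le_rfl
        · positivity

theorem wb_geom {x : ℝ} (h0 : 0 ≤ x) (h1 : x ≤ 1 / 2) (n : ℕ) :
    ∑ e ∈ Finset.range n, x ^ e ≤ 2 := by
  induction n with
  | zero => simp
  | succ n ih =>
    rw [Finset.sum_range_succ']
    simp only [pow_succ, pow_zero]
    rw [← Finset.sum_mul]
    nlinarith

/-- prime powers part -/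
def wbQ (q : ℕ) : Set ℕ := {a | ∃ e : ℕ, a = q ^ e * (q - 1)}

theorem wb_massQ {N q : ℕ} (hq : q.Prime) : mass N (wbQ q) ≤ 4 / (q : ℝ) := by
  have hq2 : (2 : ℝ) ≤ q := by exact_mod_cast hq.two_le
  have hq1 : ((q - 1 : ℕ) : ℝ) = (q : ℝ) - 1 := by
    rw [Nat.cast_sub hq.one_le]; simp
  have h1 : mass N (wbQ q) ≤ ∑ e ∈ Finset.range (N + 1), mass N {q ^ e * (q - 1)} := by
    apply wb_mass_cover
    rintro d ⟨e, rfl⟩ hd _
    refine ⟨e, ?_, rfl⟩
    rw [Finset.mem_range]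
    have h2 : e < q ^ e := Nat.lt_pow_self hq.one_lt
    have h3 : q ^ e * 1 ≤ q ^ e * (q - 1) := Nat.mul_le_mul_left _ (by have := hq.two_le; omega)
    omega
  have h2 : ∑ e ∈ Finset.range (N + 1), mass N {q ^ e * (q - 1)} ≤
      ∑ e ∈ Finset.range (N + 1), (1 / (q : ℝ)) ^ e * (1 / ((q : ℝ) - 1)) := by
    apply Finset.sum_le_sum
    intro e _
    refine (wb_mass_singleton).trans (le_of_eq ?_)
    push_cast
    rw [hq1, one_div_pow, one_div_mul_one_div]
  rw [← Finset.sum_mul] at h2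
  have h3 := wb_geom (x := 1 / (q : ℝ)) (by positivity)
    (by rw [div_le_div_iff₀ (by linarith) (by norm_num)]; linarith) (N + 1)
  have h4 : 1 / ((q : ℝ) - 1) ≤ 2 / q := by
    rw [div_le_div_iff₀ (by linarith) (by linarith)]; linarith
  have h5 : 0 ≤ 1 / ((q : ℝ) - 1) := by
    apply div_nonneg (by norm_num); linarith
  calc mass N (wbQ q) ≤ _ := h1.trans h2
    _ ≤ 2 * (2 / q) := mul_le_mul h3 h4 h5 (by norm_num)
    _ = 4 / q := by ring

/-- totients of prime powers of level `< T`, and `1` -/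
def wbA (T : ℕ) : Set ℕ := {a | a = 1 ∨ ∃ q e : ℕ, q.Prime ∧ lev q < T ∧ a = q ^ e * (q - 1)}

theorem wb_massA : ∃ C : ℝ, 0 < C ∧ ∀ T N : ℕ, mass N (wbA T) ≤ C * (T + 2) := by
  obtain ⟨C, hC, h⟩ := prime_recip
  refine ⟨4 * C + 5, by positivity, ?_⟩
  intro T N
  set x : ℝ := Real.exp (Real.exp ((T : ℝ) + 1)) with hx
  have hx3 : 3 ≤ x := by
    have h1 : (2 : ℝ) ≤ Real.exp ((T : ℝ) + 1) := by
      have := Real.add_one_le_exp ((T : ℝ) + 1)
      have h0 : (0 : ℝ) ≤ T := Nat.cast_nonneg T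
      linarith
    have := Real.add_one_le_exp (Real.exp ((T : ℝ) + 1))
    linarith
  have hLL : LL x = T + 1 := by
    unfold LL
    rw [hx, Real.log_exp, Real.log_exp]
  have h1 := h x hx3
  rw [hLL] at h1
  have h2 := (abs_le.mp h1).2
  have h3 : mass N (wbA T) ≤ mass N {1} + mass N {a | ∃ q e : ℕ, q.Prime ∧ lev q < T ∧
      a = q ^ e * (q - 1)} := by
    refine le_trans (mass_mono ?_) mass_union
    rintro a (ha | ha)
    · exact Or.inl ha
    · exact Or.inr ha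
  have h4 : mass N {a | ∃ q e : ℕ, q.Prime ∧ lev q < T ∧ a = q ^ e * (q - 1)} ≤
      ∑ q ∈ (Finset.Icc 1 ⌊x⌋₊).filter Nat.Prime, mass N (wbQ q) := by
    apply wb_mass_cover
    rintro d ⟨q, e, hq, hl, rfl⟩ _ _
    refine ⟨q, ?_, e, rfl⟩
    rw [Finset.mem_filter, Finset.mem_Icc]
    refine ⟨⟨hq.one_le, ?_⟩, hq⟩
    apply Nat.le_floor
    have h5 := (lev_lt_iff (s := T + 1) (r := q) (by omega)).mp (by omega)
    push_cast at h5
    exact h5.le
  have h5 : ∑ q ∈ (Finset.Icc 1 ⌊x⌋₊).filter Nat.Prime, mass N (wbQ q) ≤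
      4 * ∑ q ∈ (Finset.Icc 1 ⌊x⌋₊).filter Nat.Prime, 1 / (q : ℝ) := by
    rw [Finset.mul_sum]
    apply Finset.sum_le_sum
    intro q hq
    refine (wb_massQ (Finset.mem_filter.mp hq).2).trans (le_of_eq ?_)
    ring
  have h6 : mass N {1} ≤ 1 := by
    have := wb_mass_singleton (N := N) (a := 1)
    simpa using this
  have hT : (0 : ℝ) ≤ T := Nat.cast_nonneg T
  nlinarith [mul_nonneg hC.le hT]

/-- totients of integers with at most `k` large primes -/
def wbS (T k : ℕ) : Set ℕ :=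
  {m | ∃ n : ℕ, 1 ≤ n ∧ Nat.totient n = m ∧ (∀ q ∈ n.primeFactors, lev q < T) ∧
    (n.primeFactors.filter (fun q => T / 10 + 1 ≤ lev q)).card ≤ k}

theorem wbS_zero (T : ℕ) : wbS T 0 ⊆ Wset (T / 10 + 1) := by
  rintro m ⟨n, hn, hm, _, hc⟩
  refine ⟨n, hn, hm, ?_⟩
  intro q hq
  by_contra hlt
  push Not at hlt
  have : q ∈ n.primeFactors.filter (fun q => T / 10 + 1 ≤ lev q) :=
    Finset.mem_filter.mpr ⟨hq, hlt⟩
  have h2 := Finset.card_pos.mpr ⟨q, this⟩
  omega

theorem wbS_succ (T k : ℕ) : ∀ d ∈ wbS T (k + 1), 1 ≤ d →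
    ∃ a ∈ wbA T, ∃ b ∈ wbS T k, d = a * b := by
  rintro d ⟨n, hn, hm, hlev, hc⟩ _
  rcases Finset.eq_empty_or_nonempty (n.primeFactors.filter (fun q => T / 10 + 1 ≤ lev q)) with he | hne
  · refine ⟨1, Or.inl rfl, d, ⟨n, hn, hm, hlev, ?_⟩, by simp⟩
    rw [he]; simp
  · obtain ⟨q, hq⟩ := hne
    have hq' := Finset.mem_filter.mp hq
    have hqn := Nat.mem_primeFactors.mp hq'.1
    have hqp := hqn.1
    set e := n.factorization q with hedef
    have he1 : 1 ≤ e := (hqp.dvd_iff_one_le_factorization (by omega)).mp hqn.2.1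
    set n' := n / q ^ e with hn'
    have hnn : q ^ e * n' = n := Nat.ordProj_mul_ordCompl_eq_self n q
    have hcop : Nat.Coprime q n' := Nat.coprime_ordCompl hqp (by omega)
    have hn'1 : 1 ≤ n' := by
      rcases Nat.eq_zero_or_pos n' with h0 | h0
      · rw [h0, mul_zero] at hnn; omega
      · exact h0
    have hn'd : n' ∣ n := ⟨q ^ e, by rw [mul_comm]; exact hnn.symm⟩
    have hsub : ∀ q' ∈ n'.primeFactors, q' ∈ n.primeFactors ∧ q' ≠ q := by
      intro q' hq'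
      have h1 := Nat.mem_primeFactors.mp hq'
      refine ⟨Nat.mem_primeFactors.mpr ⟨h1.1, h1.2.1.trans hn'd, by omega⟩, ?_⟩
      rintro rfl
      have h2 := Nat.Coprime.eq_one_of_dvd hcop h1.2.1
      exact h1.1.one_lt.ne' h2
    refine ⟨q ^ (e - 1) * (q - 1), Or.inr ⟨q, e - 1, hqp, hlev q hq'.1, rfl⟩, Nat.totient n',
      ⟨n', hn'1, rfl, fun q' h => hlev q' (hsub q' h).1, ?_⟩, ?_⟩
    · have h1 : n'.primeFactors.filter (fun q => T / 10 + 1 ≤ lev q) ⊆
          (n.primeFactors.filter (fun q => T / 10 + 1 ≤ lev q)).erase q := by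
        intro q' h
        have h2 := Finset.mem_filter.mp h
        rw [Finset.mem_erase, Finset.mem_filter]
        exact ⟨(hsub q' h2.1).2, (hsub q' h2.1).1, h2.2⟩
      have h2 := Finset.card_le_card h1
      rw [Finset.card_erase_of_mem hq] at h2
      omega
    · rw [← hm, ← hnn, Nat.totient_mul (Nat.Coprime.pow_left e hcop),
        Nat.totient_prime_pow hqp (by omega)]

theorem wb_massS {T N : ℕ} {M : ℝ} (hM : mass N (wbA T) ≤ M) (k : ℕ) :
    mass N (wbS T k) ≤ M ^ k * mass N (Wset (T / 10 + 1)) := by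
  induction k with
  | zero => simpa using mass_mono (wbS_zero T)
  | succ k ih =>
    have h1 := mass_mul_le (N := N) (wbS_succ T k)
    have h0 : 0 ≤ M := le_trans mass_nonneg hM
    calc mass N (wbS T (k + 1)) ≤ _ := h1
      _ ≤ M * (M ^ k * mass N (Wset (T / 10 + 1))) := mul_le_mul hM ih mass_nonneg h0
      _ = _ := by ring

theorem Wset_mono {s t : ℕ} (h : s ≤ t) : Wset s ⊆ Wset t := by
  rintro m ⟨n, hn, hm, hl⟩
  exact ⟨n, hn, hm, fun q hq => lt_of_lt_of_le (hl q hq) h⟩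

theorem wb_cover (t₀ T : ℕ) : Wset T ⊆
    Wset t₀ ∪ ({m | ∃ t ∈ Finset.Ico t₀ T, m ∈ badDec t} ∪ wbS T 60) := by
  rintro m ⟨n, hn, hm, hl⟩
  by_cases h0 : ∀ q ∈ n.primeFactors, lev q < t₀
  · exact Or.inl ⟨n, hn, hm, h0⟩
  · push Not at h0
    obtain ⟨q₀, hq₀, hlq₀⟩ := h0
    right
    set t := n.primeFactors.sup lev with ht
    have htle : ∀ q ∈ n.primeFactors, lev q ≤ t := fun q hq => Finset.le_sup hq
    have ht0 : t₀ ≤ t := hlq₀.trans (htle q₀ hq₀)
    have htT : t < T := by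
      rw [ht]
      have hT : 0 < T := lt_of_le_of_lt (Nat.zero_le _) (hl q₀ hq₀)
      exact (Finset.sup_lt_iff (by simpa using hT)).mpr hl
    by_cases hc : 61 ≤ (n.primeFactors.filter (fun q => t ≤ 10 * lev q)).card
    · left
      exact ⟨t, Finset.mem_Ico.mpr ⟨ht0, htT⟩, n, hn, hm, htle, hc⟩
    · right
      refine ⟨n, hn, hm, hl, ?_⟩
      refine le_trans (Finset.card_le_card ?_) (by omega :
        (n.primeFactors.filter (fun q => t ≤ 10 * lev q)).card ≤ 60)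
      intro q hq
      have h1 := Finset.mem_filter.mp hq
      exact Finset.mem_filter.mpr ⟨h1.1, by omega⟩

theorem wb_expsum (t₀ T : ℕ) (h0 : 3000 ≤ t₀) :
    ∑ t ∈ Finset.Ico t₀ T, Real.exp (-(t : ℝ) / 300) ≤ 1 / 2 := by
  -- telescoping: `exp (-t/300) ≤ 301 (exp (-t/300) - exp (-(t+1)/300))`
  have hstep : ∀ t : ℕ, Real.exp (-(t : ℝ) / 300) ≤
      301 * Real.exp (-(t : ℝ) / 300) - 301 * Real.exp (-((t + 1 : ℕ) : ℝ) / 300) := by
    intro t
    have h1 : Real.exp (-((t + 1 : ℕ) : ℝ) / 300) =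
        Real.exp (-(t : ℝ) / 300) * Real.exp (-(1 : ℝ) / 300) := by
      rw [← Real.exp_add]; congr 1; push_cast; ring
    have h2 : Real.exp (-(1 : ℝ) / 300) ≤ 300 / 301 := by
      have h3 := Real.add_one_le_exp ((1 : ℝ) / 300)
      have h4 : Real.exp (-(1 : ℝ) / 300) = (Real.exp ((1 : ℝ) / 300))⁻¹ := by
        rw [← Real.exp_neg]; congr 1; ring
      rw [h4, inv_le_comm₀ (Real.exp_pos _) (by norm_num)]
      norm_num at h3 ⊢
      linarith
    rw [h1]
    have h5 := Real.exp_pos (-(t : ℝ) / 300)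
    nlinarith
  have hsum : ∀ T, t₀ ≤ T → ∑ t ∈ Finset.Ico t₀ T, Real.exp (-(t : ℝ) / 300) ≤
      301 * Real.exp (-(t₀ : ℝ) / 300) - 301 * Real.exp (-(T : ℝ) / 300) := by
    intro T hT
    induction T, hT using Nat.le_induction with
    | base => simp
    | succ T hT ih =>
      rw [Finset.sum_Ico_succ_top hT]
      have := hstep T
      linarith
  rcases le_total t₀ T with h | h
  · have h1 := hsum T h
    have h2 := Real.exp_pos (-(T : ℝ) / 300)
    have h3 : Real.exp (-(t₀ : ℝ) / 300) ≤ 1 / 1000 := by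
      have h4 : (3000 : ℝ) ≤ t₀ := by exact_mod_cast h0
      have h5 : Real.exp (-(t₀ : ℝ) / 300) ≤ Real.exp (-10) := by
        apply Real.exp_le_exp.mpr; linarith
      have h6 : Real.exp (-10) ≤ 1 / 1000 := by
        have h7 : Real.exp (-10) = (Real.exp 1 ^ 10)⁻¹ := by
          rw [← Real.exp_nat_mul, ← Real.exp_neg]; norm_num
        rw [h7]
        have h8 : (2 : ℝ) ≤ Real.exp 1 := by
          have := Real.add_one_le_exp (1 : ℝ); linarith
        have h9 : (2 : ℝ) ^ 10 ≤ Real.exp 1 ^ 10 := pow_le_pow_left₀ (by norm_num) h8 10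
        rw [inv_le_comm₀ (by positivity) (by norm_num)]
        norm_num at h9 ⊢
        linarith
      linarith
    linarith
  · rw [Finset.Ico_eq_empty_of_le h]; simp

theorem wb_pow {a : ℝ} (ha : 0 ≤ a) (k : ℕ) (hk : 1 ≤ k) : 2 * a ^ k ≤ (2 * a) ^ k := by
  rw [mul_pow]
  apply mul_le_mul_of_nonneg_right _ (pow_nonneg ha k)
  calc (2 : ℝ) = 2 ^ 1 := by norm_num
    _ ≤ 2 ^ k := pow_le_pow_right₀ (by norm_num) hk

theorem wb_rec : ∃ (t₀ : ℕ) (K C : ℝ), 3000 ≤ t₀ ∧ 1 ≤ K ∧ 1 ≤ C ∧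
    (∀ N, mass N (Wset t₀) ≤ K) ∧
    ∀ T N : ℕ, mass N (Wset T) ≤ K + (C * (T + 2)) ^ 60 * mass N (Wset (T / 10 + 1)) := by
  obtain ⟨t₁, h1⟩ := badDec_mass'
  obtain ⟨C₁, hC₁, hA⟩ := wb_massA
  obtain ⟨C₂, hC₂, hS⟩ := totient_smooth_mass
  set t₀ := max t₁ 3000 with ht₀
  have ht₀3 : 3000 ≤ t₀ := le_max_right _ _
  have ht₀1 : t₁ ≤ t₀ := le_max_left _ _
  set z : ℝ := Real.exp (Real.exp (t₀ : ℝ)) with hz
  set K₁ : ℝ := C₂ * Real.log z ^ 2 with hK₁
  have hK₁0 : 0 ≤ K₁ := by positivity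
  have hbase : ∀ N, mass N (Wset t₀) ≤ K₁ := by
    intro N
    have hz3 : 3 ≤ z := by
      have h2 : (3000 : ℝ) ≤ t₀ := by exact_mod_cast ht₀3
      have h3 := Real.add_one_le_exp (t₀ : ℝ)
      have h4 := Real.add_one_le_exp (Real.exp (t₀ : ℝ))
      linarith
    refine le_trans (mass_mono ?_) (hS z N hz3)
    rintro m ⟨n, hn, hm, hl⟩
    refine ⟨n, ⟨hn, ?_⟩, hm⟩
    intro r hr hrn
    have h2 := hl r (Nat.mem_primeFactors.mpr ⟨hr, hrn, by omega⟩)
    exact ((lev_lt_iff (by omega)).mp h2).le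
  refine ⟨t₀, 2 * K₁ + 2, 2 * C₁ + 2, ht₀3, by linarith, by linarith, ?_, ?_⟩
  · intro N
    have := hbase N
    linarith
  intro T N
  have hW0 : (0 : ℝ) ≤ mass N (Wset (T / 10 + 1)) := mass_nonneg
  have hcov : mass N (Wset T) ≤ mass N (Wset t₀) +
      (mass N {m | ∃ t ∈ Finset.Ico t₀ T, m ∈ badDec t} + mass N (wbS T 60)) := by
    refine le_trans (mass_mono (wb_cover t₀ T)) ?_
    refine le_trans mass_union ?_
    gcongr
    exact mass_union
  have hbad : mass N {m | ∃ t ∈ Finset.Ico t₀ T, m ∈ badDec t} ≤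
      ∑ t ∈ Finset.Ico t₀ T, mass N (badDec t) := by
    apply wb_mass_cover
    rintro d ⟨t, ht, hd⟩ _ _
    exact ⟨t, ht, hd⟩
  have hbad2 : ∑ t ∈ Finset.Ico t₀ T, mass N (badDec t) ≤
      ∑ t ∈ Finset.Ico t₀ T, (Real.exp (-(t : ℝ) / 300) * (1 + mass N (Wset T))) := by
    apply Finset.sum_le_sum
    intro t ht
    rw [Finset.mem_Ico] at ht
    refine (h1 t (ht₀1.trans ht.1) N).trans ?_
    have h2 : mass N (Wset (t + 1)) ≤ mass N (Wset T) := mass_mono (Wset_mono (by omega))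
    have h3 : Real.exp (-(t : ℝ)) ≤ Real.exp (-(t : ℝ) / 300) := by
      apply Real.exp_le_exp.mpr
      have : (0 : ℝ) ≤ t := Nat.cast_nonneg t
      linarith
    have h4 := Real.exp_pos (-(t : ℝ) / 300)
    nlinarith
  rw [← Finset.sum_mul] at hbad2
  have hes := wb_expsum t₀ T ht₀3
  have hWT : 0 ≤ mass N (Wset T) := mass_nonneg
  have hbad3 : (∑ t ∈ Finset.Ico t₀ T, Real.exp (-(t : ℝ) / 300)) * (1 + mass N (Wset T)) ≤
      1 / 2 * (1 + mass N (Wset T)) := by
    apply mul_le_mul_of_nonneg_right hes; linarith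
  have hSS := wb_massS (hA T N) 60
  have hb := hbase N
  have hpow : 2 * (C₁ * ((T : ℝ) + 2)) ^ 60 ≤ ((2 * C₁ + 2) * ((T : ℝ) + 2)) ^ 60 := by
    have hT : (0 : ℝ) ≤ T := Nat.cast_nonneg T
    have h5 : 0 ≤ C₁ * ((T : ℝ) + 2) := by positivity
    refine (wb_pow h5 60 (by norm_num)).trans ?_
    apply pow_le_pow_left₀ (by positivity)
    nlinarith
  have hfin : 2 * (C₁ * ((T : ℝ) + 2)) ^ 60 * mass N (Wset (T / 10 + 1)) ≤
      ((2 * C₁ + 2) * ((T : ℝ) + 2)) ^ 60 * mass N (Wset (T / 10 + 1)) :=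
    mul_le_mul_of_nonneg_right hpow hW0
  generalize (C₁ * ((T : ℝ) + 2)) ^ 60 = P at *
  generalize ((2 * C₁ + 2) * ((T : ℝ) + 2)) ^ 60 = R at *
  rw [mul_assoc] at hfin
  linarith

theorem wbound : ∃ C : ℝ, 0 < C ∧ ∀ t N : ℕ, mass N (Wset t) ≤ Real.exp (C * Real.log (t + 2) ^ 2) := by
  obtain ⟨t₀, K, C, ht₀, hK, hC, hbase, hrec⟩ := wb_rec
  have hl2 : 0 < Real.log 2 := Real.log_pos (by norm_num)
  -- constants
  set D : ℝ := Real.log (K + C ^ 60) with hD
  have hKC : 1 ≤ K + C ^ 60 := by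
    have : 0 ≤ C ^ 60 := by positivity
    linarith
  have hD0 : 0 ≤ D := Real.log_nonneg hKC
  set A : ℝ := (60 + D / Real.log 2) / Real.log 2 + Real.log K / Real.log 2 ^ 2 + 1 with hA
  have hlogK : 0 ≤ Real.log K := Real.log_nonneg hK
  have hA0 : 0 < A := by positivity
  refine ⟨A, hA0, ?_⟩
  intro T N
  induction T using Nat.strong_induction_on with
  | _ T ih =>
  have hT : (0 : ℝ) ≤ T := Nat.cast_nonneg T
  set L : ℝ := Real.log ((T : ℝ) + 2) with hL
  have hL2 : Real.log 2 ≤ L := Real.log_le_log (by norm_num) (by linarith)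
  rcases Nat.lt_or_ge T t₀ with h | h
  · -- small `T`
    have h1 : mass N (Wset T) ≤ K := (mass_mono (Wset_mono h.le)).trans (hbase N)
    refine h1.trans ?_
    rw [← Real.exp_log (show (0 : ℝ) < K by linarith)]
    apply Real.exp_le_exp.mpr
    have h2 : Real.log K / Real.log 2 ^ 2 ≤ A := by
      rw [hA]
      have : 0 ≤ (60 + D / Real.log 2) / Real.log 2 := by positivity
      linarith
    have h3 : Real.log K = Real.log K / Real.log 2 ^ 2 * Real.log 2 ^ 2 := by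
      field_simp
    have h4 : Real.log 2 ^ 2 ≤ L ^ 2 := pow_le_pow_left₀ hl2.le hL2 2
    rw [h3]
    exact mul_le_mul h2 h4 (by positivity) hA0.le
  · -- large `T`
    have h1 := hrec T N
    have h2 := ih (T / 10 + 1) (by omega)
    set L' : ℝ := Real.log (((T / 10 + 1 : ℕ) : ℝ) + 2) with hL'
    have hT3 : (3000 : ℝ) ≤ T := by exact_mod_cast ht₀.trans h
    have hL'0 : 0 ≤ L' := Real.log_nonneg (by
      have : (0 : ℝ) ≤ ((T / 10 + 1 : ℕ) : ℝ) := Nat.cast_nonneg _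
      linarith)
    have hL'L : L' ≤ L - Real.log 2 := by
      rw [hL', hL, ← Real.log_div (by linarith) (by norm_num)]
      apply Real.log_le_log
      · positivity
      · have h3 : ((T / 10 : ℕ) : ℝ) ≤ (T : ℝ) / 10 := Nat.cast_div_le
        push_cast
        linarith
    have hsq : L' ^ 2 ≤ L ^ 2 - L * Real.log 2 := by
      have h3 : L' ^ 2 ≤ (L - Real.log 2) ^ 2 := pow_le_pow_left₀ hL'0 hL'L 2
      nlinarith
    have hexp1 : 1 ≤ Real.exp (A * L' ^ 2) := Real.one_le_exp (by positivity)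
    have hpow : K + (C * ((T : ℝ) + 2)) ^ 60 ≤ Real.exp ((60 + D / Real.log 2) * L) := by
      have h3 : (C * ((T : ℝ) + 2)) ^ 60 = C ^ 60 * Real.exp (60 * L) := by
        rw [mul_pow]
        congr 1
        rw [hL, show (60 : ℝ) * Real.log ((T : ℝ) + 2) = ((60 : ℕ) : ℝ) * Real.log ((T : ℝ) + 2) by
          norm_num, Real.exp_nat_mul, Real.exp_log (by linarith)]
      have h4 : 1 ≤ Real.exp (60 * L) := Real.one_le_exp (by
        have : 0 ≤ L := le_trans hl2.le hL2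
        positivity)
      have h5 : K + (C * ((T : ℝ) + 2)) ^ 60 ≤ (K + C ^ 60) * Real.exp (60 * L) := by
        rw [h3]
        generalize C ^ 60 = P at *
        nlinarith
      refine h5.trans ?_
      have h6 : Real.exp ((60 + D / Real.log 2) * L) =
          Real.exp (D / Real.log 2 * L) * Real.exp (60 * L) := by
        rw [← Real.exp_add]; congr 1; ring
      rw [h6]
      apply mul_le_mul_of_nonneg_right _ (Real.exp_pos _).le
      rw [← Real.exp_log (show (0 : ℝ) < K + C ^ 60 by linarith)]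
      apply Real.exp_le_exp.mpr
      rw [← hD]
      calc D = D / Real.log 2 * Real.log 2 := by field_simp
        _ ≤ D / Real.log 2 * L := mul_le_mul_of_nonneg_left hL2 (by positivity)
    have hmul : mass N (Wset T) ≤
        (K + (C * ((T : ℝ) + 2)) ^ 60) * Real.exp (A * L' ^ 2) := by
      refine h1.trans ?_
      have h0 : (0 : ℝ) ≤ (C * ((T : ℝ) + 2)) ^ 60 := by positivity
      generalize (C * ((T : ℝ) + 2)) ^ 60 = P at *
      have h3 : P * mass N (Wset (T / 10 + 1)) ≤ P * Real.exp (A * L' ^ 2) :=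
        mul_le_mul_of_nonneg_left h2 h0
      nlinarith
    refine hmul.trans ?_
    refine (mul_le_mul_of_nonneg_right hpow (Real.exp_pos _).le).trans ?_
    clear hmul hpow h1 hrec hexp1
    rw [← Real.exp_add]
    apply Real.exp_le_exp.mpr
    have h6 : (60 + D / Real.log 2) ≤ A * Real.log 2 := by
      rw [hA, add_mul, add_mul, div_mul_cancel₀ _ hl2.ne']
      have : 0 ≤ Real.log K / Real.log 2 ^ 2 * Real.log 2 := by positivity
      linarith
    have hL0 : 0 ≤ L := le_trans hl2.le hL2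
    have h7 : (60 + D / Real.log 2) * L ≤ A * Real.log 2 * L := mul_le_mul_of_nonneg_right h6 hL0
    have h8 : A * L' ^ 2 ≤ A * (L ^ 2 - L * Real.log 2) := mul_le_mul_of_nonneg_left hsq hA0.le
    have h9 : A * (L ^ 2 - L * Real.log 2) = A * L ^ 2 - A * Real.log 2 * L := by ring
    rw [h9] at h8
    exact le_trans (add_le_add h7 h8) (le_of_eq (by ring))

theorem badDec_mass : ∃ t₀ : ℕ, ∀ t : ℕ, t₀ ≤ t → ∀ N : ℕ,
    mass N (badDec t) ≤ Real.exp (-(t : ℝ) / 400) := by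
  obtain ⟨t₁, h1⟩ := badDec_mass'
  obtain ⟨C, hC, h2⟩ := wbound
  -- `C log² (t + 3) ≤ t / 2400` for large `t`
  have hlim : ∀ᶠ t : ℕ in Filter.atTop,
      C * Real.log (((t + 1 : ℕ) : ℝ) + 2) ^ 2 ≤ (t : ℝ) / 2400 := by
    have h3 : Filter.Tendsto (fun x : ℝ => Real.log x ^ 2 / x) Filter.atTop (nhds 0) := by
      have := Real.isLittleO_pow_log_id_atTop (n := 2)
      exact this.tendsto_div_nhds_zero
    have h4 : Filter.Tendsto (fun t : ℕ => ((t + 1 : ℕ) : ℝ) + 2) Filter.atTop Filter.atTop := by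
      apply Filter.tendsto_atTop_add_const_right
      exact tendsto_natCast_atTop_atTop.comp (Filter.tendsto_add_atTop_nat 1)
    have h5 := (h3.comp h4).eventually_le_const (show (0 : ℝ) < 1 / (4800 * C) by positivity)
    filter_upwards [h5, Filter.eventually_ge_atTop 3] with t ht ht3
    simp only [Function.comp] at ht
    have ht3' : (3 : ℝ) ≤ t := by exact_mod_cast ht3
    have hpos : (0 : ℝ) < ((t + 1 : ℕ) : ℝ) + 2 := by positivity
    rw [div_le_iff₀ hpos] at ht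
    have h6 : C * Real.log (((t + 1 : ℕ) : ℝ) + 2) ^ 2 ≤
        C * (1 / (4800 * C) * (((t + 1 : ℕ) : ℝ) + 2)) := mul_le_mul_of_nonneg_left ht hC.le
    have h7 : C * (1 / (4800 * C) * (((t + 1 : ℕ) : ℝ) + 2)) = (((t + 1 : ℕ) : ℝ) + 2) / 4800 := by
      field_simp
    rw [h7] at h6
    refine h6.trans ?_
    push_cast
    linarith
  obtain ⟨t₂, ht₂⟩ := Filter.eventually_atTop.mp hlim
  refine ⟨max (max t₁ t₂) 10000, ?_⟩
  intro t ht N
  have ht1 : t₁ ≤ t := le_trans (le_max_left _ _) (le_trans (le_max_left _ _) ht)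
  have ht2 : t₂ ≤ t := le_trans (le_max_right _ _) (le_trans (le_max_left _ _) ht)
  have ht3 : (10000 : ℝ) ≤ t := by exact_mod_cast le_trans (le_max_right _ _) ht
  refine (h1 t ht1 N).trans ?_
  have h3 := h2 (t + 1) N
  have h4 := ht₂ t ht2
  have h5 : Real.exp (-(t : ℝ) / 300) * mass N (Wset (t + 1)) ≤
      Real.exp (-(t : ℝ) / 300 + t / 2400) := by
    rw [Real.exp_add]
    apply mul_le_mul_of_nonneg_left _ (Real.exp_pos _).le
    exact h3.trans (Real.exp_le_exp.mpr h4)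
  have h6 : Real.exp (-(t : ℝ)) ≤ Real.exp (-(t : ℝ) / 300 + t / 2400) := by
    apply Real.exp_le_exp.mpr; linarith
  have h7 : Real.exp (-(t : ℝ) / 300 + t / 2400) * 2 ≤ Real.exp (-(t : ℝ) / 400) := by
    have h8 : (2 : ℝ) ≤ Real.exp 1 := by
      have := Real.add_one_le_exp (1 : ℝ); linarith
    refine (mul_le_mul_of_nonneg_left h8 (Real.exp_pos _).le).trans ?_
    rw [← Real.exp_add]
    apply Real.exp_le_exp.mpr
    linarith
  linarith

end P031
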