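import Vale.Agent.P031.LemA
import Vale.Agent.P031.LemB
import Vale.Agent.P031.Totient

/-!
# P031, definitions for WBOUND

`Wset t`: totients of integers all of whose primes have level `< t`.
`badDec t`: totients of `n` with all levels at most `t` and at least `61` primes of level `≥ t/10`.
The window: levels `[a, b)`, `a = t/20`, `b = t/10` (natural division), `w = b - a`.
-/

namespace P031

open scoped BigOperators

def Wset (t : ℕ) : Set ℕ :=
  {m | ∃ n : ℕ, 1 ≤ n ∧ Nat.totient n = m ∧ ∀ q ∈ n.primeFactors, lev q < t}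

def badDec (t : ℕ) : Set ℕ :=
  {m | ∃ n : ℕ, 1 ≤ n ∧ Nat.totient n = m ∧ (∀ q ∈ n.primeFactors, lev q ≤ t) ∧
    61 ≤ (n.primeFactors.filter (fun q => t ≤ 10 * lev q)).card}

end P031
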