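import Vale.Agent.P031.WBound0

/-!
# P031, module WB1: primes with few prime factors in the window

PROOF.  `lemA` (`𝒜 = {1}`, `X = Z = max 16 Y`, `f = 1/2` on the levels `[a,b)`, else `1`) gives
`#{q ≤ Y} ≤ C (1 + LL Y)^C (Y/log Y) e^{-w/2 + C} 2^{w/2}` (for `q` in the set
`f (q-1) ≥ 2^{-w/2}`; `∑_{r ≤ Y} f(r)/r ≤ LL Y - w/2 + C` by `prime_recip`, `level_mass`: all levels `< b` are
complete below `Y` since `Y ≥ q ≥ exp exp b`) and `e^{-w/2} 2^{w/2} ≤ e^{-0.15 w}`, `w ≥ t/20 - 1`; sum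
dyadically (`mass_le_of_cnt`; `log q ≤ e^{t+1}`, and for `log log Y < t/10` nothing; `∑ 1/i ≤ C (t+1)`).
-/

namespace P031

open scoped BigOperators

/-- the weight: `1/2` on the levels `[a, b)` -/
noncomputable def wpz (a b s : ℕ) : ℝ := if a ≤ s ∧ s < b then 1 / 2 else 1

theorem wpz_nonneg (a b s : ℕ) : 0 ≤ wpz a b s := by
  unfold wpz
  split_ifs <;> norm_num

theorem wp_list (a b : ℕ) (l : List ℕ) : (l.map (fun r => wpz a b (lev r))).prod =
    (1 / 2 : ℝ) ^ (l.countP (fun r => decide (a ≤ lev r ∧ lev r < b))) := by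
  induction l with
  | nil => simp
  | cons r l ih =>
    rw [List.map_cons, List.prod_cons, ih, List.countP_cons]
    unfold wpz
    by_cases h : a ≤ lev r ∧ lev r < b
    · simp only [h, and_self, if_true, decide_true]
      rw [pow_succ]
      ring
    · simp only [h, if_false, decide_false]
      simp

theorem wp_lwt (a b : ℕ) {m : ℕ} (hm : m ≠ 0) : lwt (wpz a b) m = (1 / 2 : ℝ) ^ (Lv a b m) := by
  unfold lwt Lv
  rw [if_neg hm, wp_list]

theorem wp_geom (a b : ℕ) : ∑ s ∈ Finset.Ico a b, Real.exp (-(s : ℝ)) ≤ 2 := by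
  have h1 : ∀ s : ℕ, Real.exp (-(s : ℝ)) ≤ (1 / 2 : ℝ) ^ s := by
    intro s
    have h2 : Real.exp (-(s : ℝ)) = (Real.exp (-1)) ^ s := by
      rw [← Real.exp_nat_mul]
      congr 1
      ring
    rw [h2]
    apply pow_le_pow_left₀ (Real.exp_pos _).le
    rw [Real.exp_neg, one_div]
    apply inv_anti₀ (by norm_num)
    have := Real.add_one_le_exp (1 : ℝ)
    linarith
  calc ∑ s ∈ Finset.Ico a b, Real.exp (-(s : ℝ)) ≤ ∑ s ∈ Finset.Ico a b, (1 / 2 : ℝ) ^ s :=
        Finset.sum_le_sum fun s _ => h1 s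
    _ ≤ ∑' s : ℕ, (1 / 2 : ℝ) ^ s :=
        summable_geometric_two.sum_le_tsum _ fun s _ => by positivity
    _ = 2 := tsum_geometric_two

theorem wp_euler : ∃ C : ℝ, 0 < C ∧ ∀ (a b : ℕ) (Y : ℝ), a ≤ b → 1 ≤ b →
    Real.exp (Real.exp b) ≤ Y →
    ∑ r ∈ (Finset.Icc 1 ⌊Y⌋₊).filter Nat.Prime, lwt (wpz a b) r / (r : ℝ) ≤
      LL Y - ((b : ℝ) - a) / 2 + C := by
  obtain ⟨C1, hC1, h1⟩ := prime_recip
  obtain ⟨C2, hC2, h2⟩ := level_mass
  refine ⟨C1 + C2, by positivity, ?_⟩
  intro a b Y hab hb hY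
  have hb' : (1 : ℝ) ≤ b := by exact_mod_cast hb
  have hY3 : 3 ≤ Y := by
    have e1 := Real.add_one_le_exp (b : ℝ)
    have e2 := Real.add_one_le_exp (Real.exp (b : ℝ))
    linarith
  have h3 := (abs_le.mp (h1 Y hY3)).2
  set P := (Finset.Icc 1 ⌊Y⌋₊).filter Nat.Prime with hP
  set F := P.filter (fun r => a ≤ lev r ∧ lev r < b) with hF
  have e1 : ∑ r ∈ P, lwt (wpz a b) r / (r : ℝ) =
      ∑ r ∈ P, 1 / (r : ℝ) - 1 / 2 * ∑ r ∈ F, 1 / (r : ℝ) := by
    have hFs : ∑ r ∈ F, 1 / (r : ℝ) = ∑ r ∈ P, if a ≤ lev r ∧ lev r < b then 1 / (r : ℝ) else 0 := by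
      rw [hF, Finset.sum_filter]
    rw [hFs, Finset.mul_sum, ← Finset.sum_sub_distrib]
    apply Finset.sum_congr rfl
    intro r hr
    have hrp : r.Prime := (Finset.mem_filter.mp hr).2
    rw [lwt_prime _ hrp]
    unfold wpz
    split_ifs <;> ring
  have e2 : ∑ s ∈ Finset.Ico a b, ∑ r ∈ prLev s, 1 / (r : ℝ) ≤ ∑ r ∈ F, 1 / (r : ℝ) := by
    rw [← Finset.sum_fiberwise_of_maps_to (s := F) (t := Finset.Ico a b) (g := lev)]
    · apply Finset.sum_le_sum
      intro s hs
      rw [Finset.mem_Ico] at hs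
      apply Finset.sum_le_sum_of_subset_of_nonneg
      · intro r hr
        rw [mem_prLev] at hr
        have hrY : (r : ℝ) ≤ Y := by
          have := (lev_lt_iff (s := b) (r := r) hb).mp (by omega)
          linarith
        rw [Finset.mem_filter, hF, Finset.mem_filter, hP, Finset.mem_filter, Finset.mem_Icc]
        exact ⟨⟨⟨⟨hr.1.one_le, Nat.le_floor hrY⟩, hr.1⟩, by omega, by omega⟩, hr.2⟩
      · intro r _ _
        positivity
    · intro r hr
      rw [hF, Finset.mem_filter] at hr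
      exact Finset.mem_Ico.mpr hr.2
  have e3 : ((b : ℝ) - a) - C2 * 2 ≤ ∑ s ∈ Finset.Ico a b, ∑ r ∈ prLev s, 1 / (r : ℝ) := by
    have e4 : ∑ s ∈ Finset.Ico a b, (1 - C2 * Real.exp (-(s : ℝ))) ≤
        ∑ s ∈ Finset.Ico a b, ∑ r ∈ prLev s, 1 / (r : ℝ) := by
      apply Finset.sum_le_sum
      intro s _
      have := (abs_le.mp (h2 s)).1
      linarith
    rw [Finset.sum_sub_distrib, ← Finset.mul_sum, Finset.sum_const, Nat.card_Ico,
      nsmul_eq_mul, mul_one, Nat.cast_sub hab] at e4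
    have := mul_le_mul_of_nonneg_left (wp_geom a b) hC2.le
    linarith
  rw [e1]
  linarith

theorem wp_count : ∃ C : ℝ, 0 < C ∧ ∀ (a b : ℕ) (Y : ℝ), a ≤ b → 2 ≤ b →
    Real.exp (Real.exp b) ≤ Y →
    (cnt Y {q | q.Prime ∧ 2 * Lv a b (q - 1) < b - a} : ℝ) ≤
      C * (1 + LL Y) ^ C * Y / Real.log Y * Real.exp (-((b : ℝ) - a) * (3 / 20)) := by
  obtain ⟨C1, hC1, h1⟩ := wp_euler
  obtain ⟨C2, hC2, h2⟩ := lemA
  refine ⟨C2 * Real.exp C1 + C2, by positivity, ?_⟩
  intro a b Y hab hb hY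
  have hb' : (2 : ℝ) ≤ b := by exact_mod_cast hb
  have hab' : (a : ℝ) ≤ b := by exact_mod_cast hab
  have hY16 : 16 ≤ Y := by
    have e0 : (7 : ℝ) ≤ Real.exp 2 := by
      have := Real.exp_one_gt_d9
      have e : Real.exp 2 = Real.exp 1 * Real.exp 1 := by
        rw [← Real.exp_add]; norm_num
      rw [e]
      nlinarith
    have e1 : Real.exp 2 ≤ Real.exp b := Real.exp_le_exp.mpr hb'
    have e2 : Real.exp 7 ≤ Real.exp (Real.exp b) := Real.exp_le_exp.mpr (by linarith)
    have e3 : (16 : ℝ) ≤ Real.exp 7 := by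
      have := Real.exp_one_gt_d9
      have e : Real.exp 7 = Real.exp 2 * Real.exp 2 * Real.exp 2 * Real.exp 1 := by
        rw [← Real.exp_add, ← Real.exp_add, ← Real.exp_add]; norm_num
      rw [e]
      have e4 : 49 ≤ Real.exp 2 * Real.exp 2 := by nlinarith
      have e5 : 343 ≤ Real.exp 2 * Real.exp 2 * Real.exp 2 := by nlinarith
      nlinarith
    linarith
  have hLL : 1 ≤ LL Y := SieveAux.LL_pos hY16
  have hlog : 0 < Real.log Y := Real.log_pos (by linarith)
  have hE := h1 a b Y hab (by omega) hY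
  have hA := h2 Y Y {1} (lwt (wpz a b)) hY16 (by linarith) le_rfl (by simp)
    (by
      intro A hA
      rw [Finset.mem_singleton] at hA
      subst hA
      exact ⟨le_rfl, by push_cast; linarith⟩)
    (lwt_cmul (wpz_nonneg a b))
    (by
      intro r hr
      rw [lwt_prime _ hr]
      unfold wpz
      split_ifs <;> norm_num)
  set T := (Finset.Icc 1 ⌊Y⌋₊).filter (fun d : ℕ => ∀ A ∈ ({1} : Finset ℕ), (A * d + 1).Prime) with hT
  set T' := T.filter (fun d : ℕ => 2 * Lv a b d < b - a) with hT'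
  have hcnt : cnt Y {q | q.Prime ∧ 2 * Lv a b (q - 1) < b - a} ≤ T'.card := by
    unfold cnt
    have hsub : {v : ℕ | v ∈ {q | q.Prime ∧ 2 * Lv a b (q - 1) < b - a} ∧ (v : ℝ) ≤ Y} ⊆
        ((T'.image (fun d => d + 1) : Finset ℕ) : Set ℕ) := by
      rintro q ⟨⟨hq, hLq⟩, hqY⟩
      rw [Finset.mem_coe, Finset.mem_image]
      have hq2 := hq.two_le
      refine ⟨q - 1, ?_, by omega⟩
      rw [hT', Finset.mem_filter, hT, Finset.mem_filter, Finset.mem_Icc]
      have hq1 : q ≤ ⌊Y⌋₊ := Nat.le_floor hqY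
      refine ⟨⟨⟨by omega, by omega⟩, ?_⟩, hLq⟩
      intro A hA
      rw [Finset.mem_singleton] at hA
      subst hA
      rw [one_mul, Nat.sub_add_cancel (by omega)]
      exact hq
    calc _ ≤ (((T'.image (fun d => d + 1) : Finset ℕ)) : Set ℕ).ncard :=
          Set.ncard_le_ncard hsub (Finset.finite_toSet _)
      _ = (T'.image (fun d => d + 1)).card := Set.ncard_coe_finset _
      _ ≤ T'.card := Finset.card_image_le
  have hlow : (T'.card : ℝ) * Real.exp (-(((b : ℝ) - a) / 2 * Real.log 2)) ≤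
      ∑ d ∈ T, lwt (wpz a b) d := by
    calc (T'.card : ℝ) * Real.exp (-(((b : ℝ) - a) / 2 * Real.log 2))
        = ∑ d ∈ T', Real.exp (-(((b : ℝ) - a) / 2 * Real.log 2)) := by
          rw [Finset.sum_const, nsmul_eq_mul]
      _ ≤ ∑ d ∈ T', lwt (wpz a b) d := by
          apply Finset.sum_le_sum
          intro d hd
          rw [hT', Finset.mem_filter] at hd
          have hd0 : d ≠ 0 := by
            have := hd.1
            rw [hT, Finset.mem_filter, Finset.mem_Icc] at this
            omega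
          rw [wp_lwt a b hd0]
          have e : (1 / 2 : ℝ) ^ (Lv a b d) = Real.exp (-((Lv a b d : ℝ) * Real.log 2)) := by
            rw [Real.exp_neg, mul_comm, Real.exp_mul, Real.exp_log (by norm_num),
              Real.rpow_natCast, one_div, inv_pow]
          rw [e]
          apply Real.exp_le_exp.mpr
          apply neg_le_neg
          apply mul_le_mul_of_nonneg_right _ (Real.log_nonneg (by norm_num))
          have h5 : 2 * Lv a b d ≤ b - a := hd.2.le
          have h6 : ((2 * Lv a b d : ℕ) : ℝ) ≤ ((b - a : ℕ) : ℝ) := by exact_mod_cast h5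
          rw [Nat.cast_sub hab] at h6
          push_cast at h6
          linarith
      _ ≤ ∑ d ∈ T, lwt (wpz a b) d := by
          apply Finset.sum_le_sum_of_subset_of_nonneg (Finset.filter_subset _ _)
          intro d _ _
          exact (lwt_cmul (wpz_nonneg a b)).2.2 d
  have hcard : ({1} : Finset ℕ).card = 1 := Finset.card_singleton 1
  rw [hcard] at hA
  have hexp : Real.exp (∑ r ∈ (Finset.Icc 1 ⌊Y⌋₊).filter Nat.Prime, lwt (wpz a b) r / (r : ℝ)) ≤
      Real.log Y * Real.exp (-(((b : ℝ) - a) / 2)) * Real.exp C1 := by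
    calc _ ≤ Real.exp (LL Y - ((b : ℝ) - a) / 2 + C1) := Real.exp_le_exp.mpr hE
      _ = _ := by
        rw [Real.exp_add, sub_eq_add_neg, Real.exp_add]
        unfold LL
        rw [Real.exp_log hlog]
  have hl2 := Real.log_two_lt_d9
  -- combine
  have hfin : (T'.card : ℝ) ≤ C2 * (1 + LL Y) ^ C2 * Y / Real.log Y ^ (1 + 1) *
      (Real.log Y * Real.exp (-(((b : ℝ) - a) / 2)) * Real.exp C1) *
        Real.exp (((b : ℝ) - a) / 2 * Real.log 2) := by
    have h7 : (T'.card : ℝ) * Real.exp (-(((b : ℝ) - a) / 2 * Real.log 2)) ≤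
        C2 * (1 + LL Y) ^ C2 * Y / Real.log Y ^ (1 + 1) *
      (Real.log Y * Real.exp (-(((b : ℝ) - a) / 2)) * Real.exp C1) := by
      refine (hlow.trans hA).trans ?_
      apply mul_le_mul_of_nonneg_left hexp
      have : 0 ≤ (1 + LL Y) ^ C2 := Real.rpow_nonneg (by linarith) _
      positivity
    have h8 := mul_le_mul_of_nonneg_right h7 (Real.exp_pos (((b : ℝ) - a) / 2 * Real.log 2)).le
    rw [mul_assoc, ← Real.exp_add, neg_add_cancel, Real.exp_zero, mul_one] at h8
    exact h8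
  have hcnt' : (cnt Y {q | q.Prime ∧ 2 * Lv a b (q - 1) < b - a} : ℝ) ≤ T'.card := by
    exact_mod_cast hcnt
  refine (hcnt'.trans hfin).trans ?_
  have e9 : C2 * (1 + LL Y) ^ C2 * Y / Real.log Y ^ (1 + 1) *
      (Real.log Y * Real.exp (-(((b : ℝ) - a) / 2)) * Real.exp C1) *
        Real.exp (((b : ℝ) - a) / 2 * Real.log 2) =
      (C2 * Real.exp C1) * (1 + LL Y) ^ C2 * Y / Real.log Y *
        (Real.exp (-(((b : ℝ) - a) / 2)) * Real.exp (((b : ℝ) - a) / 2 * Real.log 2)) := by
    field_simp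
  rw [e9, ← Real.exp_add]
  have hLp : 1 ≤ 1 + LL Y := by linarith
  have e10 : (1 + LL Y) ^ C2 ≤ (1 + LL Y) ^ (C2 * Real.exp C1 + C2) := by
    apply Real.rpow_le_rpow_of_exponent_le hLp
    have : 0 ≤ C2 * Real.exp C1 := by positivity
    linarith
  have e11 : Real.exp (-(((b : ℝ) - a) / 2) + ((b : ℝ) - a) / 2 * Real.log 2) ≤
      Real.exp (-((b : ℝ) - a) * (3 / 20)) := by
    apply Real.exp_le_exp.mpr
    nlinarith
  have e12 : (0 : ℝ) ≤ (1 + LL Y) ^ C2 := Real.rpow_nonneg (by linarith) _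
  have hY0 : 0 < Y := by linarith
  gcongr
  · linarith

theorem wp_harm (M : ℕ) : ∑ i ∈ Finset.range M, 1 / ((i : ℝ) + 1) ≤ 1 + Real.log M := by
  have h := harmonic_le_one_add_log M
  unfold harmonic at h
  push_cast at h
  refine le_trans (le_of_eq ?_) h
  apply Finset.sum_congr rfl
  intro i _
  rw [one_div]

theorem wp_final (K C : ℝ) (hK : 0 < K) : ∃ t₀ : ℕ, ∀ t : ℕ, t₀ ≤ t →
    K * ((t : ℝ) + 4) ^ (C + 1) * Real.exp (-(3 * (t : ℝ) / 400)) ≤ Real.exp (-(t : ℝ) / 250) := by
  have h := (isLittleO_rpow_exp_pos_mul_atTop (C + 1) (b := 7 / 2000) (by norm_num))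
  have h1 := h.bound (c := 1 / (K * Real.exp (7 / 2000 * 4))) (by positivity)
  rw [Filter.eventually_atTop] at h1
  obtain ⟨x₀, hx₀⟩ := h1
  refine ⟨⌈x₀⌉₊, ?_⟩
  intro t ht
  have ht' : x₀ ≤ (t : ℝ) + 4 := by
    have := Nat.le_ceil x₀
    have h2 : (⌈x₀⌉₊ : ℝ) ≤ t := by exact_mod_cast ht
    linarith
  have h3 := hx₀ _ ht'
  have hpos : (0 : ℝ) < (t : ℝ) + 4 := by positivity
  rw [Real.norm_of_nonneg (Real.rpow_nonneg hpos.le _), Real.norm_of_nonneg (Real.exp_pos _).le] at h3
  calc K * ((t : ℝ) + 4) ^ (C + 1) * Real.exp (-(3 * (t : ℝ) / 400))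
      ≤ K * (1 / (K * Real.exp (7 / 2000 * 4)) * Real.exp (7 / 2000 * ((t : ℝ) + 4))) *
        Real.exp (-(3 * (t : ℝ) / 400)) := by
        gcongr
    _ = Real.exp (-(t : ℝ) / 250) := by
        rw [mul_add (7 / 2000 : ℝ) (t : ℝ) 4, Real.exp_add]
        have e1 : K * (1 / (K * Real.exp (7 / 2000 * 4)) * (Real.exp (7 / 2000 * (t : ℝ)) *
          Real.exp (7 / 2000 * 4))) * Real.exp (-(3 * (t : ℝ) / 400)) =
          Real.exp (7 / 2000 * (t : ℝ)) * Real.exp (-(3 * (t : ℝ) / 400)) := by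
          field_simp
        rw [e1, ← Real.exp_add]
        congr 1
        ring

theorem win_prime : ∃ t₀ : ℕ, ∀ t : ℕ, t₀ ≤ t → ∀ N : ℕ,
    mass N {q | q.Prime ∧ lev q ≤ t ∧ t / 10 ≤ lev q ∧
      2 * Lv (t / 20) (t / 10) (q - 1) < t / 10 - t / 20} ≤ Real.exp (-(t : ℝ) / 250) := by
  obtain ⟨C, hC, hcount⟩ := wp_count
  have hl2 : 0 < Real.log 2 := Real.log_pos (by norm_num)
  obtain ⟨t₁, ht₁⟩ := wp_final (2 * C / Real.log 2 * Real.exp (3 / 20)) C (by positivity)
  refine ⟨max t₁ 20, ?_⟩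
  intro t ht N
  have ht1 : t₁ ≤ t := le_trans (le_max_left _ _) ht
  have ht20 : 20 ≤ t := le_trans (le_max_right _ _) ht
  set a := t / 20 with ha
  set b := t / 10 with hb
  have hab : a ≤ b := by omega
  have hb2 : 2 ≤ b := by omega
  set A : Set ℕ := {q | q.Prime ∧ lev q ≤ t ∧ b ≤ lev q ∧ 2 * Lv a b (q - 1) < b - a} with hA
  set K : ℝ := 2 * C * ((t : ℝ) + 3) ^ C * Real.exp (-((b : ℝ) - a) * (3 / 20)) / Real.log 2 with hK
  have hK0 : 0 ≤ K := by
    have : (0 : ℝ) ≤ ((t : ℝ) + 3) ^ C := Real.rpow_nonneg (by positivity) _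
    positivity
  have hm := mass_le_of_cnt (N := N) (A := A)
    (fun i => if (i : ℝ) * Real.log 2 ≤ Real.exp (t + 1) then K / ((i : ℝ) + 1) else 0) ?_
  · refine hm.trans ?_
    set M := ⌊Real.exp (t + 1) / Real.log 2⌋₊ + 1 with hM
    have hs1 : ∑ i ∈ (Finset.range (N + 1)).filter (fun i => 2 ^ i ≤ N),
        (if (i : ℝ) * Real.log 2 ≤ Real.exp (t + 1) then K / ((i : ℝ) + 1) else 0) ≤
        ∑ i ∈ Finset.range M, K / ((i : ℝ) + 1) := by
      rw [← Finset.sum_filter]
      apply Finset.sum_le_sum_of_subset_of_nonneg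
      · intro i hi
        rw [Finset.mem_filter] at hi
        rw [Finset.mem_range, hM, Nat.lt_succ_iff]
        apply Nat.le_floor
        rw [le_div_iff₀ hl2]
        exact hi.2
      · intro i _ _
        positivity
    refine hs1.trans ?_
    have hs2 : ∑ i ∈ Finset.range M, K / ((i : ℝ) + 1) ≤ K * ((t : ℝ) + 4) := by
      calc ∑ i ∈ Finset.range M, K / ((i : ℝ) + 1) = K * ∑ i ∈ Finset.range M, 1 / ((i : ℝ) + 1) := by
            rw [Finset.mul_sum]
            apply Finset.sum_congr rfl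
            intro i _
            ring
        _ ≤ K * ((t : ℝ) + 4) := by
            apply mul_le_mul_of_nonneg_left _ hK0
            refine (wp_harm M).trans ?_
            have hM1 : (M : ℝ) ≤ Real.exp (t + 3) := by
              rw [hM]
              push_cast
              have h1 : (⌊Real.exp (t + 1) / Real.log 2⌋₊ : ℝ) ≤ Real.exp (t + 1) / Real.log 2 :=
                Nat.floor_le (by positivity)
              have h2 : Real.exp (t + 1) / Real.log 2 ≤ 2 * Real.exp (t + 1) := by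
                rw [div_le_iff₀ hl2]
                have := Real.log_two_gt_d9
                nlinarith [Real.exp_pos ((t : ℝ) + 1)]
              have h3 : (1 : ℝ) ≤ Real.exp (t + 1) := Real.one_le_exp (by positivity)
              have h4 : Real.exp ((t : ℝ) + 3) = Real.exp (t + 1) * Real.exp 2 := by
                rw [← Real.exp_add]; congr 1; ring
              have h5 : (3 : ℝ) ≤ Real.exp 2 := by
                have := Real.add_one_le_exp (2 : ℝ)
                linarith
              rw [h4]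
              nlinarith
            have hM0 : (0 : ℝ) < M := by
              rw [hM]; positivity
            have := Real.log_le_log hM0 hM1
            rw [Real.log_exp] at this
            linarith
    refine hs2.trans (le_trans ?_ (ht₁ t ht1))
    have hw : Real.exp (-((b : ℝ) - a) * (3 / 20)) ≤
        Real.exp (3 / 20) * Real.exp (-(3 * (t : ℝ) / 400)) := by
      rw [← Real.exp_add]
      apply Real.exp_le_exp.mpr
      have hb1 : t < 10 * b + 10 := by omega
      have ha1 : 20 * a ≤ t := by omega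
      have hb1' : (t : ℝ) < 10 * b + 10 := by exact_mod_cast hb1
      have ha1' : 20 * (a : ℝ) ≤ t := by exact_mod_cast ha1
      linarith
    have hp : ((t : ℝ) + 3) ^ C * ((t : ℝ) + 4) ≤ ((t : ℝ) + 4) ^ (C + 1) := by
      rw [Real.rpow_add_one (by positivity)]
      apply mul_le_mul_of_nonneg_right _ (by positivity)
      apply Real.rpow_le_rpow (by positivity) (by linarith) hC.le
    have hp0 : (0 : ℝ) ≤ ((t : ℝ) + 3) ^ C := Real.rpow_nonneg (by positivity) _
    calc K * ((t : ℝ) + 4) = (2 * C / Real.log 2) * (((t : ℝ) + 3) ^ C * ((t : ℝ) + 4)) *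
          Real.exp (-((b : ℝ) - a) * (3 / 20)) := by
          rw [hK]
          ring
      _ ≤ (2 * C / Real.log 2) * (((t : ℝ) + 4) ^ (C + 1)) *
          (Real.exp (3 / 20) * Real.exp (-(3 * (t : ℝ) / 400))) := by
          gcongr
      _ = _ := by ring
  · intro i hi
    by_cases hcond : (i : ℝ) * Real.log 2 ≤ Real.exp (t + 1)
    · simp only [hcond, if_true]
      by_cases hcond2 : Real.exp (b : ℝ) ≤ ((i : ℝ) + 1) * Real.log 2
      · have hlogY : Real.log ((2 : ℝ) ^ (i + 1)) = ((i : ℝ) + 1) * Real.log 2 := by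
          rw [Real.log_pow]
          push_cast
          ring
        have hYb : Real.exp (Real.exp (b : ℝ)) ≤ (2 : ℝ) ^ (i + 1) := by
          rw [← Real.le_log_iff_exp_le (by positivity), hlogY]
          exact hcond2
        have h1 := hcount a b ((2 : ℝ) ^ (i + 1)) hab hb2 hYb
        have h2 : (cnt ((2 : ℝ) ^ (i + 1)) {v | v ∈ A ∧ 2 ^ i ≤ v} : ℝ) ≤
            cnt ((2 : ℝ) ^ (i + 1)) {q | q.Prime ∧ 2 * Lv a b (q - 1) < b - a} := by
          have : cnt ((2 : ℝ) ^ (i + 1)) {v | v ∈ A ∧ 2 ^ i ≤ v} ≤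
            cnt ((2 : ℝ) ^ (i + 1)) {q | q.Prime ∧ 2 * Lv a b (q - 1) < b - a} := by
            apply cnt_mono
            rintro v ⟨hv, _⟩
            exact ⟨hv.1, hv.2.2.2⟩
          exact_mod_cast this
        refine (h2.trans h1).trans ?_
        have hi1 : (0 : ℝ) < (i : ℝ) + 1 := by positivity
        have hLL : 1 + LL ((2 : ℝ) ^ (i + 1)) ≤ (t : ℝ) + 3 := by
          unfold LL
          rw [hlogY]
          have h3 : ((i : ℝ) + 1) * Real.log 2 ≤ Real.exp (t + 2) := by
            have h4 : Real.exp ((t : ℝ) + 2) = Real.exp (t + 1) * Real.exp 1 := by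
              rw [← Real.exp_add]; congr 1; ring
            have h5 : (2 : ℝ) ≤ Real.exp 1 := by
              have := Real.add_one_le_exp (1 : ℝ)
              linarith
            have h6 : (1 : ℝ) ≤ Real.exp (t + 1) := Real.one_le_exp (by positivity)
            have h7 := Real.log_two_lt_d9
            rw [h4]
            nlinarith
          have := Real.log_le_log (by positivity) h3
          rw [Real.log_exp] at this
          linarith
        have hLL0 : 0 ≤ 1 + LL ((2 : ℝ) ^ (i + 1)) := by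
          unfold LL
          rw [hlogY]
          have h3 : 1 ≤ ((i : ℝ) + 1) * Real.log 2 := by
            have := Real.one_le_exp (x := (b : ℝ)) (by positivity)
            linarith
          have := Real.log_nonneg h3
          linarith
        rw [hlogY]
        have hpw : (1 + LL ((2 : ℝ) ^ (i + 1))) ^ C ≤ ((t : ℝ) + 3) ^ C :=
          Real.rpow_le_rpow hLL0 hLL hC.le
        calc C * (1 + LL ((2 : ℝ) ^ (i + 1))) ^ C * (2 : ℝ) ^ (i + 1) / (((i : ℝ) + 1) * Real.log 2) *
              Real.exp (-((b : ℝ) - a) * (3 / 20))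
            ≤ C * ((t : ℝ) + 3) ^ C * (2 : ℝ) ^ (i + 1) / (((i : ℝ) + 1) * Real.log 2) *
              Real.exp (-((b : ℝ) - a) * (3 / 20)) := by
              gcongr
          _ = 2 ^ i * (K / ((i : ℝ) + 1)) := by
              rw [hK, pow_succ]
              field_simp
      · have hemp : cnt ((2 : ℝ) ^ (i + 1)) {v | v ∈ A ∧ 2 ^ i ≤ v} = 0 := by
          unfold cnt
          rw [Set.ncard_eq_zero (Set.Finite.subset (Set.finite_Iic ⌊(2 : ℝ) ^ (i + 1)⌋₊)
            (fun v hv => Nat.le_floor hv.2))]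
          rw [Set.eq_empty_iff_forall_notMem]
          rintro v ⟨⟨hv, _⟩, hv2⟩
          apply hcond2
          have h1 := (le_lev_iff (s := b) (r := v) (by omega)).mp hv.2.2.1
          have h2 := h1.trans hv2
          rw [← Real.le_log_iff_exp_le (by positivity), Real.log_pow] at h2
          push_cast at h2
          linarith
        rw [hemp]
        push_cast
        positivity
    · have hemp : cnt ((2 : ℝ) ^ (i + 1)) {v | v ∈ A ∧ 2 ^ i ≤ v} = 0 := by
        unfold cnt
        rw [Set.ncard_eq_zero (Set.Finite.subset (Set.finite_Iic ⌊(2 : ℝ) ^ (i + 1)⌋₊)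
          (fun v hv => Nat.le_floor hv.2))]
        rw [Set.eq_empty_iff_forall_notMem]
        rintro v ⟨⟨hv, hv1⟩, _⟩
        apply hcond
        have h1 := (lev_lt_iff (s := t + 1) (r := v) (by omega)).mp (by have := hv.2.1; omega)
        have h2 : ((2 : ℝ) ^ i) ≤ v := by exact_mod_cast hv1
        have h3 := h2.trans h1.le
        rw [← Real.log_le_iff_le_exp (by positivity), Real.log_pow] at h3
        push_cast at h3
        exact h3
      rw [hemp]
      simp [hcond]

end P031
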