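import Vale.Agent.P031.WBound0

/-!
# P031, module WB2: integers with many prime factors in the window, large smooth numbers

PROOF of `win_many_cnt`: `lemB` with `F = 15`, `y = 900`, `f = 30` on levels `[a,b)`, `1` elsewhere
(`f = lwt z`, `lwt_cmul`): `#{m ≤ Y} ≤ C Y e^{29 (b - a) + C} 30^{-30 (b-a)} ≤ C' Y e^{-73 (b - a)}`.
PROOF of `win_many`: dyadic sum over the `≤ 2 t³ e^{t+1} + 2` values of `i`
(`73 w ≥ 3.65 t - 73`).
PROOF of `win_big`: such an `n` is `e^{e^{t+1}}`-smooth with `log n ≥ log m > t³ e^{t+1}`,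
`1/φ(n) ≤ C e^{t+1}/n` (`totient_smooth`) and `rankin_tail` (`f = 1`, `v = t³`) gives
`≤ C e^{t+1} e^{5(t+1)} e^{-t³} ≤ e^{-t}/2`.  (Only finitely many `n` matter: `n ≤ C N log (N+2)`.)
-/

namespace P031

open scoped BigOperators

namespace WB2

/-- weight `30` on levels in `[a,b)`, `1` elsewhere -/
noncomputable def zz (a b s : ℕ) : ℝ := if a ≤ s ∧ s < b then 30 else 1

theorem zz_nonneg (a b s : ℕ) : 0 ≤ zz a b s := by
  unfold zz; split_ifs <;> norm_num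

theorem zz_le (a b s : ℕ) : zz a b s ≤ 30 := by
  unfold zz; split_ifs <;> norm_num

theorem lwt_zz {a b m : ℕ} (hm : m ≠ 0) : lwt (zz a b) m = (30 : ℝ) ^ Lv a b m := by
  unfold lwt Lv
  rw [if_neg hm]
  clear hm
  induction m.primeFactorsList with
  | nil => simp
  | cons r l ih =>
    rw [List.map_cons, List.prod_cons, ih, List.countP_cons]
    by_cases h : a ≤ lev r ∧ lev r < b
    · simp [zz, h, pow_succ, mul_comm]
    · simp [zz, h]

/-- mass of the primes with level in `[a,b)` -/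
theorem lev_sum : ∃ C : ℝ, 0 < C ∧ ∀ (a b M : ℕ), a ≤ b →
    ∑ r ∈ ((Finset.Icc 1 M).filter Nat.Prime).filter (fun r => a ≤ lev r ∧ lev r < b),
      1 / (r : ℝ) ≤ ((b : ℝ) - a) + C := by
  obtain ⟨C, hC, h⟩ := level_mass
  have hs : Summable (fun n : ℕ => Real.exp (-(n : ℝ))) := Real.summable_exp_neg_nat
  have hpos : 0 < ∑' n : ℕ, Real.exp (-(n : ℝ)) := hs.tsum_pos (fun n => (Real.exp_pos _).le) 0
    (Real.exp_pos _)
  refine ⟨C * ∑' n : ℕ, Real.exp (-(n : ℝ)), mul_pos hC hpos, ?_⟩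
  intro a b M hab
  have hmaps : ∀ r ∈ ((Finset.Icc 1 M).filter Nat.Prime).filter
      (fun r => a ≤ lev r ∧ lev r < b), lev r ∈ Finset.Ico a b := by
    intro r hr
    have := (Finset.mem_filter.1 hr).2
    exact Finset.mem_Ico.2 this
  rw [← Finset.sum_fiberwise_of_maps_to hmaps]
  have h1 : ∀ s ∈ Finset.Ico a b,
      ∑ r ∈ (((Finset.Icc 1 M).filter Nat.Prime).filter
        (fun r => a ≤ lev r ∧ lev r < b)).filter (fun r => lev r = s), 1 / (r : ℝ) ≤
      1 + C * Real.exp (-(s : ℝ)) := by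
    intro s _
    have h2 := (abs_le.1 (h s)).2
    refine le_trans (Finset.sum_le_sum_of_subset_of_nonneg ?_ fun r _ _ => by positivity)
      (by linarith : ∑ r ∈ prLev s, 1 / (r : ℝ) ≤ _)
    intro r hr
    rw [Finset.mem_filter, Finset.mem_filter, Finset.mem_filter] at hr
    exact mem_prLev.2 ⟨hr.1.1.2, hr.2⟩
  refine (Finset.sum_le_sum h1).trans ?_
  rw [Finset.sum_add_distrib, Finset.sum_const, Nat.card_Ico, nsmul_eq_mul, mul_one,
    Nat.cast_sub hab, ← Finset.mul_sum]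
  gcongr
  exact hs.sum_le_tsum _ fun n _ => (Real.exp_pos _).le

theorem exp_recip : ∃ K : ℝ, 0 < K ∧ ∀ Y : ℝ, 2 ≤ Y →
    Real.exp (∑ r ∈ (Finset.Icc 1 ⌊Y⌋₊).filter Nat.Prime, 1 / (r : ℝ)) ≤ K * Real.log Y := by
  obtain ⟨C, hC, h⟩ := prime_recip
  refine ⟨2 * Real.exp C, by positivity, ?_⟩
  intro Y hY
  have key : ∀ x : ℝ, 3 ≤ x →
      Real.exp (∑ r ∈ (Finset.Icc 1 ⌊x⌋₊).filter Nat.Prime, 1 / (r : ℝ)) ≤
        Real.exp C * Real.log x := by
    intro x hx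
    have h1 := (abs_le.1 (h x hx)).2
    have hl : 0 < Real.log x := Real.log_pos (by linarith)
    have h2 : Real.exp C * Real.log x = Real.exp (C + LL x) := by
      rw [Real.exp_add, LL, Real.exp_log hl]
    rw [h2]
    exact Real.exp_le_exp.2 (by linarith)
  rcases le_total 3 Y with h3 | h3
  · refine (key Y h3).trans ?_
    have hl : 0 < Real.log Y := Real.log_pos (by linarith)
    nlinarith [Real.exp_pos C, mul_pos (Real.exp_pos C) hl]
  · have hsub : ∑ r ∈ (Finset.Icc 1 ⌊Y⌋₊).filter Nat.Prime, 1 / (r : ℝ) ≤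
        ∑ r ∈ (Finset.Icc 1 ⌊(3 : ℝ)⌋₊).filter Nat.Prime, 1 / (r : ℝ) := by
      refine Finset.sum_le_sum_of_subset_of_nonneg ?_ fun r _ _ => by positivity
      exact Finset.filter_subset_filter _ (Finset.Icc_subset_Icc_right (Nat.floor_mono h3))
    refine (Real.exp_le_exp.2 hsub).trans ((key 3 le_rfl).trans ?_)
    have h4 : Real.log 3 ≤ 2 * Real.log Y := by
      have h5 : Real.log 3 ≤ Real.log (2 ^ 2) := Real.log_le_log (by norm_num) (by norm_num)
      rw [Real.log_pow] at h5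
      have h6 : Real.log 2 ≤ Real.log Y := Real.log_le_log (by norm_num) hY
      push_cast at h5
      linarith
    nlinarith [Real.exp_pos C]

theorem exp_bound (w : ℕ) :
    Real.exp (29 * (w : ℝ)) ≤ Real.exp (-73 * (w : ℝ)) * (30 : ℝ) ^ (30 * w) := by
  have h1 : Real.exp 17 ≤ 30 ^ 5 := by
    have h2 : Real.exp 17 = Real.exp 1 ^ 17 := by
      rw [← Real.exp_nat_mul]; norm_num
    rw [h2]
    have h3 := Real.exp_one_lt_d9
    calc Real.exp 1 ^ 17 ≤ (2.7182818286 : ℝ) ^ 17 :=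
          pow_le_pow_left₀ (Real.exp_pos _).le h3.le _
      _ ≤ 30 ^ 5 := by norm_num
  have h4 : Real.exp 102 ≤ 30 ^ 30 := by
    have h5 : Real.exp 102 = Real.exp 17 ^ 6 := by
      rw [← Real.exp_nat_mul]; norm_num
    rw [h5]
    calc Real.exp 17 ^ 6 ≤ ((30 : ℝ) ^ 5) ^ 6 := pow_le_pow_left₀ (Real.exp_pos _).le h1 _
      _ = 30 ^ 30 := by rw [← pow_mul]
  have h6 : Real.exp (102 * (w : ℝ)) ≤ (30 : ℝ) ^ (30 * w) := by
    rw [mul_comm (102 : ℝ), Real.exp_nat_mul, pow_mul]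
    exact pow_le_pow_left₀ (Real.exp_pos _).le h4 _
  calc Real.exp (29 * (w : ℝ)) = Real.exp (-73 * (w : ℝ)) * Real.exp (102 * (w : ℝ)) := by
        rw [← Real.exp_add]; congr 1; ring
    _ ≤ _ := by gcongr

end WB2

open WB2 in
theorem win_many_cnt : ∃ C : ℝ, 0 < C ∧ ∀ (a b : ℕ) (Y : ℝ), 3 ≤ a → a ≤ b → 2 ≤ Y →
    (cnt Y {m | 1 ≤ m ∧ 30 * (b - a) ≤ Lv a b m} : ℝ) ≤ C * Y * Real.exp (-73 * ((b : ℝ) - a)) := by
  classical
  obtain ⟨C, hC, h⟩ := lemB
  obtain ⟨C1, hC1, h1⟩ := lev_sum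
  obtain ⟨K, hK, h2⟩ := exp_recip
  refine ⟨C * 15 * K * Real.exp (29 * C1), by positivity, ?_⟩
  intro a b Y ha hab hY
  obtain ⟨w, rfl⟩ := Nat.exists_eq_add_of_le hab
  have hw : a + w - a = w := by omega
  have hw' : (((a + w : ℕ) : ℝ) - a) = w := by push_cast; ring
  rw [hw, hw']
  set b := a + w with hb
  have hlog : 0 < Real.log Y := Real.log_pos (by linarith)
  have hcm : CMul (lwt (zz a b)) := lwt_cmul (zz_nonneg a b)
  have hlb := h 15 900 Y (lwt (zz a b)) (by norm_num) (by norm_num) hY hcm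
    (fun r hr => by rw [lwt_prime _ hr]; exact (zz_le _ _ _).trans (by norm_num))
    (fun r hr hr2 => by
      rw [lwt_prime _ hr]
      unfold zz
      rw [if_neg]
      · norm_num
      · rintro ⟨h3, -⟩
        have h4 : 3 ≤ lev r := ha.trans h3
        rw [le_lev_iff (by norm_num)] at h4
        have h5 : (20 : ℝ) ≤ Real.exp ((3 : ℕ) : ℝ) := by
          have h6 : Real.exp ((3 : ℕ) : ℝ) = Real.exp 1 ^ 3 := by
            rw [← Real.exp_nat_mul]; norm_num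
          rw [h6]
          have h7 := Real.exp_one_gt_d9
          calc (20 : ℝ) ≤ (2.7182818283 : ℝ) ^ 3 := by norm_num
            _ ≤ _ := pow_le_pow_left₀ (by norm_num) h7.le _
        have h8 : Real.exp 20 ≤ Real.exp (Real.exp ((3 : ℕ) : ℝ)) := Real.exp_le_exp.2 h5
        have h9 : (16 * 900 : ℝ) < Real.exp 20 := by
          have h6 : Real.exp 20 = Real.exp 1 ^ 20 := by
            rw [← Real.exp_nat_mul]; norm_num
          rw [h6]
          have h7 := Real.exp_one_gt_d9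
          calc (16 * 900 : ℝ) < (2.7182818283 : ℝ) ^ 20 := by norm_num
            _ ≤ _ := pow_le_pow_left₀ (by norm_num) h7.le _
        linarith)
  -- the sum over primes
  have hsum : ∑ r ∈ (Finset.Icc 1 ⌊Y⌋₊).filter Nat.Prime, lwt (zz a b) r / (r : ℝ) ≤
      ∑ r ∈ (Finset.Icc 1 ⌊Y⌋₊).filter Nat.Prime, 1 / (r : ℝ) + 29 * ((w : ℝ) + C1) := by
    have h3 : ∑ r ∈ (Finset.Icc 1 ⌊Y⌋₊).filter Nat.Prime, lwt (zz a b) r / (r : ℝ) =
        ∑ r ∈ (Finset.Icc 1 ⌊Y⌋₊).filter Nat.Prime, 1 / (r : ℝ) +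
        ∑ r ∈ ((Finset.Icc 1 ⌊Y⌋₊).filter Nat.Prime).filter
          (fun r => a ≤ lev r ∧ lev r < b), 29 * (1 / (r : ℝ)) := by
      rw [Finset.sum_filter (p := fun r => a ≤ lev r ∧ lev r < b), ← Finset.sum_add_distrib]
      refine Finset.sum_congr rfl fun r hr => ?_
      rw [lwt_prime _ (Finset.mem_filter.1 hr).2]
      unfold zz
      split_ifs <;> ring
    rw [h3, ← Finset.mul_sum]
    have h4 := h1 a b ⌊Y⌋₊ hab
    have h5 : ((b : ℝ) - a) = w := by rw [hb]; push_cast; ring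
    rw [h5] at h4
    linarith
  have hexp : Real.exp (∑ r ∈ (Finset.Icc 1 ⌊Y⌋₊).filter Nat.Prime,
      lwt (zz a b) r / (r : ℝ)) ≤ K * Real.log Y * Real.exp (29 * ((w : ℝ) + C1)) := by
    refine (Real.exp_le_exp.2 hsum).trans ?_
    rw [Real.exp_add]
    exact mul_le_mul_of_nonneg_right (h2 Y hY) (Real.exp_pos _).le
  -- counting
  set S : Finset ℕ := (Finset.Icc 1 ⌊Y⌋₊).filter (fun v => 30 * w ≤ Lv a b v) with hS
  have hset : {v : ℕ | v ∈ {m | 1 ≤ m ∧ 30 * w ≤ Lv a b m} ∧ (v : ℝ) ≤ Y} = (S : Set ℕ) := by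
    ext v
    simp only [Set.mem_ofPred_eq, hS, Finset.coe_filter, Finset.mem_Icc]
    rw [Nat.le_floor_iff (by linarith)]
    tauto
  unfold cnt
  rw [hset, Set.ncard_coe_finset]
  have hcard : (S.card : ℝ) * 30 ^ (30 * w) ≤ ∑ v ∈ Finset.Icc 1 ⌊Y⌋₊, lwt (zz a b) v := by
    rw [← nsmul_eq_mul, ← Finset.sum_const]
    refine le_trans (Finset.sum_le_sum fun v hv => ?_)
      (Finset.sum_le_sum_of_subset_of_nonneg (Finset.filter_subset _ _)
        fun v _ _ => hcm.2.2 v)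
    have hv' := Finset.mem_filter.1 hv
    have hv1 := (Finset.mem_Icc.1 hv'.1).1
    rw [lwt_zz (by omega)]
    exact pow_le_pow_right₀ (by norm_num) hv'.2
  have hpow : (0 : ℝ) < 30 ^ (30 * w) := by positivity
  refine le_of_mul_le_mul_right ?_ hpow
  refine hcard.trans (hlb.trans ?_)
  calc C * 15 * Y / Real.log Y * Real.exp (∑ r ∈ (Finset.Icc 1 ⌊Y⌋₊).filter Nat.Prime,
        lwt (zz a b) r / (r : ℝ))
      ≤ C * 15 * Y / Real.log Y * (K * Real.log Y * Real.exp (29 * ((w : ℝ) + C1))) := by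
        gcongr
    _ = C * 15 * K * Real.exp (29 * C1) * Y * Real.exp (29 * (w : ℝ)) := by
        rw [mul_add, Real.exp_add]
        field_simp
    _ ≤ C * 15 * K * Real.exp (29 * C1) * Y *
          (Real.exp (-73 * (w : ℝ)) * (30 : ℝ) ^ (30 * w)) := by
        gcongr
        exact exp_bound w
    _ = _ := by ring

theorem win_many : ∃ t₀ : ℕ, ∀ t : ℕ, t₀ ≤ t → ∀ N : ℕ,
    mass N {m | 1 ≤ m ∧ Real.log m ≤ (t : ℝ) ^ 3 * Real.exp (t + 1) ∧
      30 * (t / 10 - t / 20) ≤ Lv (t / 20) (t / 10) m} ≤ Real.exp (-(t : ℝ)) / 2 := by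
  obtain ⟨C, hC, h⟩ := win_many_cnt
  have hlim : Filter.Tendsto (fun t : ℕ => (4 * C * Real.exp 74) *
      (2 * ((t : ℝ) ^ 3 * Real.exp (-(t : ℝ))) + (t : ℝ) ^ 0 * Real.exp (-(t : ℝ))))
      Filter.atTop (nhds ((4 * C * Real.exp 74) * (2 * 0 + 0))) := by
    refine Filter.Tendsto.const_mul _ (Filter.Tendsto.add (Filter.Tendsto.const_mul _ ?_) ?_)
    · exact (Real.tendsto_pow_mul_exp_neg_atTop_nhds_zero 3).comp tendsto_natCast_atTop_atTop
    · exact (Real.tendsto_pow_mul_exp_neg_atTop_nhds_zero 0).comp tendsto_natCast_atTop_atTop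
  rw [mul_zero, add_zero, mul_zero] at hlim
  have hev := (hlim.eventually (gt_mem_nhds (show (0 : ℝ) < 1 by norm_num))).and
    (Filter.eventually_ge_atTop 60)
  obtain ⟨t₀, ht₀⟩ := Filter.eventually_atTop.1 hev
  refine ⟨t₀, ?_⟩
  intro t ht N
  obtain ⟨hsmall, ht60⟩ := ht₀ t ht
  have ha : 3 ≤ t / 20 := by omega
  have hab : t / 20 ≤ t / 10 := by omega
  set w : ℝ := ((t / 10 : ℕ) : ℝ) - ((t / 20 : ℕ) : ℝ) with hw
  have hwlb : (t : ℝ) / 20 - 1 ≤ w := by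
    have h1 : (t : ℝ) ≤ 10 * ((t / 10 : ℕ) : ℝ) + 9 := by
      have : t ≤ 10 * (t / 10) + 9 := by omega
      exact_mod_cast this
    have h2 : 20 * ((t / 20 : ℕ) : ℝ) ≤ t := by
      have : 20 * (t / 20) ≤ t := by omega
      exact_mod_cast this
    rw [hw]
    linarith
  set B : ℝ := (t : ℝ) ^ 3 * Real.exp (t + 1) with hB
  have hB0 : 0 ≤ B := by positivity
  set c : ℝ := 2 * C * Real.exp (-73 * w) with hc
  have hc0 : 0 ≤ c := by positivity
  have hm := mass_le_of_cnt (N := N) (A := {m | 1 ≤ m ∧ Real.log m ≤ B ∧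
      30 * (t / 10 - t / 20) ≤ Lv (t / 20) (t / 10) m})
    (fun i => if i ≤ ⌊2 * B⌋₊ then c else 0) (by
      intro i _
      split_ifs with hi
      · have h1 := h (t / 20) (t / 10) (2 ^ (i + 1)) ha hab (by
          have : (1 : ℝ) ≤ 2 ^ i := one_le_pow₀ (by norm_num)
          rw [pow_succ]; linarith)
        have h2 : cnt (2 ^ (i + 1)) {v | v ∈ {m : ℕ | 1 ≤ m ∧ Real.log m ≤ B ∧
            30 * (t / 10 - t / 20) ≤ Lv (t / 20) (t / 10) m} ∧ 2 ^ i ≤ v} ≤
            cnt (2 ^ (i + 1)) {m | 1 ≤ m ∧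
              30 * (t / 10 - t / 20) ≤ Lv (t / 20) (t / 10) m} :=
          cnt_mono fun v hv => ⟨hv.1.1, hv.1.2.2⟩
        have h3 : (cnt (2 ^ (i + 1)) {v | v ∈ {m : ℕ | 1 ≤ m ∧ Real.log m ≤ B ∧
            30 * (t / 10 - t / 20) ≤ Lv (t / 20) (t / 10) m} ∧ 2 ^ i ≤ v} : ℝ) ≤
            (cnt (2 ^ (i + 1)) {m | 1 ≤ m ∧
              30 * (t / 10 - t / 20) ≤ Lv (t / 20) (t / 10) m} : ℝ) := by
          exact_mod_cast h2
        refine (h3.trans h1).trans (le_of_eq ?_)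
        rw [hc, pow_succ]
        ring
      · have h1 : {v : ℕ | v ∈ {v | v ∈ {m : ℕ | 1 ≤ m ∧ Real.log m ≤ B ∧
            30 * (t / 10 - t / 20) ≤ Lv (t / 20) (t / 10) m} ∧ 2 ^ i ≤ v} ∧
            (v : ℝ) ≤ 2 ^ (i + 1)} = ∅ := by
          rw [Set.eq_empty_iff_forall_notMem]
          rintro v ⟨⟨⟨_, hv2, _⟩, hv3⟩, _⟩
          have h4 : 2 * B < i := (Nat.floor_lt (by positivity)).1 (not_le.1 hi)
          have h5 : (2 : ℝ) ^ i ≤ v := by exact_mod_cast hv3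
          have h6 := Real.log_le_log (by positivity) h5
          rw [Real.log_pow] at h6
          have h7 : (1 : ℝ) / 2 ≤ Real.log 2 := by
            have := Real.log_two_gt_d9
            linarith
          have h8 : (i : ℝ) * (1 / 2) ≤ i * Real.log 2 := by gcongr
          linarith
        unfold cnt
        rw [h1]
        simp)
  refine hm.trans ?_
  have hsum : ∑ i ∈ (Finset.range (N + 1)).filter (fun i => 2 ^ i ≤ N),
      (if i ≤ ⌊2 * B⌋₊ then c else 0) ≤ (2 * B + 1) * c := by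
    rw [← Finset.sum_filter]
    rw [Finset.sum_const, nsmul_eq_mul]
    gcongr
    have h1 : (((Finset.range (N + 1)).filter (fun i => 2 ^ i ≤ N)).filter
        (fun i => i ≤ ⌊2 * B⌋₊)).card ≤ ⌊2 * B⌋₊ + 1 := by
      refine le_trans (Finset.card_le_card (t := Finset.range (⌊2 * B⌋₊ + 1)) ?_)
        (by rw [Finset.card_range])
      intro i hi
      rw [Finset.mem_range]
      have := (Finset.mem_filter.1 hi).2
      omega
    have h2 : ((⌊2 * B⌋₊ : ℕ) : ℝ) ≤ 2 * B := Nat.floor_le (by positivity)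
    have h3 : ((((Finset.range (N + 1)).filter (fun i => 2 ^ i ≤ N)).filter
        (fun i => i ≤ ⌊2 * B⌋₊)).card : ℝ) ≤ (⌊2 * B⌋₊ : ℝ) + 1 := by exact_mod_cast h1
    linarith
  refine hsum.trans ?_
  have ht0 : (60 : ℝ) ≤ t := by exact_mod_cast ht60
  have hBe : 2 * B + 1 ≤ (2 * (t : ℝ) ^ 3 + 1) * Real.exp (t + 1) := by
    have : 1 ≤ Real.exp ((t : ℝ) + 1) := Real.one_le_exp (by linarith)
    rw [hB]
    linarith
  have hce : c ≤ 2 * C * Real.exp (73 - 3.65 * t) := by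
    rw [hc]
    gcongr
    linarith
  calc (2 * B + 1) * c ≤ ((2 * (t : ℝ) ^ 3 + 1) * Real.exp (t + 1)) *
        (2 * C * Real.exp (73 - 3.65 * t)) := by gcongr
    _ = (1 / 2) * (4 * C) * (2 * (t : ℝ) ^ 3 + 1) *
        (Real.exp (t + 1) * Real.exp (73 - 3.65 * t)) := by ring
    _ ≤ (1 / 2) * (4 * C) * (2 * (t : ℝ) ^ 3 + 1) *
        (Real.exp 74 * Real.exp (-(t : ℝ)) * Real.exp (-(t : ℝ))) := by
        refine mul_le_mul_of_nonneg_left ?_ (by positivity)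
        rw [← Real.exp_add, ← Real.exp_add, ← Real.exp_add]
        exact Real.exp_le_exp.2 (by linarith)
    _ = (1 / 2) * ((4 * C * Real.exp 74) *
      (2 * ((t : ℝ) ^ 3 * Real.exp (-(t : ℝ))) + (t : ℝ) ^ 0 * Real.exp (-(t : ℝ)))) *
        Real.exp (-(t : ℝ)) := by ring
    _ ≤ (1 / 2) * 1 * Real.exp (-(t : ℝ)) := by gcongr
    _ = _ := by ring

theorem win_big : ∃ t₀ : ℕ, ∀ t : ℕ, t₀ ≤ t → ∀ N : ℕ,
    mass N {m | (t : ℝ) ^ 3 * Real.exp (t + 1) < Real.log m ∧ ∃ n : ℕ, 1 ≤ n ∧ Nat.totient n = m ∧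
      ∀ q ∈ n.primeFactors, lev q ≤ t} ≤ Real.exp (-(t : ℝ)) / 2 := by
  classical
  obtain ⟨C, hC, h⟩ := totient_smooth
  obtain ⟨K, hK, hr⟩ := rankin_tail
  refine ⟨max 4 ⌈Real.log (2 * C * K)⌉₊, ?_⟩
  intro t ht N
  have ht4 : 4 ≤ t := (le_max_left _ _).trans ht
  have ht4' : (4 : ℝ) ≤ t := by exact_mod_cast ht4
  have htK : Real.log (2 * C * K) ≤ t :=
    (Nat.le_ceil _).trans (by exact_mod_cast (le_max_right _ _).trans ht)
  set A : Set ℕ := {m | (t : ℝ) ^ 3 * Real.exp (t + 1) < Real.log m ∧ ∃ n : ℕ, 1 ≤ n ∧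
    Nat.totient n = m ∧ ∀ q ∈ n.primeFactors, lev q ≤ t} with hA
  have hchoose : ∀ m : ℕ, ∃ n : ℕ, m ∈ A → 1 ≤ n ∧ Nat.totient n = m ∧
      ∀ q ∈ n.primeFactors, lev q ≤ t := by
    intro m
    by_cases hm : m ∈ A
    · obtain ⟨_, n, hn⟩ := hm
      exact ⟨n, fun _ => hn⟩
    · exact ⟨0, fun h => absurd h hm⟩
  choose n hn using hchoose
  set z : ℝ := Real.exp (Real.exp (t + 1)) with hz
  set Y : ℝ := Real.exp ((t : ℝ) ^ 3 * Real.exp (t + 1)) with hY
  have hlz : Real.log z = Real.exp (t + 1) := by rw [hz, Real.log_exp]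
  have hlY : Real.log Y = (t : ℝ) ^ 3 * Real.exp (t + 1) := by rw [hY, Real.log_exp]
  have he5 : (4 : ℝ) ≤ Real.exp ((t : ℝ) + 1) := by
    have := Real.add_one_le_exp ((t : ℝ) + 1)
    linarith
  have hz4 : Real.exp 4 ≤ z := Real.exp_le_exp.2 he5
  have hz3 : 3 ≤ z := by
    have := Real.add_one_le_exp (4 : ℝ)
    linarith
  have ht3 : (1 : ℝ) ≤ (t : ℝ) ^ 3 := one_le_pow₀ (by linarith)
  have hY2 : 2 ≤ Y := by
    have h1 := Real.add_one_le_exp ((t : ℝ) ^ 3 * Real.exp (t + 1))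
    have h2 : 1 * 1 ≤ (t : ℝ) ^ 3 * Real.exp (t + 1) := by
      apply mul_le_mul ht3 (by linarith) (by norm_num) (by positivity)
    linarith
  -- properties of n m
  have hsm : ∀ m ∈ A, IsSm z (n m) := by
    intro m hm
    obtain ⟨h1, h2, h3⟩ := hn m hm
    refine ⟨h1, fun r hrp hrd => ?_⟩
    have h4 := h3 r (Nat.mem_primeFactors.2 ⟨hrp, hrd, by omega⟩)
    have h5 := (lev_lt_iff (s := t + 1) (r := r) (by omega)).1 (by omega)
    push_cast at h5
    exact h5.le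
  have hbig : ∀ m ∈ A, Y < (n m : ℝ) := by
    intro m hm
    obtain ⟨h1, h2, h3⟩ := hn m hm
    have h4 : m ≤ n m := by
      conv_lhs => rw [← h2]
      exact Nat.totient_le _
    have h5 : (0 : ℝ) < m := by
      rcases Nat.eq_zero_or_pos m with h0 | h0
      · exfalso
        rw [h0] at h2
        exact absurd (Nat.totient_pos.2 (by omega : 0 < n m)) (by rw [h0] ; omega)
      · exact_mod_cast h0
    have h6 : Real.log m ≤ Real.log (n m) := Real.log_le_log h5 (by exact_mod_cast h4)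
    have h7 : 0 < (n m : ℝ) := by exact_mod_cast h1
    rw [hY, ← Real.lt_log_iff_exp_lt h7]
    exact hm.1.trans_le h6
  -- a bound for the preimages
  set M : ℕ := (Finset.Icc 1 N).sup n with hM
  have hmass : mass N A ≤ ∑ k ∈ Finset.Icc 1 M,
      Set.indicator {k | IsSm z k ∧ Y < (k : ℝ)} (fun k : ℕ => 1 / (Nat.totient k : ℝ)) k := by
    unfold mass
    rw [← Finset.sum_filter_add_sum_filter_not (Finset.Icc 1 N) (fun m => m ∈ A)]
    have h0 : ∑ m ∈ (Finset.Icc 1 N).filter (fun m => ¬ m ∈ A),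
        Set.indicator A (fun m : ℕ => 1 / (m : ℝ)) m = 0 :=
      Finset.sum_eq_zero fun m hm => Set.indicator_of_notMem (Finset.mem_filter.1 hm).2 _
    rw [h0, add_zero]
    have h1 : ∑ m ∈ (Finset.Icc 1 N).filter (fun m => m ∈ A),
        Set.indicator A (fun m : ℕ => 1 / (m : ℝ)) m =
        ∑ m ∈ (Finset.Icc 1 N).filter (fun m => m ∈ A),
        Set.indicator {k | IsSm z k ∧ Y < (k : ℝ)} (fun k : ℕ => 1 / (Nat.totient k : ℝ)) (n m) := by
      refine Finset.sum_congr rfl fun m hm => ?_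
      have hm' := (Finset.mem_filter.1 hm).2
      rw [Set.indicator_of_mem hm', Set.indicator_of_mem
        (show n m ∈ {k | IsSm z k ∧ Y < (k : ℝ)} from ⟨hsm m hm', hbig m hm'⟩), (hn m hm').2.1]
    have hinj : Set.InjOn n ((Finset.Icc 1 N).filter (fun m => m ∈ A) : Finset ℕ) := by
      intro m hm m' hm' he
      have h2 := (hn m (Finset.mem_filter.1 (Finset.mem_coe.1 hm)).2).2.1
      have h3 := (hn m' (Finset.mem_filter.1 (Finset.mem_coe.1 hm')).2).2.1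
      rw [← h2, ← h3, he]
    rw [h1, ← Finset.sum_image (f := Set.indicator {k | IsSm z k ∧ Y < (k : ℝ)}
      (fun k : ℕ => 1 / (Nat.totient k : ℝ))) hinj]
    refine Finset.sum_le_sum_of_subset_of_nonneg ?_ fun k _ _ =>
      Set.indicator_nonneg (fun k _ => by positivity) _
    intro k hk
    obtain ⟨m, hm, rfl⟩ := Finset.mem_image.1 hk
    have hm' := Finset.mem_filter.1 hm
    rw [Finset.mem_Icc]
    exact ⟨(hn m hm'.2).1, Finset.le_sup (f := n) hm'.1⟩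
  refine hmass.trans ?_
  have hone : CMul (fun _ : ℕ => (1 : ℝ)) := ⟨rfl, fun _ _ => by norm_num, fun _ => by norm_num⟩
  have hrk := hr (fun _ => 1) z Y ((t : ℝ) ^ 3) M hone (fun _ _ => by norm_num) hz4 ht3 hY2
    (by rw [hlz, hlY])
  have hstep : ∑ k ∈ Finset.Icc 1 M,
      Set.indicator {k | IsSm z k ∧ Y < (k : ℝ)} (fun k : ℕ => 1 / (Nat.totient k : ℝ)) k ≤
      C * Real.log z * ∑ k ∈ Finset.Icc 1 M, Set.indicator {k | IsSm z k ∧ Y < (k : ℝ)}
        (fun k : ℕ => 1 / (k : ℝ)) k := by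
    rw [Finset.mul_sum]
    refine Finset.sum_le_sum fun k hk => ?_
    by_cases hk' : k ∈ {k : ℕ | IsSm z k ∧ Y < (k : ℝ)}
    · rw [Set.indicator_of_mem hk', Set.indicator_of_mem hk']
      have h1 := h z k hz3 hk'.1
      have h2 : (0 : ℝ) < k := by exact_mod_cast hk'.1.1
      have h3 : (0 : ℝ) < Nat.totient k := by exact_mod_cast Nat.totient_pos.2 hk'.1.1
      rw [mul_one_div, div_le_div_iff₀ h3 h2]
      linarith
    · rw [Set.indicator_of_notMem hk', Set.indicator_of_notMem hk', mul_zero]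
  refine hstep.trans ?_
  rw [hlz] at hrk ⊢
  have hfin : C * Real.exp (t + 1) * (K * Real.exp (-(t : ℝ) ^ 3) * Real.exp (t + 1) ^ 5) ≤
      Real.exp (-(t : ℝ)) / 2 := by
    have hCK : 0 < 2 * C * K := by positivity
    have h1 : 2 * C * K ≤ Real.exp t := by
      rw [← Real.exp_log hCK]
      exact Real.exp_le_exp.2 htK
    have h2 : C * Real.exp (t + 1) * (K * Real.exp (-(t : ℝ) ^ 3) * Real.exp (t + 1) ^ 5) =
        (2 * C * K) * (Real.exp (-(t : ℝ) ^ 3) * Real.exp (t + 1) ^ 6) / 2 := by ring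
    rw [h2, ← Real.exp_nat_mul, ← Real.exp_add]
    refine div_le_div_of_nonneg_right ?_ (by norm_num)
    calc (2 * C * K) * Real.exp (-(t : ℝ) ^ 3 + ((6 : ℕ) : ℝ) * (t + 1))
        ≤ Real.exp t * Real.exp (-(t : ℝ) ^ 3 + ((6 : ℕ) : ℝ) * (t + 1)) := by gcongr
      _ = Real.exp (t + (-(t : ℝ) ^ 3 + ((6 : ℕ) : ℝ) * (t + 1))) := (Real.exp_add _ _).symm
      _ ≤ Real.exp (-(t : ℝ)) := by
        refine Real.exp_le_exp.2 ?_
        push_cast
        nlinarith [mul_nonneg (by linarith : (0 : ℝ) ≤ (t : ℝ) - 4)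
          (by positivity : (0 : ℝ) ≤ (t : ℝ) ^ 2), mul_nonneg (by linarith : (0 : ℝ) ≤ (t : ℝ) - 4)
          (by linarith : (0 : ℝ) ≤ (t : ℝ))]
  refine le_trans ?_ hfin
  gcongr

end P031
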