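import Vale.Agent.P031.WBound1
import Vale.Agent.P031.WBound2

/-!
# P031, module WB3: `badDec_mass'`

PROOF.  Let `m = φ(n)` be in `badDec t`, `q_1, …, q_61` distinct primes dividing `n` with `t ≤ 10 lev q_i`.
(1) Some `q = q_i` has `2 Lv a b (q - 1) < w`.  Write `n = q n'`; `m = q φ(n')` or `m = (q - 1) φ(n')`,
`φ(n') ∈ Wset (t+1)`; use `mass_mul_le` with `A = Q ∪ (Q - 1)`: `mass A ≤ 3 e^{-t/250} ≤ e^{-t/300}`
(`win_prime`).
(2) Otherwise `m` is divisible by `∏ (q_i - 1)`, so `2 Lv a b m ≥ 61 w ≥ 60 w`; if `log m > t³ e^{t+1}` use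
`win_big`, else `win_many`.
-/

namespace P031

open scoped BigOperators

theorem mass_pred_le (N : ℕ) (Q : Set ℕ) :
    mass N {m | m + 1 ∈ Q} ≤ 2 * mass (N + 1) Q := by
  classical
  unfold mass
  have h0 : ∀ q : ℕ, 0 ≤ Set.indicator Q (fun m : ℕ => 1 / (m : ℝ)) q := fun q =>
    Set.indicator_nonneg (fun _ _ => by positivity) q
  have h1 : ∀ m ∈ Finset.Icc 1 N, Set.indicator {m | m + 1 ∈ Q} (fun m : ℕ => 1 / (m : ℝ)) m ≤
      2 * Set.indicator Q (fun m : ℕ => 1 / (m : ℝ)) (m + 1) := by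
    intro m hm
    rw [Finset.mem_Icc] at hm
    by_cases hq : m + 1 ∈ Q
    · rw [Set.indicator_of_mem (show m ∈ {m | m + 1 ∈ Q} from hq), Set.indicator_of_mem hq]
      have hm1 : (1 : ℝ) ≤ m := by exact_mod_cast hm.1
      push_cast
      rw [mul_one_div, div_le_div_iff₀ (by linarith) (by linarith)]
      linarith
    · rw [Set.indicator_of_notMem (show m ∉ {m | m + 1 ∈ Q} from hq),
        Set.indicator_of_notMem hq]
      simp
  refine (Finset.sum_le_sum h1).trans ?_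
  rw [← Finset.mul_sum]
  refine mul_le_mul_of_nonneg_left ?_ (by norm_num)
  have h2 : ∑ m ∈ Finset.Icc 1 N, Set.indicator Q (fun m : ℕ => 1 / (m : ℝ)) (m + 1) =
      ∑ q ∈ (Finset.Icc 1 N).image (fun m => m + 1),
        Set.indicator Q (fun m : ℕ => 1 / (m : ℝ)) q := by
    rw [Finset.sum_image]
    intro x _ y _ h
    exact Nat.succ_injective h
  rw [h2]
  refine Finset.sum_le_sum_of_subset_of_nonneg ?_ (fun q _ _ => h0 q)
  intro q hq
  rw [Finset.mem_image] at hq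
  obtain ⟨m, hm, rfl⟩ := hq
  rw [Finset.mem_Icc] at hm ⊢
  omega

theorem prod_pred_dvd_totient (n : ℕ) (T : Finset ℕ) (hT : T ⊆ n.primeFactors) :
    ∏ q ∈ T, (q - 1) ∣ Nat.totient n := by
  by_cases hn : n = 0
  · rw [hn]
    simp
  have h1 : ∏ q ∈ T, (q - 1) ∣ ∏ q ∈ n.primeFactors, (q - 1) :=
    Finset.prod_dvd_prod_of_subset _ _ _ hT
  refine h1.trans ?_
  rw [Nat.totient_eq_prod_factorization hn, Finsupp.prod, Nat.support_factorization]
  exact Finset.prod_dvd_prod_of_dvd _ _ fun q _ => Dvd.intro_left _ rfl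

theorem badDec_mass' : ∃ t₀ : ℕ, ∀ t : ℕ, t₀ ≤ t → ∀ N : ℕ,
    mass N (badDec t) ≤ Real.exp (-(t : ℝ)) + Real.exp (-(t : ℝ) / 300) * mass N (Wset (t + 1)) := by
  obtain ⟨t₁, h₁⟩ := win_prime
  obtain ⟨t₂, h₂⟩ := win_many
  obtain ⟨t₃, h₃⟩ := win_big
  refine ⟨t₁ + t₂ + t₃ + 2000, fun t ht N => ?_⟩
  have H₁ := h₁ t (by omega)
  have H₂ := h₂ t (by omega) N
  have H₃ := h₃ t (by omega) N
  clear h₁ h₂ h₃
  set Q : Set ℕ := {q | q.Prime ∧ lev q ≤ t ∧ t / 10 ≤ lev q ∧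
      2 * Lv (t / 20) (t / 10) (q - 1) < t / 10 - t / 20} with hQ
  set A : Set ℕ := Q ∪ {m | m + 1 ∈ Q} with hA
  set D₁ : Set ℕ := {d | ∃ a ∈ A, ∃ b ∈ Wset (t + 1), d = a * b} with hD₁
  set D₂ : Set ℕ := {m | 1 ≤ m ∧ Real.log m ≤ (t : ℝ) ^ 3 * Real.exp (t + 1) ∧
      30 * (t / 10 - t / 20) ≤ Lv (t / 20) (t / 10) m} with hD₂
  set D₃ : Set ℕ := {m | (t : ℝ) ^ 3 * Real.exp (t + 1) < Real.log m ∧ ∃ n : ℕ, 1 ≤ n ∧
      Nat.totient n = m ∧ ∀ q ∈ n.primeFactors, lev q ≤ t} with hD₃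
  have hsub : badDec t ⊆ D₁ ∪ (D₂ ∪ D₃) := by
    rintro m ⟨n, hn, hm, hlev, hcard⟩
    set T := n.primeFactors.filter (fun q => t ≤ 10 * lev q) with hT
    have hTsub : T ⊆ n.primeFactors := Finset.filter_subset _ _
    have hmpos : 1 ≤ m := by
      rw [← hm]
      exact Nat.totient_pos.2 hn
    by_cases hc : ∃ q ∈ T, 2 * Lv (t / 20) (t / 10) (q - 1) < t / 10 - t / 20
    · left
      obtain ⟨q, hq, hq2⟩ := hc
      have hqn := hTsub hq
      have hqp : q.Prime := Nat.prime_of_mem_primeFactors hqn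
      have hqd : q ∣ n := Nat.dvd_of_mem_primeFactors hqn
      have hqT : t ≤ 10 * lev q := (Finset.mem_filter.1 hq).2
      have hqQ : q ∈ Q := ⟨hqp, hlev q hqn, by omega, hq2⟩
      obtain ⟨n', rfl⟩ := hqd
      have hn' : n' ≠ 0 := by
        rintro rfl
        simp at hn
      have hW : Nat.totient n' ∈ Wset (t + 1) := by
        refine ⟨n', by omega, rfl, fun r hr => ?_⟩
        have h1 := hlev r (Nat.primeFactors_mono (Dvd.intro_left _ rfl) (by omega) hr)
        omega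
      by_cases hqd' : q ∣ n'
      · refine ⟨q, Or.inl hqQ, Nat.totient n', hW, ?_⟩
        rw [← hm, Nat.totient_mul_of_prime_of_dvd hqp hqd']
      · refine ⟨q - 1, Or.inr ?_, Nat.totient n', hW, ?_⟩
        · have h2 : q - 1 + 1 = q := by
            have := hqp.two_le
            omega
          change q - 1 + 1 ∈ Q
          rw [h2]
          exact hqQ
        · rw [← hm, Nat.totient_mul_of_prime_of_not_dvd hqp hqd']
    · right
      push Not at hc
      have h1 : ∏ q ∈ T, (q - 1) ∣ m := by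
        rw [← hm]
        exact prod_pred_dvd_totient n T hTsub
      have h2 : Lv (t / 20) (t / 10) (∏ q ∈ T, (q - 1)) ≤ Lv (t / 20) (t / 10) m :=
        Lv_mono_dvd _ _ (by omega) h1
      have h3 : ∀ q ∈ T, q - 1 ≠ 0 := by
        intro q hq
        have := (Nat.prime_of_mem_primeFactors (hTsub hq)).two_le
        omega
      rw [Lv_prod _ _ T (fun q => q - 1) h3] at h2
      have h4 : T.card * (t / 10 - t / 20) ≤ ∑ q ∈ T, 2 * Lv (t / 20) (t / 10) (q - 1) := by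
        rw [← smul_eq_mul]
        exact Finset.card_nsmul_le_sum _ _ _ hc
      rw [← Finset.mul_sum] at h4
      have h5 : 60 * (t / 10 - t / 20) ≤ T.card * (t / 10 - t / 20) :=
        Nat.mul_le_mul_right _ (by omega)
      have h6 : 30 * (t / 10 - t / 20) ≤ Lv (t / 20) (t / 10) m := by omega
      by_cases hl : Real.log m ≤ (t : ℝ) ^ 3 * Real.exp (t + 1)
      · exact Or.inl ⟨hmpos, hl, h6⟩
      · exact Or.inr ⟨not_le.1 hl, n, hn, hm, hlev⟩
  have hmA : mass N A ≤ Real.exp (-(t : ℝ) / 300) := by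
    have e1 : mass N A ≤ mass N Q + mass N {m | m + 1 ∈ Q} := mass_union
    have e2 : mass N {m | m + 1 ∈ Q} ≤ 2 * mass (N + 1) Q := mass_pred_le N Q
    have e3 := H₁ N
    have e4 := H₁ (N + 1)
    have e5 : 3 * Real.exp (-(t : ℝ) / 250) ≤ Real.exp (-(t : ℝ) / 300) := by
      have ht' : (2000 : ℝ) ≤ t := by exact_mod_cast (by omega : 2000 ≤ t)
      have h7 : Real.exp (-(t : ℝ) / 300) = Real.exp (-(t : ℝ) / 250) * Real.exp ((t : ℝ) / 1500) := by
        rw [← Real.exp_add]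
        congr 1
        ring
      have h8 : (3 : ℝ) ≤ Real.exp ((t : ℝ) / 1500) := by
        have h9 : (1.25 : ℝ) ≤ (t : ℝ) / 1500 := by
          rw [le_div_iff₀ (by norm_num)]
          linarith
        have h10 : (1.25 : ℝ) + 1 + 1.25 ^ 2 / 2 ≤ Real.exp 1.25 := by
          have := Real.quadratic_le_exp_of_nonneg (x := 1.25) (by norm_num)
          linarith
        have h11 : Real.exp 1.25 ≤ Real.exp ((t : ℝ) / 1500) := Real.exp_le_exp.2 h9
        norm_num at h10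
        linarith
      rw [h7]
      have := Real.exp_pos (-(t : ℝ) / 250)
      nlinarith
    linarith
  have hm1 : mass N D₁ ≤ Real.exp (-(t : ℝ) / 300) * mass N (Wset (t + 1)) := by
    have e1 : mass N D₁ ≤ mass N A * mass N (Wset (t + 1)) := mass_mul_le (fun d hd _ => hd)
    exact e1.trans (mul_le_mul_of_nonneg_right hmA mass_nonneg)
  have f1 : mass N (badDec t) ≤ mass N (D₁ ∪ (D₂ ∪ D₃)) := mass_mono hsub
  have f2 : mass N (D₁ ∪ (D₂ ∪ D₃)) ≤ mass N D₁ + mass N (D₂ ∪ D₃) := mass_union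
  have f3 : mass N (D₂ ∪ D₃) ≤ mass N D₂ + mass N D₃ := mass_union
  linarith

end P031
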